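import Mathlib

/-!
Row 164, Gaussian cavity limit, part 1: Gaussian vectors `(∑ i, u a i * ζ i)_a` (`ζ` standard) whose
Gram matrix is nearly diagonal, tested against Lipschitz functions.
-/

set_option autoImplicit false

namespace Crest.Agent.R164.CavG

open MeasureTheory ProbabilityTheory Finset

noncomputable section

/-- standard Gaussian measure on `ι → ℝ`. -/
abbrev gm (ι : Type*) [Fintype ι] : Measure (ι → ℝ) := Measure.pi fun _ => gaussianReal 0 1

variable {ι κ κ' : Type*} [Fintype ι] [Fintype κ] [Fintype κ']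

/-- linear forms. -/
def lin (u : ι → κ → ℝ) (ζ : κ → ℝ) (a : ι) : ℝ := ∑ i, u a i * ζ i

/-- linear forms as a continuous linear map. -/
def linT (u : ι → κ → ℝ) : (κ → ℝ) →L[ℝ] (ι → ℝ) :=
  ContinuousLinearMap.pi fun a => ∑ i, u a i • ContinuousLinearMap.proj (R := ℝ) i

omit [Fintype ι] in
theorem linT_apply (u : ι → κ → ℝ) (ζ : κ → ℝ) : linT u ζ = lin u ζ := by
  ext a
  simp [linT, lin]

omit [Fintype ι] in
theorem coe_linT (u : ι → κ → ℝ) : ⇑(linT u) = lin u := funext (linT_apply u)

theorem charFunDual_gm [DecidableEq κ] (L : StrongDual ℝ (κ → ℝ)) :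
    charFunDual (gm κ) L =
      Complex.exp (-((∑ i, (L (Pi.single i 1)) ^ 2 : ℝ) : ℂ) / 2) := by
  have h : ∀ i, charFunDual (gaussianReal 0 1) (L.comp (.single ℝ (fun _ : κ => ℝ) i)) =
      Complex.exp (-((L (Pi.single i 1)) ^ 2 : ℝ) / 2) := by
    intro i
    have h1 : ∀ x : ℝ, L.comp (.single ℝ (fun _ : κ => ℝ) i) x = L (Pi.single i 1) * x := by
      intro x
      have : (Pi.single i x : κ → ℝ) = x • (Pi.single i (1 : ℝ)) := by
        rw [← Pi.single_smul]; simp
      simp only [ContinuousLinearMap.comp_apply, ContinuousLinearMap.single_apply]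
      rw [this, map_smul, smul_eq_mul, mul_comm]
    rw [charFunDual_apply]
    have h2 : ∫ v : ℝ, Complex.exp (((L.comp (.single ℝ (fun _ : κ => ℝ) i)) v : ℝ) * Complex.I)
        ∂(gaussianReal 0 1) = charFun (gaussianReal 0 1) (L (Pi.single i 1)) := by
      rw [charFun_apply_real]
      refine integral_congr_ae (ae_of_all _ fun v => ?_)
      simp only [h1]
      push_cast
      ring_nf
    rw [h2, charFun_gaussianReal]
    congr 1
    push_cast
    ring
  rw [charFunDual_pi]
  simp_rw [h]
  rw [← Complex.exp_sum]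
  congr 1
  push_cast
  rw [neg_div, Finset.sum_div, ← Finset.sum_neg_distrib]
  refine Finset.sum_congr rfl fun i _ => ?_
  ring

theorem sq_comp_linT [DecidableEq κ] [DecidableEq ι] (L : StrongDual ℝ (ι → ℝ)) (u : ι → κ → ℝ) :
    ∑ i, ((L.comp (linT u)) (Pi.single i 1)) ^ 2 =
      ∑ a, ∑ b, L (Pi.single a 1) * L (Pi.single b 1) * ∑ i, u a i * u b i := by
  have e1 : ∀ i, (L.comp (linT u)) (Pi.single i 1) = ∑ a, u a i * L (Pi.single a 1) := by
    intro i
    rw [ContinuousLinearMap.comp_apply, linT_apply]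
    have : lin u (Pi.single i 1) = ∑ a, u a i • (Pi.single a (1 : ℝ) : ι → ℝ) := by
      ext a
      simp [lin, Pi.single_apply, Finset.sum_apply]
    rw [this, map_sum]
    simp
  simp_rw [e1, sq, Finset.sum_mul_sum, Finset.mul_sum]
  rw [Finset.sum_comm]
  refine Finset.sum_congr rfl fun a _ => ?_
  rw [Finset.sum_comm]
  refine Finset.sum_congr rfl fun b _ => Finset.sum_congr rfl fun i _ => ?_
  ring

theorem law_lin (u : ι → κ → ℝ) (u' : ι → κ' → ℝ)
    (h : ∀ a b, ∑ i, u a i * u b i = ∑ i, u' a i * u' b i) :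
    (gm κ).map (lin u) = (gm κ').map (lin u') := by
  classical
  rw [← coe_linT, ← coe_linT]
  have : IsProbabilityMeasure ((gm κ).map (linT u)) :=
    Measure.isProbabilityMeasure_map (linT u).continuous.aemeasurable
  have : IsProbabilityMeasure ((gm κ').map (linT u')) :=
    Measure.isProbabilityMeasure_map (linT u').continuous.aemeasurable
  apply Measure.ext_of_charFunDual
  ext L
  rw [charFunDual_map, charFunDual_map, charFunDual_gm, charFunDual_gm, sq_comp_linT,
    sq_comp_linT]
  simp_rw [h]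

omit [Fintype ι] in
theorem measurable_lin (u : ι → κ → ℝ) : Measurable (lin u) := by
  refine measurable_pi_lambda _ fun a => ?_
  unfold lin
  fun_prop

theorem integral_lin (u : ι → κ → ℝ) (u' : ι → κ' → ℝ)
    (h : ∀ a b, ∑ i, u a i * u b i = ∑ i, u' a i * u' b i) {F : (ι → ℝ) → ℝ} (hF : Measurable F) :
    ∫ ζ, F (lin u ζ) ∂(gm κ) = ∫ ζ, F (lin u' ζ) ∂(gm κ') := by
  rw [← integral_map (measurable_lin u).aemeasurable hF.aestronglyMeasurable, law_lin u u' h,
    integral_map (measurable_lin u').aemeasurable hF.aestronglyMeasurable]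

/-! ### moments -/

theorem integral_sq_gaussian : ∫ g, g ^ 2 ∂(gaussianReal 0 1) = 1 := by
  have h := variance_id_gaussianReal (μ := 0) (v := 1)
  rw [variance_eq_sub (memLp_id_gaussianReal 2)] at h
  simpa using h

theorem integrable_sq_gaussian : Integrable (fun g : ℝ => g ^ 2) (gaussianReal 0 1) := by
  have := (memLp_id_gaussianReal (μ := 0) (v := 1) 2).integrable_sq
  simpa using this

theorem integrable_abs_gaussian : Integrable (fun g : ℝ => |g|) (gaussianReal 0 1) := by
  have := (memLp_id_gaussianReal (μ := 0) (v := 1) 1).integrable le_rfl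
  exact this.abs

theorem integral_abs_gaussian_le : ∫ g, |g| ∂(gaussianReal 0 1) ≤ 1 := by
  have h : ∫ g, |g| ∂(gaussianReal 0 1) ≤ ∫ g, (1 / 2 + (1 / 2) * g ^ 2) ∂(gaussianReal 0 1) := by
    refine integral_mono integrable_abs_gaussian
      ((integrable_const _).add (integrable_sq_gaussian.const_mul _)) fun g => ?_
    have h1 : |g| ^ 2 = g ^ 2 := sq_abs g
    have h2 : 0 ≤ (|g| - 1) ^ 2 := sq_nonneg _
    show |g| ≤ 1 / 2 + (1 / 2) * g ^ 2
    nlinarith
  rw [integral_add (integrable_const _) (integrable_sq_gaussian.const_mul _), integral_const_mul,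
    integral_sq_gaussian] at h
  simp at h
  linarith

theorem integral_eval_gm (i : κ) {F : ℝ → ℝ} (hF : Measurable F) :
    ∫ ζ, F (ζ i) ∂(gm κ) = ∫ g, F g ∂(gaussianReal 0 1) := by
  have h := measurePreserving_eval (fun _ : κ => gaussianReal 0 1) i
  have h1 := h.map_eq
  rw [← h1, integral_map h.measurable.aemeasurable hF.aestronglyMeasurable]

theorem integrable_eval_gm (i : κ) {f : ℝ → ℝ} (hf : Integrable f (gaussianReal 0 1)) :
    Integrable (fun ζ : κ → ℝ => f (ζ i)) (gm κ) :=
  integrable_comp_eval (μ := fun _ : κ => gaussianReal 0 1) (i := i) hf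



/-- one linear form. -/
theorem integral_one (u : κ → ℝ) {F : ℝ → ℝ} (hF : Measurable F) :
    ∫ ζ, F (∑ i, u i * ζ i) ∂(gm κ) =
      ∫ g, F (Real.sqrt (∑ i, u i ^ 2) * g) ∂(gaussianReal 0 1) := by
  have h := integral_lin (ι := Unit) (κ' := Unit) (fun _ => u)
    (fun _ _ => Real.sqrt (∑ i, u i ^ 2)) (fun a b => by
      simp only [Finset.univ_unique, Finset.sum_const, Finset.card_singleton, one_smul]
      rw [Real.mul_self_sqrt (Finset.sum_nonneg fun i _ => sq_nonneg _)]
      exact Finset.sum_congr rfl fun i _ => by ring)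
    (F := fun y => F (y ())) (hF.comp (measurable_pi_apply _))
  simp only [lin] at h
  rw [h]
  simp only [Finset.univ_unique, Finset.sum_singleton]
  exact integral_eval_gm (κ := Unit) _ (F := fun g => F (Real.sqrt (∑ i, u i ^ 2) * g))
    (hF.comp (measurable_const_mul _))

theorem integrable_abs_lin (u : κ → ℝ) : Integrable (fun ζ => |∑ i, u i * ζ i|) (gm κ) := by
  refine Integrable.abs (integrable_finsetSum _ fun i _ => ?_)
  refine Integrable.const_mul ?_ _
  exact integrable_eval_gm i (f := fun g : ℝ => g)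
    ((memLp_id_gaussianReal (μ := 0) (v := 1) 1).integrable le_rfl)

theorem integral_abs_lin_le (u : κ → ℝ) :
    ∫ ζ, |∑ i, u i * ζ i| ∂(gm κ) ≤ Real.sqrt (∑ i, u i ^ 2) := by
  rw [integral_one u (F := fun y => |y|) measurable_norm]
  simp only [abs_mul, abs_of_nonneg (Real.sqrt_nonneg _)]
  rw [integral_const_mul]
  exact mul_le_of_le_one_right (Real.sqrt_nonneg _) integral_abs_gaussian_le

/-! ### Lipschitz test functions -/

/-- `L`-Lipschitz for the `l^1` distance. -/
def Lip (L : ℝ) (F : (ι → ℝ) → ℝ) : Prop := ∀ y y', |F y - F y'| ≤ L * ∑ a, |y a - y' a|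


theorem Lip.continuous {L : ℝ} {F : (ι → ℝ) → ℝ} (h : Lip L F) : Continuous F := by
  rw [continuous_iff_continuousAt]
  intro y
  rw [ContinuousAt, tendsto_iff_dist_tendsto_zero]
  have hlim : Filter.Tendsto (fun y' : ι → ℝ => L * ∑ a, |y' a - y a|) (nhds y) (nhds 0) := by
    have hc : Continuous (fun y' : ι → ℝ => L * ∑ a, |y' a - y a|) := by fun_prop
    have := hc.tendsto y
    simpa using this
  exact squeeze_zero (fun _ => dist_nonneg) (fun y' => by rw [Real.dist_eq]; exact h y' y) hlim

theorem Lip.measurable {L : ℝ} {F : (ι → ℝ) → ℝ} (h : Lip L F) : Measurable F :=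
  h.continuous.measurable

theorem Lip.mono {L L' : ℝ} {F : (ι → ℝ) → ℝ} (h : Lip L F) (hL : L ≤ L') : Lip L' F :=
  fun y y' => (h y y').trans
    (mul_le_mul_of_nonneg_right hL (Finset.sum_nonneg fun _ _ => abs_nonneg _))

theorem Lip.integrable {L : ℝ} {F : (ι → ℝ) → ℝ} (h : Lip L F) {Z : Type*} [MeasurableSpace Z]
    {μ : Measure Z} [IsFiniteMeasure μ] {T : Z → ι → ℝ} (hT : Measurable T)
    (hi : ∀ a, Integrable (fun z => T z a) μ) : Integrable (fun z => F (T z)) μ := by
  have h1 : Integrable (fun z => |F 0| + |L| * ∑ a, |T z a|) μ :=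
    (integrable_const _).add ((integrable_finsetSum _ fun a _ => (hi a).abs).const_mul _)
  refine h1.mono' (h.measurable.comp hT).aestronglyMeasurable (ae_of_all _ fun z => ?_)
  rw [Real.norm_eq_abs]
  have h2 := h (T z) 0
  have h3 : |F (T z)| ≤ |F 0| + |F (T z) - F 0| := by
    have := abs_add_le (F 0) (F (T z) - F 0)
    simpa using this
  refine h3.trans (add_le_add le_rfl (h2.trans ?_))
  simp only [Pi.zero_apply, sub_zero]
  exact mul_le_mul_of_nonneg_right (le_abs_self _) (Finset.sum_nonneg fun _ _ => abs_nonneg _)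

theorem integrable_lin (u : ι → κ → ℝ) {L : ℝ} {F : (ι → ℝ) → ℝ} (h : Lip L F) :
    Integrable (fun ζ => F (lin u ζ)) (gm κ) := by
  refine h.integrable (measurable_lin u) fun a => ?_
  refine integrable_finsetSum _ fun i _ => Integrable.const_mul ?_ _
  exact integrable_eval_gm i (f := fun g : ℝ => g)
    ((memLp_id_gaussianReal (μ := 0) (v := 1) 1).integrable le_rfl)

theorem diff_lin (u u' : ι → κ → ℝ) {L : ℝ} (hL : 0 ≤ L) {F : (ι → ℝ) → ℝ} (h : Lip L F) :
    |∫ ζ, F (lin u ζ) ∂(gm κ) - ∫ ζ, F (lin u' ζ) ∂(gm κ)| ≤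
      L * ∑ a, Real.sqrt (∑ i, (u a i - u' a i) ^ 2) := by
  rw [← integral_sub (integrable_lin u h) (integrable_lin u' h)]
  have hi : ∀ a, Integrable (fun ζ => |∑ i, (u a i - u' a i) * ζ i|) (gm κ) := fun a =>
    integrable_abs_lin _
  calc |∫ ζ, (F (lin u ζ) - F (lin u' ζ)) ∂(gm κ)|
      ≤ ∫ ζ, |F (lin u ζ) - F (lin u' ζ)| ∂(gm κ) := abs_integral_le_integral_abs
    _ ≤ ∫ ζ, L * ∑ a, |∑ i, (u a i - u' a i) * ζ i| ∂(gm κ) := by
        refine integral_mono ((integrable_lin u h).sub (integrable_lin u' h)).abs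
          ((integrable_finsetSum _ fun a _ => hi a).const_mul _) fun ζ => ?_
        refine (h _ _).trans (le_of_eq ?_)
        congr 1
        refine Finset.sum_congr rfl fun a _ => ?_
        unfold lin
        rw [← Finset.sum_sub_distrib]
        congr 1
        exact Finset.sum_congr rfl fun i _ => by ring
    _ = L * ∑ a, ∫ ζ, |∑ i, (u a i - u' a i) * ζ i| ∂(gm κ) := by
        rw [integral_const_mul, integral_finsetSum _ fun a _ => hi a]
    _ ≤ _ := mul_le_mul_of_nonneg_left
        (Finset.sum_le_sum fun a _ => integral_abs_lin_le _) hL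

theorem exists_gram [DecidableEq ι] (S : Matrix ι ι ℝ) (hS : S.PosSemidef) :
    ∃ B : Matrix ι ι ℝ, ∀ a b, ∑ c, B c a * B c b = S a b := by
  open scoped MatrixOrder in
  obtain ⟨B, hB⟩ := CStarAlgebra.nonneg_iff_eq_star_mul_self.mp hS.nonneg
  refine ⟨B, fun a b => ?_⟩
  rw [hB, Matrix.mul_apply]
  refine Finset.sum_congr rfl fun c _ => ?_
  simp [Matrix.star_apply]

/-- linear forms with a diagonal Gram matrix. -/
theorem integral_diag [DecidableEq ι] (u : ι → κ → ℝ) (d : ι → ℝ) (hd : ∀ a, 0 ≤ d a)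
    (h : ∀ a b, ∑ i, u a i * u b i = if a = b then d a else 0) {F : (ι → ℝ) → ℝ}
    (hF : Measurable F) :
    ∫ ζ, F (lin u ζ) ∂(gm κ) = ∫ g, F (fun a => Real.sqrt (d a) * g a) ∂(gm ι) := by
  rw [integral_lin u (fun a b => if a = b then Real.sqrt (d a) else 0) ?_ hF]
  · congr 1
    funext g
    congr 1
    funext a
    simp [lin]
  · intro a b
    rw [h a b]
    by_cases hab : a = b
    · subst hab
      simp [Real.mul_self_sqrt (hd a)]
    · simp [hab]

/-- **Gaussian comparison**: nearly diagonal Gram matrix. -/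
theorem gauss_compare [DecidableEq ι] (u : ι → κ → ℝ) (d : ι → ℝ) (hd : ∀ a, 0 ≤ d a) {ε : ℝ}
    (hε : 0 ≤ ε) (h : ∀ a b, |∑ i, u a i * u b i - (if a = b then d a else 0)| ≤ ε)
    {L : ℝ} (hL : 0 ≤ L) {F : (ι → ℝ) → ℝ} (hF : Lip L F) :
    |∫ ζ, F (lin u ζ) ∂(gm κ) - ∫ g, F (fun a => Real.sqrt (d a) * g a) ∂(gm ι)| ≤
      2 * L * (Fintype.card ι) * Real.sqrt ((Fintype.card ι + 1) * ε) := by
  set r : ℝ := (Fintype.card ι : ℝ) with hr
  have hr0 : 0 ≤ r := by positivity
  set S : Matrix ι ι ℝ := Matrix.of fun a b =>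
    (if a = b then d a + r * ε else 0) - ∑ i, u a i * u b i with hSdef
  have hSab : ∀ a b, S a b = (if a = b then d a + r * ε else 0) - ∑ i, u a i * u b i :=
    fun a b => rfl
  have hS : S.PosSemidef := by
    refine Matrix.PosSemidef.of_dotProduct_mulVec_nonneg ?_ fun x => ?_
    · ext a b
      rw [Matrix.conjTranspose_apply, hSab, hSab]
      simp only [star_trivial]
      have e1 : (if b = a then d b + r * ε else 0) = (if a = b then d a + r * ε else 0) := by
        by_cases hab : a = b
        · subst hab; rfl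
        · rw [if_neg hab, if_neg (Ne.symm hab)]
      rw [e1]
      congr 1
      exact Finset.sum_congr rfl fun i _ => mul_comm _ _
    · have e1 : star x ⬝ᵥ (S.mulVec x) = ∑ a, ∑ b, x a * x b * S a b := by
        simp only [dotProduct, Matrix.mulVec, star_trivial, Finset.mul_sum]
        exact Finset.sum_congr rfl fun a _ => Finset.sum_congr rfl fun b _ => by ring
      have e2 : ∀ a, ∑ b, x a * x b * S a b = r * ε * x a ^ 2 -
          ∑ b, x a * x b * (∑ i, u a i * u b i - (if a = b then d a else 0)) := by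
        intro a
        have e3 : ∀ b, x a * x b * S a b = (if a = b then r * ε * (x a * x b) else 0) -
            x a * x b * (∑ i, u a i * u b i - (if a = b then d a else 0)) := by
          intro b
          rw [hSab]
          by_cases hab : a = b
          · simp only [if_pos hab]; ring
          · simp only [if_neg hab]; ring
        simp_rw [e3]
        rw [Finset.sum_sub_distrib]
        congr 1
        simp [sq]
      rw [e1]
      simp_rw [e2]
      rw [Finset.sum_sub_distrib, ← Finset.mul_sum]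
      have e4 : ∑ a, ∑ b, x a * x b * (∑ i, u a i * u b i - (if a = b then d a else 0)) ≤
          ∑ a, ∑ b, |x a| * |x b| * ε := by
        refine Finset.sum_le_sum fun a _ => Finset.sum_le_sum fun b _ => ?_
        refine (le_abs_self _).trans ?_
        rw [abs_mul, abs_mul]
        exact mul_le_mul_of_nonneg_left (h a b) (by positivity)
      have e5 : ∑ a, ∑ b, |x a| * |x b| * ε = ε * (∑ a, |x a|) ^ 2 := by
        rw [sq, Finset.sum_mul_sum, Finset.mul_sum]
        refine Finset.sum_congr rfl fun a _ => ?_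
        rw [Finset.mul_sum]
        exact Finset.sum_congr rfl fun b _ => by ring
      have e6 : (∑ a, |x a|) ^ 2 ≤ r * ∑ a, x a ^ 2 := by
        have := Finset.sum_mul_sq_le_sq_mul_sq Finset.univ (fun _ : ι => (1 : ℝ))
          (fun a => |x a|)
        simp only [one_mul, one_pow, Finset.sum_const, Finset.card_univ, nsmul_eq_mul, mul_one,
          sq_abs] at this
        exact this
      have e7 : ε * (∑ a, |x a|) ^ 2 ≤ ε * (r * ∑ a, x a ^ 2) := mul_le_mul_of_nonneg_left e6 hε
      rw [e5] at e4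
      have e8 : ε * (r * ∑ a, x a ^ 2) = r * ε * ∑ a, x a ^ 2 := by ring
      linarith
  obtain ⟨B, hB⟩ := exists_gram S hS
  -- the extended vectors
  set U : ι → (κ ⊕ ι) → ℝ := fun a => Sum.elim (u a) (fun c => B c a) with hU
  set U1 : ι → (κ ⊕ ι) → ℝ := fun a => Sum.elim (u a) (fun _ => 0) with hU1
  have g1 : ∫ ζ, F (lin u ζ) ∂(gm κ) = ∫ ζ, F (lin U1 ζ) ∂(gm (κ ⊕ ι)) := by
    refine integral_lin u U1 (fun a b => ?_) hF.measurable
    simp [hU1, Fintype.sum_sum_type]
  have g2 : ∫ ζ, F (lin U ζ) ∂(gm (κ ⊕ ι)) =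
      ∫ g, F (fun a => Real.sqrt (d a + r * ε) * g a) ∂(gm ι) := by
    refine integral_diag U (fun a => d a + r * ε) (fun a => by have := hd a; positivity)
      (fun a b => ?_) hF.measurable
    simp only [hU, Fintype.sum_sum_type, Sum.elim_inl, Sum.elim_inr]
    rw [hB, hSab]
    ring
  have g3 : |∫ ζ, F (lin U ζ) ∂(gm (κ ⊕ ι)) - ∫ ζ, F (lin U1 ζ) ∂(gm (κ ⊕ ι))| ≤
      L * (r * Real.sqrt ((r + 1) * ε)) := by
    refine (diff_lin U U1 hL hF).trans (mul_le_mul_of_nonneg_left ?_ hL)
    have : ∀ a, Real.sqrt (∑ i, (U a i - U1 a i) ^ 2) ≤ Real.sqrt ((r + 1) * ε) := by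
      intro a
      apply Real.sqrt_le_sqrt
      have e1 : ∑ i, (U a i - U1 a i) ^ 2 = S a a := by
        rw [← hB a a]
        simp only [hU, hU1, Fintype.sum_sum_type, Sum.elim_inl, Sum.elim_inr, sub_self, sub_zero]
        simp [sq]
      rw [e1, hSab, if_pos rfl]
      have := (abs_le.1 (h a a)).1
      rw [if_pos rfl] at this
      linarith
    calc ∑ a, Real.sqrt (∑ i, (U a i - U1 a i) ^ 2)
        ≤ ∑ _a : ι, Real.sqrt ((r + 1) * ε) := Finset.sum_le_sum fun a _ => this a
      _ = r * Real.sqrt ((r + 1) * ε) := by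
          rw [Finset.sum_const, Finset.card_univ, nsmul_eq_mul]
  -- change of the variances
  have dlin : ∀ s : ι → ℝ, (fun g : ι → ℝ => fun a => s a * g a) =
      lin (fun a b => if a = b then s a else 0) := by
    intro s
    funext g a
    simp [lin]
  have g4 : |∫ g, F (fun a => Real.sqrt (d a + r * ε) * g a) ∂(gm ι) -
      ∫ g, F (fun a => Real.sqrt (d a) * g a) ∂(gm ι)| ≤ L * (r * Real.sqrt ((r + 1) * ε)) := by
    have h1 := diff_lin (fun a b => if a = b then Real.sqrt (d a + r * ε) else 0)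
      (fun a b : ι => if a = b then Real.sqrt (d a) else 0) hL hF
    have e1 := dlin fun a => Real.sqrt (d a + r * ε)
    have e2 := dlin fun a => Real.sqrt (d a)
    have e1' : ∀ g : ι → ℝ, (fun a => Real.sqrt (d a + r * ε) * g a) =
      lin (fun a b => if a = b then Real.sqrt (d a + r * ε) else 0) g := fun g => congrFun e1 g
    have e2' : ∀ g : ι → ℝ, (fun a => Real.sqrt (d a) * g a) =
      lin (fun a b => if a = b then Real.sqrt (d a) else 0) g := fun g => congrFun e2 g
    simp_rw [e1', e2']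
    refine h1.trans (mul_le_mul_of_nonneg_left ?_ hL)
    have : ∀ a : ι, Real.sqrt (∑ i, ((if a = i then Real.sqrt (d a + r * ε) else 0) -
        (if a = i then Real.sqrt (d a) else 0)) ^ 2) ≤ Real.sqrt ((r + 1) * ε) := by
      intro a
      apply Real.sqrt_le_sqrt
      have e3 : ∑ i, ((if a = i then Real.sqrt (d a + r * ε) else 0) -
        (if a = i then Real.sqrt (d a) else 0)) ^ 2 =
          (Real.sqrt (d a + r * ε) - Real.sqrt (d a)) ^ 2 := by
        rw [Finset.sum_eq_single a]
        · simp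
        · intro b _ hb
          simp [Ne.symm hb]
        · intro h; exact absurd (Finset.mem_univ _) h
      rw [e3]
      have h5 : 0 ≤ d a + r * ε := by have := hd a; positivity
      have h6 := Real.sq_sqrt h5
      have h7 := Real.sq_sqrt (hd a)
      have h8 : Real.sqrt (d a) ≤ Real.sqrt (d a + r * ε) :=
        Real.sqrt_le_sqrt (by have : 0 ≤ r * ε := by positivity
                              linarith)
      have h9 := Real.sqrt_nonneg (d a)
      nlinarith
    calc _ ≤ ∑ _a : ι, Real.sqrt ((r + 1) * ε) := Finset.sum_le_sum fun a _ => this a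
      _ = r * Real.sqrt ((r + 1) * ε) := by
          rw [Finset.sum_const, Finset.card_univ, nsmul_eq_mul]
  rw [g1]
  rw [g2] at g3
  have h10 := abs_le.1 g3
  have h11 := abs_le.1 g4
  rw [abs_le]
  constructor <;> nlinarith [h10.1, h10.2, h11.1, h11.2]

end

end Crest.Agent.R164.CavG
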