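import Crest.Agent.R164.Trans249

-- ▼ part R164/Trans247
section

/-!
Row 164: S0247 from S0248 (helper92).

`magneticValue` at one group, field `0`, proportion `1`, equals `variationalValue`.
-/

set_option autoImplicit false

namespace Crest.Agent.R164

open MeasureTheory Set Filter Topology ProbabilityTheory
open Crest.ProbabilityR.InvariantGlass

/-- the class of functions preserved by the recursion -/
structure Good (f : ℝ → ℝ) : Prop where
  lip : ∀ x y, f x ≤ f y + |x - y|
  even : ∀ z, f (-z) = f z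
  mid : ∀ x y, f ((x + y) / 2) ≤ (f x + f y) / 2

theorem Good.cont {f : ℝ → ℝ} (hf : Good f) : Continuous f := by
  have : LipschitzWith 1 f := by
    refine LipschitzWith.of_le_add fun x y => ?_
    rw [Real.dist_eq]
    exact hf.lip x y
  exact this.continuous

theorem Good.min_zero {f : ℝ → ℝ} (hf : Good f) (z : ℝ) : f 0 ≤ f z := by
  have h := hf.mid z (-z)
  rw [add_neg_cancel, zero_div, hf.even z] at h
  linarith

theorem Good.bound {f : ℝ → ℝ} (hf : Good f) (z : ℝ) : |f z| ≤ |f 0| + |z| := by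
  have h1 := hf.lip z 0
  have h2 := hf.lip 0 z
  rw [sub_zero] at h1
  rw [zero_sub, abs_neg] at h2
  rw [abs_le]
  constructor
  · have := neg_abs_le (f 0)
    linarith
  · have := le_abs_self (f 0)
    linarith

theorem integrable_exp_abs_gauss (c : ℝ) :
    Integrable (fun g : ℝ => Real.exp (c * |g|)) (gaussianReal 0 1) := by
  have h1 : Integrable (fun g : ℝ => Real.exp (c * g)) (gaussianReal 0 1) :=
    integrable_exp_mul_gaussianReal c
  have h2 : Integrable (fun g : ℝ => Real.exp ((-c) * g)) (gaussianReal 0 1) :=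
    integrable_exp_mul_gaussianReal (-c)
  refine Integrable.mono' (h1.add h2) (by fun_prop) (Eventually.of_forall fun g => ?_)
  rw [Real.norm_eq_abs, abs_of_pos (Real.exp_pos _)]
  simp only [Pi.add_apply]
  rcases le_total 0 g with hg | hg
  · rw [abs_of_nonneg hg]
    have := Real.exp_pos (-c * g)
    linarith
  · rw [abs_of_nonpos hg]
    have := Real.exp_pos (c * g)
    have e : c * -g = -c * g := by ring
    rw [e]
    linarith

theorem Good.integrable {f : ℝ → ℝ} (hf : Good f) (v z : ℝ) :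
    Integrable (fun g : ℝ => f (z + Real.sqrt v * g)) (gaussianReal 0 1) := by
  have h : Integrable (fun g : ℝ => |f 0| + |z| + Real.sqrt v * Real.exp (1 * |g|))
      (gaussianReal 0 1) := (integrable_const _).add ((integrable_exp_abs_gauss 1).const_mul _)
  refine Integrable.mono' h (hf.cont.comp (by fun_prop)).aestronglyMeasurable
    (Eventually.of_forall fun g => ?_)
  rw [Real.norm_eq_abs]
  refine (hf.bound _).trans ?_
  have h1 : |z + Real.sqrt v * g| ≤ |z| + Real.sqrt v * |g| := by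
    refine (abs_add_le _ _).trans ?_
    rw [abs_mul, abs_of_nonneg (Real.sqrt_nonneg v)]
  have h2 : |g| ≤ Real.exp (1 * |g|) := by
    rw [one_mul]
    have := Real.add_one_le_exp |g|
    linarith
  have h3 : Real.sqrt v * |g| ≤ Real.sqrt v * Real.exp (1 * |g|) :=
    mul_le_mul_of_nonneg_left h2 (Real.sqrt_nonneg v)
  linarith

theorem Good.integrable_exp {f : ℝ → ℝ} (hf : Good f) {a : ℝ} (ha : 0 ≤ a) (v z : ℝ) :
    Integrable (fun g : ℝ => Real.exp (a * f (z + Real.sqrt v * g))) (gaussianReal 0 1) := by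
  have h : Integrable (fun g : ℝ => Real.exp (a * (|f 0| + |z|)) *
      Real.exp (a * Real.sqrt v * |g|)) (gaussianReal 0 1) :=
    (integrable_exp_abs_gauss (a * Real.sqrt v)).const_mul _
  have hc := hf.cont
  refine Integrable.mono' h (by fun_prop) (Eventually.of_forall fun g => ?_)
  rw [Real.norm_eq_abs, abs_of_pos (Real.exp_pos _), ← Real.exp_add]
  refine Real.exp_le_exp.2 ?_
  have h0 := (le_abs_self _).trans (hf.bound (z + Real.sqrt v * g))
  have h1 : |z + Real.sqrt v * g| ≤ |z| + Real.sqrt v * |g| := by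
    refine (abs_add_le _ _).trans ?_
    rw [abs_mul, abs_of_nonneg (Real.sqrt_nonneg v)]
  have h2 : a * f (z + Real.sqrt v * g) ≤ a * (|f 0| + (|z| + Real.sqrt v * |g|)) :=
    mul_le_mul_of_nonneg_left (by linarith) ha
  linarith

theorem Good.exp_pos {f : ℝ → ℝ} (hf : Good f) {a : ℝ} (ha : 0 ≤ a) (v z : ℝ) :
    0 < ∫ g, Real.exp (a * f (z + Real.sqrt v * g)) ∂gaussianReal 0 1 :=
  integral_exp_pos (hf.integrable_exp ha v z)

theorem integral_gauss_neg (F : ℝ → ℝ) :
    ∫ g, F (-g) ∂gaussianReal 0 1 = ∫ g, F g ∂gaussianReal 0 1 := by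
  have h : (gaussianReal 0 1).map (fun x : ℝ => -x) = gaussianReal 0 1 := by
    rw [gaussianReal_map_neg, neg_zero]
  conv_rhs => rw [← h]
  exact (integral_map_equiv (MeasurableEquiv.neg ℝ) F).symm

theorem gaussOp_good {a v : ℝ} (ha : 0 ≤ a) {f : ℝ → ℝ} (hf : Good f) : Good (gaussOp a v f) := by
  rcases ha.eq_or_lt with rfl | hapos
  · -- plain average
    have e : ∀ z, gaussOp 0 v f z = ∫ g, f (z + Real.sqrt v * g) ∂gaussianReal 0 1 := fun z => by
      unfold gaussOp
      rw [if_pos rfl]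
    refine ⟨fun x y => ?_, fun z => ?_, fun x y => ?_⟩
    · rw [e, e]
      have h : ∫ g, f (x + Real.sqrt v * g) ∂gaussianReal 0 1 ≤
          ∫ g, (f (y + Real.sqrt v * g) + |x - y|) ∂gaussianReal 0 1 := by
        refine integral_mono (hf.integrable v x) ((hf.integrable v y).add (integrable_const _)) ?_
        intro g
        have := hf.lip (x + Real.sqrt v * g) (y + Real.sqrt v * g)
        have e2 : x + Real.sqrt v * g - (y + Real.sqrt v * g) = x - y := by ring
        rw [e2] at this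
        exact this
      rw [integral_add (hf.integrable v y) (integrable_const _), integral_const] at h
      simpa using h
    · rw [e, e, ← integral_gauss_neg]
      refine integral_congr_ae (Eventually.of_forall fun g => ?_)
      have e2 : -z + Real.sqrt v * -g = -(z + Real.sqrt v * g) := by ring
      show f (-z + Real.sqrt v * -g) = f (z + Real.sqrt v * g)
      rw [e2, hf.even]
    · rw [e, e, e]
      have h : ∫ g, f ((x + y) / 2 + Real.sqrt v * g) ∂gaussianReal 0 1 ≤
          ∫ g, (1 / 2) * (f (x + Real.sqrt v * g) + f (y + Real.sqrt v * g)) ∂gaussianReal 0 1 := by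
        refine integral_mono (hf.integrable v _)
          (((hf.integrable v x).add (hf.integrable v y)).const_mul _) ?_
        intro g
        have := hf.mid (x + Real.sqrt v * g) (y + Real.sqrt v * g)
        have e2 : (x + Real.sqrt v * g + (y + Real.sqrt v * g)) / 2 =
            (x + y) / 2 + Real.sqrt v * g := by ring
        rw [e2] at this
        show f ((x + y) / 2 + Real.sqrt v * g) ≤ _
        linarith
      rw [integral_const_mul, integral_add (hf.integrable v x) (hf.integrable v y)] at h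
      linarith
  · have e : ∀ z, gaussOp a v f z =
        a⁻¹ * Real.log (∫ g, Real.exp (a * f (z + Real.sqrt v * g)) ∂gaussianReal 0 1) := fun z => by
      unfold gaussOp
      rw [if_neg hapos.ne']
    refine ⟨fun x y => ?_, fun z => ?_, fun x y => ?_⟩
    · rw [e, e]
      have h : ∫ g, Real.exp (a * f (x + Real.sqrt v * g)) ∂gaussianReal 0 1 ≤
          ∫ g, Real.exp (a * |x - y|) * Real.exp (a * f (y + Real.sqrt v * g))
            ∂gaussianReal 0 1 := by
        refine integral_mono (hf.integrable_exp ha v x) ((hf.integrable_exp ha v y).const_mul _) ?_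
        intro g
        show Real.exp (a * f (x + Real.sqrt v * g)) ≤
          Real.exp (a * |x - y|) * Real.exp (a * f (y + Real.sqrt v * g))
        rw [← Real.exp_add]
        refine Real.exp_le_exp.2 ?_
        have := hf.lip (x + Real.sqrt v * g) (y + Real.sqrt v * g)
        have e2 : x + Real.sqrt v * g - (y + Real.sqrt v * g) = x - y := by ring
        rw [e2] at this
        have h3 := mul_le_mul_of_nonneg_left this ha
        linarith
      rw [integral_const_mul] at h
      have h2 := Real.log_le_log (hf.exp_pos ha v x) h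
      rw [Real.log_mul (Real.exp_pos _).ne' (hf.exp_pos ha v y).ne', Real.log_exp] at h2
      have h3 := mul_le_mul_of_nonneg_left h2 (inv_nonneg.2 ha)
      have e3 : a⁻¹ * (a * |x - y| + Real.log (∫ g, Real.exp (a * f (y + Real.sqrt v * g))
          ∂gaussianReal 0 1)) = a⁻¹ * Real.log (∫ g, Real.exp (a * f (y + Real.sqrt v * g))
          ∂gaussianReal 0 1) + |x - y| := by
        field_simp
        ring
      rw [e3] at h3
      exact h3
    · rw [e, e, ← integral_gauss_neg]
      congr 2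
      refine integral_congr_ae (Eventually.of_forall fun g => ?_)
      have e2 : -z + Real.sqrt v * -g = -(z + Real.sqrt v * g) := by ring
      show Real.exp (a * f (-z + Real.sqrt v * -g)) = Real.exp (a * f (z + Real.sqrt v * g))
      rw [e2, hf.even]
    · rw [e, e, e]
      -- Cauchy-Schwarz through `2uv ≤ t u^2 + v^2 / t`
      set X := ∫ g, Real.exp (a * f (x + Real.sqrt v * g)) ∂gaussianReal 0 1 with hX
      set Y := ∫ g, Real.exp (a * f (y + Real.sqrt v * g)) ∂gaussianReal 0 1 with hY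
      have hXp : 0 < X := hf.exp_pos ha v x
      have hYp : 0 < Y := hf.exp_pos ha v y
      set M := ∫ g, Real.exp (a * f ((x + y) / 2 + Real.sqrt v * g)) ∂gaussianReal 0 1 with hM
      have hMp : 0 < M := hf.exp_pos ha v _
      have hle : M ≤ Real.exp ((Real.log X + Real.log Y) / 2) := by
        have h : M ≤ ∫ g, (1 / 2) * (Real.exp ((Real.log Y - Real.log X) / 2) *
            Real.exp (a * f (x + Real.sqrt v * g)) +
            Real.exp ((Real.log X - Real.log Y) / 2) * Real.exp (a * f (y + Real.sqrt v * g)))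
            ∂gaussianReal 0 1 := by
          refine integral_mono (hf.integrable_exp ha v _)
            ((((hf.integrable_exp ha v x).const_mul _).add
              ((hf.integrable_exp ha v y).const_mul _)).const_mul _) ?_
          intro g
          show Real.exp (a * f ((x + y) / 2 + Real.sqrt v * g)) ≤ _
          have h1 := hf.mid (x + Real.sqrt v * g) (y + Real.sqrt v * g)
          have e2 : (x + Real.sqrt v * g + (y + Real.sqrt v * g)) / 2 =
              (x + y) / 2 + Real.sqrt v * g := by ring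
          rw [e2] at h1
          set A := f (x + Real.sqrt v * g)
          set B := f (y + Real.sqrt v * g)
          set s := (Real.log Y - Real.log X) / 2 with hs
          have e4 : (Real.log X - Real.log Y) / 2 = -s := by rw [hs]; ring
          show _ ≤ (1 / 2) * (Real.exp s * Real.exp (a * A) +
            Real.exp ((Real.log X - Real.log Y) / 2) * Real.exp (a * B))
          rw [e4, ← Real.exp_add, ← Real.exp_add]
          have h2 : Real.exp (a * f ((x + y) / 2 + Real.sqrt v * g)) ≤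
              Real.exp ((s + a * A) / 2) * Real.exp ((-s + a * B) / 2) := by
            rw [← Real.exp_add]
            refine Real.exp_le_exp.2 ?_
            have := mul_le_mul_of_nonneg_left h1 ha
            linarith
          have h3 : Real.exp (s + a * A) = Real.exp ((s + a * A) / 2) ^ 2 := by
            rw [sq, ← Real.exp_add]; ring_nf
          have h4 : Real.exp (-s + a * B) = Real.exp ((-s + a * B) / 2) ^ 2 := by
            rw [sq, ← Real.exp_add]; ring_nf
          rw [h3, h4]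
          nlinarith [sq_nonneg (Real.exp ((s + a * A) / 2) - Real.exp ((-s + a * B) / 2))]
        rw [integral_const_mul, integral_add ((hf.integrable_exp ha v x).const_mul _)
          ((hf.integrable_exp ha v y).const_mul _), integral_const_mul, integral_const_mul,
          ← hX, ← hY] at h
        have e5 : Real.exp ((Real.log Y - Real.log X) / 2) * X =
            Real.exp ((Real.log X + Real.log Y) / 2) := by
          conv_lhs => rw [← Real.exp_log hXp, Real.log_exp]
          rw [← Real.exp_add]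
          congr 1; ring
        have e6 : Real.exp ((Real.log X - Real.log Y) / 2) * Y =
            Real.exp ((Real.log X + Real.log Y) / 2) := by
          conv_lhs => rw [← Real.exp_log hYp, Real.log_exp]
          rw [← Real.exp_add]
          congr 1; ring
        rw [e5, e6] at h
        linarith
      have h2 := Real.log_le_log hMp hle
      rw [Real.log_exp] at h2
      have h3 := mul_le_mul_of_nonneg_left h2 (inv_nonneg.2 ha)
      linarith

theorem logcosh_good : Good (fun z => Real.log (Real.cosh z)) := by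
  refine ⟨fun x y => ?_, fun z => by simp [Real.cosh_neg], fun x y => ?_⟩
  · have hc := Real.cosh_pos x
    have hd := Real.cosh_pos y
    have h : Real.cosh x ≤ Real.cosh y * Real.exp |x - y| := by
      have e1 : Real.exp x ≤ Real.exp y * Real.exp |x - y| := by
        rw [← Real.exp_add]
        refine Real.exp_le_exp.2 ?_
        have := le_abs_self (x - y)
        linarith
      have e2 : Real.exp (-x) ≤ Real.exp (-y) * Real.exp |x - y| := by
        rw [← Real.exp_add]
        refine Real.exp_le_exp.2 ?_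
        have := neg_abs_le (x - y)
        linarith
      rw [Real.cosh_eq, Real.cosh_eq]
      linarith
    have h2 := Real.log_le_log hc h
    rw [Real.log_mul hd.ne' (Real.exp_pos _).ne', Real.log_exp] at h2
    exact h2
  · have hx := Real.cosh_pos x
    have hy := Real.cosh_pos y
    have hm := Real.cosh_pos ((x + y) / 2)
    have h : Real.cosh ((x + y) / 2) ^ 2 ≤ Real.cosh x * Real.cosh y := by
      have e1 : Real.cosh ((x + y) / 2) ^ 2 = (Real.cosh (x + y) + 1) / 2 := by
        have := Real.cosh_two_mul ((x + y) / 2)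
        have h2 := Real.cosh_sq' ((x + y) / 2)
        have e : 2 * ((x + y) / 2) = x + y := by ring
        rw [e] at this
        linarith
      have e2 : Real.cosh x * Real.cosh y = (Real.cosh (x + y) + Real.cosh (x - y)) / 2 := by
        rw [Real.cosh_add, Real.cosh_sub]; ring
      rw [e1, e2]
      have := Real.one_le_cosh (x - y)
      linarith
    have h2 := Real.log_le_log (by positivity) h
    rw [Real.log_pow, Real.log_mul hx.ne' hy.ne'] at h2
    push_cast at h2
    show Real.log (Real.cosh ((x + y) / 2)) ≤ (Real.log (Real.cosh x) + Real.log (Real.cosh y)) / 2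
    linarith

theorem leftEnd_nonneg {k : ℕ} {w : Fin k → ℝ} (hw : ∀ i, 0 < w i) (i : Fin k) :
    0 ≤ leftEnd w i := by
  unfold leftEnd
  refine Finset.sum_nonneg fun l _ => ?_
  split_ifs
  · exact (hw l).le
  · exact le_rfl

theorem chain_good {k : ℕ} {w : Fin k → ℝ} (hw : ∀ i, 0 < w i) (hv : Fin k → ℝ)
    (L : List (Fin k)) :
    Good (L.foldr (fun i acc => gaussOp (leftEnd w i) (increment hv i) acc)
      (fun z => Real.log (Real.cosh z))) := by
  induction L with
  | nil => exact logcosh_good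
  | cons i L ih =>
      rw [List.foldr_cons]
      exact gaussOp_good (leftEnd_nonneg hw i) ih

theorem fieldValue_le_at {k : ℕ} {w : Fin k → ℝ} (hw : ∀ i, 0 < w i) (hv : Fin k → ℝ) (b : ℝ) :
    fieldValue w hv ≤ fieldValueAt b w hv := by
  unfold fieldValue fieldValueAt
  have := (chain_good hw hv (List.finRange k)).min_zero b
  linarith

theorem constrainedFieldValue_le {k : ℕ} (s : ℝ) (w hv : Fin k → ℝ) :
    constrainedFieldValue s w hv ≤ ((fieldValue w hv : ℝ) : EReal) := by
  unfold constrainedFieldValue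
  refine (iInf_le _ 0).trans ?_
  rw [zero_mul, sub_zero]
  exact le_rfl

theorem constrainedFieldValue_zero {k : ℕ} {w : Fin k → ℝ} (hw : ∀ i, 0 < w i)
    (hv : Fin k → ℝ) :
    constrainedFieldValue 0 w hv = ((fieldValue w hv : ℝ) : EReal) := by
  refine le_antisymm (constrainedFieldValue_le 0 w hv) ?_
  unfold constrainedFieldValue
  refine le_iInf fun b => ?_
  rw [mul_zero, sub_zero]
  exact EReal.coe_le_coe_iff.2 (fieldValue_le_at hw hv b)

theorem groupFieldValue_one {k : ℕ} (m : Fin 1 → ℚ) (w hv : Fin k → ℝ) :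
    groupFieldValue (fun _ : Fin 1 => (1 : ℚ)) m w hv =
      constrainedFieldValue ((m 0 : ℚ) : ℝ) w hv := by
  unfold groupFieldValue
  rw [Fin.sum_univ_one]
  simp

theorem constrainedEntropyPart_le (m : Fin 1 → ℚ) (p : ℝ → ℝ) :
    constrainedEntropyPart (fun _ : Fin 1 => (1 : ℚ)) m p ≤ entropyPart p := by
  unfold constrainedEntropyPart entropyPart
  refine iSup_mono fun k => iSup_mono fun w => iSup_mono fun hv => iSup_mono fun _ => ?_
  rw [groupFieldValue_one, EReal.coe_add]
  exact add_le_add_left (constrainedFieldValue_le _ w hv) _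

theorem constrainedEntropyPart_zero (p : ℝ → ℝ) :
    constrainedEntropyPart (fun _ : Fin 1 => (1 : ℚ)) (fun _ => 0) p = entropyPart p := by
  unfold constrainedEntropyPart entropyPart
  refine iSup_congr fun k => iSup_congr fun w => iSup_congr fun hv => iSup_congr fun h => ?_
  rw [groupFieldValue_one, EReal.coe_add]
  congr 1
  rw [Rat.cast_zero]
  exact constrainedFieldValue_zero h.2.1 hv

/-- **`magneticValue` at one group, zero field equals `variationalValue`.** -/
theorem magneticValue_zero (μ : Measure ℝ) (lamPlus : ℝ) :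
    magneticValue μ lamPlus (fun _ : Fin 1 => (0 : ℝ)) (fun _ : Fin 1 => (1 : ℚ)) =
      variationalValue μ lamPlus := by
  unfold magneticValue variationalValue
  refine le_antisymm ?_ ?_
  · refine iSup₂_le fun m _ => ?_
    have e : ((∑ j : Fin 1, (((1 : ℚ) : ℝ)) * (0 : ℝ) * ((m j : ℚ) : ℝ) : ℝ) : EReal) = 0 := by
      simp
    rw [e, zero_add]
    refine iInf_mono fun p => iInf_mono fun _ => ?_
    exact add_le_add_left (constrainedEntropyPart_le m p) _
  · refine le_iSup₂_of_le (fun _ => (0 : ℚ)) (fun _ => ⟨by norm_num, by norm_num⟩) ?_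
    have e : ((∑ j : Fin 1, (((1 : ℚ) : ℝ)) * (0 : ℝ) * (((0 : ℚ)) : ℝ) : ℝ) : EReal) = 0 := by
      simp
    rw [e, zero_add]
    refine iInf_mono fun p => iInf_mono fun _ => ?_
    rw [constrainedEntropyPart_zero]

theorem pressureFieldN_zero {N : ℕ} (eig : Fin N → ℝ) (U : Matrix (Fin N) (Fin N) ℝ) :
    pressureFieldN eig U (fun _ => 0) = pressureN eig U := by
  unfold pressureFieldN pressureN
  simp

/-- **S0247 from S0248.** -/
theorem s0247_of_s0248 {μ : Measure ℝ} {lamPlus : ℝ} {eig : (N : ℕ) → Fin N → ℝ}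
    {Ω : Type} [MeasurableSpace Ω] {P : Measure Ω} [IsProbabilityMeasure P]
    {Us : (N : ℕ) → Ω → (Fin N → Fin N → ℝ)}
    (h248 : H248 μ lamPlus eig P Us) :
    ∃ F : ℝ, variationalValue μ lamPlus = (F : EReal) ∧
      Tendsto (fun N : ℕ => ∫ ω, pressureN (eig N) (Matrix.of (Us N ω)) ∂P) atTop (nhds F) ∧
      ∀ᵐ ω ∂P, Tendsto (fun N : ℕ => pressureN (eig N) (Matrix.of (Us N ω))) atTop (nhds F) := by
  obtain ⟨F, h1, h2, h3⟩ := h248 1 (fun _ => (0 : ℝ)) (Function.injective_of_subsingleton _)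
    (fun _ => (1 : ℚ)) (fun _ => by norm_num) (by simp) (fun _ _ => 0) (fun j => by
      have e : ∀ N : ℕ, 0 < N →
          ((Finset.univ.filter fun r : Fin N => (0 : Fin 1) = j).card : ℝ) / (N : ℝ) = 1 := by
        intro N hN
        have hj : (0 : Fin 1) = j := Subsingleton.elim _ _
        rw [Finset.filter_true_of_mem (fun r _ => hj), Finset.card_univ, Fintype.card_fin]
        exact div_self (by positivity)
      have h1 : (((1 : ℚ) : ℝ)) = 1 := by norm_num
      rw [h1]
      refine tendsto_const_nhds.congr' ?_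
      filter_upwards [eventually_gt_atTop 0] with N hN
      exact (e N hN).symm)
  refine ⟨F, ?_, ?_, ?_⟩
  · rw [← magneticValue_zero]; exact h1
  · simpa only [pressureFieldN_zero] using h2
  · simpa only [pressureFieldN_zero] using h3

end Crest.Agent.R164
end

-- ▼ part R164/GCalc
section

/-!
Row 164: calculus of the Gaussian operator (helper92).

`H t Φ x = E Φ (x + t g)`; `tE a v f φ` is the tilted average; derivatives of `gaussOp a v f` in the
position and in the variance, joint continuity.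
-/

set_option autoImplicit false

namespace Crest.Agent.R164.GC

open MeasureTheory ProbabilityTheory Filter Topology Set
open Crest.ProbabilityR.InvariantGlass

noncomputable section

/-- continuous functions of exponential growth -/
structure EG (φ : ℝ → ℝ) : Prop where
  cont : Continuous φ
  bd : ∃ K A : ℝ, 0 ≤ K ∧ 0 ≤ A ∧ ∀ x, |φ x| ≤ K * Real.exp (A * |x|)

theorem EG.const (c : ℝ) : EG (fun _ => c) :=
  ⟨continuous_const, |c|, 0, abs_nonneg c, le_rfl, fun x => by simp⟩

theorem EG.of_bdd {φ : ℝ → ℝ} (hc : Continuous φ) {K : ℝ} (hK : ∀ x, |φ x| ≤ K) : EG φ :=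
  ⟨hc, K, 0, (abs_nonneg _).trans (hK 0), le_rfl, fun x => by simpa using hK x⟩

theorem EG.add {φ ψ : ℝ → ℝ} (hφ : EG φ) (hψ : EG ψ) : EG (fun x => φ x + ψ x) := by
  obtain ⟨K, A, hK, hA, h⟩ := hφ.bd
  obtain ⟨K', A', hK', hA', h'⟩ := hψ.bd
  refine ⟨hφ.cont.add hψ.cont, K + K', A + A', by positivity, by positivity, fun x => ?_⟩
  have h1 : Real.exp (A * |x|) ≤ Real.exp ((A + A') * |x|) := by
    refine Real.exp_le_exp.2 ?_
    have := abs_nonneg x
    nlinarith
  have h2 : Real.exp (A' * |x|) ≤ Real.exp ((A + A') * |x|) := by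
    refine Real.exp_le_exp.2 ?_
    have := abs_nonneg x
    nlinarith
  calc |φ x + ψ x| ≤ |φ x| + |ψ x| := abs_add_le _ _
    _ ≤ K * Real.exp (A * |x|) + K' * Real.exp (A' * |x|) := add_le_add (h x) (h' x)
    _ ≤ K * Real.exp ((A + A') * |x|) + K' * Real.exp ((A + A') * |x|) :=
        add_le_add (mul_le_mul_of_nonneg_left h1 hK) (mul_le_mul_of_nonneg_left h2 hK')
    _ = _ := by ring

theorem EG.mul {φ ψ : ℝ → ℝ} (hφ : EG φ) (hψ : EG ψ) : EG (fun x => φ x * ψ x) := by
  obtain ⟨K, A, hK, hA, h⟩ := hφ.bd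
  obtain ⟨K', A', hK', hA', h'⟩ := hψ.bd
  refine ⟨hφ.cont.mul hψ.cont, K * K', A + A', by positivity, by positivity, fun x => ?_⟩
  calc |φ x * ψ x| = |φ x| * |ψ x| := abs_mul _ _
    _ ≤ (K * Real.exp (A * |x|)) * (K' * Real.exp (A' * |x|)) :=
        mul_le_mul (h x) (h' x) (abs_nonneg _) (by positivity)
    _ = K * K' * (Real.exp (A * |x|) * Real.exp (A' * |x|)) := by ring
    _ = _ := by rw [← Real.exp_add]; ring_nf

theorem EG.const_mul {φ : ℝ → ℝ} (hφ : EG φ) (c : ℝ) : EG (fun x => c * φ x) :=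
  (EG.const c).mul hφ

theorem EG.neg {φ : ℝ → ℝ} (hφ : EG φ) : EG (fun x => -φ x) := by
  have := hφ.const_mul (-1)
  simpa using this

theorem EG.sub {φ ψ : ℝ → ℝ} (hφ : EG φ) (hψ : EG ψ) : EG (fun x => φ x - ψ x) := by
  have := hφ.add hψ.neg
  simpa [sub_eq_add_neg] using this

theorem EG.pow {φ : ℝ → ℝ} (hφ : EG φ) (n : ℕ) : EG (fun x => φ x ^ n) := by
  induction n with
  | zero => simpa using EG.const 1
  | succ n ih => simpa [pow_succ] using ih.mul hφ

theorem EG.lip {f : ℝ → ℝ} (hf : ∀ x y, f x ≤ f y + |x - y|) : EG f := by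
  have hc : Continuous f := by
    have : LipschitzWith 1 f := by
      refine LipschitzWith.of_le_add fun x y => ?_
      rw [Real.dist_eq]
      exact hf x y
    exact this.continuous
  refine ⟨hc, |f 0| + 1, 1, by positivity, zero_le_one, fun x => ?_⟩
  have h1 := hf x 0
  have h2 := hf 0 x
  rw [sub_zero] at h1
  rw [zero_sub, abs_neg] at h2
  have h3 : |f x| ≤ |f 0| + |x| := by
    rw [abs_le]
    constructor
    · have := neg_abs_le (f 0); linarith
    · have := le_abs_self (f 0); linarith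
  have h4 : |x| + 1 ≤ Real.exp (1 * |x|) := by rw [one_mul]; exact Real.add_one_le_exp _
  have h5 := abs_nonneg x
  have h6 := abs_nonneg (f 0)
  nlinarith

theorem EG.exp_lip {f : ℝ → ℝ} (hf : ∀ x y, f x ≤ f y + |x - y|) (a : ℝ) :
    EG (fun x => Real.exp (a * f x)) := by
  have hc := (EG.lip hf).cont
  refine ⟨by fun_prop, Real.exp (|a| * |f 0|), |a|, by positivity, by positivity, fun x => ?_⟩
  have h1 := hf x 0
  have h2 := hf 0 x
  rw [sub_zero] at h1
  rw [zero_sub, abs_neg] at h2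
  have h3 : |f x| ≤ |f 0| + |x| := by
    rw [abs_le]
    constructor
    · have := neg_abs_le (f 0); linarith
    · have := le_abs_self (f 0); linarith
  rw [abs_of_pos (Real.exp_pos _), ← Real.exp_add]
  refine Real.exp_le_exp.2 ?_
  calc a * f x ≤ |a * f x| := le_abs_self _
    _ = |a| * |f x| := abs_mul _ _
    _ ≤ |a| * (|f 0| + |x|) := mul_le_mul_of_nonneg_left h3 (abs_nonneg a)
    _ = _ := by ring

theorem integrable_exp_abs (c : ℝ) :
    Integrable (fun g : ℝ => Real.exp (c * |g|)) (gaussianReal 0 1) :=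
  integrable_exp_abs_gauss c

theorem integrable_mul_exp_abs (c : ℝ) :
    Integrable (fun g : ℝ => |g| * Real.exp (c * |g|)) (gaussianReal 0 1) := by
  refine Integrable.mono' (integrable_exp_abs (c + 1)) (by fun_prop)
    (Eventually.of_forall fun g => ?_)
  rw [Real.norm_eq_abs, abs_of_nonneg (by positivity)]
  have h1 : |g| ≤ Real.exp |g| := by
    have := Real.add_one_le_exp |g|
    linarith
  calc |g| * Real.exp (c * |g|) ≤ Real.exp |g| * Real.exp (c * |g|) :=
        mul_le_mul_of_nonneg_right h1 (Real.exp_pos _).le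
    _ = _ := by rw [← Real.exp_add]; ring_nf

/-- bound for the shifted function -/
theorem shift_bd {φ : ℝ → ℝ} {K A : ℝ} (hK : 0 ≤ K) (hA : 0 ≤ A)
    (h : ∀ x, |φ x| ≤ K * Real.exp (A * |x|)) {x t X T : ℝ} (hx : |x| ≤ X) (ht : |t| ≤ T) (g : ℝ) :
    |φ (x + t * g)| ≤ K * Real.exp (A * X) * Real.exp (A * T * |g|) := by
  refine (h _).trans ?_
  rw [mul_assoc, ← Real.exp_add]
  refine mul_le_mul_of_nonneg_left (Real.exp_le_exp.2 ?_) hK
  have h1 : |x + t * g| ≤ X + T * |g| := by
    refine (abs_add_le _ _).trans (add_le_add hx ?_)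
    rw [abs_mul]
    exact mul_le_mul_of_nonneg_right ht (abs_nonneg g)
  calc A * |x + t * g| ≤ A * (X + T * |g|) := mul_le_mul_of_nonneg_left h1 hA
    _ = _ := by ring

theorem EG.int {φ : ℝ → ℝ} (hφ : EG φ) (t x : ℝ) :
    Integrable (fun g : ℝ => φ (x + t * g)) (gaussianReal 0 1) := by
  obtain ⟨K, A, hK, hA, h⟩ := hφ.bd
  have hc := hφ.cont
  refine Integrable.mono' ((integrable_exp_abs (A * |t|)).const_mul (K * Real.exp (A * |x|)))
    (by fun_prop) (Eventually.of_forall fun g => ?_)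
  rw [Real.norm_eq_abs]
  exact shift_bd hK hA h le_rfl le_rfl g

theorem EG.int_mul {φ : ℝ → ℝ} (hφ : EG φ) (t x : ℝ) :
    Integrable (fun g : ℝ => g * φ (x + t * g)) (gaussianReal 0 1) := by
  obtain ⟨K, A, hK, hA, h⟩ := hφ.bd
  have hc := hφ.cont
  refine Integrable.mono' ((integrable_mul_exp_abs (A * |t|)).const_mul (K * Real.exp (A * |x|)))
    (by fun_prop) (Eventually.of_forall fun g => ?_)
  rw [Real.norm_eq_abs, abs_mul]
  have := mul_le_mul_of_nonneg_left (shift_bd hK hA h (le_refl |x|) (le_refl |t|) g) (abs_nonneg g)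
  linarith

/-- Gaussian average -/
def H (t : ℝ) (φ : ℝ → ℝ) (x : ℝ) : ℝ := ∫ g, φ (x + t * g) ∂gaussianReal 0 1

theorem H_add {φ ψ : ℝ → ℝ} (hφ : EG φ) (hψ : EG ψ) (t x : ℝ) :
    H t (fun y => φ y + ψ y) x = H t φ x + H t ψ x :=
  integral_add (hφ.int t x) (hψ.int t x)

theorem H_sub {φ ψ : ℝ → ℝ} (hφ : EG φ) (hψ : EG ψ) (t x : ℝ) :
    H t (fun y => φ y - ψ y) x = H t φ x - H t ψ x :=
  integral_sub (hφ.int t x) (hψ.int t x)

theorem H_const_mul (φ : ℝ → ℝ) (c t x : ℝ) : H t (fun y => c * φ y) x = c * H t φ x :=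
  integral_const_mul c _

theorem H_const (c t x : ℝ) : H t (fun _ => c) x = c := by
  unfold H
  simp

theorem H_zero (φ : ℝ → ℝ) (x : ℝ) : H 0 φ x = φ x := by
  unfold H
  simp

theorem H_mono {φ ψ : ℝ → ℝ} (hφ : EG φ) (hψ : EG ψ) (h : ∀ y, φ y ≤ ψ y) (t x : ℝ) :
    H t φ x ≤ H t ψ x :=
  integral_mono (hφ.int t x) (hψ.int t x) fun _ => h _

theorem H_pos {φ : ℝ → ℝ} (hφ : EG φ) (h : ∀ y, 0 < φ y) (t x : ℝ) : 0 < H t φ x := by
  unfold H
  rw [integral_pos_iff_support_of_nonneg (fun _ => (h _).le) (hφ.int t x)]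
  have : Function.support (fun g : ℝ => φ (x + t * g)) = univ := by
    ext g
    simp [(h (x + t * g)).ne']
  rw [this, measure_univ]
  exact one_pos

/-- joint continuity -/
theorem H_continuous {φ : ℝ → ℝ} (hφ : EG φ) : Continuous (fun p : ℝ × ℝ => H p.1 φ p.2) := by
  obtain ⟨K, A, hK, hA, h⟩ := hφ.bd
  have hc := hφ.cont
  rw [continuous_iff_continuousAt]
  intro p
  refine continuousAt_of_dominated (bound := fun g => K * Real.exp (A * (|p.2| + 1)) *
    Real.exp (A * (|p.1| + 1) * |g|)) ?_ ?_ ?_ ?_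
  · exact Eventually.of_forall fun q => (by fun_prop :
      Continuous fun g : ℝ => φ (q.2 + q.1 * g)).aestronglyMeasurable
  · have hb : Metric.ball p 1 ∈ 𝓝 p := Metric.ball_mem_nhds p one_pos
    filter_upwards [hb] with q hq
    rw [Metric.mem_ball, Prod.dist_eq, max_lt_iff, Real.dist_eq, Real.dist_eq] at hq
    refine Eventually.of_forall fun g => ?_
    rw [Real.norm_eq_abs]
    refine shift_bd hK hA h ?_ ?_ g
    · have := abs_sub_abs_le_abs_sub q.2 p.2
      linarith [hq.2]
    · have := abs_sub_abs_le_abs_sub q.1 p.1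
      linarith [hq.1]
  · exact (integrable_exp_abs _).const_mul _
  · refine Eventually.of_forall fun g => ?_
    have : Continuous (fun q : ℝ × ℝ => φ (q.2 + q.1 * g)) := by fun_prop
    exact this.continuousAt

/-- derivative in the position -/
theorem H_deriv_x {φ φ1 : ℝ → ℝ} (hφ : EG φ) (hφ1 : EG φ1) (hd : ∀ x, HasDerivAt φ (φ1 x) x)
    (t x : ℝ) : HasDerivAt (fun x => H t φ x) (H t φ1 x) x := by
  obtain ⟨K, A, hK, hA, h⟩ := hφ1.bd
  have hc := hφ.cont
  have hc1 := hφ1.cont
  refine (hasDerivAt_integral_of_dominated_loc_of_deriv_le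
    (bound := fun g => K * Real.exp (A * (|x| + 1)) * Real.exp (A * |t| * |g|))
    (F' := fun x g => φ1 (x + t * g)) (Metric.ball_mem_nhds x one_pos) ?_ (hφ.int t x) ?_ ?_ ?_
    ?_).2
  · exact Eventually.of_forall fun q => (by fun_prop :
      Continuous fun g : ℝ => φ (q + t * g)).aestronglyMeasurable
  · exact (by fun_prop : Continuous fun g : ℝ => φ1 (x + t * g)).aestronglyMeasurable
  · refine Eventually.of_forall fun g q hq => ?_
    rw [Metric.mem_ball, Real.dist_eq] at hq
    rw [Real.norm_eq_abs]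
    refine shift_bd hK hA h ?_ le_rfl g
    have := abs_sub_abs_le_abs_sub q x
    linarith
  · exact (integrable_exp_abs _).const_mul _
  · refine Eventually.of_forall fun g q _ => ?_
    have h1 : HasDerivAt (fun q : ℝ => q + t * g) 1 q := (hasDerivAt_id q).add_const _
    have := (hd (q + t * g)).comp q h1
    rw [mul_one] at this
    exact this

/-- derivative in the standard deviation, before integration by parts -/
theorem H_deriv_t' {φ φ1 : ℝ → ℝ} (hφ : EG φ) (hφ1 : EG φ1) (hd : ∀ x, HasDerivAt φ (φ1 x) x)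
    (t x : ℝ) : HasDerivAt (fun t => H t φ x) (∫ g, g * φ1 (x + t * g) ∂gaussianReal 0 1) t := by
  obtain ⟨K, A, hK, hA, h⟩ := hφ1.bd
  have hc := hφ.cont
  have hc1 := hφ1.cont
  refine (hasDerivAt_integral_of_dominated_loc_of_deriv_le
    (bound := fun g => K * Real.exp (A * |x|) * (|g| * Real.exp (A * (|t| + 1) * |g|)))
    (F' := fun t g => g * φ1 (x + t * g)) (Metric.ball_mem_nhds t one_pos) ?_ (hφ.int t x) ?_ ?_ ?_
    ?_).2
  · exact Eventually.of_forall fun q => (by fun_prop :
      Continuous fun g : ℝ => φ (x + q * g)).aestronglyMeasurable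
  · exact (by fun_prop : Continuous fun g : ℝ => g * φ1 (x + t * g)).aestronglyMeasurable
  · refine Eventually.of_forall fun g q hq => ?_
    rw [Metric.mem_ball, Real.dist_eq] at hq
    rw [Real.norm_eq_abs, abs_mul]
    have hq2 : |q| ≤ |t| + 1 := by
      have := abs_sub_abs_le_abs_sub q t
      linarith
    have := mul_le_mul_of_nonneg_left (shift_bd hK hA h (le_refl |x|) hq2 g) (abs_nonneg g)
    linarith
  · exact (integrable_mul_exp_abs _).const_mul _
  · refine Eventually.of_forall fun g q _ => ?_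
    have h1 : HasDerivAt (fun q : ℝ => x + q * g) g q := by
      have := ((hasDerivAt_id q).mul_const g).const_add x
      simpa using this
    have := (hd (x + q * g)).comp q h1
    rw [mul_comm] at this
    exact this

/-- **Stein's identity** -/
theorem stein {φ φ1 : ℝ → ℝ} (hφ : EG φ) (hφ1 : EG φ1) (hd : ∀ x, HasDerivAt φ (φ1 x) x)
    (t x : ℝ) : ∫ g, g * φ (x + t * g) ∂gaussianReal 0 1 = t * H t φ1 x := by
  unfold H
  have hv : (1 : NNReal) ≠ 0 := one_ne_zero
  have hpdf : ∀ g : ℝ, HasDerivAt (fun g => -gaussianPDFReal 0 1 g)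
      (g * gaussianPDFReal 0 1 g) g := by
    intro g
    unfold gaussianPDFReal
    have h1 : HasDerivAt (fun g : ℝ => -(g - 0) ^ 2 / (2 * ((1 : NNReal) : ℝ))) (-g) g := by
      have h2 : HasDerivAt (fun g : ℝ => (g - 0) ^ 2) (2 * g) g := by
        have := ((hasDerivAt_id' g).sub_const 0).fun_pow 2
        simpa using this
      have h3 := (h2.fun_neg).div_const (2 * ((1 : NNReal) : ℝ))
      have e : -(2 * g) / (2 * ((1 : NNReal) : ℝ)) = -g := by
        rw [NNReal.coe_one]; ring
      rw [e] at h3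
      exact h3
    have h4 := (h1.exp.const_mul ((√(2 * Real.pi * ((1 : NNReal) : ℝ)))⁻¹)).fun_neg
    have e : -((√(2 * Real.pi * ((1 : NNReal) : ℝ)))⁻¹ *
        (Real.exp (-(g - 0) ^ 2 / (2 * ((1 : NNReal) : ℝ))) * -g)) =
        g * ((√(2 * Real.pi * ((1 : NNReal) : ℝ)))⁻¹ *
        Real.exp (-(g - 0) ^ 2 / (2 * ((1 : NNReal) : ℝ)))) := by ring
    rw [e] at h4
    exact h4
  have hd' : ∀ g : ℝ, HasDerivAt (fun g => φ (x + t * g)) (t * φ1 (x + t * g)) g := by
    intro g
    have h1 : HasDerivAt (fun g : ℝ => x + t * g) t g := by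
      have := ((hasDerivAt_id g).const_mul t).const_add x
      simpa using this
    have := (hd (x + t * g)).comp g h1
    rw [mul_comm] at this
    exact this
  have hint : ∀ {ψ : ℝ → ℝ}, Integrable ψ (gaussianReal 0 1) →
      Integrable (fun g => gaussianPDFReal 0 1 g * ψ g) volume := by
    intro ψ hψ
    rw [gaussianReal_of_var_ne_zero 0 hv] at hψ
    have h1 := (integrable_withDensity_iff_integrable_smul₀'
      (measurable_gaussianPDF 0 1).aemeasurable
      (Eventually.of_forall fun g => gaussianPDF_lt_top)).1 hψ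
    refine h1.congr (Eventually.of_forall fun g => ?_)
    simp only [toReal_gaussianPDF, smul_eq_mul]
  have I1 := hint (hφ.int_mul t x)
  have I2 := hint ((hφ1.int t x).const_mul t)
  have I3 := hint (hφ.int t x)
  have key := integral_mul_deriv_eq_deriv_mul_of_integrable (A := ℝ)
    (u := fun g => φ (x + t * g)) (v := fun g => -gaussianPDFReal 0 1 g)
    (u' := fun g => t * φ1 (x + t * g)) (v' := fun g => g * gaussianPDFReal 0 1 g)
    (fun g _ => hd' g) (fun g _ => hpdf g)
    (by
      refine I1.congr (Eventually.of_forall fun g => ?_)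
      simp only [Pi.mul_apply]; ring)
    (by
      refine I2.neg.congr (Eventually.of_forall fun g => ?_)
      simp only [Pi.mul_apply, Pi.neg_apply]; ring)
    (by
      refine I3.neg.congr (Eventually.of_forall fun g => ?_)
      simp only [Pi.mul_apply, Pi.neg_apply]; ring)
  rw [integral_gaussianReal_eq_integral_smul hv, integral_gaussianReal_eq_integral_smul hv]
  have e1 : ∫ g, gaussianPDFReal 0 1 g • (g * φ (x + t * g)) =
      ∫ g, φ (x + t * g) * (g * gaussianPDFReal 0 1 g) := by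
    refine integral_congr_ae (Eventually.of_forall fun g => ?_)
    simp only [smul_eq_mul]; ring
  have e2 : t * ∫ g, gaussianPDFReal 0 1 g • φ1 (x + t * g) =
      - ∫ g, t * φ1 (x + t * g) * -gaussianPDFReal 0 1 g := by
    rw [← integral_const_mul, ← integral_neg]
    refine integral_congr_ae (Eventually.of_forall fun g => ?_)
    simp only [smul_eq_mul]; ring
  rw [e1, e2]
  exact key

/-- derivative in the standard deviation -/
theorem H_deriv_t {φ φ1 φ2 : ℝ → ℝ} (hφ : EG φ) (hφ1 : EG φ1) (hφ2 : EG φ2)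
    (hd : ∀ x, HasDerivAt φ (φ1 x) x) (hd1 : ∀ x, HasDerivAt φ1 (φ2 x) x) (t x : ℝ) :
    HasDerivAt (fun t => H t φ x) (t * H t φ2 x) t := by
  rw [← stein hφ1 hφ2 hd1 t x]
  exact H_deriv_t' hφ hφ1 hd t x

/-- derivative in the variance -/
theorem H_deriv_v {φ φ1 φ2 : ℝ → ℝ} (hφ : EG φ) (hφ1 : EG φ1) (hφ2 : EG φ2)
    (hd : ∀ x, HasDerivAt φ (φ1 x) x) (hd1 : ∀ x, HasDerivAt φ1 (φ2 x) x) {v : ℝ} (hv : 0 < v)
    (x : ℝ) : HasDerivAt (fun v => H (Real.sqrt v) φ x) (1 / 2 * H (Real.sqrt v) φ2 x) v := by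
  have h1 := H_deriv_t hφ hφ1 hφ2 hd hd1 (Real.sqrt v) x
  have h2 := Real.hasDerivAt_sqrt hv.ne'
  have h3 := h1.comp v h2
  have hs : Real.sqrt v ≠ 0 := (Real.sqrt_pos.2 hv).ne'
  have e : Real.sqrt v * H (Real.sqrt v) φ2 x * (1 / (2 * Real.sqrt v)) =
      1 / 2 * H (Real.sqrt v) φ2 x := by
    field_simp
  rw [e] at h3
  exact h3

end

end Crest.Agent.R164.GC
end

-- ▼ part R164/GCalc2

/-!
Row 164: tilted averages and derivatives of `gaussOp` (helper92).
-/

set_option autoImplicit false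

namespace Crest.Agent.R164.GC

open MeasureTheory ProbabilityTheory Filter Topology Set
open Crest.ProbabilityR.InvariantGlass

noncomputable section

/-- tilted average -/
def tE (a v : ℝ) (f φ : ℝ → ℝ) (x : ℝ) : ℝ :=
  H (Real.sqrt v) (fun y => φ y * Real.exp (a * f y)) x /
    H (Real.sqrt v) (fun y => Real.exp (a * f y)) x

/-- bounded continuous functions -/
structure BC (φ : ℝ → ℝ) (K : ℝ) : Prop where
  cont : Continuous φ
  bd : ∀ x, |φ x| ≤ K

theorem BC.nonneg {φ : ℝ → ℝ} {K : ℝ} (h : BC φ K) : 0 ≤ K := (abs_nonneg _).trans (h.bd 0)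

theorem BC.eg {φ : ℝ → ℝ} {K : ℝ} (h : BC φ K) : EG φ := EG.of_bdd h.cont h.bd

theorem BC.const (c : ℝ) : BC (fun _ => c) |c| := ⟨continuous_const, fun _ => le_rfl⟩

theorem BC.add {φ ψ : ℝ → ℝ} {K L : ℝ} (h : BC φ K) (h' : BC ψ L) :
    BC (fun x => φ x + ψ x) (K + L) :=
  ⟨h.cont.add h'.cont, fun x => (abs_add_le _ _).trans (add_le_add (h.bd x) (h'.bd x))⟩

theorem BC.sub {φ ψ : ℝ → ℝ} {K L : ℝ} (h : BC φ K) (h' : BC ψ L) :
    BC (fun x => φ x - ψ x) (K + L) :=
  ⟨h.cont.sub h'.cont, fun x => (abs_sub _ _).trans (add_le_add (h.bd x) (h'.bd x))⟩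

theorem BC.mul {φ ψ : ℝ → ℝ} {K L : ℝ} (h : BC φ K) (h' : BC ψ L) :
    BC (fun x => φ x * ψ x) (K * L) :=
  ⟨h.cont.mul h'.cont, fun x => by
    rw [abs_mul]
    exact mul_le_mul (h.bd x) (h'.bd x) (abs_nonneg _) h.nonneg⟩

theorem BC.const_mul {φ : ℝ → ℝ} {K : ℝ} (h : BC φ K) (c : ℝ) :
    BC (fun x => c * φ x) (|c| * K) := (BC.const c).mul h

theorem BC.pow {φ : ℝ → ℝ} {K : ℝ} (h : BC φ K) (n : ℕ) :
    BC (fun x => φ x ^ n) (K ^ n) :=
  ⟨h.cont.pow n, fun x => by
    rw [abs_pow]
    exact pow_le_pow_left₀ (abs_nonneg _) (h.bd x) n⟩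

theorem BC.mono {φ : ℝ → ℝ} {K L : ℝ} (h : BC φ K) (hKL : K ≤ L) : BC φ L :=
  ⟨h.cont, fun x => (h.bd x).trans hKL⟩

/-- 1-Lipschitz functions -/
def Lip1 (f : ℝ → ℝ) : Prop := ∀ x y, f x ≤ f y + |x - y|

section tE

variable {a v : ℝ} {f : ℝ → ℝ}

theorem den_pos (hf : Lip1 f) (a t x : ℝ) : 0 < H t (fun y => Real.exp (a * f y)) x :=
  H_pos (EG.exp_lip hf a) (fun _ => Real.exp_pos _) t x

theorem tE_add (hf : Lip1 f) (a v : ℝ) {φ ψ : ℝ → ℝ} (hφ : EG φ) (hψ : EG ψ) (x : ℝ) :
    tE a v f (fun y => φ y + ψ y) x = tE a v f φ x + tE a v f ψ x := by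
  unfold tE
  rw [← add_div, ← H_add (hφ.mul (EG.exp_lip hf a)) (hψ.mul (EG.exp_lip hf a))]
  simp only [add_mul]

theorem tE_sub (hf : Lip1 f) (a v : ℝ) {φ ψ : ℝ → ℝ} (hφ : EG φ) (hψ : EG ψ) (x : ℝ) :
    tE a v f (fun y => φ y - ψ y) x = tE a v f φ x - tE a v f ψ x := by
  unfold tE
  rw [← sub_div, ← H_sub (hφ.mul (EG.exp_lip hf a)) (hψ.mul (EG.exp_lip hf a))]
  simp only [sub_mul]

theorem tE_const_mul (a v : ℝ) (f φ : ℝ → ℝ) (c x : ℝ) :
    tE a v f (fun y => c * φ y) x = c * tE a v f φ x := by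
  unfold tE
  rw [← mul_div_assoc, ← H_const_mul]
  simp only [mul_assoc]

theorem tE_const (hf : Lip1 f) (a v c x : ℝ) : tE a v f (fun _ => c) x = c := by
  unfold tE
  rw [H_const_mul, mul_div_assoc, div_self (den_pos hf a _ x).ne', mul_one]

theorem tE_mono (hf : Lip1 f) (a v : ℝ) {φ ψ : ℝ → ℝ} (hφ : EG φ) (hψ : EG ψ)
    (h : ∀ y, φ y ≤ ψ y) (x : ℝ) : tE a v f φ x ≤ tE a v f ψ x := by
  unfold tE
  refine div_le_div_of_nonneg_right ?_ (den_pos hf a _ x).le
  exact H_mono (hφ.mul (EG.exp_lip hf a)) (hψ.mul (EG.exp_lip hf a))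
    (fun y => mul_le_mul_of_nonneg_right (h y) (Real.exp_pos _).le) _ _

theorem tE_abs_le (hf : Lip1 f) (a v : ℝ) {φ : ℝ → ℝ} {K : ℝ} (hφ : BC φ K) (x : ℝ) :
    |tE a v f φ x| ≤ K := by
  rw [abs_le]
  constructor
  · have := tE_mono hf a v (EG.const (-K)) hφ.eg (fun y => (abs_le.1 (hφ.bd y)).1) x
    rwa [tE_const hf] at this
  · have := tE_mono hf a v hφ.eg (EG.const K) (fun y => (abs_le.1 (hφ.bd y)).2) x
    rwa [tE_const hf] at this

theorem tE_continuous (hf : Lip1 f) (a : ℝ) {φ : ℝ → ℝ} (hφ : EG φ) :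
    Continuous (fun p : ℝ × ℝ => tE a p.1 f φ p.2) := by
  unfold tE
  have h1 := H_continuous (hφ.mul (EG.exp_lip hf a))
  have h2 := H_continuous (EG.exp_lip hf a)
  have hs : Continuous (fun p : ℝ × ℝ => (Real.sqrt p.1, p.2)) := by fun_prop
  exact (h1.comp hs).div (h2.comp hs) fun p => (den_pos hf a _ _).ne'

theorem tE_BC (hf : Lip1 f) (a v : ℝ) {φ : ℝ → ℝ} {K : ℝ} (hφ : BC φ K) :
    BC (tE a v f φ) K :=
  ⟨(tE_continuous hf a hφ.eg).comp (by fun_prop : Continuous fun x : ℝ => (v, x)),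
    fun x => tE_abs_le hf a v hφ x⟩

theorem tE_sq_le (hf : Lip1 f) (a v : ℝ) {φ : ℝ → ℝ} (hφ : EG φ) (x : ℝ) :
    (tE a v f φ x) ^ 2 ≤ tE a v f (fun y => φ y ^ 2) x := by
  set m := tE a v f φ x with hm
  have h1 := tE_mono hf a v (EG.const 0) ((hφ.sub (EG.const m)).pow 2)
    (fun y => sq_nonneg (φ y - m)) x
  have h2 : tE a v f (fun y => (φ y - m) ^ 2) x = tE a v f (fun y => φ y ^ 2) x - m ^ 2 := by
    have e : (fun y => (φ y - m) ^ 2) = fun y => (φ y ^ 2 - (2 * m) * φ y) + m ^ 2 := by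
      funext y; ring
    rw [e, tE_add hf a v ((hφ.pow 2).sub (hφ.const_mul _)) (EG.const _),
      tE_sub hf a v (hφ.pow 2) (hφ.const_mul _), tE_const_mul, tE_const hf, ← hm]
    ring
  rw [h2, tE_const hf] at h1
  linarith

end tE

/-- `C²` functions with `|f'| ≤ 1`, `|f''| ≤ C` -/
structure Sm (f f1 f2 : ℝ → ℝ) (C : ℝ) : Prop where
  d1 : ∀ x, HasDerivAt f (f1 x) x
  d2 : ∀ x, HasDerivAt f1 (f2 x) x
  c2 : Continuous f2
  b1 : ∀ x, |f1 x| ≤ 1
  b2 : ∀ x, |f2 x| ≤ C

theorem Sm.lip {f f1 f2 : ℝ → ℝ} {C : ℝ} (h : Sm f f1 f2 C) : Lip1 f := by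
  intro x y
  have h1 := Convex.norm_image_sub_le_of_norm_hasDerivWithin_le (f := f) (f' := f1) (C := 1)
    (s := univ) (fun x _ => (h.d1 x).hasDerivWithinAt) (fun x _ => h.b1 x) convex_univ
    (mem_univ y) (mem_univ x)
  rw [Real.norm_eq_abs, Real.norm_eq_abs, one_mul] at h1
  have := le_abs_self (f x - f y)
  linarith

theorem Sm.c1 {f f1 f2 : ℝ → ℝ} {C : ℝ} (h : Sm f f1 f2 C) : Continuous f1 :=
  continuous_iff_continuousAt.2 fun x => (h.d2 x).continuousAt

theorem Sm.B1 {f f1 f2 : ℝ → ℝ} {C : ℝ} (h : Sm f f1 f2 C) : BC f1 1 := ⟨h.c1, h.b1⟩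

theorem Sm.B2 {f f1 f2 : ℝ → ℝ} {C : ℝ} (h : Sm f f1 f2 C) : BC f2 C := ⟨h.c2, h.b2⟩

theorem Sm.eg {f f1 f2 : ℝ → ℝ} {C : ℝ} (h : Sm f f1 f2 C) : EG f := EG.lip h.lip

theorem Sm.dexp {f f1 f2 : ℝ → ℝ} {C : ℝ} (h : Sm f f1 f2 C) (a x : ℝ) :
    HasDerivAt (fun y => Real.exp (a * f y)) (a * (f1 x * Real.exp (a * f x))) x := by
  have := ((h.d1 x).const_mul a).exp
  refine this.congr_deriv ?_
  ring

/-- derivative of the numerator -/
theorem Sm.dnum {f f1 f2 : ℝ → ℝ} {C : ℝ} (h : Sm f f1 f2 C) (a : ℝ) {φ φ1 : ℝ → ℝ} {x : ℝ}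
    (hφ : HasDerivAt φ (φ1 x) x) :
    HasDerivAt (fun y => φ y * Real.exp (a * f y))
      ((φ1 x + a * (φ x * f1 x)) * Real.exp (a * f x)) x := by
  have := hφ.fun_mul (h.dexp a x)
  refine this.congr_deriv ?_
  ring

theorem tE_deriv_x {f f1 f2 : ℝ → ℝ} {C : ℝ} (h : Sm f f1 f2 C) (a v : ℝ) {φ φ1 : ℝ → ℝ}
    (hφ : EG φ) (hφ1 : EG φ1) (hd : ∀ x, HasDerivAt φ (φ1 x) x) (x : ℝ) :
    HasDerivAt (fun x => tE a v f φ x)
      (tE a v f φ1 x + a * (tE a v f (fun y => φ y * f1 y) x - tE a v f φ x * tE a v f f1 x)) x := by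
  have hE := EG.exp_lip h.lip a
  have hN : HasDerivAt (fun x => H (Real.sqrt v) (fun y => φ y * Real.exp (a * f y)) x)
      (H (Real.sqrt v) (fun y => (φ1 y + a * (φ y * f1 y)) * Real.exp (a * f y)) x) x :=
    H_deriv_x (hφ.mul hE) ((hφ1.add ((hφ.mul h.B1.eg).const_mul a)).mul hE)
      (fun x => h.dnum a (hd x)) _ _
  have hD : HasDerivAt (fun x => H (Real.sqrt v) (fun y => Real.exp (a * f y)) x)
      (H (Real.sqrt v) (fun y => a * (f1 y * Real.exp (a * f y))) x) x :=
    H_deriv_x hE ((h.B1.eg.mul hE).const_mul a) (h.dexp a) _ _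
  have hpos := den_pos h.lip a (Real.sqrt v) x
  have hq := hN.fun_div hD hpos.ne'
  unfold tE
  refine hq.congr_deriv ?_
  have e1 : H (Real.sqrt v) (fun y => (φ1 y + a * (φ y * f1 y)) * Real.exp (a * f y)) x =
      H (Real.sqrt v) (fun y => φ1 y * Real.exp (a * f y)) x +
        a * H (Real.sqrt v) (fun y => φ y * f1 y * Real.exp (a * f y)) x := by
    rw [← H_const_mul, ← H_add (hφ1.mul hE) (((hφ.mul h.B1.eg).mul hE).const_mul a)]
    congr 1
    funext y
    ring
  rw [e1, H_const_mul]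
  field_simp
  ring

theorem gaussOp_zero (v : ℝ) (f : ℝ → ℝ) (x : ℝ) :
    gaussOp 0 v f x = H (Real.sqrt v) f x := by
  unfold gaussOp H
  rw [if_pos rfl]

theorem gaussOp_ne {a : ℝ} (ha : a ≠ 0) (v : ℝ) (f : ℝ → ℝ) (x : ℝ) :
    gaussOp a v f x = a⁻¹ * Real.log (H (Real.sqrt v) (fun y => Real.exp (a * f y)) x) := by
  unfold gaussOp H
  rw [if_neg ha]

theorem tE_zero (v : ℝ) (f φ : ℝ → ℝ) (x : ℝ) : tE 0 v f φ x = H (Real.sqrt v) φ x := by
  unfold tE
  simp [H_const]

/-- position derivative of the Gaussian operator -/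
theorem gaussOp_deriv_x {f f1 f2 : ℝ → ℝ} {C : ℝ} (h : Sm f f1 f2 C) (a v x : ℝ) :
    HasDerivAt (gaussOp a v f) (tE a v f f1 x) x := by
  by_cases ha : a = 0
  · subst ha
    have e : gaussOp 0 v f = fun x => H (Real.sqrt v) f x := funext fun x => gaussOp_zero v f x
    rw [e, tE_zero]
    exact H_deriv_x h.eg h.B1.eg h.d1 _ _
  · have e : gaussOp a v f = fun x =>
        a⁻¹ * Real.log (H (Real.sqrt v) (fun y => Real.exp (a * f y)) x) :=
      funext fun x => gaussOp_ne ha v f x
    have hE := EG.exp_lip h.lip a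
    have hD : HasDerivAt (fun x => H (Real.sqrt v) (fun y => Real.exp (a * f y)) x)
        (H (Real.sqrt v) (fun y => a * (f1 y * Real.exp (a * f y))) x) x :=
      H_deriv_x hE ((h.B1.eg.mul hE).const_mul a) (h.dexp a) _ _
    have hpos := den_pos h.lip a (Real.sqrt v) x
    have := (hD.log hpos.ne').const_mul a⁻¹
    rw [e]
    refine this.congr_deriv ?_
    unfold tE
    rw [H_const_mul]
    field_simp

/-- the second position derivative -/
def g2 (a v : ℝ) (f f1 f2 : ℝ → ℝ) (x : ℝ) : ℝ :=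
  tE a v f f2 x + a * (tE a v f (fun y => f1 y ^ 2) x - tE a v f f1 x ^ 2)

theorem gaussOp_sm {f f1 f2 : ℝ → ℝ} {C : ℝ} (h : Sm f f1 f2 C) {a : ℝ} (ha : 0 ≤ a)
    (ha1 : a ≤ 1) (v : ℝ) :
    Sm (gaussOp a v f) (tE a v f f1) (g2 a v f f1 f2) (C + 1) := by
  refine ⟨gaussOp_deriv_x h a v, fun x => ?_, ?_, fun x => tE_abs_le h.lip a v h.B1 x,
    fun x => ?_⟩
  · have := tE_deriv_x h a v h.B1.eg h.B2.eg h.d2 x
    unfold g2
    simp only [sq]
    exact this
  · unfold g2
    have c1 := (tE_BC h.lip a v h.B2).cont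
    have c2 := (tE_BC h.lip a v (h.B1.pow 2)).cont
    have c3 := (tE_BC h.lip a v h.B1).cont
    fun_prop
  · unfold g2
    have b1 := tE_abs_le h.lip a v h.B2 x
    have b2 := tE_abs_le h.lip a v (h.B1.pow 2) x
    have b3 := tE_sq_le h.lip a v h.B1.eg x
    have b4 := sq_nonneg (tE a v f f1 x)
    rw [one_pow] at b2
    have b5 := (le_abs_self _).trans b2
    rw [abs_le] at b1 ⊢
    constructor
    · nlinarith
    · nlinarith

/-- variance derivative of the Gaussian operator -/
theorem gaussOp_deriv_v {f f1 f2 : ℝ → ℝ} {C : ℝ} (h : Sm f f1 f2 C) (a : ℝ) {v : ℝ}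
    (hv : 0 < v) (x : ℝ) :
    HasDerivAt (fun v => gaussOp a v f x)
      (1 / 2 * tE a v f (fun y => f2 y + a * f1 y ^ 2) x) v := by
  by_cases ha : a = 0
  · subst ha
    have e : (fun v => gaussOp 0 v f x) = fun v => H (Real.sqrt v) f x :=
      funext fun v => gaussOp_zero v f x
    rw [e, tE_zero]
    simp only [zero_mul, add_zero]
    exact H_deriv_v h.eg h.B1.eg h.B2.eg h.d1 h.d2 hv x
  · have e : (fun v => gaussOp a v f x) = fun v =>
        a⁻¹ * Real.log (H (Real.sqrt v) (fun y => Real.exp (a * f y)) x) :=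
      funext fun v => gaussOp_ne ha v f x
    have hE := EG.exp_lip h.lip a
    have hd1 : ∀ x, HasDerivAt (fun y => a * (f1 y * Real.exp (a * f y)))
        (a * ((f2 x + a * (f1 x * f1 x)) * Real.exp (a * f x))) x :=
      fun x => (h.dnum a (h.d2 x)).const_mul a
    have hD := H_deriv_v hE ((h.B1.eg.mul hE).const_mul a)
      (((h.B2.eg.add ((h.B1.eg.mul h.B1.eg).const_mul a)).mul hE).const_mul a)
      (h.dexp a) hd1 hv x
    have hpos := den_pos h.lip a (Real.sqrt v) x
    have := (hD.log hpos.ne').const_mul a⁻¹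
    rw [e]
    refine this.congr_deriv ?_
    unfold tE
    rw [H_const_mul]
    simp only [sq]
    field_simp

/-- the heat identity -/
theorem g2_add {f f1 f2 : ℝ → ℝ} {C : ℝ} (h : Sm f f1 f2 C) (a v x : ℝ) :
    g2 a v f f1 f2 x + a * tE a v f f1 x ^ 2 = tE a v f (fun y => f2 y + a * f1 y ^ 2) x := by
  unfold g2
  rw [tE_add h.lip a v h.B2.eg ((h.B1.eg.pow 2).const_mul a), tE_const_mul]
  ring

theorem gaussOp_cont_v {f f1 f2 : ℝ → ℝ} {C : ℝ} (h : Sm f f1 f2 C) (a : ℝ) :
    Continuous (fun p : ℝ × ℝ => gaussOp a p.1 f p.2) := by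
  have hs : Continuous (fun p : ℝ × ℝ => (Real.sqrt p.1, p.2)) := by fun_prop
  by_cases ha : a = 0
  · subst ha
    simp only [gaussOp_zero]
    exact (H_continuous h.eg).comp hs
  · simp only [gaussOp_ne ha]
    have h1 := (H_continuous (EG.exp_lip h.lip a)).comp hs
    exact continuous_const.mul (h1.log fun p => (den_pos h.lip a _ _).ne')

/-- mean value theorem in the variance -/
theorem gaussOp_mvt {f f1 f2 : ℝ → ℝ} {C : ℝ} (h : Sm f f1 f2 C) (a : ℝ) {v v' : ℝ}
    (hv : 0 ≤ v) (hv' : 0 ≤ v') (x : ℝ) :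
    ∃ ξ, min v v' ≤ ξ ∧ ξ ≤ max v v' ∧ gaussOp a v' f x - gaussOp a v f x =
      (v' - v) * (1 / 2 * tE a ξ f (fun y => f2 y + a * f1 y ^ 2) x) := by
  have hc : Continuous (fun v => gaussOp a v f x) :=
    (gaussOp_cont_v h a).comp (by fun_prop : Continuous fun v : ℝ => (v, x))
  rcases lt_trichotomy v v' with hlt | heq | hgt
  · obtain ⟨ξ, hξ, he⟩ := exists_hasDerivAt_eq_slope (fun v => gaussOp a v f x)
      (fun v => 1 / 2 * tE a v f (fun y => f2 y + a * f1 y ^ 2) x) hlt hc.continuousOn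
      (fun ξ hξ => gaussOp_deriv_v h a (lt_of_le_of_lt hv hξ.1) x)
    refine ⟨ξ, (min_le_left _ _).trans hξ.1.le, hξ.2.le.trans (le_max_right _ _), ?_⟩
    rw [he, mul_div_cancel₀ _ (sub_ne_zero.2 hlt.ne')]
  · subst heq
    exact ⟨v, by simp, by simp, by simp⟩
  · obtain ⟨ξ, hξ, he⟩ := exists_hasDerivAt_eq_slope (fun v => gaussOp a v f x)
      (fun v => 1 / 2 * tE a v f (fun y => f2 y + a * f1 y ^ 2) x) hgt hc.continuousOn
      (fun ξ hξ => gaussOp_deriv_v h a (lt_of_le_of_lt hv' hξ.1) x)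
    refine ⟨ξ, (min_le_right _ _).trans hξ.1.le, hξ.2.le.trans (le_max_left _ _), ?_⟩
    rw [he]
    have : v - v' ≠ 0 := sub_ne_zero.2 hgt.ne'
    field_simp
    ring

end

end Crest.Agent.R164.GC
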