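import Crest.Agent.R141.Skel31
import Crest.Agent.R164.CavG2
import Crest.Agent.R164.CavGDef
import Crest.Agent.R141.HierM

-- ▼ part R164/CavG3
section

/-!
Row 164, Gaussian cavity limit, part 3: the nested functional, one step and the chain.
-/

set_option autoImplicit false

namespace Crest.Agent.R164.CavG

open MeasureTheory ProbabilityTheory Finset Crest.Agent.R141 Crest.Agent.R141.Fact

noncomputable section

/-! ### properties of the nested functional -/

section nested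

variable {ι : Type*} [Fintype ι]

theorem exp_lip {c y L : ℝ} (hy0 : 0 ≤ y) (hy1 : y ≤ 1) (_hL : 0 ≤ L) {f : (ι → ℝ) → ℝ}
    (hf : Lip L f) (hc : ∀ z, |f z| ≤ c) : Lip (Real.exp c * L) (fun z => Real.exp (y * f z)) := by
  intro z z'
  have key : ∀ a b : ℝ, |a| ≤ c → |b| ≤ c → Real.exp (y * a) - Real.exp (y * b) ≤
      Real.exp c * |a - b| := by
    intro a b ha hb
    by_cases hab : a ≤ b
    · have : Real.exp (y * a) ≤ Real.exp (y * b) :=
        Real.exp_le_exp.2 (mul_le_mul_of_nonneg_left hab hy0)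
      have h2 : 0 ≤ Real.exp c * |a - b| := by positivity
      linarith
    · have hab : b ≤ a := le_of_lt (not_le.1 hab)
      have h1 : 1 + (y * b - y * a) ≤ Real.exp (y * b - y * a) := by
        have := Real.add_one_le_exp (y * b - y * a); linarith
      have h2 : Real.exp (y * b) = Real.exp (y * a) * Real.exp (y * b - y * a) := by
        rw [← Real.exp_add]; congr 1; ring
      have h3 : Real.exp (y * a) ≤ Real.exp c := by
        apply Real.exp_le_exp.2
        have := abs_le.1 ha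
        have hc0 : 0 ≤ c := (abs_nonneg _).trans ha
        nlinarith
      have h4 : 0 < Real.exp (y * a) := Real.exp_pos _
      rw [abs_of_nonneg (sub_nonneg.2 hab)]
      have h5 : Real.exp (y * a) - Real.exp (y * b) ≤ Real.exp (y * a) * (y * a - y * b) := by
        rw [h2]; nlinarith
      refine h5.trans ?_
      have h6 : y * a - y * b ≤ a - b := by nlinarith
      have h7 : 0 ≤ y * a - y * b := by nlinarith
      nlinarith
  have h1 := key _ _ (hc z) (hc z')
  have h2 := key _ _ (hc z') (hc z)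
  have h3 := hf z z'
  have h4 : |f z' - f z| = |f z - f z'| := abs_sub_comm _ _
  rw [h4] at h2
  have h5 : Real.exp c * |f z - f z'| ≤ Real.exp c * (L * ∑ a, |z a - z' a|) :=
    mul_le_mul_of_nonneg_left h3 (Real.exp_pos _).le
  show |Real.exp (y * f z) - Real.exp (y * f z')| ≤ Real.exp c * L * ∑ a, |z a - z' a|
  rw [abs_le]
  constructor <;> linarith

theorem exp_bounds {c y : ℝ} (hy0 : 0 ≤ y) (hy1 : y ≤ 1) {a : ℝ} (ha : |a| ≤ c) :
    Real.exp (-c) ≤ Real.exp (y * a) ∧ Real.exp (y * a) ≤ Real.exp c := by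
  have h := abs_le.1 ha
  have hc0 : 0 ≤ c := (abs_nonneg _).trans ha
  constructor <;> apply Real.exp_le_exp.2 <;> nlinarith

theorem abs_log_sub_le' {c A B : ℝ} (hA : Real.exp (-c) ≤ A) (hB : Real.exp (-c) ≤ B) :
    |Real.log A - Real.log B| ≤ Real.exp c * |A - B| := by
  have key : ∀ A B : ℝ, Real.exp (-c) ≤ A → Real.exp (-c) ≤ B →
      Real.log A - Real.log B ≤ Real.exp c * |A - B| := by
    intro A B hA hB
    have hA0 : 0 < A := lt_of_lt_of_le (Real.exp_pos _) hA
    have hB0 : 0 < B := lt_of_lt_of_le (Real.exp_pos _) hB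
    have h1 : Real.log A - Real.log B ≤ A / B - 1 := by
      rw [← Real.log_div hA0.ne' hB0.ne']
      have := Real.log_le_sub_one_of_pos (div_pos hA0 hB0)
      exact this
    have h2 : A / B - 1 = (A - B) * B⁻¹ := by field_simp
    rw [h2] at h1
    refine h1.trans ?_
    have h3 : B⁻¹ ≤ Real.exp c := by
      rw [inv_le_comm₀ hB0 (Real.exp_pos _), ← Real.exp_neg]
      exact hB
    have h4 : (A - B) * B⁻¹ ≤ |A - B| * B⁻¹ :=
      mul_le_mul_of_nonneg_right (le_abs_self _) (inv_nonneg.2 hB0.le)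
    have h5 : |A - B| * B⁻¹ ≤ |A - B| * Real.exp c :=
      mul_le_mul_of_nonneg_left h3 (abs_nonneg _)
    linarith [mul_comm (|A - B|) (Real.exp c)]
  rw [abs_le]
  have h1 := key A B hA hB
  have h2 := key B A hB hA
  rw [abs_sub_comm B A] at h2
  constructor <;> linarith

theorem gstep_eq_sm (y : ℝ) (v : ι → ℝ) (f : (ι → ℝ) → ℝ) (z : ι → ℝ) :
    gstep y v f z = (1 / y) * Real.log (sm v (fun z => Real.exp (y * f z)) z) := rfl

theorem sm_exp_bounds {c y L : ℝ} (hy0 : 0 ≤ y) (hy1 : y ≤ 1) (hL : 0 ≤ L) {f : (ι → ℝ) → ℝ}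
    (hf : Lip L f) (hc : ∀ z, |f z| ≤ c) (v : ι → ℝ) (z : ι → ℝ) :
    Real.exp (-c) ≤ sm v (fun z => Real.exp (y * f z)) z ∧
      sm v (fun z => Real.exp (y * f z)) z ≤ Real.exp c := by
  have hi := integrable_shift v (exp_lip hy0 hy1 hL hf hc) z
  unfold sm
  constructor
  · have : ∫ _g : ι → ℝ, Real.exp (-c) ∂(gm ι) ≤ ∫ g : ι → ℝ,
        Real.exp (y * f (fun k => z k + Real.sqrt (v k) * g k)) ∂(gm ι) :=
      integral_mono (integrable_const _) hi fun g => (exp_bounds hy0 hy1 (hc _)).1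
    simpa using this
  · have : ∫ g : ι → ℝ, Real.exp (y * f (fun k => z k + Real.sqrt (v k) * g k)) ∂(gm ι) ≤
        ∫ _g : ι → ℝ, Real.exp c ∂(gm ι) :=
      integral_mono hi (integrable_const _) fun g => (exp_bounds hy0 hy1 (hc _)).2
    simpa using this

theorem gstep_bound {c y L : ℝ} (hy0 : 0 < y) (hL : 0 ≤ L) {f : (ι → ℝ) → ℝ}
    (hf : Lip L f) (hc : ∀ z, |f z| ≤ c) (v : ι → ℝ) (hy1 : y ≤ 1) (z : ι → ℝ) :
    |gstep y v f z| ≤ c := by
  have hi := integrable_shift v (exp_lip hy0.le hy1 hL hf hc) z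
  have h1 : Real.exp (-(y * c)) ≤ sm v (fun z => Real.exp (y * f z)) z := by
    have : ∫ _g : ι → ℝ, Real.exp (-(y * c)) ∂(gm ι) ≤ ∫ g : ι → ℝ,
        Real.exp (y * f (fun k => z k + Real.sqrt (v k) * g k)) ∂(gm ι) :=
      integral_mono (integrable_const _) hi fun g => Real.exp_le_exp.2 (by
        have := (abs_le.1 (hc (fun k => z k + Real.sqrt (v k) * g k))).1
        nlinarith)
    simpa [sm] using this
  have h2 : sm v (fun z => Real.exp (y * f z)) z ≤ Real.exp (y * c) := by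
    have : ∫ g : ι → ℝ, Real.exp (y * f (fun k => z k + Real.sqrt (v k) * g k)) ∂(gm ι) ≤
        ∫ _g : ι → ℝ, Real.exp (y * c) ∂(gm ι) :=
      integral_mono hi (integrable_const _) fun g => Real.exp_le_exp.2 (by
        have := (abs_le.1 (hc (fun k => z k + Real.sqrt (v k) * g k))).2
        nlinarith)
    simpa [sm] using this
  have h0 : 0 < sm v (fun z => Real.exp (y * f z)) z := lt_of_lt_of_le (Real.exp_pos _) h1
  have h3 := Real.log_le_log (Real.exp_pos _) h1
  have h4 := Real.log_le_log h0 h2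
  rw [Real.log_exp] at h3 h4
  rw [gstep_eq_sm, abs_le]
  have hinv : 0 < 1 / y := by positivity
  constructor
  · have := mul_le_mul_of_nonneg_left h3 hinv.le
    have e : 1 / y * -(y * c) = -c := by field_simp
    linarith
  · have := mul_le_mul_of_nonneg_left h4 hinv.le
    have e : 1 / y * (y * c) = c := by field_simp
    linarith

/-- a step preserves the Lipschitz constant. -/
theorem gstep_lip {c y L : ℝ} (hy0 : 0 < y) (hy1 : y ≤ 1) (hL : 0 ≤ L) {f : (ι → ℝ) → ℝ}
    (hf : Lip L f) (hc : ∀ z, |f z| ≤ c) (v : ι → ℝ) : Lip L (gstep y v f) := by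
  have key : ∀ z z', gstep y v f z - gstep y v f z' ≤ L * ∑ a, |z a - z' a| := by
    intro z z'
    have hi := integrable_shift v (exp_lip hy0.le hy1 hL hf hc)
    have h1 : sm v (fun z => Real.exp (y * f z)) z ≤
        Real.exp (y * (L * ∑ a, |z a - z' a|)) * sm v (fun z => Real.exp (y * f z)) z' := by
      unfold sm
      rw [← integral_const_mul]
      refine integral_mono (hi z) ((hi z').const_mul _) fun g => ?_
      show Real.exp _ ≤ _ * Real.exp _
      rw [← Real.exp_add]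
      apply Real.exp_le_exp.2
      have h2 := hf (fun k => z k + Real.sqrt (v k) * g k) (fun k => z' k + Real.sqrt (v k) * g k)
      have h3 : ∑ a, |(z a + Real.sqrt (v a) * g a) - (z' a + Real.sqrt (v a) * g a)| =
          ∑ a, |z a - z' a| := Finset.sum_congr rfl fun a _ => by congr 1; ring
      rw [h3] at h2
      have h4 := (abs_le.1 h2).2
      nlinarith
    have hp := sm_exp_bounds hy0.le hy1 hL hf hc v
    have h0 : 0 < sm v (fun z => Real.exp (y * f z)) z := lt_of_lt_of_le (Real.exp_pos _) (hp z).1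
    have h0' : 0 < sm v (fun z => Real.exp (y * f z)) z' :=
      lt_of_lt_of_le (Real.exp_pos _) (hp z').1
    have h5 := Real.log_le_log h0 h1
    rw [Real.log_mul (Real.exp_pos _).ne' h0'.ne', Real.log_exp] at h5
    rw [gstep_eq_sm, gstep_eq_sm]
    have hinv : 0 < 1 / y := by positivity
    have h6 := mul_le_mul_of_nonneg_left h5 hinv.le
    have e : 1 / y * (y * (L * ∑ a, |z a - z' a|) + Real.log (sm v (fun z => Real.exp (y * f z)) z'))
        = L * ∑ a, |z a - z' a| + 1 / y * Real.log (sm v (fun z => Real.exp (y * f z)) z') := by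
      field_simp
    linarith
  intro z z'
  rw [abs_le]
  have h1 := key z z'
  have h2 := key z' z
  have h3 : ∑ a, |z' a - z a| = ∑ a, |z a - z' a| :=
    Finset.sum_congr rfl fun a _ => abs_sub_comm _ _
  rw [h3] at h2
  constructor <;> linarith

theorem th_lip_bound {c L : ℝ} {y : ℕ → ℝ} {J : ℕ} (hy0 : ∀ n ≤ J, 0 < y n)
    (hy1 : ∀ n ≤ J, y n ≤ 1) (hL : 0 ≤ L) {w : (ι → ℝ) → ℝ} (hw : Lip L w)
    (hc : ∀ z, |w z| ≤ c) (v : ℕ → ι → ℝ) :
    ∀ n ≤ J + 1, Lip L (th y v w n) ∧ ∀ z, |th y v w n z| ≤ c := by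
  intro n
  induction n with
  | zero => exact fun _ => ⟨hw, hc⟩
  | succ n ih =>
    intro hn
    obtain ⟨h1, h2⟩ := ih (by omega)
    rw [th_succ]
    exact ⟨gstep_lip (hy0 n (by omega)) (hy1 n (by omega)) hL h1 h2 _,
      gstep_bound (hy0 n (by omega)) hL h1 h2 _ (hy1 n (by omega))⟩

end nested

/-! ### purity of conditional expectations -/

section purity

variable {Ω κ : Type*} [Fintype Ω] [Fintype κ] {P : Ω → ℝ} {r s : Setoid Ω}

theorem cE_comm (hP : IsProb P) (F : Ω → Ω → ℝ) (ω a : Ω) :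
    cE P r (fun b => cE P s (fun a' => F a' b) a) ω =
      cE P s (fun a' => cE P r (fun b => F a' b) ω) a := by
  classical
  obtain ⟨t, w, -, -, -, hw⟩ := cE_weights hP r ω
  obtain ⟨t', w', -, -, -, hw'⟩ := cE_weights hP s a
  simp_rw [hw, hw', Finset.mul_sum]
  rw [Finset.sum_comm]
  refine Finset.sum_congr rfl fun a _ => Finset.sum_congr rfl fun b _ => ?_
  ring

theorem pur_cEv_le (hP : IsProb P) (h : s ≤ r) (x : Ω → κ → ℝ) :
    pur P r (cEv P s x) ≤ pur P r x := by
  unfold pur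
  refine eE_mono hP fun ω => ?_
  have e1 := cE2_sq (P := P) (r := r) (cEv P s x) (fun _ => 1) ω
  have e2 := cE2_sq (P := P) (r := r) x (fun _ => 1) ω
  simp only [one_mul] at e1 e2
  rw [← e1, ← e2]
  set D : Ω → Ω → ℝ := fun a b => ∑ i, dv P r x ω a i * dv P r x ω b i with hD
  have hdv : ∀ a i, dv P r (cEv P s x) ω a i = cE P s (fun a' => dv P r x ω a' i) a := by
    intro a i
    unfold dv
    rw [cE_sub, cE_const hP, cEv_tower hP h]
    rfl
  have h1 : ∀ a b, ∑ i, dv P r (cEv P s x) ω a i * dv P r (cEv P s x) ω b i =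
      cE P s (fun a' => cE P s (fun b' => D a' b') b) a := by
    intro a b
    have e3 : ∀ a', cE P s (fun b' => D a' b') b =
        ∑ i, dv P r x ω a' i * cE P s (fun b' => dv P r x ω b' i) b := by
      intro a'
      simp only [hD]
      rw [cE_sum]
      exact Finset.sum_congr rfl fun i _ => cE_smul _ _ _ _ _
    simp_rw [e3]
    rw [cE_sum]
    refine Finset.sum_congr rfl fun i _ => ?_
    rw [hdv, hdv]
    have e4 : ∀ a', dv P r x ω a' i * cE P s (fun b' => dv P r x ω b' i) b =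
        cE P s (fun b' => dv P r x ω b' i) b * dv P r x ω a' i := fun a' => mul_comm _ _
    simp_rw [e4]
    rw [cE_smul, mul_comm]
  have h2 : ∀ a b, (∑ i, dv P r (cEv P s x) ω a i * dv P r (cEv P s x) ω b i) ^ 2 ≤
      cE P s (fun a' => cE P s (fun b' => D a' b' ^ 2) b) a := by
    intro a b
    rw [h1]
    refine (cE_sq_le hP s _ a).trans (cE_mono hP a fun a' _ => ?_)
    exact cE_sq_le hP s _ b
  refine (cE_mono (r := r) hP ω fun a _ => cE_mono (r := r) hP ω fun b _ => h2 a b).trans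
    (le_of_eq ?_)
  have h3 : ∀ a, cE P r (fun b => cE P s (fun a' => cE P s (fun b' => D a' b' ^ 2) b) a) ω =
      cE P s (fun a' => cE P r (fun b' => D a' b' ^ 2) ω) a := by
    intro a
    rw [cE_comm hP (fun a' b => cE P s (fun b' => D a' b' ^ 2) b) ω a]
    congr 1
    funext a'
    exact cE_tower hP h _ ω
  simp_rw [h3]
  exact cE_tower hP h _ ω

theorem sum_sq_cEv_le (hP : IsProb P) {x : Ω → κ → ℝ} {C : ℝ} (hC : ∀ ω, ∑ i, x ω i ^ 2 ≤ C)
    (ω : Ω) : ∑ i, cEv P r x ω i ^ 2 ≤ C := by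
  have h1 : ∑ i, cEv P r x ω i ^ 2 ≤ ∑ i, cE P r (fun a => x a i ^ 2) ω :=
    Finset.sum_le_sum fun i _ => cE_sq_le hP r _ ω
  refine h1.trans ?_
  rw [← cE_sum]
  exact cE_le_of_le hP hC ω

end purity

end

end Crest.Agent.R164.CavG
end

-- ▼ part R164/CavG4
section

/-!
Row 164, Gaussian cavity limit, part 4: product with an independent label space, one step.
-/

set_option autoImplicit false

namespace Crest.Agent.R164.CavG

open MeasureTheory ProbabilityTheory Finset Crest.Agent.R141 Crest.Agent.R141.Fact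

noncomputable section

section prod

variable {Ω Λ : Type*} [Fintype Ω] [Fintype Λ] {P : Ω → ℝ} {P2 : Λ → ℝ}

/-- product law. -/
def pP (P : Ω → ℝ) (P2 : Λ → ℝ) : Ω × Λ → ℝ := fun p => P p.1 * P2 p.2

theorem pP_isProb (hP : IsProb P) (hP2 : IsProb P2) : IsProb (pP P P2) := by
  constructor
  · intro p; exact mul_pos (hP.pos _) (hP2.pos _)
  · unfold pP
    rw [Fintype.sum_prod_type]
    simp_rw [← Finset.mul_sum, hP2.sum, mul_one]
    exact hP.sum

theorem eE_pP (f : Ω × Λ → ℝ) :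
    eE (pP P P2) f = eE P (fun a => eE P2 (fun b => f (a, b))) := by
  unfold eE pP
  rw [Fintype.sum_prod_type]
  refine Finset.sum_congr rfl fun a _ => ?_
  rw [Finset.mul_sum]
  exact Finset.sum_congr rfl fun b _ => by ring

theorem eE_comm (f : Ω → Λ → ℝ) :
    eE P (fun a => eE P2 (fun b => f a b)) = eE P2 (fun b => eE P (fun a => f a b)) := by
  unfold eE
  simp_rw [Finset.mul_sum]
  rw [Finset.sum_comm]
  exact Finset.sum_congr rfl fun a _ => Finset.sum_congr rfl fun b _ => by ring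

theorem cE_pP (r : Setoid Ω) (s : Setoid Λ) (f : Ω × Λ → ℝ) (p : Ω × Λ) :
    cE (pP P P2) (r.prod s) f p =
      cE P r (fun a => cE P2 s (fun b => f (a, b)) p.2) p.1 := by
  classical
  simp only [cE_eq_ite]
  have h1 : ∀ q : Ω × Λ, (r.prod s) p q ↔ r p.1 q.1 ∧ s p.2 q.2 := fun q => Iff.rfl
  simp only [h1, pP]
  rw [Fintype.sum_prod_type, Fintype.sum_prod_type]
  set B := ∑ b, if s p.2 b then P2 b else 0 with hB
  set A := ∑ a, if r p.1 a then P a else 0 with hA
  have e1 : ∀ a, (∑ b, if r p.1 a ∧ s p.2 b then P a * P2 b else 0) =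
      if r p.1 a then P a * B else 0 := by
    intro a
    by_cases h : r p.1 a
    · simp only [h, true_and, if_true]
      rw [hB, Finset.mul_sum]
      refine Finset.sum_congr rfl fun b _ => ?_
      split_ifs <;> simp
    · simp [h]
  have e2 : ∀ a, (∑ b, if r p.1 a ∧ s p.2 b then P a * P2 b * f (a, b) else 0) =
      if r p.1 a then P a * (∑ b, if s p.2 b then P2 b * f (a, b) else 0) else 0 := by
    intro a
    by_cases h : r p.1 a
    · simp only [h, true_and, if_true]
      rw [Finset.mul_sum]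
      refine Finset.sum_congr rfl fun b _ => ?_
      split_ifs <;> ring
    · simp [h]
  simp_rw [e1, e2]
  have e3 : (∑ a, if r p.1 a then P a * B else 0) = A * B := by
    rw [hA, Finset.sum_mul]
    refine Finset.sum_congr rfl fun a _ => ?_
    split_ifs <;> simp
  have e4 : (∑ a, if r p.1 a then P a * ((∑ b, if s p.2 b then P2 b * f (a, b) else 0) / B)
      else 0) = (∑ a, if r p.1 a then P a * (∑ b, if s p.2 b then P2 b * f (a, b) else 0) else 0) /
        B := by
    rw [Finset.sum_div]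
    refine Finset.sum_congr rfl fun a _ => ?_
    split_ifs
    · ring
    · simp
  rw [e3, e4, div_div, mul_comm B A]

theorem cE_pP' (r : Setoid Ω) (s : Setoid Λ) (f : Ω × Λ → ℝ) (p : Ω × Λ) :
    cE (pP P P2) (r.prod s) f p =
      cE P2 s (fun b => cE P r (fun a => f (a, b)) p.1) p.2 := by
  rw [cE_pP]
  classical
  simp only [cE_eq_ite]
  simp_rw [Finset.sum_div, div_eq_mul_inv]
  have e1 : ∀ a, (if r p.1 a then P a * ∑ b, (if s p.2 b then P2 b * f (a, b) else 0) *
      (∑ b, if s p.2 b then P2 b else 0)⁻¹ else 0) * (∑ a, if r p.1 a then P a else 0)⁻¹ =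
      ∑ b, if r p.1 a ∧ s p.2 b then P a * P2 b * f (a, b) *
        ((∑ b, if s p.2 b then P2 b else 0)⁻¹ * (∑ a, if r p.1 a then P a else 0)⁻¹) else 0 := by
    intro a
    by_cases h : r p.1 a
    · simp only [h, true_and, if_true]
      rw [Finset.mul_sum, Finset.sum_mul]
      refine Finset.sum_congr rfl fun b _ => ?_
      split_ifs <;> ring
    · simp [h]
  have e2 : ∀ b, (if s p.2 b then P2 b * ∑ a, (if r p.1 a then P a * f (a, b) else 0) *
      (∑ a, if r p.1 a then P a else 0)⁻¹ else 0) * (∑ b, if s p.2 b then P2 b else 0)⁻¹ =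
      ∑ a, if r p.1 a ∧ s p.2 b then P a * P2 b * f (a, b) *
        ((∑ b, if s p.2 b then P2 b else 0)⁻¹ * (∑ a, if r p.1 a then P a else 0)⁻¹) else 0 := by
    intro b
    by_cases h : s p.2 b
    · simp only [h, and_true, if_true]
      rw [Finset.mul_sum, Finset.sum_mul]
      refine Finset.sum_congr rfl fun a _ => ?_
      split_ifs <;> ring
    · simp [h]
  simp_rw [e1, e2]
  rw [Finset.sum_comm]

end prod

theorem le_sqrt_of_forall {a S : ℝ} (hS : 0 ≤ S) (h : ∀ t : ℝ, 0 < t → a ≤ (t + S / t) / 2) :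
    a ≤ Real.sqrt S := by
  rcases hS.eq_or_lt with h0 | h0
  · rw [← h0, Real.sqrt_zero]
    refine le_of_forall_pos_le_add fun ε hε => ?_
    have := h (2 * ε) (by positivity)
    rw [← h0, zero_div] at this
    linarith
  · have hs := Real.sqrt_pos.2 h0
    have := h _ hs
    have e : S / Real.sqrt S = Real.sqrt S := by
      rw [div_eq_iff hs.ne', Real.mul_self_sqrt hS]
    rw [e] at this
    linarith

section meas

variable {Ω : Type*} [Fintype Ω] {P : Ω → ℝ} {r : Setoid Ω} {Z : Type*} [MeasurableSpace Z]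

theorem measurable_cE {f : Z → Ω → ℝ} (hf : ∀ a, Measurable fun z => f z a) (ω : Ω) :
    Measurable fun z => cE P r (f z) ω := by
  unfold cE
  exact (Finset.measurable_sum _ fun a _ => (hf a).const_mul _).div_const _

theorem measurable_eE {f : Z → Ω → ℝ} (hf : ∀ a, Measurable fun z => f z a) :
    Measurable fun z => eE P (f z) := by
  unfold eE
  exact Finset.measurable_sum _ fun a _ => (hf a).const_mul _

theorem measurable_pm {f : Z → Ω → ℝ} (hf : ∀ a, Measurable fun z => f z a) (y : ℝ) (ω : Ω) :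
    Measurable fun z => pm P r y (f z) ω := by
  unfold pm
  refine Measurable.const_mul (Real.measurable_log.comp ?_) _
  exact measurable_cE (fun a => Real.measurable_exp.comp ((hf a).const_mul _)) ω

theorem measurable_skelA {Ω : Type} [Fintype Ω] {P : Ω → ℝ} {r : ℕ → Setoid Ω} {y : ℕ → ℝ} {f : Z → Ω → ℝ}
    (hf : ∀ a, Measurable fun z => f z a) (n : ℕ) (ω : Ω) :
    Measurable fun z => skelA P r y (f z) n ω := by
  induction n generalizing ω with
  | zero => exact hf ω
  | succ n ih => exact measurable_pm (fun a => ih a) (y n) ω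

end meas

section fieldmeas

variable {κ β : Type*} [Fintype κ] [DecidableEq β]

theorem measurable_zf (kap : κ → β) (x : κ → ℝ) : Measurable (zf kap x) := by
  refine measurable_pi_lambda _ fun k => ?_
  unfold zf
  fun_prop

variable [Fintype β]

theorem integrable_zf (kap : κ → β) (x : κ → ℝ) {L : ℝ} {F : (β → ℝ) → ℝ} (hF : Lip L F) :
    Integrable (fun ζ => F (zf kap x ζ)) (gm κ) :=
  integrable_lin (fun k i => if kap i = k then x i else 0) hF

end fieldmeas

section onestep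

variable {Ω Λ κ β : Type*} [Fintype Ω] [Fintype Λ] [Fintype κ] [Fintype β] [DecidableEq β]
  {P : Ω → ℝ} {P2 : Λ → ℝ} {r : Setoid Ω} {s : Setoid Λ}

/-- combined argument: label coordinate and block coordinates. -/
def cmb (t : ℝ) (z : β → ℝ) : Unit ⊕ β → ℝ := Sum.elim (fun _ => t) z

omit [DecidableEq β] in
theorem lip_fst {L : ℝ} {f : (Unit ⊕ β → ℝ) → ℝ} (hf : Lip L f) (z : β → ℝ) (t t' : ℝ) :
    |f (cmb t z) - f (cmb t' z)| ≤ L * |t - t'| := by
  refine (hf _ _).trans (le_of_eq ?_)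
  rw [Fintype.sum_sum_type]
  simp [cmb]

omit [DecidableEq β] in
theorem lip_snd {L : ℝ} {f : (Unit ⊕ β → ℝ) → ℝ} (hf : Lip L f) (t : ℝ) :
    Lip L (fun z : β → ℝ => f (cmb t z)) := by
  intro z z'
  refine (hf _ _).trans (le_of_eq ?_)
  rw [Fintype.sum_sum_type]
  simp [cmb]

/-- variances. -/
def vv (bv : ℝ) (v : β → ℝ) : Unit ⊕ β → ℝ := Sum.elim (fun _ => bv) v

theorem cont_of_lip1 {L : ℝ} {f : ℝ → ℝ} (h : ∀ a b, |f a - f b| ≤ L * |a - b|) :
    Continuous f := by
  have h0 : 0 ≤ L := by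
    have := h 1 0
    have h1 := abs_nonneg (f 1 - f 0)
    have : |f 1 - f 0| ≤ L := by simpa using this
    linarith
  refine LipschitzWith.continuous (K := ⟨L, h0⟩) (LipschitzWith.of_dist_le_mul fun a b => ?_)
  rw [Real.dist_eq, Real.dist_eq]
  exact h a b

omit [DecidableEq β] in
theorem sm_lip_fst {L : ℝ} {F : (Unit ⊕ β → ℝ) → ℝ} (hF : Lip L F) (v : β → ℝ) (z : β → ℝ)
    (t t' : ℝ) : |sm v (fun z => F (cmb t z)) z - sm v (fun z => F (cmb t' z)) z| ≤
      L * |t - t'| := by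
  unfold sm
  have h1 := integrable_shift v (lip_snd hF t) z
  have h2 := integrable_shift v (lip_snd hF t') z
  rw [← integral_sub h1 h2]
  refine abs_integral_le_integral_abs.trans ?_
  calc _ ≤ ∫ _g, L * |t - t'| ∂(gm β) :=
        integral_mono (h1.sub h2).abs (integrable_const _) fun g => lip_fst hF _ _ _
    _ = _ := by simp

omit [DecidableEq β] in
/-- smoothing in both groups of variables. -/
theorem sm_vv {L : ℝ} {F : (Unit ⊕ β → ℝ) → ℝ} (hF : Lip L F) (bv : ℝ) (v : β → ℝ)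
    (t : ℝ) (z : β → ℝ) :
    sm (vv bv v) F (cmb t z) =
      ∫ g, sm v (fun z => F (cmb (t + Real.sqrt bv * g) z)) z ∂(gaussianReal 0 1) := by
  have hi := integrable_shift (vv bv v) hF (cmb t z)
  have hc : Continuous fun t' : ℝ => sm v (fun z => F (cmb t' z)) z :=
    cont_of_lip1 (sm_lip_fst hF v z)
  have hm : Measurable fun g : ℝ => sm v (fun z => F (cmb (t + Real.sqrt bv * g) z)) z :=
    (hc.comp (by fun_prop : Continuous fun g : ℝ => t + Real.sqrt bv * g)).measurable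
  have h3 := integral_eval_gm (κ := Unit) () hm
  rw [← h3]
  show ∫ g, F (fun k => (cmb t z : Unit ⊕ β → ℝ) k + Real.sqrt (vv bv v k) * g k)
    ∂(gm (Unit ⊕ β)) = _
  rw [integral_sum_gm hi]
  have e1 : ∀ (g0 : Unit → ℝ) (g1 : β → ℝ),
      (fun k => (cmb t z : Unit ⊕ β → ℝ) k + Real.sqrt (vv bv v k) *
        (Sum.elim g0 g1 : Unit ⊕ β → ℝ) k) =
      cmb (t + Real.sqrt bv * g0 ()) (fun k => z k + Real.sqrt (v k) * g1 k) := by
    intro g0 g1
    funext k
    rcases k with k | k <;> rfl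
  simp_rw [e1]
  rfl

/-- bound of the one-step second moment. -/
def SM (β : Type*) [Fintype β] (c L η : ℝ) : ℝ :=
  16 * Real.exp c * (Real.exp c * L) * (Fintype.card (β ⊕ (β ⊕ β))) *
    Real.sqrt ((Fintype.card (β ⊕ (β ⊕ β)) + 1) * η)

omit [DecidableEq β] in
theorem SM_nonneg {c L η : ℝ} (hL : 0 ≤ L) : 0 ≤ SM β c L η := by
  unfold SM
  positivity

/-- first moment of the one-step error, for one value of the label variable. -/
theorem first_moment (hP : IsProb P) (kap : κ → β) (x : Ω → κ → ℝ) {Q Qb : β → ℝ}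
    (hQb : ∀ k, 0 ≤ Qb k) (hQ : ∀ k, Qb k ≤ Q k) {L c y : ℝ} (hL : 0 ≤ L) (hy0 : 0 ≤ y)
    (hy1 : y ≤ 1) {f : (β → ℝ) → ℝ} (hf : Lip L f) (hc : ∀ z, |f z| ≤ c) {η : ℝ}
    (hη : E3 P r (fun ω a b => gdev kap Qb (fun k => Q k - Qb k) (cEv P r x ω) (dv P r x ω a)
      (dv P r x ω b)) ≤ η) :
    ∫ ζ, eE P (fun ω => |cE P r (fun a => Real.exp (y * f (zf kap (x a) ζ))) ω -
      sm (fun k => Q k - Qb k) (fun z => Real.exp (y * f z)) (zf kap (cEv P r x ω) ζ)|) ∂(gm κ) ≤
      Real.sqrt (SM β c L η) := by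
  set φ : (β → ℝ) → ℝ := fun z => Real.exp (y * f z) with hφ
  set v : β → ℝ := fun k => Q k - Qb k with hv
  have hφL : Lip (Real.exp c * L) φ := exp_lip hy0 hy1 hL hf hc
  have hφb : ∀ z, |φ z| ≤ Real.exp c := fun z => by
    rw [abs_of_pos (Real.exp_pos _)]; exact (exp_bounds hy0 hy1 (hc z)).2
  have h2 := second_moment hP kap x hQb hQ (by positivity) (Real.exp_pos c).le hφL hφb hη
  have h2' : ∫ ζ, eE P (fun ω => (cE P r (fun a => φ (zf kap (x a) ζ)) ω -
      sm v φ (zf kap (cEv P r x ω) ζ)) ^ 2) ∂(gm κ) ≤ SM β c L η := h2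
  set D : (κ → ℝ) → Ω → ℝ := fun ζ ω => cE P r (fun a => φ (zf kap (x a) ζ)) ω -
      sm v φ (zf kap (cEv P r x ω) ζ) with hD
  have hDm : ∀ ω, Measurable fun ζ => D ζ ω := by
    intro ω
    refine Measurable.sub ?_ ?_
    · exact measurable_cE (fun a => hφL.measurable.comp (measurable_zf kap (x a))) ω
    · exact (sm_lip v hφL).measurable.comp (measurable_zf kap _)
  have hDb : ∀ ζ ω, |D ζ ω| ≤ 2 * Real.exp c := by
    intro ζ ω
    have h3 : |cE P r (fun a => φ (zf kap (x a) ζ)) ω| ≤ Real.exp c :=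
      abs_cE_le_of_le hP (fun a => hφb _) ω
    have h4 := sm_bound v hφb (zf kap (cEv P r x ω) ζ)
    have h5 := abs_sub (cE P r (fun a => φ (zf kap (x a) ζ)) ω)
      (sm v φ (zf kap (cEv P r x ω) ζ))
    have h6 : |D ζ ω| = |cE P r (fun a => φ (zf kap (x a) ζ)) ω -
      sm v φ (zf kap (cEv P r x ω) ζ)| := rfl
    linarith
  have hi1 : ∀ ω, Integrable (fun ζ => |D ζ ω|) (gm κ) := fun ω =>
    Integrable.of_bound (C := 2 * Real.exp c) (hDm ω).norm.aestronglyMeasurable
      (ae_of_all _ fun ζ => by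
        rw [Real.norm_eq_abs, abs_abs]; exact hDb ζ ω)
  have hi2 : ∀ ω, Integrable (fun ζ => (D ζ ω) ^ 2) (gm κ) := fun ω =>
    Integrable.of_bound (C := (2 * Real.exp c) ^ 2) ((hDm ω).pow_const 2).aestronglyMeasurable
      (ae_of_all _ fun ζ => by
        rw [Real.norm_eq_abs, abs_pow]
        exact pow_le_pow_left₀ (abs_nonneg _) (hDb ζ ω) 2)
  refine le_sqrt_of_forall (SM_nonneg hL) fun t ht => ?_
  have h7 : ∫ ζ, eE P (fun ω => |D ζ ω|) ∂(gm κ) ≤
      ∫ ζ, eE P (fun ω => (1 / 2) * t + (1 / (2 * t)) * (D ζ ω) ^ 2) ∂(gm κ) := by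
    refine integral_mono (integrable_eE hi1)
      (integrable_eE fun ω => (integrable_const _).add ((hi2 ω).const_mul _)) fun ζ => ?_
    refine eE_mono hP fun ω => ?_
    have h8 : |D ζ ω| ^ 2 = D ζ ω ^ 2 := sq_abs _
    have h9 : 0 ≤ (t - |D ζ ω|) ^ 2 := sq_nonneg _
    have h10 : 1 / 2 * t + 1 / (2 * t) * D ζ ω ^ 2 - |D ζ ω| = (t - |D ζ ω|) ^ 2 / (2 * t) := by
      rw [← h8]; field_simp; ring
    have h11 : 0 ≤ (t - |D ζ ω|) ^ 2 / (2 * t) := by positivity
    linarith
  refine h7.trans ?_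
  have h12 : ∀ ζ, eE P (fun ω => (1 / 2) * t + (1 / (2 * t)) * (D ζ ω) ^ 2) =
      (1 / 2) * t + (1 / (2 * t)) * eE P (fun ω => (D ζ ω) ^ 2) := by
    intro ζ
    rw [eE_add, eE_const hP, eE_smul]
  simp_rw [h12]
  rw [integral_add (integrable_const _) ((integrable_eE hi2).const_mul _)]
  have h15 : ∫ ζ, 1 / (2 * t) * eE P (fun ω => (D ζ ω) ^ 2) ∂(gm κ) =
      1 / (2 * t) * ∫ ζ, eE P (fun ω => (D ζ ω) ^ 2) ∂(gm κ) := integral_const_mul _ _
  rw [h15]
  have h13 : 1 / (2 * t) * ∫ ζ, eE P (fun ω => (D ζ ω) ^ 2) ∂(gm κ) ≤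
      1 / (2 * t) * SM β c L η := mul_le_mul_of_nonneg_left h2' (by positivity)
  have h14 : (t + SM β c L η / t) / 2 = 1 / 2 * t + 1 / (2 * t) * SM β c L η := by
    field_simp
  rw [h14]
  simp only [integral_const, probReal_univ, one_smul]
  linarith

/-- **One step** of the comparison. -/
theorem one_step (hP : IsProb P) (hP2 : IsProb P2) (kap : κ → β) (x : Ω → κ → ℝ) {Q Qb : β → ℝ}
    (hQb : ∀ k, 0 ≤ Qb k) (hQ : ∀ k, Qb k ≤ Q k) {L c y bv dl : ℝ} (hL : 0 ≤ L) (hy0 : 0 < y)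
    (hy1 : y ≤ 1) {f : (Unit ⊕ β → ℝ) → ℝ} (hf : Lip L f) (hc : ∀ z, |f z| ≤ c) {η : ℝ}
    (hη : E3 P r (fun ω a b => gdev kap Qb (fun k => Q k - Qb k) (cEv P r x ω) (dv P r x ω a)
      (dv P r x ω b)) ≤ η) (Yf Yc : Λ → ℝ)
    (hclt : ∀ (L : ℝ) (h : ℝ → ℝ), 0 ≤ L → (∀ a b, |h a - h b| ≤ L * |a - b|) → ∀ l,
      |cE P2 s (fun b => h (Yf b)) l - ∫ g, h (Yc l + Real.sqrt bv * g) ∂(gaussianReal 0 1)| ≤
        L * dl) :
    ∫ ζ, eE (pP P P2) (fun p => |pm (pP P P2) (r.prod s) y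
        (fun q => f (cmb (Yf q.2) (zf kap (x q.1) ζ))) p -
        gstep y (vv bv (fun k => Q k - Qb k)) f (cmb (Yc p.2) (zf kap (cEv P r x p.1) ζ))|)
        ∂(gm κ) ≤
      (1 / y) * Real.exp c * (Real.sqrt (SM β c L η) + Real.exp c * L * dl) := by
  set v : β → ℝ := fun k => Q k - Qb k with hv
  set φ : (Unit ⊕ β → ℝ) → ℝ := fun z => Real.exp (y * f z) with hφ
  have hφL : Lip (Real.exp c * L) φ := exp_lip hy0.le hy1 hL hf hc
  have hφb : ∀ z, |φ z| ≤ Real.exp c := fun z => by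
    rw [abs_of_pos (Real.exp_pos _)]; exact (exp_bounds hy0.le hy1 (hc z)).2
  -- pointwise estimate
  set D : (κ → ℝ) → Ω → Λ → ℝ := fun ζ ω b =>
    |cE P r (fun a => φ (cmb (Yf b) (zf kap (x a) ζ))) ω -
      sm v (fun z => φ (cmb (Yf b) z)) (zf kap (cEv P r x ω) ζ)| with hD
  have hpt : ∀ ζ p, |pm (pP P P2) (r.prod s) y (fun q => f (cmb (Yf q.2) (zf kap (x q.1) ζ))) p -
        gstep y (vv bv v) f (cmb (Yc p.2) (zf kap (cEv P r x p.1) ζ))| ≤
      (1 / y) * Real.exp c * (cE P2 s (fun b => D ζ p.1 b) p.2 + Real.exp c * L * dl) := by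
    intro ζ p
    set A := cE (pP P P2) (r.prod s) (fun q => φ (cmb (Yf q.2) (zf kap (x q.1) ζ))) p with hA
    set B := sm (vv bv v) φ (cmb (Yc p.2) (zf kap (cEv P r x p.1) ζ)) with hB
    have e1 : pm (pP P P2) (r.prod s) y (fun q => f (cmb (Yf q.2) (zf kap (x q.1) ζ))) p =
        (1 / y) * Real.log A := rfl
    have e2 : gstep y (vv bv v) f (cmb (Yc p.2) (zf kap (cEv P r x p.1) ζ)) =
        (1 / y) * Real.log B := rfl
    have hAl : Real.exp (-c) ≤ A := le_cE_of_le (pP_isProb hP hP2)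
      (fun q => (exp_bounds hy0.le hy1 (hc _)).1) p
    have hBl : Real.exp (-c) ≤ B := (sm_exp_bounds hy0.le hy1 hL hf hc _ _).1
    rw [e1, e2, ← mul_sub, abs_mul, abs_of_pos (by positivity : (0 : ℝ) < 1 / y), mul_assoc]
    refine mul_le_mul_of_nonneg_left ?_ (by positivity)
    refine (abs_log_sub_le' hAl hBl).trans (mul_le_mul_of_nonneg_left ?_ (Real.exp_pos _).le)
    set H : ℝ → ℝ := fun t => sm v (fun z => φ (cmb t z)) (zf kap (cEv P r x p.1) ζ) with hH
    have hHL : ∀ a b, |H a - H b| ≤ (Real.exp c * L) * |a - b| := sm_lip_fst hφL v _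
    have h1 := hclt (Real.exp c * L) H (by positivity) hHL p.2
    have h2 : B = ∫ g, H (Yc p.2 + Real.sqrt bv * g) ∂(gaussianReal 0 1) :=
      sm_vv hφL bv v (Yc p.2) (zf kap (cEv P r x p.1) ζ)
    rw [← h2] at h1
    have h3 : A = cE P2 s (fun b => cE P r (fun a => φ (cmb (Yf b) (zf kap (x a) ζ))) p.1) p.2 := by
      rw [hA, cE_pP']
    have h4 : |A - cE P2 s (fun b => H (Yf b)) p.2| ≤ cE P2 s (fun b => D ζ p.1 b) p.2 := by
      rw [h3, ← cE_sub]
      exact cE_abs_le hP2 _ _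
    calc |A - B| = |(A - cE P2 s (fun b => H (Yf b)) p.2) + (cE P2 s (fun b => H (Yf b)) p.2 - B)| := by
          congr 1; ring
      _ ≤ _ := abs_add_le _ _
      _ ≤ _ := add_le_add h4 h1
  -- integrability
  have hDm : ∀ ω b, Measurable fun ζ => D ζ ω b := by
    intro ω b
    refine continuous_abs.measurable.comp (Measurable.sub ?_ ?_)
    · exact measurable_cE (fun a => (lip_snd hφL _).measurable.comp (measurable_zf kap (x a))) ω
    · exact (sm_lip v (lip_snd hφL _)).measurable.comp (measurable_zf kap _)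
  have hDb : ∀ ζ ω b, |D ζ ω b| ≤ 2 * Real.exp c := by
    intro ζ ω b
    have h3 : |cE P r (fun a => φ (cmb (Yf b) (zf kap (x a) ζ))) ω| ≤ Real.exp c :=
      abs_cE_le_of_le hP (fun a => hφb _) ω
    have h4 := sm_bound v (φ := fun z => φ (cmb (Yf b) z)) (fun z => hφb _)
      (zf kap (cEv P r x ω) ζ)
    have h5 := abs_sub (cE P r (fun a => φ (cmb (Yf b) (zf kap (x a) ζ))) ω)
      (sm v (fun z => φ (cmb (Yf b) z)) (zf kap (cEv P r x ω) ζ))
    have h6 : |D ζ ω b| = |cE P r (fun a => φ (cmb (Yf b) (zf kap (x a) ζ))) ω -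
      sm v (fun z => φ (cmb (Yf b) z)) (zf kap (cEv P r x ω) ζ)| := abs_abs _
    linarith
  have hDi : ∀ ω b, Integrable (fun ζ => D ζ ω b) (gm κ) := fun ω b =>
    Integrable.of_bound (C := 2 * Real.exp c) (hDm ω b).aestronglyMeasurable
      (ae_of_all _ fun ζ => by rw [Real.norm_eq_abs]; exact hDb ζ ω b)
  have hdl : 0 ≤ dl := by
    have hne := nonempty_of_isProb hP2
    obtain ⟨l⟩ := hne
    have h1 := hclt 1 (fun _ => 0) zero_le_one (fun a b => by simp) l
    have := (abs_nonneg _).trans h1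
    linarith
  have hgp : ∀ p : Ω × Λ, Measurable fun ζ : κ → ℝ =>
      |pm (pP P P2) (r.prod s) y (fun q => f (cmb (Yf q.2) (zf kap (x q.1) ζ))) p -
        gstep y (vv bv v) f (cmb (Yc p.2) (zf kap (cEv P r x p.1) ζ))| := by
    intro p
    refine continuous_abs.measurable.comp (Measurable.sub ?_ ?_)
    · exact measurable_pm (fun q => (lip_snd hf _).measurable.comp (measurable_zf kap _)) y p
    · exact (lip_snd (gstep_lip hy0 hy1 hL hf hc _) _).measurable.comp (measurable_zf kap _)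
  have hbig : ∀ p : Ω × Λ, Integrable (fun ζ : κ → ℝ =>
      (1 / y) * Real.exp c * (cE P2 s (fun b => D ζ p.1 b) p.2 + Real.exp c * L * dl)) (gm κ) :=
    fun p => ((integrable_cE (fun b => hDi p.1 b) p.2).add (integrable_const _)).const_mul _
  have hsmall : ∀ p : Ω × Λ, Integrable (fun ζ : κ → ℝ =>
      |pm (pP P P2) (r.prod s) y (fun q => f (cmb (Yf q.2) (zf kap (x q.1) ζ))) p -
        gstep y (vv bv v) f (cmb (Yc p.2) (zf kap (cEv P r x p.1) ζ))|) (gm κ) := fun p =>
    (hbig p).mono' (hgp p).aestronglyMeasurable (ae_of_all _ fun ζ => by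
      rw [Real.norm_eq_abs, abs_abs]; exact hpt ζ p)
  refine (integral_mono (integrable_eE hsmall) (integrable_eE hbig) fun ζ =>
    eE_mono (pP_isProb hP hP2) fun p => hpt ζ p).trans ?_
  have h5 : ∀ ζ, eE (pP P P2) (fun p => (1 / y) * Real.exp c *
      (cE P2 s (fun b => D ζ p.1 b) p.2 + Real.exp c * L * dl)) =
      (1 / y) * Real.exp c * (eE P2 (fun b => eE P (fun ω => D ζ ω b)) + Real.exp c * L * dl) := by
    intro ζ
    rw [eE_smul, eE_add, eE_const (pP_isProb hP hP2), eE_pP]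
    congr 2
    have : ∀ a, eE P2 (fun b => cE P2 s (fun b => D ζ a b) b) = eE P2 (fun b => D ζ a b) :=
      fun a => eE_cE hP2 s _
    simp_rw [this]
    exact eE_comm _
  simp_rw [h5]
  rw [integral_const_mul, integral_add (integrable_eE fun b => integrable_eE fun ω => hDi ω b)
    (integrable_const _), integral_eE fun b => integrable_eE fun ω => hDi ω b]
  refine mul_le_mul_of_nonneg_left ?_ (by positivity)
  simp only [integral_const, probReal_univ, one_smul]
  refine add_le_add ?_ le_rfl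
  refine eE_le_of_le hP2 fun b => ?_
  exact first_moment hP kap x hQb hQ hL hy0.le hy1 (lip_snd hf (Yf b)) (fun z => hc _) hη

end onestep

end

end Crest.Agent.R164.CavG
end

-- ▼ part R164/CavG5

/-!
Row 164, Gaussian cavity limit, part 5: the chain of power means versus the nested Gaussian
functional.
-/

set_option autoImplicit false

namespace Crest.Agent.R164.CavG

open MeasureTheory ProbabilityTheory Finset Crest.Agent.R141 Crest.Agent.R141.Fact

noncomputable section

/-- the vectors `E_{r (n-1)} x`. -/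
def XX {Ω κ : Type*} [Fintype Ω] (P : Ω → ℝ) (r : ℕ → Setoid Ω) (x : Ω → κ → ℝ) :
    ℕ → Ω → κ → ℝ
  | 0 => x
  | n + 1 => cEv P (r n) x

/-- the mean deviation bound. -/
def etaB (nb : ℕ) (C δ : ℝ) : ℝ :=
  5 * δ + nb * (6 * Real.sqrt (C * Real.sqrt δ) + Real.sqrt δ)

/-- error of one step. -/
def stepB (β : Type*) [Fintype β] (c L C δ dl y0 : ℝ) : ℝ :=
  (1 / y0) * Real.exp c * (Real.sqrt (SM β c L (etaB (Fintype.card β) C δ)) + Real.exp c * L * dl)

/-- The data of the cavity limit theorem. -/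
structure Cav {Ω Λ κ β : Type} [Fintype Ω] [Fintype Λ] [Fintype κ] [Fintype β] [DecidableEq β]
    (P : Ω → ℝ) (P2 : Λ → ℝ) (r : ℕ → Setoid Ω) (s : ℕ → Setoid Λ) (J : ℕ) (kap : κ → β)
    (x : Ω → κ → ℝ) (Q : ℕ → β → ℝ) (Y : ℕ → Λ → ℝ) (bv : ℕ → ℝ) (C δ dl : ℝ) : Prop where
  hP : IsProb P
  hP2 : IsProb P2
  mono : ∀ n, n < J → r n ≤ r (n + 1)
  hC : ∀ ω, ∑ i, x ω i ^ 2 ≤ C
  hδ : 0 ≤ δ
  hdl : 0 ≤ dl
  /-- ideal overlaps -/
  Q0 : ∀ n k, n ≤ J + 1 → 0 ≤ Q n k
  Qm : ∀ n k, n ≤ J → Q (n + 1) k ≤ Q n k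
  /-- the block overlaps are close to the ideal ones -/
  ov : ∀ n ≤ J + 1, ∑ k, eE P (fun ω => |ip kap k (XX P r x n ω) (XX P r x n ω) - Q n k|) ≤ δ
  /-- purity -/
  pr : ∀ n ≤ J, pur P (r n) x ≤ δ
  /-- central limit hypothesis for the label variable -/
  clt : ∀ n ≤ J, ∀ (L : ℝ) (h : ℝ → ℝ), 0 ≤ L → (∀ a b, |h a - h b| ≤ L * |a - b|) → ∀ l,
      |cE P2 (s n) (fun b => h (Y n b)) l -
        ∫ g, h (Y (n + 1) l + Real.sqrt (bv n) * g) ∂(gaussianReal 0 1)| ≤ L * dl
  clt0 : ∀ (L : ℝ) (h : ℝ → ℝ), 0 ≤ L → (∀ a b, |h a - h b| ≤ L * |a - b|) →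
      |eE P2 (fun b => h (Y (J + 1) b)) -
        ∫ g, h (Real.sqrt (bv (J + 1)) * g) ∂(gaussianReal 0 1)| ≤ L * dl

/-- the variances of the nested functional. -/
def vC {β : Type} (J : ℕ) (Q : ℕ → β → ℝ) (bv : ℕ → ℝ) (n : ℕ) : Unit ⊕ β → ℝ :=
  vv (bv n) (fun k => if n ≤ J then Q n k - Q (n + 1) k else Q n k)

namespace Cav

variable {Ω Λ κ β : Type} [Fintype Ω] [Fintype Λ] [Fintype κ] [Fintype β] [DecidableEq β]
    {P : Ω → ℝ} {P2 : Λ → ℝ} {r : ℕ → Setoid Ω} {s : ℕ → Setoid Λ} {J : ℕ} {kap : κ → β}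
    {x : Ω → κ → ℝ} {Q : ℕ → β → ℝ} {Y : ℕ → Λ → ℝ} {bv : ℕ → ℝ} {C δ dl : ℝ}


theorem cEv_XX (H : Cav P P2 r s J kap x Q Y bv C δ dl) {n : ℕ} (hn : n ≤ J) :
    cEv P (r n) (XX P r x n) = XX P r x (n + 1) := by
  cases n with
  | zero => rfl
  | succ m => exact cEv_tower H.hP (H.mono m (by omega)) x

theorem pur_XX (H : Cav P P2 r s J kap x Q Y bv C δ dl) {n : ℕ} (hn : n ≤ J) :
    pur P (r n) (XX P r x n) ≤ δ := by
  cases n with
  | zero => exact H.pr 0 hn
  | succ m => exact (pur_cEv_le H.hP (H.mono m (by omega)) x).trans (H.pr (m + 1) hn)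

theorem sumsq_XX (H : Cav P P2 r s J kap x Q Y bv C δ dl) (n : ℕ) (ω : Ω) :
    ∑ i, XX P r x n ω i ^ 2 ≤ C := by
  cases n with
  | zero => exact H.hC ω
  | succ m => exact sum_sq_cEv_le H.hP H.hC ω

theorem C_nonneg (H : Cav P P2 r s J kap x Q Y bv C δ dl) : 0 ≤ C := by
  obtain ⟨ω⟩ := nonempty_of_isProb H.hP
  exact (Finset.sum_nonneg fun _ _ => sq_nonneg _).trans (H.hC ω)

theorem gdev_XX (H : Cav P P2 r s J kap x Q Y bv C δ dl) {n : ℕ} (hn : n ≤ J) :
    E3 P (r n) (fun ω a b => gdev kap (Q (n + 1)) (fun k => Q n k - Q (n + 1) k)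
      (cEv P (r n) (XX P r x n) ω) (dv P (r n) (XX P r x n) ω a)
      (dv P (r n) (XX P r x n) ω b)) ≤ etaB (Fintype.card β) C δ := by
  have h1 := E3_gdev_le (r := r n) H.hP kap (XX P r x n) (C := C) (fun ω => by
    rw [H.cEv_XX hn]; exact H.sumsq_XX (n + 1) ω) (Q n) (Q (n + 1))
  refine h1.trans ?_
  rw [H.cEv_XX hn]
  have h2 := H.ov (n + 1) (by omega)
  have h3 := H.ov n (by omega)
  have h4 := H.pur_XX hn
  have h5 : Real.sqrt (pur P (r n) (XX P r x n)) ≤ Real.sqrt δ := Real.sqrt_le_sqrt h4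
  have h6 : Real.sqrt (C * Real.sqrt (pur P (r n) (XX P r x n))) ≤
      Real.sqrt (C * Real.sqrt δ) :=
    Real.sqrt_le_sqrt (mul_le_mul_of_nonneg_left h5 H.C_nonneg)
  have h7 : (Fintype.card β : ℝ) * (6 * Real.sqrt (C * Real.sqrt (pur P (r n) (XX P r x n))) +
      Real.sqrt (pur P (r n) (XX P r x n))) ≤ (Fintype.card β : ℝ) *
        (6 * Real.sqrt (C * Real.sqrt δ) + Real.sqrt δ) :=
    mul_le_mul_of_nonneg_left (by linarith) (by positivity)
  unfold etaB
  linarith

/-- the field point at depth `n`. -/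
def pt (P : Ω → ℝ) (r : ℕ → Setoid Ω) (kap : κ → β) (x : Ω → κ → ℝ) (Y : ℕ → Λ → ℝ) (n : ℕ)
    (ζ : κ → ℝ) (p : Ω × Λ) : Unit ⊕ β → ℝ :=
  cmb (Y n p.2) (zf kap (XX P r x n p.1) ζ)

theorem vC_of_le {n : ℕ} (hn : n ≤ J) : vC J Q bv n = vv (bv n) (fun k => Q n k - Q (n + 1) k) := by
  unfold vC
  congr 1
  funext k
  rw [if_pos hn]

theorem step (H : Cav P P2 r s J kap x Q Y bv C δ dl) {n : ℕ} (hn : n ≤ J) {L c y y0 : ℝ}
    (hL : 0 ≤ L) (hy0 : 0 < y0) (hyy : y0 ≤ y) (hy1 : y ≤ 1) {f : (Unit ⊕ β → ℝ) → ℝ}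
    (hf : Lip L f) (hc : ∀ z, |f z| ≤ c) :
    ∫ ζ, eE (pP P P2) (fun p => |pm (pP P P2) ((r n).prod (s n)) y
        (fun q => f (pt P r kap x Y n ζ q)) p -
        gstep y (vC J Q bv n) f (pt P r kap x Y (n + 1) ζ p)|) ∂(gm κ) ≤
      stepB β c L C δ dl y0 := by
  have hy : 0 < y := lt_of_lt_of_le hy0 hyy
  have h := one_step H.hP H.hP2 kap (XX P r x n) (r := r n) (s := s n) (Q := Q n)
    (Qb := Q (n + 1)) (fun k => H.Q0 (n + 1) k (by omega)) (fun k => H.Qm n k hn) hL hy hy1 hf hc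
    (η := etaB (Fintype.card β) C δ) (H.gdev_XX hn) (Y n) (Y (n + 1)) (bv := bv n) (dl := dl)
    (fun L h hL hh l => H.clt n hn L h hL hh l)
  rw [H.cEv_XX hn] at h
  rw [vC_of_le hn]
  refine h.trans ?_
  unfold stepB
  refine mul_le_mul_of_nonneg_right ?_ (by have := H.hdl; positivity)
  refine mul_le_mul_of_nonneg_right ?_ (Real.exp_pos _).le
  exact one_div_le_one_div_of_le hy0 hyy

theorem pm_sub_le {Ω' : Type*} [Fintype Ω'] {P' : Ω' → ℝ} (hP' : IsProb P') (r' : Setoid Ω')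
    {y c : ℝ} (hy0 : 0 < y) (hy1 : y ≤ 1) {f g : Ω' → ℝ} (hf : ∀ a, |f a| ≤ c)
    (hg : ∀ a, |g a| ≤ c) (ω : Ω') :
    |pm P' r' y f ω - pm P' r' y g ω| ≤ Real.exp (2 * c) * cE P' r' (fun a => |f a - g a|) ω := by
  -- sharper: use `exp (y a)` is `y exp(c)`-Lipschitz
  have hl : ∀ a b : ℝ, |a| ≤ c → |b| ≤ c → |Real.exp (y * a) - Real.exp (y * b)| ≤
      y * Real.exp c * |a - b| := by
    have key : ∀ a b : ℝ, |a| ≤ c → |b| ≤ c → Real.exp (y * a) - Real.exp (y * b) ≤
        y * Real.exp c * |a - b| := by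
      intro a b ha hb
      have hc0 : 0 ≤ c := (abs_nonneg _).trans ha
      by_cases hab : a ≤ b
      · have : Real.exp (y * a) ≤ Real.exp (y * b) :=
          Real.exp_le_exp.2 (mul_le_mul_of_nonneg_left hab hy0.le)
        have h2 : 0 ≤ y * Real.exp c * |a - b| := by positivity
        linarith
      · have hab : b ≤ a := le_of_lt (not_le.1 hab)
        have h1 : 1 + (y * b - y * a) ≤ Real.exp (y * b - y * a) := by
          have := Real.add_one_le_exp (y * b - y * a); linarith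
        have h2 : Real.exp (y * b) = Real.exp (y * a) * Real.exp (y * b - y * a) := by
          rw [← Real.exp_add]; congr 1; ring
        have h3 := (exp_bounds hy0.le hy1 ha).2
        have h4 : 0 < Real.exp (y * a) := Real.exp_pos _
        rw [abs_of_nonneg (sub_nonneg.2 hab)]
        have h5 : Real.exp (y * a) - Real.exp (y * b) ≤ Real.exp (y * a) * (y * (a - b)) := by
          rw [h2]; nlinarith
        refine h5.trans ?_
        have h7 : 0 ≤ y * (a - b) := mul_nonneg hy0.le (sub_nonneg.2 hab)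
        nlinarith
    intro a b ha hb
    have h1 := key a b ha hb
    have h2 := key b a hb ha
    rw [abs_sub_comm b a] at h2
    rw [abs_le]
    constructor <;> linarith
  set A := cE P' r' (fun a => Real.exp (y * f a)) ω with hA
  set B := cE P' r' (fun a => Real.exp (y * g a)) ω with hB
  have e1 : pm P' r' y f ω = (1 / y) * Real.log A := rfl
  have e2 : pm P' r' y g ω = (1 / y) * Real.log B := rfl
  have hAl : Real.exp (-c) ≤ A := le_cE_of_le hP' (fun q => (exp_bounds hy0.le hy1 (hf _)).1) ω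
  have hBl : Real.exp (-c) ≤ B := le_cE_of_le hP' (fun q => (exp_bounds hy0.le hy1 (hg _)).1) ω
  rw [e1, e2, ← mul_sub, abs_mul, abs_of_pos (by positivity : (0 : ℝ) < 1 / y)]
  have h1 := abs_log_sub_le' hAl hBl
  have h2 : |A - B| ≤ y * Real.exp c * cE P' r' (fun a => |f a - g a|) ω := by
    rw [hA, hB, ← cE_sub]
    refine (cE_abs_le hP' _ _).trans ?_
    rw [← cE_smul]
    exact cE_mono' hP' (fun a => hl _ _ (hf a) (hg a)) ω
  have h3 : Real.exp c * |A - B| ≤ Real.exp c * (y * Real.exp c * cE P' r' (fun a => |f a - g a|) ω) :=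
    mul_le_mul_of_nonneg_left h2 (Real.exp_pos _).le
  have h4 := mul_le_mul_of_nonneg_left (h1.trans h3) (by positivity : (0 : ℝ) ≤ 1 / y)
  refine h4.trans (le_of_eq ?_)
  have h5 : Real.exp (2 * c) = Real.exp c * Real.exp c := by rw [← Real.exp_add]; congr 1; ring
  rw [h5]
  field_simp

theorem skelA_bound {Ω' : Type} [Fintype Ω'] {P' : Ω' → ℝ} (hP' : IsProb P')
    (r' : ℕ → Setoid Ω') {y : ℕ → ℝ} {c : ℝ} (hy0 : ∀ n ≤ J, 0 < y n) {U : Ω' → ℝ}
    (hU : ∀ a, |U a| ≤ c) :
    ∀ n ≤ J + 1, ∀ ω, |skelA P' r' y U n ω| ≤ c := by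
  intro n
  induction n with
  | zero => exact fun _ ω => hU ω
  | succ n ih =>
    intro hn ω
    have ih' := ih (by omega)
    have hy := hy0 n (by omega)
    have h1 : pm P' (r' n) (y n) (fun _ => -c) ω ≤ pm P' (r' n) (y n) (skelA P' r' y U n) ω :=
      pm_mono hP' hy ω fun a _ => (abs_le.1 (ih' a)).1
    have h2 : pm P' (r' n) (y n) (skelA P' r' y U n) ω ≤ pm P' (r' n) (y n) (fun _ => c) ω :=
      pm_mono hP' hy ω fun a _ => (abs_le.1 (ih' a)).2
    rw [pm_const hP' _ hy] at h1 h2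
    exact abs_le.2 ⟨h1, h2⟩

/-- **The chain.** -/
theorem chain (H : Cav P P2 r s J kap x Q Y bv C δ dl) {y : ℕ → ℝ} {y0 L c : ℝ} (hy0 : 0 < y0)
    (hy : ∀ n ≤ J, y0 ≤ y n) (hy1 : ∀ n ≤ J, y n ≤ 1) (hL : 0 ≤ L) {w : (Unit ⊕ β → ℝ) → ℝ}
    (hw : Lip L w) (hc : ∀ z, |w z| ≤ c) :
    ∀ n ≤ J + 1, ∫ ζ, eE (pP P P2) (fun p => |skelA (pP P P2) (fun n => (r n).prod (s n)) y
        (fun q => w (pt P r kap x Y 0 ζ q)) n p -
        th y (vC J Q bv) w n (pt P r kap x Y n ζ p)|) ∂(gm κ) ≤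
      n * Real.exp (2 * c) ^ n * stepB β c L C δ dl y0 := by
  have hPP := pP_isProb H.hP H.hP2
  have hyp : ∀ n ≤ J, 0 < y n := fun n hn => lt_of_lt_of_le hy0 (hy n hn)
  have hc0 : 0 ≤ c := (abs_nonneg _).trans (hc 0)
  have hB0 : 0 ≤ stepB β c L C δ dl y0 := by
    have := H.hdl
    unfold stepB
    positivity
  have hw0 : ∀ ζ q, |(fun q => w (pt P r kap x Y 0 ζ q)) q| ≤ c := fun ζ q => hc _
  have hmpt : ∀ n p, Measurable fun ζ : κ → ℝ => pt P r kap x Y n ζ p := by
    intro n p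
    refine measurable_pi_lambda _ fun k => ?_
    rcases k with k | k
    · exact measurable_const
    · exact (measurable_pi_apply k).comp (measurable_zf kap (XX P r x n p.1))
  have hms : ∀ n p, Measurable fun ζ : κ → ℝ => skelA (pP P P2) (fun n => (r n).prod (s n)) y
        (fun q => w (pt P r kap x Y 0 ζ q)) n p := fun n p =>
    measurable_skelA (fun a => hw.measurable.comp (hmpt 0 a)) n p
  intro n
  induction n with
  | zero =>
    intro _
    simp only [th_zero, skelA, sub_self, abs_zero]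
    rw [show (fun _ : κ → ℝ => eE (pP P P2) (fun _ => (0 : ℝ))) = fun _ => 0 from by
      funext _; exact eE_const hPP 0]
    simp
  | succ n ih =>
    intro hn
    have ih' := ih (by omega)
    have hn' : n ≤ J := by omega
    obtain ⟨hthL, hthb⟩ := th_lip_bound hyp hy1 hL hw hc (vC J Q bv) n (by omega)
    obtain ⟨hthL', hthb'⟩ := th_lip_bound hyp hy1 hL hw hc (vC J Q bv) (n + 1) (by omega)
    have hst := H.step hn' hL hy0 (hy n hn') (hy1 n hn') hthL hthb
    -- pointwise
    have hpt : ∀ ζ p, |skelA (pP P P2) (fun n => (r n).prod (s n)) y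
        (fun q => w (pt P r kap x Y 0 ζ q)) (n + 1) p -
        th y (vC J Q bv) w (n + 1) (pt P r kap x Y (n + 1) ζ p)| ≤
        Real.exp (2 * c) * cE (pP P P2) ((r n).prod (s n)) (fun p =>
          |skelA (pP P P2) (fun n => (r n).prod (s n)) y
            (fun q => w (pt P r kap x Y 0 ζ q)) n p -
            th y (vC J Q bv) w n (pt P r kap x Y n ζ p)|) p +
        |pm (pP P P2) ((r n).prod (s n)) (y n)
          (fun q => th y (vC J Q bv) w n (pt P r kap x Y n ζ q)) p -
          gstep (y n) (vC J Q bv n) (th y (vC J Q bv) w n) (pt P r kap x Y (n + 1) ζ p)| := by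
      intro ζ p
      have h1 := pm_sub_le hPP ((r n).prod (s n)) (hyp n hn') (hy1 n hn')
        (f := skelA (pP P P2) (fun n => (r n).prod (s n)) y
            (fun q => w (pt P r kap x Y 0 ζ q)) n)
        (g := fun q => th y (vC J Q bv) w n (pt P r kap x Y n ζ q))
        (skelA_bound hPP _ hyp (hw0 ζ) n (by omega)) (fun q => hthb _) p
      have e1 : skelA (pP P P2) (fun n => (r n).prod (s n)) y
        (fun q => w (pt P r kap x Y 0 ζ q)) (n + 1) p = pm (pP P P2) ((r n).prod (s n)) (y n)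
          (skelA (pP P P2) (fun n => (r n).prod (s n)) y
            (fun q => w (pt P r kap x Y 0 ζ q)) n) p := rfl
      rw [e1, th_succ]
      exact (abs_sub_le _ (pm (pP P P2) ((r n).prod (s n)) (y n)
        (fun q => th y (vC J Q bv) w n (pt P r kap x Y n ζ q)) p) _).trans
          (add_le_add h1 le_rfl)
    have hi1 : ∀ p, Integrable (fun ζ : κ → ℝ => |skelA (pP P P2) (fun n => (r n).prod (s n)) y
            (fun q => w (pt P r kap x Y 0 ζ q)) n p -
            th y (vC J Q bv) w n (pt P r kap x Y n ζ p)|) (gm κ) := by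
      intro p
      refine Integrable.of_bound (C := 2 * c) (continuous_abs.measurable.comp
        ((hms n p).sub (hthL.measurable.comp (hmpt n p)))).aestronglyMeasurable
        (ae_of_all _ fun ζ => ?_)
      rw [Real.norm_eq_abs, abs_abs]
      have h1 := skelA_bound hPP (fun n => (r n).prod (s n)) hyp (hw0 ζ) n (by omega) p
      have h2 := hthb (pt P r kap x Y n ζ p)
      refine (abs_sub _ _).trans (by linarith)
    have hi3 : ∀ p, Integrable (fun ζ : κ → ℝ => |pm (pP P P2) ((r n).prod (s n)) (y n)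
          (fun q => th y (vC J Q bv) w n (pt P r kap x Y n ζ q)) p -
          gstep (y n) (vC J Q bv n) (th y (vC J Q bv) w n) (pt P r kap x Y (n + 1) ζ p)|)
          (gm κ) := by
      intro p
      refine Integrable.of_bound (C := 2 * c) (continuous_abs.measurable.comp
        ((measurable_pm (fun q => hthL.measurable.comp (hmpt n q)) (y n) p).sub
          (hthL'.measurable.comp (hmpt (n + 1) p)))).aestronglyMeasurable
        (ae_of_all _ fun ζ => ?_)
      rw [Real.norm_eq_abs, abs_abs]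
      have h2 := hthb' (pt P r kap x Y (n + 1) ζ p)
      rw [th_succ] at h2
      have h3 : |pm (pP P P2) ((r n).prod (s n)) (y n)
          (fun q => th y (vC J Q bv) w n (pt P r kap x Y n ζ q)) p| ≤ c := by
        have hp := hyp n hn'
        have h1 : pm (pP P P2) ((r n).prod (s n)) (y n) (fun _ => -c) p ≤
            pm (pP P P2) ((r n).prod (s n)) (y n)
              (fun q => th y (vC J Q bv) w n (pt P r kap x Y n ζ q)) p :=
          pm_mono hPP hp p fun a _ => (abs_le.1 (hthb _)).1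
        have h2 : pm (pP P P2) ((r n).prod (s n)) (y n)
              (fun q => th y (vC J Q bv) w n (pt P r kap x Y n ζ q)) p ≤
            pm (pP P P2) ((r n).prod (s n)) (y n) (fun _ => c) p :=
          pm_mono hPP hp p fun a _ => (abs_le.1 (hthb _)).2
        rw [pm_const hPP _ hp] at h1 h2
        exact abs_le.2 ⟨h1, h2⟩
      refine (abs_sub _ _).trans (by linarith)
    have hi2 : ∀ p, Integrable (fun ζ : κ → ℝ => Real.exp (2 * c) *
        cE (pP P P2) ((r n).prod (s n)) (fun p =>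
          |skelA (pP P P2) (fun n => (r n).prod (s n)) y
            (fun q => w (pt P r kap x Y 0 ζ q)) n p -
            th y (vC J Q bv) w n (pt P r kap x Y n ζ p)|) p) (gm κ) := fun p =>
      (integrable_cE hi1 p).const_mul _
    have hi0 : ∀ p, Integrable (fun ζ : κ → ℝ => |skelA (pP P P2) (fun n => (r n).prod (s n)) y
            (fun q => w (pt P r kap x Y 0 ζ q)) (n + 1) p -
            th y (vC J Q bv) w (n + 1) (pt P r kap x Y (n + 1) ζ p)|) (gm κ) := fun p =>
      ((hi2 p).add (hi3 p)).mono' (continuous_abs.measurable.comp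
        ((hms (n + 1) p).sub (hthL'.measurable.comp (hmpt (n + 1) p)))).aestronglyMeasurable
        (ae_of_all _ fun ζ => by
          rw [Real.norm_eq_abs, abs_abs]; exact hpt ζ p)
    have hmain : ∫ ζ, eE (pP P P2) (fun p => |skelA (pP P P2) (fun n => (r n).prod (s n)) y
        (fun q => w (pt P r kap x Y 0 ζ q)) (n + 1) p -
        th y (vC J Q bv) w (n + 1) (pt P r kap x Y (n + 1) ζ p)|) ∂(gm κ) ≤
        Real.exp (2 * c) * (n * Real.exp (2 * c) ^ n * stepB β c L C δ dl y0) +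
          stepB β c L C δ dl y0 := by
      refine (integral_mono (integrable_eE hi0) (integrable_eE fun p => (hi2 p).add (hi3 p))
        fun ζ => eE_mono hPP fun p => hpt ζ p).trans ?_
      have e2 : ∀ ζ, eE (pP P P2) (fun p => Real.exp (2 * c) *
        cE (pP P P2) ((r n).prod (s n)) (fun p =>
          |skelA (pP P P2) (fun n => (r n).prod (s n)) y
            (fun q => w (pt P r kap x Y 0 ζ q)) n p -
            th y (vC J Q bv) w n (pt P r kap x Y n ζ p)|) p +
          |pm (pP P P2) ((r n).prod (s n)) (y n)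
            (fun q => th y (vC J Q bv) w n (pt P r kap x Y n ζ q)) p -
            gstep (y n) (vC J Q bv n) (th y (vC J Q bv) w n) (pt P r kap x Y (n + 1) ζ p)|) =
          Real.exp (2 * c) * eE (pP P P2) (fun p =>
            |skelA (pP P P2) (fun n => (r n).prod (s n)) y
            (fun q => w (pt P r kap x Y 0 ζ q)) n p -
            th y (vC J Q bv) w n (pt P r kap x Y n ζ p)|) +
          eE (pP P P2) (fun p => |pm (pP P P2) ((r n).prod (s n)) (y n)
            (fun q => th y (vC J Q bv) w n (pt P r kap x Y n ζ q)) p -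
            gstep (y n) (vC J Q bv n) (th y (vC J Q bv) w n) (pt P r kap x Y (n + 1) ζ p)|) := by
        intro ζ
        rw [eE_add, eE_smul, eE_cE hPP]
      simp only [Pi.add_apply]
      simp_rw [e2]
      rw [integral_add ((integrable_eE hi1).const_mul _) (integrable_eE hi3),
        integral_const_mul]
      exact add_le_add (mul_le_mul_of_nonneg_left ih' (Real.exp_pos _).le) hst
    refine hmain.trans ?_
    have h1 : (1 : ℝ) ≤ Real.exp (2 * c) ^ (n + 1) :=
      one_le_pow₀ (Real.one_le_exp (by positivity))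
    have h2 : Real.exp (2 * c) * (n * Real.exp (2 * c) ^ n * stepB β c L C δ dl y0) =
        n * Real.exp (2 * c) ^ (n + 1) * stepB β c L C δ dl y0 := by ring
    rw [h2]
    push_cast
    nlinarith

end Cav

end

end Crest.Agent.R164.CavG
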