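import Crest.Prelude.Def_InvariantGlass
import Crest.Agent.R164.GaussTilt

/-!
# Row 164: nested Gaussian recursion with a quadratic exponent, real version (helper318)

`gOp a v F` is the `d`-dimensional analogue of `gaussOp`.  For `F y = 1/2 Σ α_i y_i² + f(Σ c_i y_i)`
the recursion is evaluated exactly (`nest_quad`).
-/

set_option autoImplicit false

namespace Crest.Agent.R164.GTilt

open MeasureTheory ProbabilityTheory Crest.ProbabilityR.InvariantGlass

noncomputable section



/-- 1-Lipschitz functions. -/
def Lip (f : ℝ → ℝ) : Prop := ∀ x y, |f x - f y| ≤ |x - y|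

theorem Lip.continuous {f : ℝ → ℝ} (hf : Lip f) : Continuous f := by
  have : LipschitzWith 1 f := LipschitzWith.of_dist_le_mul fun x y => by
    simpa [Real.dist_eq] using hf x y
  exact this.continuous

theorem Lip.le_add {f : ℝ → ℝ} (hf : Lip f) (x : ℝ) : |f x| ≤ |f 0| + |x| := by
  have h := hf x 0
  have h2 : |f x| ≤ |f x - f 0| + |f 0| := by
    calc |f x| = |(f x - f 0) + f 0| := by ring_nf
      _ ≤ _ := abs_add_le _ _
  rw [sub_zero] at h
  linarith

theorem integrable_exp_abs (t : ℝ) : Integrable (fun x : ℝ => Real.exp (t * |x|)) γ := by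
  have h1 : Integrable (fun x : ℝ => Real.exp (t * x)) γ := integrable_exp_mul_gaussianReal t
  have h2 : Integrable (fun x : ℝ => Real.exp (-t * x)) γ := integrable_exp_mul_gaussianReal (-t)
  refine (h1.add h2).mono' (by fun_prop) ?_
  filter_upwards with x
  rw [Real.norm_eq_abs, abs_of_pos (Real.exp_pos _)]
  simp only [Pi.add_apply]
  rcases le_total 0 x with hx | hx
  · rw [abs_of_nonneg hx]
    have := Real.exp_pos (-t * x)
    linarith
  · rw [abs_of_nonpos hx]
    have := Real.exp_pos (t * x)
    have e : t * -x = -t * x := by ring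
    rw [e]
    linarith

theorem Lip.integrable_exp {f : ℝ → ℝ} (hf : Lip f) (a r s : ℝ) :
    Integrable (fun x : ℝ => Real.exp (a * f (r + s * x))) γ := by
  have hc := hf.continuous
  refine ((integrable_exp_abs (|a| * |s|)).const_mul
    (Real.exp (|a| * (|f 0| + |r|)))).mono' (by fun_prop) ?_
  filter_upwards with x
  rw [Real.norm_eq_abs, abs_of_pos (Real.exp_pos _), ← Real.exp_add]
  apply Real.exp_le_exp.mpr
  have h1 := hf.le_add (r + s * x)
  have h2 : |r + s * x| ≤ |r| + |s| * |x| := by
    refine (abs_add_le _ _).trans ?_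
    rw [abs_mul]
  calc a * f (r + s * x) ≤ |a * f (r + s * x)| := le_abs_self _
    _ = |a| * |f (r + s * x)| := abs_mul _ _
    _ ≤ |a| * (|f 0| + (|r| + |s| * |x|)) :=
        mul_le_mul_of_nonneg_left (by linarith) (abs_nonneg _)
    _ = _ := by ring

theorem Lip.integrable {f : ℝ → ℝ} (hf : Lip f) (r s : ℝ) :
    Integrable (fun x : ℝ => f (r + s * x)) γ := by
  have hc := hf.continuous
  have h1 := hf.integrable_exp 1 r s
  have h2 := hf.integrable_exp (-1) r s
  refine (h1.add h2).mono' (by fun_prop) ?_
  filter_upwards with x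
  rw [Real.norm_eq_abs]
  simp only [Pi.add_apply, one_mul, neg_mul]
  set t := f (r + s * x)
  have e1 := Real.add_one_le_exp t
  have e2 := Real.add_one_le_exp (-t)
  have e3 := Real.exp_pos t
  have e4 := Real.exp_pos (-t)
  rcases abs_cases t with ⟨h, _⟩ | ⟨h, _⟩ <;> rw [h] <;> linarith

theorem Lip.int_exp_pos {f : ℝ → ℝ} (hf : Lip f) (a r s : ℝ) :
    0 < ∫ x, Real.exp (a * f (r + s * x)) ∂γ :=
  MeasureTheory.integral_exp_pos (hf.integrable_exp a r s)

theorem Lip.lip_gaussOp {f : ℝ → ℝ} (hf : Lip f) {a : ℝ} (ha : 0 ≤ a) (v : ℝ) :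
    Lip (gaussOp a v f) := by
  have key : ∀ x y, gaussOp a v f x ≤ gaussOp a v f y + |x - y| := by
    intro x y
    unfold Crest.ProbabilityR.InvariantGlass.gaussOp
    split_ifs with h0
    · have h1 : ∫ g, f (y + Real.sqrt v * g) + |x - y| ∂γ =
          ∫ g, f (y + Real.sqrt v * g) ∂γ + |x - y| := by
        rw [integral_add (hf.integrable _ _) (integrable_const _)]
        simp
      rw [← h1]
      refine integral_mono (hf.integrable _ _) ((hf.integrable _ _).add (integrable_const _)) ?_
      intro g
      have := hf (x + Real.sqrt v * g) (y + Real.sqrt v * g)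
      have e : x + Real.sqrt v * g - (y + Real.sqrt v * g) = x - y := by ring
      rw [e] at this
      have := (abs_le.mp this).2
      simp only
      linarith
    · have ha' : 0 < a := lt_of_le_of_ne ha (Ne.symm h0)
      have h1 : ∫ g, Real.exp (a * f (x + Real.sqrt v * g)) ∂γ ≤
          Real.exp (a * |x - y|) * ∫ g, Real.exp (a * f (y + Real.sqrt v * g)) ∂γ := by
        rw [← integral_const_mul]
        refine integral_mono (hf.integrable_exp _ _ _) ((hf.integrable_exp _ _ _).const_mul _) ?_
        intro g
        simp only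
        rw [← Real.exp_add]
        apply Real.exp_le_exp.mpr
        have := hf (x + Real.sqrt v * g) (y + Real.sqrt v * g)
        have e : x + Real.sqrt v * g - (y + Real.sqrt v * g) = x - y := by ring
        rw [e] at this
        have := (abs_le.mp this).2
        nlinarith
      have hp := hf.int_exp_pos a x (Real.sqrt v)
      have hq := hf.int_exp_pos a y (Real.sqrt v)
      have h2 := Real.log_le_log hp h1
      rw [Real.log_mul (Real.exp_pos _).ne' hq.ne', Real.log_exp] at h2
      have h3 := mul_le_mul_of_nonneg_left h2 (inv_nonneg.mpr ha)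
      rw [mul_add, ← mul_assoc, inv_mul_cancel₀ h0, one_mul] at h3
      linarith
  intro x y
  rw [abs_le]
  have h1 := key x y
  have h2 := key y x
  rw [abs_sub_comm y x] at h2
  constructor <;> linarith

theorem lip_log_cosh : Lip (fun x => Real.log (Real.cosh x)) := by
  have key : ∀ x y : ℝ, Real.log (Real.cosh x) ≤ Real.log (Real.cosh y) + |x - y| := by
    intro x y
    have h1 : Real.cosh x ≤ Real.cosh y * Real.exp |x - y| := by
      have e : x = y + (x - y) := by ring
      rw [Real.cosh_eq, Real.cosh_eq]
      have h2 : Real.exp x ≤ Real.exp y * Real.exp |x - y| := by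
        rw [← Real.exp_add]
        apply Real.exp_le_exp.mpr
        linarith [le_abs_self (x - y)]
      have h3 : Real.exp (-x) ≤ Real.exp (-y) * Real.exp |x - y| := by
        rw [← Real.exp_add]
        apply Real.exp_le_exp.mpr
        linarith [neg_abs_le (x - y)]
      linarith
    have h4 := Real.log_le_log (Real.cosh_pos x) h1
    rwa [Real.log_mul (Real.cosh_pos y).ne' (Real.exp_pos _).ne', Real.log_exp] at h4
  intro x y
  rw [abs_le]
  have h1 := key x y
  have h2 := key y x
  rw [abs_sub_comm y x] at h2
  constructor <;> linarith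









/-- accumulated `Σ a v`. -/
def Dacc (L : List (ℝ × ℝ)) : ℝ := (L.map fun p => p.1 * p.2).sum

@[simp] theorem Dacc_nil : Dacc [] = 0 := rfl

@[simp] theorem Dacc_cons (p : ℝ × ℝ) (L : List (ℝ × ℝ)) : Dacc (p :: L) = p.1 * p.2 + Dacc L := by
  simp [Dacc]











end

end Crest.Agent.R164.GTilt
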