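import Crest.Agent.R164.GCalc2
import Crest.Agent.R164.GaussNest

/-!
Row 164: coin sums converge to the Gaussian operator (helper399).

`bavg n φ` is the average of `φ` over the normalised sum of `n` fair signs, `coinOp n x a f` the
corresponding log-exp operator.
-/

set_option autoImplicit false

namespace Crest.Agent.R164.CoinG

open MeasureTheory ProbabilityTheory Filter Topology Set
open Crest.ProbabilityR.InvariantGlass
open Crest.Agent.R164.GC

noncomputable section

/-- sign of a bit -/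
def sg (b : Bool) : ℝ := if b then 1 else -1

/-- normalised coin sum -/
def csum (n : ℕ) (c : Fin n → Bool) : ℝ := (Real.sqrt n)⁻¹ * ∑ t, sg (c t)

/-- average over the normalised coin sum -/
def bavg (n : ℕ) (φ : ℝ → ℝ) : ℝ := (1 / 2) ^ n * ∑ c : Fin n → Bool, φ (csum n c)

/-- log-exp operator of the coin sum -/
def coinOp (n : ℕ) (x a : ℝ) (f : ℝ → ℝ) (z : ℝ) : ℝ :=
  (1 / x) * Real.log (bavg n fun s => Real.exp (x * f (z + a * s)))

/-! ### elementary properties of `bavg` -/

theorem bavg_const (n : ℕ) (c : ℝ) : bavg n (fun _ => c) = c := by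
  unfold bavg
  rw [Finset.sum_const, Finset.card_univ, Fintype.card_fun, Fintype.card_bool, Fintype.card_fin,
    nsmul_eq_mul]
  push_cast
  rw [← mul_assoc, ← mul_pow]; norm_num

theorem bavg_mono (n : ℕ) {φ ψ : ℝ → ℝ} (h : ∀ s, φ s ≤ ψ s) : bavg n φ ≤ bavg n ψ := by
  unfold bavg
  exact mul_le_mul_of_nonneg_left (Finset.sum_le_sum fun c _ => h _) (by positivity)

theorem bavg_add (n : ℕ) (φ ψ : ℝ → ℝ) : bavg n (fun s => φ s + ψ s) = bavg n φ + bavg n ψ := by
  unfold bavg
  rw [Finset.sum_add_distrib]; ring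

theorem bavg_sub (n : ℕ) (φ ψ : ℝ → ℝ) : bavg n (fun s => φ s - ψ s) = bavg n φ - bavg n ψ := by
  unfold bavg
  rw [Finset.sum_sub_distrib]; ring

theorem bavg_const_mul (n : ℕ) (c : ℝ) (φ : ℝ → ℝ) :
    bavg n (fun s => c * φ s) = c * bavg n φ := by
  unfold bavg
  rw [← Finset.mul_sum]; ring

theorem bavg_pos (n : ℕ) {φ : ℝ → ℝ} (h : ∀ s, 0 < φ s) : 0 < bavg n φ := by
  unfold bavg
  exact mul_pos (by positivity) (Finset.sum_pos (fun c _ => h _) Finset.univ_nonempty)

theorem bavg_abs_le (n : ℕ) (φ : ℝ → ℝ) : |bavg n φ| ≤ bavg n (fun s => |φ s|) := by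
  unfold bavg
  rw [abs_mul, abs_of_pos (by positivity : (0 : ℝ) < (1 / 2) ^ n)]
  exact mul_le_mul_of_nonneg_left (Finset.abs_sum_le_sum_abs _ _) (by positivity)

/-- exponential moments -/
theorem bavg_exp (n : ℕ) (t : ℝ) :
    bavg n (fun s => Real.exp (t * s)) = (Real.cosh (t * (Real.sqrt n)⁻¹)) ^ n := by
  unfold bavg
  have h : ∀ c : Fin n → Bool, Real.exp (t * csum n c) =
      ∏ i, Real.exp (t * (Real.sqrt n)⁻¹ * sg (c i)) := by
    intro c
    rw [← Real.exp_sum, csum, ← Finset.mul_sum]; ring_nf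
  simp only [h]
  rw [← Fintype.sum_pow (fun b : Bool => Real.exp (t * (Real.sqrt n)⁻¹ * sg b)) n, ← mul_pow,
    Real.cosh_eq]
  congr 1
  simp [sg]
  ring

theorem bavg_exp_le (n : ℕ) (t : ℝ) : bavg n (fun s => Real.exp (t * s)) ≤ Real.exp (t ^ 2 / 2) := by
  rw [bavg_exp]
  calc (Real.cosh (t * (Real.sqrt n)⁻¹)) ^ n ≤ (Real.exp ((t * (Real.sqrt n)⁻¹) ^ 2 / 2)) ^ n :=
        pow_le_pow_left₀ (Real.cosh_pos _).le (Real.cosh_le_exp_half_sq _) n
    _ = Real.exp (n * ((t * (Real.sqrt n)⁻¹) ^ 2 / 2)) := by rw [Real.exp_nat_mul]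
    _ ≤ Real.exp (t ^ 2 / 2) := by
        apply Real.exp_le_exp.2
        rw [mul_pow, inv_pow, Real.sq_sqrt (Nat.cast_nonneg n)]
        rcases Nat.eq_zero_or_pos n with rfl | hn
        · simp; positivity
        · have : (n : ℝ) ≠ 0 := by positivity
          apply le_of_eq; field_simp

theorem bavg_exp_abs_le (n : ℕ) (t : ℝ) :
    bavg n (fun s => Real.exp (t * |s|)) ≤ 2 * Real.exp (t ^ 2 / 2) := by
  calc bavg n (fun s => Real.exp (t * |s|)) ≤
        bavg n (fun s => Real.exp (t * s) + Real.exp ((-t) * s)) := by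
        apply bavg_mono
        intro s
        rcases abs_cases s with ⟨h, _⟩ | ⟨h, _⟩
        · rw [h]; have := Real.exp_pos (-t * s); linarith
        · rw [h]; have := Real.exp_pos (t * s)
          have h2 : t * -s = -t * s := by ring
          rw [h2]; linarith
    _ = bavg n (fun s => Real.exp (t * s)) + bavg n (fun s => Real.exp ((-t) * s)) := bavg_add _ _ _
    _ ≤ Real.exp (t ^ 2 / 2) + Real.exp ((-t) ^ 2 / 2) := add_le_add (bavg_exp_le n t) (bavg_exp_le n _)
    _ = _ := by rw [neg_sq]; ring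

/-! ### weak convergence -/

/-- the uniform measure on `Fin n → Bool` -/
def unifM (n : ℕ) : Measure (Fin n → Bool) := (PMF.uniformOfFintype (Fin n → Bool)).toMeasure

instance (n : ℕ) : IsProbabilityMeasure (unifM n) := by unfold unifM; infer_instance

theorem integral_unif {E : Type*} [NormedAddCommGroup E] [NormedSpace ℝ E] [CompleteSpace E]
    (n : ℕ) (f : (Fin n → Bool) → E) :
    ∫ c, f c ∂(unifM n) = ((1 / 2 : ℝ) ^ n) • ∑ c, f c := by
  unfold unifM
  rw [PMF.integral_eq_sum, Finset.smul_sum]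
  refine Finset.sum_congr rfl fun c _ => ?_
  congr 1
  rw [PMF.uniformOfFintype_apply, Fintype.card_fun, Fintype.card_bool, Fintype.card_fin]
  simp

/-- the law of the coin sum -/
def nu (n : ℕ) : Measure ℝ := (unifM n).map (csum n)

theorem meas_csum (n : ℕ) : Measurable (csum n) := measurable_of_finite _

instance (n : ℕ) : IsProbabilityMeasure (nu n) :=
  Measure.isProbabilityMeasure_map (meas_csum n).aemeasurable

theorem integral_nu {E : Type*} [NormedAddCommGroup E] [NormedSpace ℝ E] [CompleteSpace E]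
    (n : ℕ) {f : ℝ → E} (hf : Continuous f) :
    ∫ s, f s ∂(nu n) = ((1 / 2 : ℝ) ^ n) • ∑ c : Fin n → Bool, f (csum n c) := by
  unfold nu
  rw [integral_map (meas_csum n).aemeasurable hf.stronglyMeasurable.aestronglyMeasurable,
    integral_unif]

theorem integral_nu_real (n : ℕ) {f : ℝ → ℝ} (hf : Continuous f) :
    ∫ s, f s ∂(nu n) = bavg n f := by
  rw [integral_nu n hf, smul_eq_mul]; rfl

/-- fair bit -/
def ub : Measure Bool := (PMF.uniformOfFintype Bool).toMeasure

instance : IsProbabilityMeasure ub := by unfold ub; infer_instance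

theorem integral_ub {E : Type*} [NormedAddCommGroup E] [NormedSpace ℝ E] [CompleteSpace E]
    (f : Bool → E) : ∫ b, f b ∂ub = (1 / 2 : ℝ) • (f true + f false) := by
  unfold ub
  rw [PMF.integral_eq_sum, smul_add, Fintype.sum_bool]
  simp [PMF.uniformOfFintype_apply, Fintype.card_bool]

theorem charFun_ub (t : ℝ) : charFun (ub.map sg) t =
    (1 / 2 : ℝ) • (Complex.exp (t * Complex.I) + Complex.exp (-(t * Complex.I))) := by
  rw [charFun_apply_real, integral_map (measurable_of_finite _).aemeasurable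
    (by fun_prop), integral_ub]
  simp [sg]

theorem charFun_nu (n : ℕ) (t : ℝ) :
    charFun (nu n) t = (charFun (ub.map sg) ((Real.sqrt n)⁻¹ * t)) ^ n := by
  rw [charFun_apply_real, integral_nu n (by fun_prop), charFun_ub, smul_pow]
  congr 1
  have h : ∀ c : Fin n → Bool, Complex.exp (t * (csum n c : ℝ) * Complex.I) =
      ∏ i, Complex.exp (((Real.sqrt n)⁻¹ * t : ℝ) * sg (c i) * Complex.I) := by
    intro c
    rw [← Complex.exp_sum, ← Finset.sum_mul, ← Finset.mul_sum]
    congr 1
    unfold csum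
    push_cast
    ring
  simp only [h]
  rw [← Fintype.sum_pow (fun b : Bool =>
    Complex.exp (((Real.sqrt n)⁻¹ * t : ℝ) * sg b * Complex.I)) n, Fintype.sum_bool]
  simp [sg]

/-- law of the coin sum as a probability measure -/
def nuP (n : ℕ) : ProbabilityMeasure ℝ := ⟨nu n, inferInstance⟩

/-- the standard Gaussian as a probability measure -/
def gP : ProbabilityMeasure ℝ := ⟨gaussianReal 0 1, inferInstance⟩

/-- CLT as weak convergence. -/
theorem nu_tendsto : Tendsto nuP atTop (𝓝 gP) := by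
  rw [ProbabilityMeasure.tendsto_iff_tendsto_charFun]
  intro t
  have h := tendsto_charFun_inv_sqrt_mul_pow (P := ub) (X := sg)
    (measurable_of_finite _).aemeasurable (by rw [integral_ub]; simp [sg])
    (by rw [integral_ub]; simp [sg]; norm_num) t
  simp only [nuP, gP, ProbabilityMeasure.coe_mk]
  rw [charFun_gaussianReal]
  simp only [charFun_nu]
  convert h using 2
  simp
  ring_nf

/-- bounded continuous test functions -/
theorem bavg_tendsto_bdd {φ : ℝ → ℝ} (hφ : Continuous φ) {M : ℝ} (hM : ∀ s, |φ s| ≤ M) :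
    Tendsto (fun n => bavg n φ) atTop (𝓝 (∫ s, φ s ∂(gaussianReal 0 1))) := by
  have h := (ProbabilityMeasure.tendsto_iff_forall_integral_tendsto.1 nu_tendsto)
    (BoundedContinuousFunction.ofNormedAddCommGroup φ hφ M (fun s => by simpa using hM s))
  simp only [BoundedContinuousFunction.coe_ofNormedAddCommGroup, nuP, gP,
    ProbabilityMeasure.coe_mk] at h
  simpa only [integral_nu_real _ hφ] using h

/-- truncation -/
def clp (M y : ℝ) : ℝ := max (-M) (min y M)

theorem clp_cont (M : ℝ) {φ : ℝ → ℝ} (hφ : Continuous φ) : Continuous fun s => clp M (φ s) := by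
  unfold clp; fun_prop

theorem clp_abs {M : ℝ} (hM : 0 ≤ M) (y : ℝ) : |clp M y| ≤ M := by
  unfold clp
  rw [abs_le]
  exact ⟨le_max_left _ _, max_le (by linarith) (min_le_right _ _)⟩

theorem clp_sub {M : ℝ} (hM : 0 < M) (y : ℝ) : |y - clp M y| ≤ y ^ 2 / M := by
  unfold clp
  rcases le_total y M with h | h
  · rw [min_eq_left h]
    rcases le_total (-M) y with h' | h'
    · rw [max_eq_right h', sub_self, abs_zero]; positivity
    · rw [max_eq_left h', le_div_iff₀ hM, abs_of_nonpos (by linarith)]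
      nlinarith
  · rw [min_eq_right h, max_eq_right (by linarith), le_div_iff₀ hM, abs_of_nonneg (by linarith)]
    nlinarith

/-- continuous test functions of exponential growth -/
theorem bavg_tendsto {φ : ℝ → ℝ} (hφ : EG φ) :
    Tendsto (fun n => bavg n φ) atTop (𝓝 (∫ s, φ s ∂(gaussianReal 0 1))) := by
  obtain ⟨K, A, hK, hA, h⟩ := hφ.bd
  have hc := hφ.cont
  have hint := hφ.int 1 0
  simp only [zero_add, one_mul] at hint
  have hint2 := (hφ.pow 2).int 1 0
  simp only [zero_add, one_mul] at hint2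
  set C : ℝ := max (2 * K ^ 2 * Real.exp ((2 * A) ^ 2 / 2)) (∫ s, φ s ^ 2 ∂(gaussianReal 0 1)) + 1
    with hC
  have hC0 : 0 < C := by
    have : 0 ≤ 2 * K ^ 2 * Real.exp ((2 * A) ^ 2 / 2) := by positivity
    have := le_max_left (2 * K ^ 2 * Real.exp ((2 * A) ^ 2 / 2))
      (∫ s, φ s ^ 2 ∂(gaussianReal 0 1))
    linarith
  have hb1 : ∀ n, bavg n (fun s => φ s ^ 2) ≤ C := by
    intro n
    have h1 : bavg n (fun s => φ s ^ 2) ≤ bavg n (fun s => K ^ 2 * Real.exp ((2 * A) * |s|)) := by
      apply bavg_mono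
      intro s
      have h2 := h s
      calc φ s ^ 2 = |φ s| ^ 2 := (sq_abs _).symm
        _ ≤ (K * Real.exp (A * |s|)) ^ 2 := pow_le_pow_left₀ (abs_nonneg _) h2 2
        _ = K ^ 2 * Real.exp ((2 * A) * |s|) := by
          rw [mul_pow, ← Real.exp_nat_mul]; push_cast; ring_nf
    rw [bavg_const_mul] at h1
    have h3 := mul_le_mul_of_nonneg_left (bavg_exp_abs_le n (2 * A)) (sq_nonneg K)
    have := le_max_left (2 * K ^ 2 * Real.exp ((2 * A) ^ 2 / 2))
      (∫ s, φ s ^ 2 ∂(gaussianReal 0 1))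
    rw [hC]
    linarith
  have hb2 : ∫ s, φ s ^ 2 ∂(gaussianReal 0 1) ≤ C := by
    have := le_max_right (2 * K ^ 2 * Real.exp ((2 * A) ^ 2 / 2))
      (∫ s, φ s ^ 2 ∂(gaussianReal 0 1))
    rw [hC]; linarith
  rw [Metric.tendsto_atTop]
  intro ε hε
  set M : ℝ := 4 * C / ε with hM
  have hM0 : 0 < M := by positivity
  obtain ⟨n0, hn0⟩ := Metric.tendsto_atTop.1
    (bavg_tendsto_bdd (clp_cont M hc) (fun s => clp_abs hM0.le (φ s))) (ε / 2) (by linarith)
  refine ⟨n0, fun n hn => ?_⟩
  have h0 := hn0 n hn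
  rw [Real.dist_eq] at h0 ⊢
  have e1 : |bavg n φ - bavg n (fun s => clp M (φ s))| ≤ C / M := by
    rw [← bavg_sub]
    refine (bavg_abs_le _ _).trans ?_
    refine (bavg_mono n (fun s => clp_sub hM0 (φ s))).trans ?_
    have : (fun s => φ s ^ 2 / M) = fun s => M⁻¹ * φ s ^ 2 := by
      funext s; rw [div_eq_inv_mul]
    rw [this, bavg_const_mul, div_eq_inv_mul]
    exact mul_le_mul_of_nonneg_left (hb1 n) (by positivity)
  have hintc : Integrable (fun s => clp M (φ s)) (gaussianReal 0 1) :=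
    Integrable.of_bound (clp_cont M hc).aestronglyMeasurable M
      (Eventually.of_forall fun s => by simpa using clp_abs hM0.le (φ s))
  have e2 : |∫ s, φ s ∂(gaussianReal 0 1) - ∫ s, clp M (φ s) ∂(gaussianReal 0 1)| ≤ C / M := by
    rw [← integral_sub hint hintc]
    refine (abs_integral_le_integral_abs).trans ?_
    refine (integral_mono (hint.sub hintc).abs (hint2.div_const M)
      (fun s => clp_sub hM0 (φ s))).trans ?_
    rw [integral_div]
    exact div_le_div_of_nonneg_right hb2 hM0.le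
  have e3 : C / M = ε / 4 := by rw [hM]; field_simp
  rw [e3] at e1 e2
  have e4 : bavg n φ - ∫ s, φ s ∂(gaussianReal 0 1) =
      (bavg n φ - bavg n (fun s => clp M (φ s))) +
      (bavg n (fun s => clp M (φ s)) - ∫ s, clp M (φ s) ∂(gaussianReal 0 1)) -
      (∫ s, φ s ∂(gaussianReal 0 1) - ∫ s, clp M (φ s) ∂(gaussianReal 0 1)) := by ring
  rw [e4]
  have a1 := abs_le.1 e1
  have a2 := abs_le.1 e2
  have a3 := abs_lt.1 h0
  rw [abs_lt]
  constructor <;> linarith [a1.1, a1.2, a2.1, a2.2, a3.1, a3.2]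

/-- varying test functions along a filter -/
theorem bavg_tendsto_filter {ι : Type*} {l : Filter ι} {n : ι → ℕ} (hn : Tendsto n l atTop)
    {φ : ι → ℝ → ℝ} {ψ : ℝ → ℝ} (hψ : EG ψ) {K A : ℝ} (hK : 0 ≤ K)
    (hb : ∀ᶠ i in l, ∀ s, |φ i s| ≤ K * Real.exp (A * |s|))
    (hu : ∀ M : ℝ, TendstoUniformlyOn φ ψ l (Icc (-M) M)) :
    Tendsto (fun i => bavg (n i) (φ i)) l (𝓝 (∫ s, ψ s ∂(gaussianReal 0 1))) := by
  obtain ⟨K', A', hK', hA', h'⟩ := hψ.bd
  -- common bound
  set B : ℝ := K + K' + 1 with hB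
  set D : ℝ := |A| + A' with hD
  have hb1 : ∀ᶠ i in l, ∀ s, |φ i s - ψ s| ≤ B * Real.exp (D * |s|) := by
    filter_upwards [hb] with i hi s
    have h1 := hi s
    have h2 := h' s
    have h3 : Real.exp (A * |s|) ≤ Real.exp (D * |s|) := by
      apply Real.exp_le_exp.2
      have := le_abs_self A
      have := abs_nonneg s
      rw [hD]; nlinarith
    have h4 : Real.exp (A' * |s|) ≤ Real.exp (D * |s|) := by
      apply Real.exp_le_exp.2
      have := abs_nonneg A
      have := abs_nonneg s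
      rw [hD]; nlinarith
    have h5 := Real.exp_pos (D * |s|)
    calc |φ i s - ψ s| ≤ |φ i s| + |ψ s| := abs_sub _ _
      _ ≤ K * Real.exp (D * |s|) + K' * Real.exp (D * |s|) := by
        refine add_le_add (h1.trans ?_) (h2.trans ?_)
        · exact mul_le_mul_of_nonneg_left h3 hK
        · exact mul_le_mul_of_nonneg_left h4 hK'
      _ ≤ _ := by rw [hB]; nlinarith
  have hB0 : 0 < B := by rw [hB]; positivity
  set C : ℝ := B * (2 * Real.exp ((D + 1) ^ 2 / 2)) with hC
  have hC0 : 0 < C := by positivity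
  rw [Metric.tendsto_nhds]
  intro ε hε
  -- choose `M` with `C e^{-M} < ε / 4`
  obtain ⟨M, hM0, hM⟩ : ∃ M : ℝ, 0 < M ∧ C * Real.exp (-M) < ε / 4 := by
    refine ⟨max 1 (Real.log (4 * C / ε) + 1), by positivity, ?_⟩
    have h1 : Real.log (4 * C / ε) + 1 ≤ max 1 (Real.log (4 * C / ε) + 1) := le_max_right _ _
    calc C * Real.exp (-(max 1 (Real.log (4 * C / ε) + 1))) ≤
          C * Real.exp (-(Real.log (4 * C / ε) + 1)) :=
          mul_le_mul_of_nonneg_left (Real.exp_le_exp.2 (by linarith)) hC0.le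
      _ < C * Real.exp (-Real.log (4 * C / ε)) :=
          mul_lt_mul_of_pos_left (Real.exp_lt_exp.2 (by linarith)) hC0
      _ = ε / 4 := by
          rw [Real.exp_neg, Real.exp_log (by positivity)]; field_simp
  have hu1 := Metric.tendstoUniformlyOn_iff.1 (hu M) (ε / 4) (by linarith)
  have hl := ((bavg_tendsto hψ).comp hn).eventually (Metric.ball_mem_nhds _ (half_pos hε))
  filter_upwards [hb1, hu1, hl] with i h1 h2 h3
  rw [Real.dist_eq]
  rw [Real.dist_eq] at h3
  simp only [Function.comp] at h3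
  have e1 : |bavg (n i) (φ i) - bavg (n i) ψ| ≤ ε / 4 + C * Real.exp (-M) := by
    rw [← bavg_sub]
    refine (bavg_abs_le _ _).trans ?_
    have e2 : ∀ s, |φ i s - ψ s| ≤ ε / 4 + (B * Real.exp (-M)) * Real.exp ((D + 1) * |s|) := by
      intro s
      by_cases hs : |s| ≤ M
      · have := h2 s (abs_le.1 hs)
        rw [dist_comm, Real.dist_eq] at this
        have h5 : 0 < (B * Real.exp (-M)) * Real.exp ((D + 1) * |s|) := by positivity
        linarith
      · push Not at hs
        refine (h1 s).trans ?_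
        have h6 : B * Real.exp (D * |s|) ≤ (B * Real.exp (-M)) * Real.exp ((D + 1) * |s|) := by
          rw [mul_assoc, ← Real.exp_add]
          refine mul_le_mul_of_nonneg_left (Real.exp_le_exp.2 ?_) hB0.le
          linarith
        linarith
    refine (bavg_mono _ e2).trans ?_
    rw [bavg_add, bavg_const, bavg_const_mul]
    have h7 := mul_le_mul_of_nonneg_left (bavg_exp_abs_le (n i) (D + 1))
      (by positivity : 0 ≤ B * Real.exp (-M))
    have h8 : (B * Real.exp (-M)) * (2 * Real.exp ((D + 1) ^ 2 / 2)) = C * Real.exp (-M) := by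
      rw [hC]; ring
    linarith
  have a1 := abs_le.1 e1
  have a2 := abs_lt.1 h3
  rw [abs_lt]
  constructor <;> linarith [a1.1, a1.2, a2.1, a2.2]

/-! ### the log-exp operator -/

theorem Lip1.abs {f : ℝ → ℝ} (hf : Lip1 f) (x y : ℝ) : |f x - f y| ≤ |x - y| := by
  rw [abs_le]
  have h1 := hf x y
  have h2 := hf y x
  rw [abs_sub_comm y x] at h2
  constructor <;> linarith

theorem Lip1.of_lip {f : ℝ → ℝ} (hf : GTilt.Lip f) : Lip1 f := fun x y => by
  have := (abs_le.1 (hf x y)).2
  linarith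

theorem Lip1.to_lip {f : ℝ → ℝ} (hf : Lip1 f) : GTilt.Lip f := fun x y => Lip1.abs hf x y

theorem coinOp_lip {f : ℝ → ℝ} (hf : Lip1 f) (n : ℕ) {x : ℝ} (hx : 0 < x) (a : ℝ) :
    Lip1 (coinOp n x a f) := by
  intro u v
  unfold coinOp
  have h1 : bavg n (fun s => Real.exp (x * f (u + a * s))) ≤
      Real.exp (x * |u - v|) * bavg n (fun s => Real.exp (x * f (v + a * s))) := by
    rw [← bavg_const_mul]
    apply bavg_mono
    intro s
    rw [← Real.exp_add]
    apply Real.exp_le_exp.2
    have h := hf (u + a * s) (v + a * s)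
    have e : u + a * s - (v + a * s) = u - v := by ring
    rw [e] at h
    nlinarith
  have hp := bavg_pos n (fun s => Real.exp_pos (x * f (u + a * s)))
  have hq := bavg_pos n (fun s => Real.exp_pos (x * f (v + a * s)))
  have h2 := Real.log_le_log hp h1
  rw [Real.log_mul (Real.exp_pos _).ne' hq.ne', Real.log_exp] at h2
  have h3 := mul_le_mul_of_nonneg_left h2 (by positivity : 0 ≤ 1 / x)
  have h4 : 1 / x * (x * |u - v|) = |u - v| := by field_simp
  rw [mul_add, h4] at h3
  linarith

theorem coinOp_mono (n : ℕ) {x : ℝ} (hx : 0 < x) (a : ℝ) {f g : ℝ → ℝ} (h : ∀ y, f y ≤ g y)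
    (z : ℝ) : coinOp n x a f z ≤ coinOp n x a g z := by
  unfold coinOp
  refine mul_le_mul_of_nonneg_left ?_ (by positivity)
  refine Real.log_le_log (bavg_pos n fun s => Real.exp_pos _) (bavg_mono n fun s => ?_)
  exact Real.exp_le_exp.2 (mul_le_mul_of_nonneg_left (h _) hx.le)


theorem coinOp_shift (n : ℕ) (x a b : ℝ) (f : ℝ → ℝ) (z : ℝ) :
    coinOp n x a (fun y => f (b + y)) z = coinOp n x a f (b + z) := by
  unfold coinOp
  simp only [add_assoc]

theorem exp_coinOp (n : ℕ) {x : ℝ} (hx : 0 < x) (a : ℝ) (f : ℝ → ℝ) (z : ℝ) :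
    Real.exp (x * coinOp n x a f z) = bavg n (fun s => Real.exp (x * f (z + a * s))) := by
  unfold coinOp
  rw [← mul_assoc, mul_one_div_cancel hx.ne', one_mul, Real.exp_log]
  exact bavg_pos n fun s => Real.exp_pos _

theorem EG.comp_affine {φ : ℝ → ℝ} (hφ : EG φ) (z a : ℝ) : EG (fun s => φ (z + a * s)) := by
  obtain ⟨K, A, hK, hA, h⟩ := hφ.bd
  have hc := hφ.cont
  exact ⟨by fun_prop, K * Real.exp (A * |z|), A * |a|, by positivity, by positivity,
    fun s => shift_bd hK hA h le_rfl le_rfl s⟩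

/-- pointwise convergence of 1-Lipschitz functions is uniform on compacts -/
theorem unif_of_lip {ι : Type*} {l : Filter ι} {F : ι → ℝ → ℝ} {f : ℝ → ℝ}
    (hF : ∀ i, Lip1 (F i)) (hf : Lip1 f) (h : ∀ s, Tendsto (fun i => F i s) l (𝓝 (f s)))
    (M : ℝ) : TendstoUniformlyOn F f l (Icc (-M) M) := by
  rw [← tendstoLocallyUniformlyOn_iff_tendstoUniformlyOn_of_compact isCompact_Icc,
    Metric.tendstoLocallyUniformlyOn_iff]
  intro ε hε x _
  refine ⟨Metric.ball x (ε / 4), mem_nhdsWithin_of_mem_nhds (Metric.ball_mem_nhds x (by linarith)),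
    ?_⟩
  have h1 := Metric.tendsto_nhds.1 (h x) (ε / 4) (by linarith)
  filter_upwards [h1] with i hi y hy
  rw [Metric.mem_ball, Real.dist_eq] at hy
  rw [Real.dist_eq] at hi ⊢
  have h2 := Lip1.abs (hF i) y x
  have h3 := Lip1.abs hf y x
  have e : f y - F i y = (f y - f x) - (F i y - F i x) - (F i x - f x) := by ring
  rw [e]
  have a1 := abs_le.1 (h2.trans hy.le)
  have a2 := abs_le.1 (h3.trans hy.le)
  have a3 := abs_lt.1 hi
  rw [abs_lt]
  constructor <;> linarith [a1.1, a1.2, a2.1, a2.2, a3.1, a3.2]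

/-- joint convergence of the coin operator -/
theorem coinOp_tendsto {ι : Type*} {l : Filter ι} {n : ι → ℕ} (hn : Tendsto n l atTop)
    {x : ℝ} (hx : 0 < x) {F : ι → ℝ → ℝ} {f : ℝ → ℝ} (hF : ∀ i, Lip1 (F i)) (hf : Lip1 f)
    (h : ∀ s, Tendsto (fun i => F i s) l (𝓝 (f s))) {a z : ι → ℝ} {a0 z0 : ℝ}
    (ha : Tendsto a l (𝓝 a0)) (hz : Tendsto z l (𝓝 z0)) :
    Tendsto (fun i => coinOp (n i) x (a i) (F i) (z i)) l
      (𝓝 (x⁻¹ * Real.log (H a0 (fun y => Real.exp (x * f y)) z0))) := by
  have hψ : EG (fun s => Real.exp (x * f (z0 + a0 * s))) :=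
    EG.comp_affine (EG.exp_lip hf x) z0 a0
  have hz1 := Metric.tendsto_nhds.1 hz 1 one_pos
  have ha1 := Metric.tendsto_nhds.1 ha 1 one_pos
  have hf1 := Metric.tendsto_nhds.1 (h 0) 1 one_pos
  have hmain : Tendsto (fun i => bavg (n i) (fun s => Real.exp (x * F i (z i + a i * s)))) l
      (𝓝 (∫ s, Real.exp (x * f (z0 + a0 * s)) ∂(gaussianReal 0 1))) := by
    refine bavg_tendsto_filter hn hψ
      (K := Real.exp (x * (|f 0| + 1 + (|z0| + 1)))) (A := x * (|a0| + 1))
      (Real.exp_pos _).le ?_ ?_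
    · filter_upwards [hz1, ha1, hf1] with i h1 h2 h3 s
      rw [Real.dist_eq] at h1 h2 h3
      rw [abs_of_pos (Real.exp_pos _), ← Real.exp_add]
      apply Real.exp_le_exp.2
      have e1 := hF i (z i + a i * s) 0
      rw [sub_zero] at e1
      have e2 : |z i + a i * s| ≤ (|z0| + 1) + (|a0| + 1) * |s| := by
        refine (abs_add_le _ _).trans (add_le_add ?_ ?_)
        · have := abs_sub_abs_le_abs_sub (z i) z0
          linarith
        · rw [abs_mul]
          refine mul_le_mul_of_nonneg_right ?_ (abs_nonneg _)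
          have := abs_sub_abs_le_abs_sub (a i) a0
          linarith
      have e3 : F i 0 ≤ |f 0| + 1 := by
        have := (abs_lt.1 h3).2
        have := le_abs_self (f 0)
        linarith
      have e4 : F i (z i + a i * s) ≤ (|f 0| + 1 + (|z0| + 1)) + (|a0| + 1) * |s| := by linarith
      calc x * F i (z i + a i * s) ≤ x * ((|f 0| + 1 + (|z0| + 1)) + (|a0| + 1) * |s|) :=
            mul_le_mul_of_nonneg_left e4 hx.le
        _ = _ := by ring
    · intro M
      rw [Metric.tendstoUniformlyOn_iff]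
      intro ε hε
      -- bound of the limit function on the compact
      set M' : ℝ := |z0| + |a0| * |M| with hM'
      set V : ℝ := |f 0| + M' with hV
      set δ : ℝ := min (1 / x) (ε / (4 * x * Real.exp (x * V))) with hδ
      have hδ0 : 0 < δ := by
        rw [hδ]; exact lt_min (by positivity) (by positivity)
      have hu := Metric.tendstoUniformlyOn_iff.1 (unif_of_lip hF hf h M') (δ / 4) (by linarith)
      have hz2 := Metric.tendsto_nhds.1 hz (δ / 4) (by linarith)
      have ha2 := Metric.tendsto_nhds.1 ha (δ / (4 * (|M| + 1))) (by positivity)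
      filter_upwards [hu, hz2, ha2] with i h1 h2 h3 s hs
      rw [Real.dist_eq] at h2 h3 ⊢
      have hsM : |s| ≤ |M| := by
        rw [abs_le]
        have := le_abs_self M
        exact ⟨by linarith [hs.1], by linarith [hs.2]⟩
      have g0 : |z0 + a0 * s| ≤ M' := by
        refine (abs_add_le _ _).trans ?_
        rw [abs_mul, hM']
        have := mul_le_mul_of_nonneg_left hsM (abs_nonneg a0)
        linarith
      have g1 := h1 (z0 + a0 * s) (abs_le.1 g0)
      rw [Real.dist_eq] at g1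
      have g2 := Lip1.abs (hF i) (z i + a i * s) (z0 + a0 * s)
      have g3 : |z i + a i * s - (z0 + a0 * s)| ≤ δ / 4 + δ / 4 := by
        have e : z i + a i * s - (z0 + a0 * s) = (z i - z0) + (a i - a0) * s := by ring
        rw [e]
        refine (abs_add_le _ _).trans (add_le_add h2.le ?_)
        rw [abs_mul]
        calc |a i - a0| * |s| ≤ δ / (4 * (|M| + 1)) * (|M| + 1) :=
              mul_le_mul h3.le (by linarith) (abs_nonneg _) (by positivity)
          _ = δ / 4 := by
              have : |M| + 1 ≠ 0 := by positivity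
              field_simp
      set u := F i (z i + a i * s) with hu'
      set v := f (z0 + a0 * s) with hv'
      have g4 : |u - v| < δ := by
        have e : u - v = (F i (z i + a i * s) - F i (z0 + a0 * s)) -
            (f (z0 + a0 * s) - F i (z0 + a0 * s)) := by rw [hu', hv']; ring
        rw [e]
        have a1 := abs_le.1 (g2.trans g3)
        have a2 := abs_lt.1 g1
        rw [abs_lt]
        constructor <;> linarith [a1.1, a1.2, a2.1, a2.2]
      have g5 : v ≤ V := by
        have e := hf (z0 + a0 * s) 0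
        rw [sub_zero] at e
        have := le_abs_self (f 0)
        rw [hv', hV]; linarith
      have g6 : |x * (u - v)| ≤ 1 := by
        rw [abs_mul, abs_of_pos hx]
        calc x * |u - v| ≤ x * (1 / x) :=
              mul_le_mul_of_nonneg_left (g4.le.trans (min_le_left _ _)) hx.le
          _ = 1 := by field_simp
      have g7 := Real.abs_exp_sub_one_le g6
      have e7 : Real.exp (x * v) - Real.exp (x * u) =
          -(Real.exp (x * v) * (Real.exp (x * (u - v)) - 1)) := by
        rw [mul_sub, ← Real.exp_add]; ring_nf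
      rw [e7, abs_neg, abs_mul, abs_of_pos (Real.exp_pos _)]
      calc Real.exp (x * v) * |Real.exp (x * (u - v)) - 1| ≤
            Real.exp (x * V) * (2 * |x * (u - v)|) :=
            mul_le_mul (Real.exp_le_exp.2 (mul_le_mul_of_nonneg_left g5 hx.le)) g7
              (abs_nonneg _) (Real.exp_pos _).le
        _ = (2 * x * Real.exp (x * V)) * |u - v| := by
            rw [abs_mul, abs_of_pos hx]; ring
        _ ≤ (2 * x * Real.exp (x * V)) * (ε / (4 * x * Real.exp (x * V))) :=
            mul_le_mul_of_nonneg_left (g4.le.trans (min_le_right _ _)) (by positivity)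
        _ = ε / 2 := by field_simp; norm_num
        _ < ε := by linarith
  have hpos : 0 < ∫ s, Real.exp (x * f (z0 + a0 * s)) ∂(gaussianReal 0 1) :=
    den_pos hf x a0 z0
  have h3 := (hmain.log hpos.ne').const_mul (x⁻¹)
  unfold coinOp
  simp only [one_div]
  exact h3

/-! ### nested recursion -/

/-- nested coin recursion over a list -/
def cRec {κ : Type*} (n : ℕ) (x a : κ → ℝ) (L : List κ) (f : ℝ → ℝ) : ℝ → ℝ :=
  L.foldr (fun g acc => coinOp n (x g) (a g) acc) f

/-- nested Gaussian recursion over a list -/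
def gRec {κ : Type*} (x a : κ → ℝ) (L : List κ) (f : ℝ → ℝ) : ℝ → ℝ :=
  L.foldr (fun g acc => gaussOp (x g) (a g ^ 2) acc) f

section rec

variable {κ : Type*} {x : κ → ℝ}

theorem cRec_lip (hx : ∀ g, 0 < x g) (n : ℕ) (a : κ → ℝ) (L : List κ) {f : ℝ → ℝ} (hf : Lip1 f) :
    Lip1 (cRec n x a L f) := by
  induction L with
  | nil => exact hf
  | cons g L ih => exact coinOp_lip ih n (hx g) (a g)

theorem gRec_lip (hx : ∀ g, 0 < x g) (a : κ → ℝ) (L : List κ) {f : ℝ → ℝ} (hf : Lip1 f) :
    Lip1 (gRec x a L f) := by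
  induction L with
  | nil => exact hf
  | cons g L ih => exact Lip1.of_lip (GTilt.Lip.lip_gaussOp (Lip1.to_lip ih) (hx g).le _)


theorem cRec_shift (n : ℕ) (a : κ → ℝ) (b : ℝ) (f : ℝ → ℝ) (L : List κ) (z : ℝ) :
    cRec n x a L (fun y => f (b + y)) z = cRec n x a L f (b + z) := by
  induction L generalizing z with
  | nil => rfl
  | cons g L ih =>
    show coinOp n (x g) (a g) (cRec n x a L fun y => f (b + y)) z =
      coinOp n (x g) (a g) (cRec n x a L f) (b + z)
    have : (cRec n x a L fun y => f (b + y)) = fun y => cRec n x a L f (b + y) := by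
      funext y; exact ih y
    rw [this, coinOp_shift]


theorem cRec_tendsto {ι : Type*} {l : Filter ι} {n : ι → ℕ} (hn : Tendsto n l atTop)
    (hx : ∀ g, 0 < x g) (L : List κ) {f : ℝ → ℝ} (hf : Lip1 f)
    {a : ι → κ → ℝ} {a0 : κ → ℝ} (ha0 : ∀ g, 0 ≤ a0 g)
    (ha : ∀ g, Tendsto (fun i => a i g) l (𝓝 (a0 g))) {z : ι → ℝ} {z0 : ℝ}
    (hz : Tendsto z l (𝓝 z0)) :
    Tendsto (fun i => cRec (n i) x (a i) L f (z i)) l (𝓝 (gRec x a0 L f z0)) := by
  induction L generalizing z z0 with
  | nil => exact ((EG.lip hf).cont.tendsto z0).comp hz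
  | cons g L ih =>
    have h := coinOp_tendsto hn (hx g) (fun i => cRec_lip hx (n i) (a i) L hf)
      (gRec_lip hx a0 L hf) (fun s => ih tendsto_const_nhds) (ha g) hz
    have e : gRec x a0 (g :: L) f z0 = (x g)⁻¹ * Real.log
        (H (a0 g) (fun y => Real.exp (x g * gRec x a0 L f y)) z0) := by
      show gaussOp (x g) (a0 g ^ 2) (gRec x a0 L f) z0 = _
      rw [gaussOp_ne (hx g).ne', Real.sqrt_sq (ha0 g)]
    rw [e]
    exact h

/-- uniform convergence on compact sets of strengths and positions -/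
theorem cRec_unif (hx : ∀ g, 0 < x g) (L : List κ) {f : ℝ → ℝ} (hf : Lip1 f)
    {K : Set ((κ → ℝ) × ℝ)} (hK : IsCompact K) (hK0 : ∀ q ∈ K, ∀ g, 0 ≤ q.1 g) {ε : ℝ}
    (hε : 0 < ε) :
    ∃ n0 : ℕ, ∀ n, n0 ≤ n → ∀ q ∈ K, |cRec n x q.1 L f q.2 - gRec x q.1 L f q.2| < ε := by
  have key : TendstoLocallyUniformlyOn (fun (n : ℕ) (q : (κ → ℝ) × ℝ) => cRec n x q.1 L f q.2)
      (fun q => gRec x q.1 L f q.2) atTop K := by
    rw [Metric.tendstoLocallyUniformlyOn_iff]
    intro δ hδ q0 hq0
    -- joint convergence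
    have hj : Tendsto (fun r : ℕ × ((κ → ℝ) × ℝ) => cRec r.1 x r.2.1 L f r.2.2)
        (atTop ×ˢ 𝓝[K] q0) (𝓝 (gRec x q0.1 L f q0.2)) := by
      have h2 : Tendsto (fun r : ℕ × ((κ → ℝ) × ℝ) => r.2) (atTop ×ˢ 𝓝[K] q0) (𝓝 q0) :=
        tendsto_snd.mono_right nhdsWithin_le_nhds
      refine cRec_tendsto (l := atTop ×ˢ 𝓝[K] q0) (n := fun r => r.1) (a := fun r => r.2.1)
        (z := fun r => r.2.2) tendsto_fst hx L hf (hK0 q0 hq0) (fun g => ?_) ?_
      · exact ((continuous_apply g).comp continuous_fst).continuousAt.tendsto.comp h2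
      · exact continuous_snd.continuousAt.tendsto.comp h2
    have hj1 := Metric.tendsto_nhds.1 hj (δ / 4) (by linarith)
    rw [Filter.eventually_prod_iff] at hj1
    obtain ⟨pa, hpa, pb, hpb, hab⟩ := hj1
    refine ⟨{q | pb q} ∩ K, Filter.inter_mem hpb self_mem_nhdsWithin, ?_⟩
    filter_upwards [hpa] with n hn q hq
    have h1 := hab hn hq.1
    -- the limit function is close to its value at `q0`
    have h2 : |gRec x q.1 L f q.2 - gRec x q0.1 L f q0.2| ≤ δ / 4 := by
      have h3 : Tendsto (fun n : ℕ => cRec n x q.1 L f q.2) atTop (𝓝 (gRec x q.1 L f q.2)) :=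
        cRec_tendsto tendsto_id hx L hf (hK0 q hq.2) (fun g => tendsto_const_nhds)
          tendsto_const_nhds
      have h4 := (h3.sub_const (gRec x q0.1 L f q0.2)).abs
      refine le_of_tendsto h4 ?_
      filter_upwards [hpa] with m hm
      have := hab hm hq.1
      rw [Real.dist_eq] at this
      exact this.le
    rw [Real.dist_eq] at h1 ⊢
    have e : gRec x q.1 L f q.2 - cRec n x q.1 L f q.2 =
        (gRec x q.1 L f q.2 - gRec x q0.1 L f q0.2) -
        (cRec n x q.1 L f q.2 - gRec x q0.1 L f q0.2) := by ring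
    rw [e]
    have a1 := abs_le.1 h2
    have a2 := abs_lt.1 h1
    rw [abs_lt]
    constructor <;> linarith [a1.1, a1.2, a2.1, a2.2]
  have h := (tendstoLocallyUniformlyOn_iff_tendstoUniformlyOn_of_compact hK).1 key
  obtain ⟨n0, hn0⟩ := eventually_atTop.1 (Metric.tendstoUniformlyOn_iff.1 h ε hε)
  refine ⟨n0, fun n hn q hq => ?_⟩
  have := hn0 n hn q hq
  rwa [Real.dist_eq, abs_sub_comm] at this

end rec

end

end Crest.Agent.R164.CoinG
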