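import Mathlib
import Crest.Prelude.Def_InvariantGlass

-- ▼ part R164/TransCdf
section

/-!
Row 164 (S0249 from S0248), part 1: the `L¹` distance of distribution functions, its comparison
with the transport cost and with the sorted matching of two vectors (helper639).
-/

set_option autoImplicit false

namespace Crest.Agent.R164

open MeasureTheory Set
open Crest.ProbabilityR.InvariantGlass
open scoped ENNReal

/-- indicator of `x ≤ t` as a real number -/
noncomputable def ile (x t : ℝ) : ℝ := if x ≤ t then 1 else 0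

theorem ile_nonneg (x t : ℝ) : 0 ≤ ile x t := by unfold ile; split_ifs <;> norm_num

theorem ile_le_one (x t : ℝ) : ile x t ≤ 1 := by unfold ile; split_ifs <;> norm_num

theorem measurable_ile₂ : Measurable (fun z : ℝ × ℝ => ile z.1 z.2) := by
  unfold ile
  exact Measurable.ite (measurableSet_le measurable_fst measurable_snd) measurable_const
    measurable_const

theorem measurable_ile_right (x : ℝ) : Measurable (fun t : ℝ => ile x t) :=
  measurable_ile₂.comp (measurable_const.prodMk measurable_id)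

theorem measurable_ile_left (t : ℝ) : Measurable (fun x : ℝ => ile x t) :=
  measurable_ile₂.comp (measurable_id.prodMk measurable_const)

/-- layer-cake formula for `|x - y|` -/
theorem lintegral_ile (x y : ℝ) : ∫⁻ t, ‖ile x t - ile y t‖ₑ = ‖x - y‖ₑ := by
  wlog h : x ≤ y generalizing x y
  · have := this y x (le_of_not_ge h)
    rw [← enorm_neg (x - y), neg_sub, ← this]
    congr 1
    funext t
    rw [← enorm_neg (ile y t - ile x t), neg_sub]
  have h1 : (fun t => ‖ile x t - ile y t‖ₑ) = (Ico x y).indicator (fun _ => (1 : ℝ≥0∞)) := by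
    funext t
    unfold ile
    by_cases h1 : x ≤ t
    · by_cases h2 : y ≤ t
      · rw [if_pos h1, if_pos h2, sub_self, enorm_zero, indicator_of_notMem]
        exact fun h3 => absurd h3.2 (not_lt.2 h2)
      · rw [if_pos h1, if_neg h2, sub_zero, indicator_of_mem (show t ∈ Ico x y from
          ⟨h1, not_le.1 h2⟩)]
        simp
    · have h2 : ¬ y ≤ t := fun h2 => h1 (h.trans h2)
      rw [if_neg h1, if_neg h2, sub_self, enorm_zero, indicator_of_notMem]
      exact fun h3 => h1 h3.1
  rw [h1, lintegral_indicator measurableSet_Ico, lintegral_const, one_mul,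
    Measure.restrict_apply MeasurableSet.univ, univ_inter, Real.volume_Ico, ← enorm_neg, neg_sub,
    Real.enorm_eq_ofReal (by linarith)]

/-- distribution function -/
noncomputable def cdfR (ν : Measure ℝ) (t : ℝ) : ℝ := ν.real (Iic t)

theorem cdfR_mono (ν : Measure ℝ) [IsFiniteMeasure ν] : Monotone (cdfR ν) := fun _ _ h =>
  measureReal_mono (Iic_subset_Iic.2 h)

theorem measurable_cdfR (ν : Measure ℝ) [IsFiniteMeasure ν] : Measurable (cdfR ν) :=
  (cdfR_mono ν).measurable

/-- `L¹` distance of distribution functions -/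
noncomputable def Dc (ν ν' : Measure ℝ) : ℝ≥0∞ := ∫⁻ t, ‖cdfR ν t - cdfR ν' t‖ₑ

theorem Dc_comm (ν ν' : Measure ℝ) : Dc ν ν' = Dc ν' ν := by
  unfold Dc
  congr 1
  funext t
  rw [← enorm_neg, neg_sub]

theorem Dc_triangle (a b c : Measure ℝ) [IsFiniteMeasure a] [IsFiniteMeasure b] :
    Dc a c ≤ Dc a b + Dc b c := by
  unfold Dc
  have hm : Measurable (fun t => ‖cdfR a t - cdfR b t‖ₑ) :=
    ((measurable_cdfR a).sub (measurable_cdfR b)).enorm
  rw [← lintegral_add_left hm]
  refine lintegral_mono fun t => ?_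
  have : cdfR a t - cdfR c t = (cdfR a t - cdfR b t) + (cdfR b t - cdfR c t) := by ring
  rw [this]
  exact enorm_add_le _ _

theorem integral_ile (ν : Measure ℝ) (t : ℝ) : ∫ x, ile x t ∂ν = cdfR ν t := by
  have : (fun x => ile x t) = (Iic t).indicator (fun _ => (1 : ℝ)) := by
    funext x
    unfold ile
    by_cases h : x ≤ t
    · rw [if_pos h, indicator_of_mem (show x ∈ Iic t from h)]
    · rw [if_neg h, indicator_of_notMem (show x ∉ Iic t from h)]
  rw [this, integral_indicator measurableSet_Iic, integral_const]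
  simp [cdfR]

/-- the `L¹` distance of the distribution functions is at most the cost of any coupling -/
theorem Dc_le_coupling (ν ν' : Measure ℝ) [IsFiniteMeasure ν] (π : Measure (ℝ × ℝ))
    (h1 : π.map Prod.fst = ν) (h2 : π.map Prod.snd = ν') :
    Dc ν ν' ≤ ∫⁻ z, ‖z.1 - z.2‖ₑ ∂π := by
  have hfin : IsFiniteMeasure π := by
    constructor
    have := measure_lt_top ν univ
    rwa [← h1, Measure.map_apply measurable_fst MeasurableSet.univ, preimage_univ] at this
  have hint1 : ∀ t, Integrable (fun z : ℝ × ℝ => ile z.1 t) π := fun t =>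
    Integrable.of_bound ((measurable_ile_left t).comp measurable_fst).aestronglyMeasurable 1
      (Filter.Eventually.of_forall fun z => by
        rw [Real.norm_of_nonneg (ile_nonneg _ _)]; exact ile_le_one _ _)
  have hint2 : ∀ t, Integrable (fun z : ℝ × ℝ => ile z.2 t) π := fun t =>
    Integrable.of_bound ((measurable_ile_left t).comp measurable_snd).aestronglyMeasurable 1
      (Filter.Eventually.of_forall fun z => by
        rw [Real.norm_of_nonneg (ile_nonneg _ _)]; exact ile_le_one _ _)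
  have hpt : ∀ t, ‖cdfR ν t - cdfR ν' t‖ₑ ≤ ∫⁻ z, ‖ile z.1 t - ile z.2 t‖ₑ ∂π := by
    intro t
    have e1 : cdfR ν t = ∫ z, ile z.1 t ∂π := by
      rw [← integral_ile, ← h1, integral_map measurable_fst.aemeasurable
        (measurable_ile_left t).aestronglyMeasurable]
    have e2 : cdfR ν' t = ∫ z, ile z.2 t ∂π := by
      rw [← integral_ile, ← h2, integral_map measurable_snd.aemeasurable
        (measurable_ile_left t).aestronglyMeasurable]
    rw [e1, e2, ← integral_sub (hint1 t) (hint2 t)]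
    exact enorm_integral_le_lintegral_enorm _
  calc Dc ν ν' ≤ ∫⁻ t, ∫⁻ z, ‖ile z.1 t - ile z.2 t‖ₑ ∂π := lintegral_mono hpt
    _ = ∫⁻ z, ∫⁻ t, ‖ile z.1 t - ile z.2 t‖ₑ ∂volume ∂π := by
        refine lintegral_lintegral_swap (Measurable.aemeasurable ?_)
        have m1 : Measurable (fun p : ℝ × (ℝ × ℝ) => ile p.2.1 p.1) :=
          measurable_ile₂.comp ((measurable_fst.comp measurable_snd).prodMk measurable_fst)
        have m2 : Measurable (fun p : ℝ × (ℝ × ℝ) => ile p.2.2 p.1) :=
          measurable_ile₂.comp ((measurable_snd.comp measurable_snd).prodMk measurable_fst)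
        exact (m1.sub m2).enorm
    _ = ∫⁻ z, ‖z.1 - z.2‖ₑ ∂π := by
        congr 1
        funext z
        exact lintegral_ile z.1 z.2

theorem Dc_le_transportCost (ν ν' : Measure ℝ) [IsFiniteMeasure ν] :
    Dc ν ν' ≤ transportCost ν ν' := by
  unfold transportCost
  refine le_iInf₂ fun π h => Dc_le_coupling ν ν' π h.1 h.2

/-! ### empirical laws -/

instance empiricalLaw_finite {N : ℕ} (c : Fin N → ℝ) : IsFiniteMeasure (empiricalLaw c) := by
  constructor
  unfold empiricalLaw
  rcases Nat.eq_zero_or_pos N with h | h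
  · subst h; simp
  · rw [Measure.smul_apply, smul_eq_mul]
    refine ENNReal.mul_lt_top ?_ (measure_lt_top _ _)
    exact ENNReal.inv_lt_top.2 (by exact_mod_cast h)

theorem dirac_Iic (x t : ℝ) : (Measure.dirac x : Measure ℝ).real (Iic t) = ile x t := by
  rw [Measure.real, Measure.dirac_apply' _ measurableSet_Iic]
  unfold ile
  by_cases h : x ≤ t
  · rw [if_pos h, indicator_of_mem (show x ∈ Iic t from h)]; simp
  · rw [if_neg h, indicator_of_notMem (show x ∉ Iic t from h)]; simp

theorem real_sum {ι : Type*} (s : Finset ι) (m : ι → Measure ℝ) (hm : ∀ i, IsFiniteMeasure (m i))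
    (A : Set ℝ) : (∑ i ∈ s, m i).real A = ∑ i ∈ s, (m i).real A := by
  unfold Measure.real
  rw [Measure.finsetSum_apply, ENNReal.toReal_sum]
  intro i _
  have := hm i
  exact measure_ne_top _ _

theorem cdfR_empiricalLaw {N : ℕ} (c : Fin N → ℝ) (t : ℝ) :
    cdfR (empiricalLaw c) t = (1 / (N : ℝ)) * ∑ r, ile (c r) t := by
  unfold cdfR empiricalLaw
  rw [measureReal_ennreal_smul_apply, real_sum _ _ (fun _ => inferInstance)]
  simp only [dirac_Iic]
  rw [ENNReal.toReal_inv, ENNReal.toReal_natCast, one_div]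

/-- finite law with given weights -/
theorem cdfR_finite {J : ℕ} (c : Fin J → ℝ) (γ : Fin J → ℝ) (hγ : ∀ j, 0 ≤ γ j) (t : ℝ) :
    cdfR (∑ j : Fin J, ENNReal.ofReal (γ j) • Measure.dirac (c j)) t = ∑ j, γ j * ile (c j) t := by
  unfold cdfR
  rw [real_sum _ _ (fun j => Measure.smul_finite _ ENNReal.ofReal_ne_top)]
  refine Finset.sum_congr rfl fun j _ => ?_
  rw [measureReal_ennreal_smul_apply, dirac_Iic, ENNReal.toReal_ofReal (hγ j)]

/-- sorted vectors: matching cost at a fixed level -/
theorem sum_abs_ile_sorted {N : ℕ} {x y : Fin N → ℝ} (hx : Monotone x) (hy : Monotone y) (t : ℝ) :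
    ∑ i, |ile (x i) t - ile (y i) t| = |∑ i, (ile (x i) t - ile (y i) t)| := by
  have hanti : ∀ {z : Fin N → ℝ}, Monotone z → ∀ i j, i ≤ j → ile (z j) t ≤ ile (z i) t := by
    intro z hz i j hij
    unfold ile
    by_cases h : z j ≤ t
    · rw [if_pos h, if_pos ((hz hij).trans h)]
    · rw [if_neg h]; split_ifs <;> norm_num
  have h01 : ∀ a, ile a t = 0 ∨ ile a t = 1 := by intro a; unfold ile; split_ifs <;> simp
  by_cases h : ∀ i, ile (x i) t ≤ ile (y i) t
  · have e1 : ∀ i, |ile (x i) t - ile (y i) t| = -(ile (x i) t - ile (y i) t) := fun i =>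
      abs_of_nonpos (by linarith [h i])
    rw [Finset.sum_congr rfl fun i _ => e1 i, Finset.sum_neg_distrib, abs_of_nonpos]
    exact Finset.sum_nonpos fun i _ => by linarith [h i]
  · push Not at h
    obtain ⟨i0, hi0⟩ := h
    have hx0 : ile (x i0) t = 1 := by
      rcases h01 (x i0) with h | h
      · rw [h] at hi0; linarith [ile_nonneg (y i0) t]
      · exact h
    have hy0 : ile (y i0) t = 0 := by
      rcases h01 (y i0) with h | h
      · exact h
      · rw [h] at hi0; linarith [ile_le_one (x i0) t]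
    have hall : ∀ i, ile (y i) t ≤ ile (x i) t := by
      intro i
      rcases le_total i i0 with hi | hi
      · have := hanti hx i i0 hi
        linarith [ile_le_one (y i) t]
      · have := hanti hy i0 i hi
        linarith [ile_nonneg (x i) t]
    have e1 : ∀ i, |ile (x i) t - ile (y i) t| = ile (x i) t - ile (y i) t := fun i =>
      abs_of_nonneg (by linarith [hall i])
    rw [Finset.sum_congr rfl fun i _ => e1 i, abs_of_nonneg]
    exact Finset.sum_nonneg fun i _ => by linarith [hall i]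

/-- sorted matching -/
theorem sorted_le_Dc {N : ℕ} {x y : Fin N → ℝ} (hx : Monotone x) (hy : Monotone y) :
    ENNReal.ofReal ((1 / (N : ℝ)) * ∑ i, |x i - y i|) ≤ Dc (empiricalLaw x) (empiricalLaw y) := by
  have e0 : ENNReal.ofReal (∑ i, |x i - y i|) = ∫⁻ t, ∑ i, ‖ile (x i) t - ile (y i) t‖ₑ := by
    have hm : ∀ i : Fin N, Measurable (fun t => ‖ile (x i) t - ile (y i) t‖ₑ) := fun i =>
      ((measurable_ile_right (x i)).sub (measurable_ile_right (y i))).enorm
    rw [lintegral_finsetSum _ fun i _ => hm i,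
      ENNReal.ofReal_sum_of_nonneg fun i _ => abs_nonneg _]
    refine Finset.sum_congr rfl fun i _ => ?_
    rw [lintegral_ile, Real.enorm_eq_ofReal_abs]
  rw [ENNReal.ofReal_mul (by positivity), e0]
  unfold Dc
  rw [← lintegral_const_mul' _ _ ENNReal.ofReal_ne_top]
  refine lintegral_mono fun t => ?_
  rw [cdfR_empiricalLaw, cdfR_empiricalLaw, ← mul_sub, ← Finset.sum_sub_distrib, enorm_mul,
    Real.enorm_eq_ofReal_abs (∑ i, (ile (x i) t - ile (y i) t)), ← sum_abs_ile_sorted hx hy,
    ENNReal.ofReal_sum_of_nonneg fun i _ => abs_nonneg _,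
    Real.enorm_eq_ofReal (by positivity : (0 : ℝ) ≤ 1 / (N : ℝ))]
  refine le_of_eq ?_
  congr 1
  exact Finset.sum_congr rfl fun i _ => Real.enorm_eq_ofReal_abs _

theorem Dc_empirical_perm {N : ℕ} (c : Fin N → ℝ) (e : Equiv.Perm (Fin N)) (ν : Measure ℝ) :
    Dc (empiricalLaw (fun i => c (e i))) ν = Dc (empiricalLaw c) ν := by
  unfold Dc
  congr 1
  funext t
  rw [cdfR_empiricalLaw, cdfR_empiricalLaw, Equiv.sum_comp e (fun r => ile (c r) t)]

/-- matching of labels: a permutation of the labels `ℓ` brings `cq ∘ ℓ` close to `c` -/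
theorem exists_matching {N J : ℕ} (c : Fin N → ℝ) (cq : Fin J → ℝ) (l : Fin N → Fin J) :
    ∃ e : Equiv.Perm (Fin N),
      ENNReal.ofReal ((1 / (N : ℝ)) * ∑ r, |c r - cq (l (e r))|) ≤
        Dc (empiricalLaw c) (empiricalLaw (fun r => cq (l r))) := by
  set s := Tuple.sort c with hs
  set s' := Tuple.sort (fun r => cq (l r)) with hs'
  have h1 : Monotone (fun i => c (s i)) := Tuple.monotone_sort c
  have h2 : Monotone (fun i => cq (l (s' i))) := Tuple.monotone_sort (fun r => cq (l r))
  refine ⟨s.symm.trans s', ?_⟩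
  have h3 := sorted_le_Dc h1 h2
  rw [Dc_empirical_perm c s, Dc_comm, Dc_empirical_perm (fun r => cq (l r)) s', Dc_comm] at h3
  have e : ∑ r, |c r - cq (l ((s.symm.trans s') r))| = ∑ i, |c (s i) - cq (l (s' i))| := by
    rw [← Equiv.sum_comp s]
    refine Finset.sum_congr rfl fun i _ => ?_
    simp
  rw [e]
  exact h3

end Crest.Agent.R164
end

-- ▼ part R164/TransLab
section

/-!
Row 164 (S0249 from S0248), part 2: labels with prescribed proportions, finite alphabets from
vectors, continuity and integrability of the pressure (helper639).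
-/

set_option autoImplicit false

namespace Crest.Agent.R164

open MeasureTheory Set
open Crest.ProbabilityR.InvariantGlass
open scoped ENNReal

/-! ### labels with prescribed proportions -/

/-- labels with prescribed counts -/
theorem exists_labels_of_counts {J N : ℕ} (n : Fin J → ℕ) (hn : ∑ j, n j = N) :
    ∃ l : Fin N → Fin J, ∀ j, (Finset.univ.filter fun r => l r = j).card = n j := by
  subst hn
  refine ⟨fun r => (finSigmaFinEquiv.symm r).1, fun j => ?_⟩
  have h1 : (Finset.univ.filter fun r : Fin (∑ j, n j) => (finSigmaFinEquiv.symm r).1 = j).card =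
      (Finset.univ.filter fun x : (i : Fin J) × Fin (n i) => x.1 = j).card := by
    refine Finset.card_bij' (fun r _ => finSigmaFinEquiv.symm r) (fun x _ => finSigmaFinEquiv x)
      ?_ ?_ ?_ ?_
    · intro r hr; simpa using hr
    · intro x hx; simpa using hx
    · intro r _; simp
    · intro x _; simp
  rw [h1]
  have h2 : (Finset.univ.filter fun x : (i : Fin J) × Fin (n i) => x.1 = j) =
      (Finset.univ : Finset (Fin (n j))).map ⟨fun a => (⟨j, a⟩ : (i : Fin J) × Fin (n i)), by
        intro a b hab; simpa using hab⟩ := by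
    ext ⟨i, a⟩
    simp only [Finset.mem_filter, Finset.mem_univ, true_and, Finset.mem_map,
      ]
    constructor
    · rintro rfl; exact ⟨a, rfl⟩
    · rintro ⟨b, hb⟩; exact (congrArg Sigma.fst hb).symm
  rw [h2, Finset.card_map, Finset.card_univ, Fintype.card_fin]

/-- labels with prescribed asymptotic proportions -/
theorem exists_labels {J : ℕ} (γ : Fin J → ℚ) (hγ : ∀ j, 0 < γ j) (hs : ∑ j, γ j = 1) :
    ∃ l : (N : ℕ) → Fin N → Fin J, ∀ j : Fin J, Filter.Tendsto
      (fun N : ℕ => ((Finset.univ.filter fun r : Fin N => l N r = j).card : ℝ) / (N : ℝ))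
      Filter.atTop (nhds ((γ j : ℚ) : ℝ)) := by
  have hJ : 0 < J := by
    rcases Nat.eq_zero_or_pos J with h | h
    · subst h; simp at hs
    · exact h
  set j0 : Fin J := ⟨0, hJ⟩ with hj0
  have hsR : ∑ j, ((γ j : ℚ) : ℝ) = 1 := by exact_mod_cast hs
  have hγR : ∀ j, (0 : ℝ) < ((γ j : ℚ) : ℝ) := fun j => by exact_mod_cast hγ j
  -- counts
  set m : ℕ → Fin J → ℕ := fun N j => ⌊((γ j : ℚ) : ℝ) * (N : ℝ)⌋₊ with hm
  have hmle : ∀ N j, ((m N j : ℕ) : ℝ) ≤ ((γ j : ℚ) : ℝ) * N := fun N j =>
    Nat.floor_le (mul_nonneg (hγR j).le (Nat.cast_nonneg _))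
  have hsum : ∀ N, ∑ j ∈ Finset.univ.erase j0, m N j ≤ N := by
    intro N
    have h1 : ((∑ j ∈ Finset.univ.erase j0, m N j : ℕ) : ℝ) ≤ N := by
      push_cast
      calc ∑ j ∈ Finset.univ.erase j0, ((m N j : ℕ) : ℝ)
          ≤ ∑ j ∈ Finset.univ.erase j0, ((γ j : ℚ) : ℝ) * N := Finset.sum_le_sum fun j _ => hmle N j
        _ ≤ ∑ j, ((γ j : ℚ) : ℝ) * N := Finset.sum_le_sum_of_subset_of_nonneg
            (Finset.erase_subset _ _) fun j _ _ => mul_nonneg (hγR j).le (Nat.cast_nonneg _)
        _ = N := by rw [← Finset.sum_mul, hsR, one_mul]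
    exact_mod_cast h1
  set n : ℕ → Fin J → ℕ := fun N j =>
    if j = j0 then N - ∑ i ∈ Finset.univ.erase j0, m N i else m N j with hn
  have hnsum : ∀ N, ∑ j, n N j = N := by
    intro N
    rw [← Finset.add_sum_erase Finset.univ (n N) (Finset.mem_univ j0)]
    have e1 : ∑ j ∈ Finset.univ.erase j0, n N j = ∑ j ∈ Finset.univ.erase j0, m N j := by
      refine Finset.sum_congr rfl fun j hj => ?_
      simp only [hn, if_neg (Finset.ne_of_mem_erase hj)]
    rw [e1]
    simp only [hn, if_true]
    exact Nat.sub_add_cancel (hsum N)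
  choose l hl using fun N => exists_labels_of_counts (n N) (hnsum N)
  refine ⟨l, fun j => ?_⟩
  simp only [hl]
  have hmlim : ∀ j, Filter.Tendsto (fun N : ℕ => ((m N j : ℕ) : ℝ) / (N : ℝ)) Filter.atTop
      (nhds ((γ j : ℚ) : ℝ)) := fun j =>
    (tendsto_nat_floor_mul_div_atTop (hγR j).le).comp tendsto_natCast_atTop_atTop
  by_cases hj : j = j0
  · have e1 : ∀ᶠ N : ℕ in Filter.atTop, ((n N j : ℕ) : ℝ) / (N : ℝ) =
        1 - ∑ i ∈ Finset.univ.erase j0, ((m N i : ℕ) : ℝ) / (N : ℝ) := by
      filter_upwards [Filter.eventually_gt_atTop 0] with N hN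
      have hN' : (N : ℝ) ≠ 0 := by exact_mod_cast hN.ne'
      simp only [hn, if_pos hj]
      rw [Nat.cast_sub (hsum N), sub_div, div_self hN']
      push_cast
      rw [Finset.sum_div]
    refine Filter.Tendsto.congr' (Filter.EventuallyEq.symm e1) ?_
    have h2 : ((γ j : ℚ) : ℝ) = 1 - ∑ i ∈ Finset.univ.erase j0, ((γ i : ℚ) : ℝ) := by
      rw [← hsR, ← Finset.add_sum_erase Finset.univ (fun j => ((γ j : ℚ) : ℝ))
        (Finset.mem_univ j0), hj]
      ring
    rw [h2]
    exact tendsto_const_nhds.sub (tendsto_finsetSum _ fun i _ => hmlim i)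
  · have e1 : (fun N : ℕ => ((n N j : ℕ) : ℝ) / (N : ℝ)) = fun N => ((m N j : ℕ) : ℝ) / (N : ℝ) := by
      funext N; simp only [hn, if_neg hj]
    rw [e1]; exact hmlim j

/-- distance between a finite law and the empirical law of labels -/
theorem Dc_labels_le {J N : ℕ} (hN : 0 < N) (cq : Fin J → ℝ) (γ : Fin J → ℝ) (hγ : ∀ j, 0 ≤ γ j)
    (hs : ∑ j, γ j = 1) (l : Fin N → Fin J) (K : ℝ) (hK : ∀ j, |cq j| ≤ K) :
    Dc (∑ j : Fin J, ENNReal.ofReal (γ j) • Measure.dirac (cq j))
      (empiricalLaw (fun r => cq (l r))) ≤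
      ENNReal.ofReal ((2 * K) * ∑ j, |γ j -
        ((Finset.univ.filter fun r => l r = j).card : ℝ) / (N : ℝ)|) := by
  have hN' : (N : ℝ) ≠ 0 := by exact_mod_cast hN.ne'
  set w : Fin J → ℝ := fun j => ((Finset.univ.filter fun r => l r = j).card : ℝ) / (N : ℝ) with hw
  have hemp : ∀ t, cdfR (empiricalLaw (fun r => cq (l r))) t = ∑ j, w j * ile (cq j) t := by
    intro t
    rw [cdfR_empiricalLaw, ← Finset.sum_fiberwise Finset.univ l (fun r => ile (cq (l r)) t),
      Finset.mul_sum]
    refine Finset.sum_congr rfl fun j _ => ?_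
    have : ∑ r ∈ Finset.univ.filter (fun r => l r = j), ile (cq (l r)) t =
        ((Finset.univ.filter fun r => l r = j).card : ℝ) * ile (cq j) t := by
      rw [Finset.sum_congr rfl (g := fun _ => ile (cq j) t) fun r hr => by
        rw [(Finset.mem_filter.1 hr).2], Finset.sum_const, nsmul_eq_mul]
    rw [this, hw]
    ring
  have hwsum : ∑ j, w j = 1 := by
    rw [hw]
    simp only
    rw [← Finset.sum_div, ← Nat.cast_sum, Finset.card_eq_sum_card_fiberwise
      (f := l) (s := Finset.univ) (t := Finset.univ) (fun _ _ => Finset.mem_univ _) |>.symm]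
    simp [hN']
  have hpt : ∀ t, ‖cdfR (∑ j : Fin J, ENNReal.ofReal (γ j) • Measure.dirac (cq j)) t -
      cdfR (empiricalLaw (fun r => cq (l r))) t‖ₑ ≤
      (Icc (-K) K).indicator (fun _ => ENNReal.ofReal (∑ j, |γ j - w j|)) t := by
    intro t
    rw [cdfR_finite _ _ hγ, hemp, ← Finset.sum_sub_distrib]
    have e1 : ∀ j, γ j * ile (cq j) t - w j * ile (cq j) t = (γ j - w j) * ile (cq j) t :=
      fun j => by ring
    rw [Finset.sum_congr rfl fun j _ => e1 j]
    by_cases h1 : t < -K
    · have : ∑ j, (γ j - w j) * ile (cq j) t = 0 := by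
        refine Finset.sum_eq_zero fun j _ => ?_
        have h2 : ¬ cq j ≤ t := by
          have := (abs_le.1 (hK j)).1; linarith
        unfold ile; rw [if_neg h2, mul_zero]
      rw [this, enorm_zero]; exact zero_le
    · by_cases h2 : K < t
      · have : ∑ j, (γ j - w j) * ile (cq j) t = 0 := by
          have e2 : ∀ j, (γ j - w j) * ile (cq j) t = γ j - w j := by
            intro j
            have h3 : cq j ≤ t := by
              have := (abs_le.1 (hK j)).2; linarith
            unfold ile; rw [if_pos h3, mul_one]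
          rw [Finset.sum_congr rfl fun j _ => e2 j, Finset.sum_sub_distrib, hs, hwsum, sub_self]
        rw [this, enorm_zero]; exact zero_le
      · rw [indicator_of_mem (show t ∈ Icc (-K) K from ⟨not_lt.1 h1, not_lt.1 h2⟩),
          Real.enorm_eq_ofReal_abs]
        refine ENNReal.ofReal_le_ofReal ?_
        refine (Finset.abs_sum_le_sum_abs _ _).trans (Finset.sum_le_sum fun j _ => ?_)
        rw [abs_mul, abs_of_nonneg (ile_nonneg _ _)]
        exact mul_le_of_le_one_right (abs_nonneg _) (ile_le_one _ _)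
  refine (lintegral_mono hpt).trans ?_
  rw [lintegral_indicator measurableSet_Icc, lintegral_const, Measure.restrict_apply
    MeasurableSet.univ, univ_inter, Real.volume_Icc, ← ENNReal.ofReal_mul
      (Finset.sum_nonneg fun j _ => abs_nonneg _)]
  refine ENNReal.ofReal_le_ofReal (le_of_eq ?_)
  ring

/-! ### finite alphabets from vectors -/

/-- the empirical law of a vector is a finite-alphabet law with rational proportions -/
theorem exists_alphabet {N : ℕ} (hN : 0 < N) (c : Fin N → ℝ) :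
    ∃ (J : ℕ) (cq : Fin J → ℝ) (γ : Fin J → ℚ), Function.Injective cq ∧ (∀ j, 0 < γ j) ∧
      ∑ j, γ j = 1 ∧
      ∀ t, cdfR (∑ j : Fin J, ENNReal.ofReal ((γ j : ℚ) : ℝ) • Measure.dirac (cq j)) t =
        cdfR (empiricalLaw c) t := by
  classical
  have hNQ : (N : ℚ) ≠ 0 := by exact_mod_cast hN.ne'
  set S : Finset ℝ := Finset.univ.image c with hS
  set e : Fin S.card ≃ S := S.equivFin.symm with he
  set γ : Fin S.card → ℚ := fun j =>
    ((Finset.univ.filter fun r => c r = (e j : ℝ)).card : ℚ) / N with hγ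
  have hpos : ∀ j, 0 < γ j := by
    intro j
    obtain ⟨r, _, hr⟩ := Finset.mem_image.1
      (show ((e j : ℝ)) ∈ Finset.univ.image c from (e j).2)
    have : 0 < (Finset.univ.filter fun r => c r = (e j : ℝ)).card :=
      Finset.card_pos.2 ⟨r, by simp [hr]⟩
    rw [hγ]
    simp only
    have h1 : (0 : ℚ) < N := by exact_mod_cast hN
    have h2 : (0 : ℚ) < ((Finset.univ.filter fun r => c r = (e j : ℝ)).card : ℚ) := by
      exact_mod_cast this
    positivity
  -- sums over the alphabet
  have hfib : ∀ f : ℝ → ℝ, ∑ j : Fin S.card, ((γ j : ℚ) : ℝ) * f (e j) =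
      (1 / (N : ℝ)) * ∑ r, f (c r) := by
    intro f
    have h1 : ∑ r, f (c r) = ∑ x ∈ S, ((Finset.univ.filter fun r => c r = x).card : ℝ) * f x := by
      rw [← Finset.sum_fiberwise_of_maps_to (s := Finset.univ) (t := S) (g := c)
        (fun r _ => Finset.mem_image_of_mem c (Finset.mem_univ r))]
      refine Finset.sum_congr rfl fun x _ => ?_
      rw [Finset.sum_congr rfl (g := fun _ => f x) fun r hr => by
        rw [(Finset.mem_filter.1 hr).2], Finset.sum_const, nsmul_eq_mul]
    rw [h1, ← Finset.sum_coe_sort S (fun x => ((Finset.univ.filter fun r => c r = x).card : ℝ) * f x),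
      ← Equiv.sum_comp e, Finset.mul_sum]
    refine Finset.sum_congr rfl fun j _ => ?_
    rw [hγ]
    push_cast
    ring
  refine ⟨S.card, fun j => (e j : ℝ), γ, ?_, hpos, ?_, ?_⟩
  · intro a b hab
    exact e.injective (Subtype.ext hab)
  · have h1 := hfib (fun _ => 1)
    simp only [mul_one, Finset.sum_const, Finset.card_univ, Fintype.card_fin, nsmul_eq_mul] at h1
    have h2 : (N : ℝ) ≠ 0 := by exact_mod_cast hN.ne'
    rw [one_div, inv_mul_cancel₀ h2] at h1
    exact_mod_cast h1
  · intro t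
    rw [cdfR_finite (fun j => (e j : ℝ)) (fun j => ((γ j : ℚ) : ℝ))
      (fun j => by exact_mod_cast (hpos j).le), cdfR_empiricalLaw, ← hfib (fun x => ile x t)]

/-! ### the pressure as a function of the field -/

theorem abs_spinVec {N : ℕ} (σ : Fin N → Bool) (r : Fin N) : |spinVec σ r| = 1 := by
  unfold spinVec; split_ifs <;> simp

/-- Lipschitz dependence of the pressure on the field -/
theorem pressureFieldN_lip {N : ℕ} (eig : Fin N → ℝ) (U : Matrix (Fin N) (Fin N) ℝ)
    (c c' : Fin N → ℝ) : |pressureFieldN eig U c - pressureFieldN eig U c'| ≤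
      (1 / (N : ℝ)) * ∑ r, |c r - c' r| := by
  have key : ∀ c c' : Fin N → ℝ, pressureFieldN eig U c ≤ pressureFieldN eig U c' +
      (1 / (N : ℝ)) * ∑ r, |c r - c' r| := by
    intro c c'
    unfold pressureFieldN
    rw [← mul_add]
    refine mul_le_mul_of_nonneg_left ?_ (by positivity)
    have hpos : ∀ c : Fin N → ℝ, 0 < (1 / 2 : ℝ) ^ N * ∑ σ : Fin N → Bool,
        Real.exp ((1 / 2) * (∑ i : Fin N, eig i * (U.mulVec (spinVec σ) i) ^ 2) +
          ∑ r : Fin N, c r * spinVec σ r) := by
      intro c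
      exact mul_pos (by positivity) (Finset.sum_pos (fun σ _ => Real.exp_pos _)
        Finset.univ_nonempty)
    rw [← Real.log_exp (∑ r, |c r - c' r|), ← Real.log_mul (hpos c').ne' (Real.exp_pos _).ne']
    refine Real.log_le_log (hpos c) ?_
    rw [mul_assoc, Finset.sum_mul]
    refine mul_le_mul_of_nonneg_left (Finset.sum_le_sum fun σ _ => ?_) (by positivity)
    rw [← Real.exp_add]
    refine Real.exp_le_exp.2 ?_
    have h1 : ∑ r, c r * spinVec σ r ≤ ∑ r, c' r * spinVec σ r + ∑ r, |c r - c' r| := by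
      rw [← Finset.sum_add_distrib]
      refine Finset.sum_le_sum fun r _ => ?_
      have h2 : (c r - c' r) * spinVec σ r ≤ |c r - c' r| := by
        refine (le_abs_self _).trans ?_
        rw [abs_mul, abs_spinVec, mul_one]
      linarith
    linarith
  rw [abs_le]
  have h1 := key c c'
  have h2 := key c' c
  have h3 : ∑ r, |c' r - c r| = ∑ r, |c r - c' r| :=
    Finset.sum_congr rfl fun r _ => abs_sub_comm _ _
  rw [h3] at h2
  constructor <;> linarith

theorem sq_sum_mulVec {N : ℕ} {U : Matrix (Fin N) (Fin N) ℝ}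
    (hU : U ∈ Matrix.orthogonalGroup (Fin N) ℝ) (x : Fin N → ℝ) :
    ∑ i, (U.mulVec x i) ^ 2 = ∑ i, x i ^ 2 := by
  have h1 : U.transpose * U = 1 := by
    have := (Matrix.mem_orthogonalGroup_iff' (Fin N) ℝ).1 hU
    simpa [Matrix.star_eq_conjTranspose] using this
  have h2 : ∑ i, (U.mulVec x i) ^ 2 = dotProduct (U.mulVec x) (U.mulVec x) := by
    unfold dotProduct; exact Finset.sum_congr rfl fun i _ => by ring
  rw [h2, Matrix.dotProduct_mulVec, Matrix.vecMul_mulVec, h1, Matrix.vecMul_one]
  unfold dotProduct; exact Finset.sum_congr rfl fun i _ => by ring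

end Crest.Agent.R164
end

-- ▼ part R164/Trans249

/-!
Row 164: S0249 from S0248 (helper639).
-/

set_option autoImplicit false

namespace Crest.Agent.R164

open MeasureTheory Set Filter Topology
open Crest.ProbabilityR.InvariantGlass
open scoped ENNReal

/-- bound for the pressure of an orthogonal matrix -/
theorem abs_pressureFieldN_le {N : ℕ} (eig : Fin N → ℝ) {U : Matrix (Fin N) (Fin N) ℝ}
    (hU : U ∈ Matrix.orthogonalGroup (Fin N) ℝ) (c : Fin N → ℝ) :
    |pressureFieldN eig U c| ≤ (1 / (N : ℝ)) * ((1 / 2) * ((∑ i, |eig i|) * N) + ∑ r, |c r|) := by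
  set B : ℝ := (1 / 2) * ((∑ i, |eig i|) * N) + ∑ r, |c r| with hB
  have hterm : ∀ σ : Fin N → Bool, |(1 / 2) * (∑ i : Fin N, eig i * (U.mulVec (spinVec σ) i) ^ 2) +
      ∑ r : Fin N, c r * spinVec σ r| ≤ B := by
    intro σ
    have h1 : |∑ i : Fin N, eig i * (U.mulVec (spinVec σ) i) ^ 2| ≤ (∑ i, |eig i|) * N := by
      refine (Finset.abs_sum_le_sum_abs _ _).trans ?_
      rw [Finset.sum_mul]
      refine Finset.sum_le_sum fun i _ => ?_
      rw [abs_mul, abs_of_nonneg (sq_nonneg (U.mulVec (spinVec σ) i))]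
      refine mul_le_mul_of_nonneg_left ?_ (abs_nonneg _)
      calc (U.mulVec (spinVec σ) i) ^ 2 ≤ ∑ j, (U.mulVec (spinVec σ) j) ^ 2 :=
            Finset.single_le_sum (f := fun j => (U.mulVec (spinVec σ) j) ^ 2)
              (fun j _ => sq_nonneg _) (Finset.mem_univ i)
        _ = N := by
            rw [sq_sum_mulVec hU]
            have : ∀ r, spinVec σ r ^ 2 = 1 := fun r => by
              rw [← sq_abs, abs_spinVec, one_pow]
            simp [this]
    have h2 : |∑ r : Fin N, c r * spinVec σ r| ≤ ∑ r, |c r| := by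
      refine (Finset.abs_sum_le_sum_abs _ _).trans (Finset.sum_le_sum fun r _ => ?_)
      rw [abs_mul, abs_spinVec, mul_one]
    refine (abs_add_le _ _).trans ?_
    rw [abs_mul, abs_of_pos (by norm_num : (0 : ℝ) < 1 / 2), hB]
    linarith
  have hcard : (1 / 2 : ℝ) ^ N * ∑ _σ : Fin N → Bool, (1 : ℝ) = 1 := by
    rw [Finset.sum_const, Finset.card_univ, Fintype.card_fun, Fintype.card_bool, Fintype.card_fin,
      nsmul_eq_mul, mul_one]
    push_cast
    rw [← mul_pow]; norm_num
  have hup : (1 / 2 : ℝ) ^ N * ∑ σ : Fin N → Bool,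
      Real.exp ((1 / 2) * (∑ i : Fin N, eig i * (U.mulVec (spinVec σ) i) ^ 2) +
        ∑ r : Fin N, c r * spinVec σ r) ≤ Real.exp B := by
    calc _ ≤ (1 / 2 : ℝ) ^ N * ∑ _σ : Fin N → Bool, Real.exp B := by
          refine mul_le_mul_of_nonneg_left (Finset.sum_le_sum fun σ _ => ?_) (by positivity)
          exact Real.exp_le_exp.2 (abs_le.1 (hterm σ)).2
      _ = Real.exp B * ((1 / 2 : ℝ) ^ N * ∑ _σ : Fin N → Bool, (1 : ℝ)) := by
          simp only [Finset.sum_const, nsmul_eq_mul, mul_one]; ring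
      _ = Real.exp B := by rw [hcard, mul_one]
  have hlo : Real.exp (-B) ≤ (1 / 2 : ℝ) ^ N * ∑ σ : Fin N → Bool,
      Real.exp ((1 / 2) * (∑ i : Fin N, eig i * (U.mulVec (spinVec σ) i) ^ 2) +
        ∑ r : Fin N, c r * spinVec σ r) := by
    calc Real.exp (-B) = Real.exp (-B) * ((1 / 2 : ℝ) ^ N * ∑ _σ : Fin N → Bool, (1 : ℝ)) := by
          rw [hcard, mul_one]
      _ = (1 / 2 : ℝ) ^ N * ∑ _σ : Fin N → Bool, Real.exp (-B) := by
          simp only [Finset.sum_const, nsmul_eq_mul, mul_one]; ring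
      _ ≤ _ := by
          refine mul_le_mul_of_nonneg_left (Finset.sum_le_sum fun σ _ => ?_) (by positivity)
          exact Real.exp_le_exp.2 (abs_le.1 (hterm σ)).1
  unfold pressureFieldN
  rw [abs_mul, abs_of_nonneg (by positivity : (0 : ℝ) ≤ 1 / (N : ℝ))]
  refine mul_le_mul_of_nonneg_left ?_ (by positivity)
  rw [abs_le]
  constructor
  · have := Real.log_le_log (Real.exp_pos _) hlo
    rwa [Real.log_exp] at this
  · have := Real.log_le_log (lt_of_lt_of_le (Real.exp_pos _) hlo) hup
    rwa [Real.log_exp] at this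

/-- measurability of the pressure -/
theorem measurable_pressureFieldN {Ω : Type*} [MeasurableSpace Ω] {N : ℕ} (eig : Fin N → ℝ)
    {V : Ω → (Fin N → Fin N → ℝ)} (hV : Measurable V) (c : Fin N → ℝ) :
    Measurable (fun ω => pressureFieldN eig (Matrix.of (V ω)) c) := by
  unfold pressureFieldN
  refine measurable_const.mul (Real.measurable_log.comp (measurable_const.mul ?_))
  refine Finset.measurable_sum _ fun σ _ => ?_
  refine Real.measurable_exp.comp (Measurable.add_const (measurable_const.mul ?_) _)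
  refine Finset.measurable_sum _ fun i _ => measurable_const.mul ?_
  have : Measurable (fun ω => (Matrix.of (V ω)).mulVec (spinVec σ) i) := by
    unfold Matrix.mulVec dotProduct
    refine Finset.measurable_sum _ fun j _ => Measurable.mul_const ?_ _
    exact (measurable_pi_apply j).comp ((measurable_pi_apply i).comp hV)
  exact this.pow_const 2

theorem integrable_pressureFieldN {Ω : Type*} [MeasurableSpace Ω] (P : Measure Ω)
    [IsProbabilityMeasure P] {N : ℕ} (eig : Fin N → ℝ)
    {V : Ω → (Fin N → Fin N → ℝ)} (hV : Measurable V)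
    (horth : ∀ᵐ ω ∂P, Matrix.of (V ω) ∈ Matrix.orthogonalGroup (Fin N) ℝ) (c : Fin N → ℝ) :
    Integrable (fun ω => pressureFieldN eig (Matrix.of (V ω)) c) P := by
  refine Integrable.of_bound (measurable_pressureFieldN eig hV c).aestronglyMeasurable
    ((1 / (N : ℝ)) * ((1 / 2) * ((∑ i, |eig i|) * N) + ∑ r, |c r|)) ?_
  filter_upwards [horth] with ω hω
  rw [Real.norm_eq_abs]
  exact abs_pressureFieldN_le eig hω c

section main

variable (μ : Measure ℝ) (lamPlus : ℝ) (eig : (N : ℕ) → Fin N → ℝ)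
  {Ω : Type} [MeasurableSpace Ω] (P : Measure Ω) [IsProbabilityMeasure P]
  (Us : (N : ℕ) → Ω → (Fin N → Fin N → ℝ))

/-- the conclusion of S0248 for all finite alphabets and labels -/
def H248 : Prop :=
  ∀ (J : ℕ) (cval : Fin J → ℝ), Function.Injective cval →
    ∀ γ : Fin J → ℚ, (∀ j, 0 < γ j) → ∑ j, γ j = 1 →
    ∀ lab : (N : ℕ) → Fin N → Fin J,
    (∀ j : Fin J, Tendsto
      (fun N : ℕ => ((Finset.univ.filter fun r : Fin N => lab N r = j).card : ℝ) / (N : ℝ))
      atTop (nhds ((γ j : ℚ) : ℝ))) →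
    ∃ F : ℝ, magneticValue μ lamPlus cval γ = (F : EReal) ∧
      Tendsto (fun N : ℕ => ∫ ω, pressureFieldN (eig N) (Matrix.of (Us N ω))
          (fun r => cval (lab N r)) ∂P) atTop (nhds F) ∧
      ∀ᵐ ω ∂P, Tendsto (fun N : ℕ => pressureFieldN (eig N) (Matrix.of (Us N ω))
          (fun r => cval (lab N r))) atTop (nhds F)

variable {μ lamPlus eig P Us}

theorem law_finite {J : ℕ} (cq : Fin J → ℝ) (γ : Fin J → ℝ) :
    IsFiniteMeasure (∑ j : Fin J, ENNReal.ofReal (γ j) • Measure.dirac (cq j) : Measure ℝ) := by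
  constructor
  rw [Measure.finsetSum_apply]
  refine ENNReal.sum_lt_top.2 fun j _ => ?_
  rw [Measure.smul_apply, smul_eq_mul]
  exact ENNReal.mul_lt_top ENNReal.ofReal_lt_top (measure_lt_top _ _)

/-- comparison with one finite alphabet -/
theorem one_alphabet (hmeas : ∀ N, Measurable (Us N))
    (horth : ∀ N, ∀ᵐ ω ∂P, Matrix.of (Us N ω) ∈ Matrix.orthogonalGroup (Fin N) ℝ)
    (h248 : H248 μ lamPlus eig P Us)
    (ν : Measure ℝ) [IsProbabilityMeasure ν] (c : (N : ℕ) → Fin N → ℝ)
    (hW : Tendsto (fun N : ℕ => transportCost (empiricalLaw (c N)) ν) atTop (nhds 0))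
    {J : ℕ} (cq : Fin J → ℝ) (hinj : Function.Injective cq) (γ : Fin J → ℚ)
    (hγ : ∀ j, 0 < γ j) (hs : ∑ j, γ j = 1) :
    ∃ F : ℝ, magneticValue μ lamPlus cq γ = (F : EReal) ∧ ∀ ε : ℝ, 0 < ε →
      Dc (∑ j : Fin J, ENNReal.ofReal ((γ j : ℚ) : ℝ) • Measure.dirac (cq j)) ν <
        ENNReal.ofReal ε →
      (∀ᶠ N : ℕ in atTop, |∫ ω, pressureFieldN (eig N) (Matrix.of (Us N ω)) (c N) ∂P - F| ≤
        2 * ε) ∧
      ∀ᵐ ω ∂P, ∀ᶠ N : ℕ in atTop, |pressureFieldN (eig N) (Matrix.of (Us N ω)) (c N) - F| ≤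
        2 * ε := by
  obtain ⟨l, hl⟩ := exists_labels γ hγ hs
  choose e he using fun N => exists_matching (c N) cq (l N)
  set lab : (N : ℕ) → Fin N → Fin J := fun N r => l N (e N r) with hlab
  have hprop : ∀ j : Fin J, Tendsto
      (fun N : ℕ => ((Finset.univ.filter fun r : Fin N => lab N r = j).card : ℝ) / (N : ℝ))
      atTop (nhds ((γ j : ℚ) : ℝ)) := by
    intro j
    have hc : ∀ N, (Finset.univ.filter fun r : Fin N => lab N r = j).card =
        (Finset.univ.filter fun r : Fin N => l N r = j).card := by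
      intro N
      refine Finset.card_bij' (fun r _ => e N r) (fun r _ => (e N).symm r) ?_ ?_ ?_ ?_
      · intro r hr; simpa [hlab] using hr
      · intro r hr; simpa [hlab] using hr
      · intro r _; simp
      · intro r _; simp
    simp only [hc]
    exact hl j
  obtain ⟨F, hF, hE, has⟩ := h248 J cq hinj γ hγ hs lab hprop
  refine ⟨F, hF, fun ε hε hD => ?_⟩
  set law : Measure ℝ := ∑ j : Fin J, ENNReal.ofReal ((γ j : ℚ) : ℝ) • Measure.dirac (cq j)
    with hlaw
  have hlawfin : IsFiniteMeasure law := law_finite cq fun j => ((γ j : ℚ) : ℝ)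
  set δ : ℕ → ℝ := fun N => (1 / (N : ℝ)) * ∑ r, |c N r - cq (lab N r)| with hδ
  -- convergence of the three distances
  have hD1 : Tendsto (fun N => Dc (empiricalLaw (c N)) ν) atTop (nhds 0) :=
    tendsto_of_tendsto_of_tendsto_of_le_of_le tendsto_const_nhds hW (fun _ => zero_le)
      (fun N => Dc_le_transportCost _ _)
  obtain ⟨K, hK⟩ : ∃ K : ℝ, ∀ j, |cq j| ≤ K :=
    ⟨∑ j, |cq j|, fun j => Finset.single_le_sum (f := fun j => |cq j|) (fun j _ => abs_nonneg _)
      (Finset.mem_univ j)⟩
  have hD3 : Tendsto (fun N => Dc law (empiricalLaw (fun r => cq (l N r)))) atTop (nhds 0) := by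
    have h1 : Tendsto (fun N : ℕ => (2 * K) * ∑ j, |((γ j : ℚ) : ℝ) -
        ((Finset.univ.filter fun r : Fin N => l N r = j).card : ℝ) / (N : ℝ)|) atTop
        (nhds ((2 * K) * ∑ j : Fin J, |((γ j : ℚ) : ℝ) - ((γ j : ℚ) : ℝ)|)) := by
      refine Tendsto.const_mul _ (tendsto_finsetSum _ fun j _ => ?_)
      exact (tendsto_const_nhds.sub (hl j)).abs
    simp only [sub_self, abs_zero, Finset.sum_const_zero, mul_zero] at h1
    have h2 := ENNReal.tendsto_ofReal h1
    rw [ENNReal.ofReal_zero] at h2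
    refine tendsto_of_tendsto_of_tendsto_of_le_of_le' tendsto_const_nhds h2
      (Eventually.of_forall fun _ => zero_le) ?_
    filter_upwards [eventually_gt_atTop 0] with N hN
    exact Dc_labels_le hN cq (fun j => ((γ j : ℚ) : ℝ)) (fun j => by exact_mod_cast (hγ j).le)
      (by exact_mod_cast hs) (l N) K hK
  have hsum : Tendsto (fun N => Dc (empiricalLaw (c N)) ν + (Dc ν law +
      Dc law (empiricalLaw (fun r => cq (l N r))))) atTop (nhds (0 + (Dc ν law + 0))) :=
    hD1.add (tendsto_const_nhds.add hD3)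
  rw [zero_add, add_zero] at hsum
  have hδle : ∀ᶠ N in atTop, δ N ≤ ε := by
    rw [Dc_comm] at hD
    filter_upwards [hsum.eventually (gt_mem_nhds hD)] with N hN
    have h1 : ENNReal.ofReal (δ N) ≤ ENNReal.ofReal ε := by
      refine (he N).trans (le_trans ?_ hN.le)
      exact (Dc_triangle _ ν _).trans (add_le_add le_rfl (Dc_triangle _ law _))
    exact (ENNReal.ofReal_le_ofReal_iff hε.le).1 h1
  have hpath : ∀ N ω, |pressureFieldN (eig N) (Matrix.of (Us N ω)) (c N) -
      pressureFieldN (eig N) (Matrix.of (Us N ω)) (fun r => cq (lab N r))| ≤ δ N :=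
    fun N ω => pressureFieldN_lip _ _ _ _
  constructor
  · have hEv := hE.eventually (Metric.ball_mem_nhds F hε)
    filter_upwards [hδle, hEv] with N h1 h2
    have hi1 := integrable_pressureFieldN P (eig N) (hmeas N) (horth N) (c N)
    have hi2 := integrable_pressureFieldN P (eig N) (hmeas N) (horth N) (fun r => cq (lab N r))
    have h3 : |∫ ω, pressureFieldN (eig N) (Matrix.of (Us N ω)) (c N) ∂P -
        ∫ ω, pressureFieldN (eig N) (Matrix.of (Us N ω)) (fun r => cq (lab N r)) ∂P| ≤ δ N := by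
      rw [← integral_sub hi1 hi2]
      have := norm_integral_le_of_norm_le_const (μ := P) (C := δ N)
        (f := fun ω => pressureFieldN (eig N) (Matrix.of (Us N ω)) (c N) -
          pressureFieldN (eig N) (Matrix.of (Us N ω)) (fun r => cq (lab N r)))
        (Eventually.of_forall fun ω => by rw [Real.norm_eq_abs]; exact hpath N ω)
      simpa using this
    have h4 : |∫ ω, pressureFieldN (eig N) (Matrix.of (Us N ω)) (fun r => cq (lab N r)) ∂P - F| <
        ε := by
      simpa [Metric.mem_ball, Real.dist_eq] using h2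
    calc _ = |(∫ ω, pressureFieldN (eig N) (Matrix.of (Us N ω)) (c N) ∂P -
        ∫ ω, pressureFieldN (eig N) (Matrix.of (Us N ω)) (fun r => cq (lab N r)) ∂P) +
        (∫ ω, pressureFieldN (eig N) (Matrix.of (Us N ω)) (fun r => cq (lab N r)) ∂P - F)| := by
          congr 1; ring
      _ ≤ _ := (abs_add_le _ _).trans (by linarith)
  · filter_upwards [has] with ω hω
    have hEv := hω.eventually (Metric.ball_mem_nhds F hε)
    filter_upwards [hδle, hEv] with N h1 h2
    have h3 := hpath N ω
    have h4 : |pressureFieldN (eig N) (Matrix.of (Us N ω)) (fun r => cq (lab N r)) - F| < ε := by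
      simpa [Metric.mem_ball, Real.dist_eq] using h2
    calc _ = |(pressureFieldN (eig N) (Matrix.of (Us N ω)) (c N) -
        pressureFieldN (eig N) (Matrix.of (Us N ω)) (fun r => cq (lab N r))) +
        (pressureFieldN (eig N) (Matrix.of (Us N ω)) (fun r => cq (lab N r)) - F)| := by
          congr 1; ring
      _ ≤ _ := (abs_add_le _ _).trans (by linarith)

/-- S0249 from S0248 -/
theorem s0249_of_s0248 (hmeas : ∀ N, Measurable (Us N))
    (horth : ∀ N, ∀ᵐ ω ∂P, Matrix.of (Us N ω) ∈ Matrix.orthogonalGroup (Fin N) ℝ)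
    (h248 : H248 μ lamPlus eig P Us)
    (ν : Measure ℝ) [IsProbabilityMeasure ν] (c : (N : ℕ) → Fin N → ℝ)
    (hW : Tendsto (fun N : ℕ => transportCost (empiricalLaw (c N)) ν) atTop (nhds 0)) :
    ∃ F : ℝ,
      (∀ (Jq : ℕ → ℕ) (cq : (q : ℕ) → Fin (Jq q) → ℝ) (γq : (q : ℕ) → Fin (Jq q) → ℚ),
        (∀ q, Function.Injective (cq q) ∧ (∀ j, 0 < γq q j) ∧ ∑ j, γq q j = 1) →
        Tendsto (fun q : ℕ => transportCost
            (∑ j : Fin (Jq q), ENNReal.ofReal ((γq q j : ℚ) : ℝ) • Measure.dirac (cq q j)) ν)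
          atTop (nhds 0) →
        Tendsto (fun q : ℕ => magneticValue μ lamPlus (cq q) (γq q))
          atTop (nhds (F : EReal))) ∧
      Tendsto (fun N : ℕ => ∫ ω, pressureFieldN (eig N) (Matrix.of (Us N ω)) (c N) ∂P)
        atTop (nhds F) ∧
      ∀ᵐ ω ∂P, Tendsto (fun N : ℕ => pressureFieldN (eig N) (Matrix.of (Us N ω)) (c N))
        atTop (nhds F) := by
  set a : ℕ → ℝ := fun N => ∫ ω, pressureFieldN (eig N) (Matrix.of (Us N ω)) (c N) ∂P with ha
  have hD1 : Tendsto (fun N => Dc (empiricalLaw (c N)) ν) atTop (nhds 0) :=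
    tendsto_of_tendsto_of_tendsto_of_le_of_le tendsto_const_nhds hW (fun _ => zero_le)
      (fun N => Dc_le_transportCost _ _)
  -- for every precision a good alphabet
  have hgood : ∀ ε : ℝ, 0 < ε → ∃ F : ℝ, (∀ᶠ N : ℕ in atTop, |a N - F| ≤ 2 * ε) ∧
      ∀ᵐ ω ∂P, ∀ᶠ N : ℕ in atTop, |pressureFieldN (eig N) (Matrix.of (Us N ω)) (c N) - F| ≤
        2 * ε := by
    intro ε hε
    have hev := hD1.eventually (gt_mem_nhds (ENNReal.ofReal_pos.2 hε))
    obtain ⟨N, hN1, hN⟩ := (hev.and (eventually_gt_atTop 0)).exists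
    obtain ⟨J, cq, γ, hinj, hγ, hs, hcdf⟩ := exists_alphabet hN (c N)
    obtain ⟨F, -, hF⟩ := one_alphabet hmeas horth h248 ν c hW cq hinj γ hγ hs
    refine ⟨F, hF ε hε ?_⟩
    have : Dc (∑ j : Fin J, ENNReal.ofReal ((γ j : ℚ) : ℝ) • Measure.dirac (cq j)) ν =
        Dc (empiricalLaw (c N)) ν := by
      unfold Dc; congr 1; funext t; rw [hcdf t]
    rw [this]; exact hN1
  have hcau : CauchySeq a := by
    rw [Metric.cauchySeq_iff']
    intro ε hε
    obtain ⟨F, hF, -⟩ := hgood (ε / 8) (by linarith)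
    obtain ⟨M, hM⟩ := eventually_atTop.1 hF
    refine ⟨M, fun n hn => ?_⟩
    rw [Real.dist_eq]
    have h1 := hM n hn
    have h2 := hM M le_rfl
    calc |a n - a M| = |(a n - F) - (a M - F)| := by congr 1; ring
      _ ≤ |a n - F| + |a M - F| := abs_sub _ _
      _ < ε := by linarith
  obtain ⟨F, hF⟩ := cauchySeq_tendsto_of_complete hcau
  -- closeness of the limit
  have hclose : ∀ (ε G : ℝ), (∀ᶠ N : ℕ in atTop, |a N - G| ≤ 2 * ε) → |F - G| ≤ 2 * ε := by
    intro ε G h
    exact le_of_tendsto ((hF.sub_const G).abs) h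
  refine ⟨F, ?_, hF, ?_⟩
  · intro Jq cq γq hval hcost
    have h1 := fun q => one_alphabet hmeas horth h248 ν c hW (cq q) (hval q).1 (γq q)
      (hval q).2.1 (hval q).2.2
    choose G hG1 hG2 using h1
    have h3 : (fun q : ℕ => magneticValue μ lamPlus (cq q) (γq q)) = fun q => ((G q : ℝ) : EReal) := by
      funext q; exact hG1 q
    rw [h3]
    refine (continuous_coe_real_ereal.tendsto F).comp ?_
    rw [Metric.tendsto_nhds]
    intro ε hε
    have hlt : Tendsto (fun q : ℕ => Dc (∑ j : Fin (Jq q), ENNReal.ofReal ((γq q j : ℚ) : ℝ) •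
        Measure.dirac (cq q j)) ν) atTop (nhds 0) := by
      refine tendsto_of_tendsto_of_tendsto_of_le_of_le tendsto_const_nhds hcost (fun _ => zero_le)
        (fun q => ?_)
      have := law_finite (cq q) fun j => ((γq q j : ℚ) : ℝ)
      exact Dc_le_transportCost _ _
    have hev := hlt.eventually (gt_mem_nhds (ENNReal.ofReal_pos.2 (by linarith : 0 < ε / 4)))
    filter_upwards [hev] with q hq
    have h4 := hclose (ε / 4) (G q) (hG2 q (ε / 4) (by linarith) hq).1
    rw [Real.dist_eq, abs_sub_comm]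
    linarith
  · have h1 : ∀ k : ℕ, ∃ G : ℝ, (∀ᶠ N : ℕ in atTop, |a N - G| ≤ 2 * (1 / ((k : ℝ) + 1))) ∧
        ∀ᵐ ω ∂P, ∀ᶠ N : ℕ in atTop, |pressureFieldN (eig N) (Matrix.of (Us N ω)) (c N) - G| ≤
          2 * (1 / ((k : ℝ) + 1)) := fun k => hgood _ (by positivity)
    choose G hG1 hG2 using h1
    filter_upwards [ae_all_iff.2 hG2] with ω hω
    rw [Metric.tendsto_nhds]
    intro ε hε
    obtain ⟨k, hk⟩ := exists_nat_one_div_lt (show 0 < ε / 4 by linarith)
    filter_upwards [hω k] with N hN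
    have h2 := hclose _ _ (hG1 k)
    rw [Real.dist_eq]
    calc |pressureFieldN (eig N) (Matrix.of (Us N ω)) (c N) - F|
        = |(pressureFieldN (eig N) (Matrix.of (Us N ω)) (c N) - G k) - (F - G k)| := by
          congr 1; ring
      _ ≤ |pressureFieldN (eig N) (Matrix.of (Us N ω)) (c N) - G k| + |F - G k| := abs_sub _ _
      _ < ε := by linarith

end main

end Crest.Agent.R164
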