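import Mathlib
import Crest.Agent.Lib.OrthPoinc.Moment
import Crest.Agent.R164.Trans249

-- ▼ part R164/AsConc
section

set_option autoImplicit false

/-!
Row 164: concentration of the pressure on the orthogonal group (variance `O(1/N)`, fourth moment
`O(1/N^2)`), hence almost sure convergence from convergence of the expectations.
-/

namespace Crest.Agent.R164.AsConc

open MeasureTheory Filter Topology
open Crest.Agent.Lib.OrthPoinc
open Crest.ProbabilityR.InvariantGlass

variable {n : ℕ}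

/-- the exponent as a polynomial in the entries -/
noncomputable def qPoly (eig c : Fin n → ℝ) (σ : Fin n → Bool) : PolyM n :=
  ∑ a : Fin n, (eig a / 2) • (∑ k : Fin n, spinVec σ k • (MvPolynomial.X (a, k) : PolyM n)) ^ 2
    + MvPolynomial.C (∑ r, c r * spinVec σ r)

theorem ev_row (σ : Fin n → Bool) (a : Fin n) (U : Mat n) :
    ev (∑ k : Fin n, spinVec σ k • (MvPolynomial.X (a, k) : PolyM n)) U =
      (Matrix.of U).mulVec (spinVec σ) a := by
  rw [ev_sum]
  simp only [ev_smul, ev_X, Matrix.mulVec, dotProduct, Matrix.of_apply]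
  exact Finset.sum_congr rfl fun k _ => mul_comm _ _

theorem ev_qPoly (eig c : Fin n → ℝ) (σ : Fin n → Bool) (U : Mat n) :
    ev (qPoly eig c σ) U = (1 / 2) * (∑ i : Fin n, eig i * ((Matrix.of U).mulVec (spinVec σ) i) ^ 2) +
      ∑ r : Fin n, c r * spinVec σ r := by
  rw [qPoly, ev_add, ev_C, ev_sum]
  congr 1
  rw [Finset.mul_sum]
  refine Finset.sum_congr rfl fun a _ => ?_
  rw [ev_smul, ev_pow, ev_row]; ring

/-- the vector `w = Uᵀ Λ U σ` -/
noncomputable def wv (eig : Fin n → ℝ) (σ : Fin n → Bool) (U : Mat n) (i : Fin n) : ℝ :=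
  ∑ a : Fin n, eig a * (Matrix.of U).mulVec (spinVec σ) a * U a i

theorem Xd_row (i j : Fin n) (σ : Fin n → Bool) (a : Fin n) :
    Xd i j (∑ k : Fin n, spinVec σ k • (MvPolynomial.X (a, k) : PolyM n)) =
      spinVec σ j • MvPolynomial.X (a, i) - spinVec σ i • MvPolynomial.X (a, j) := by
  rw [map_sum]
  simp only [Derivation.map_smul, Xd_X, smul_sub, Finset.sum_sub_distrib]
  congr 1
  · simp
  · simp

theorem ev_Xd_qPoly (eig c : Fin n → ℝ) (σ : Fin n → Bool) (i j : Fin n) (U : Mat n) :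
    ev (Xd i j (qPoly eig c σ)) U = spinVec σ j * wv eig σ U i - spinVec σ i * wv eig σ U j := by
  rw [qPoly, map_add, MvPolynomial.derivation_C, add_zero, map_sum, ev_sum]
  have h : ∀ a : Fin n, ev (Xd i j ((eig a / 2) •
      (∑ k : Fin n, spinVec σ k • (MvPolynomial.X (a, k) : PolyM n)) ^ 2)) U =
      spinVec σ j * (eig a * (Matrix.of U).mulVec (spinVec σ) a * U a i) -
      spinVec σ i * (eig a * (Matrix.of U).mulVec (spinVec σ) a * U a j) := by
    intro a
    rw [Derivation.map_smul, ev_smul, pow_two, Derivation.leibniz, ev_add, smul_eq_mul, ev_mul,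
      Xd_row, ev_row, ev_sub, ev_smul, ev_smul, ev_X, ev_X]
    ring
  simp only [h]
  rw [Finset.sum_sub_distrib, ← Finset.mul_sum, ← Finset.mul_sum]
  rfl

theorem spin_sq (σ : Fin n → Bool) (r : Fin n) : spinVec σ r * spinVec σ r = 1 := by
  unfold spinVec; split_ifs <;> norm_num

/-- columns of a special orthogonal matrix -/
theorem so_cols {V : Matrix (Fin n) (Fin n) ℝ} (hV : V ∈ Matrix.specialOrthogonalGroup (Fin n) ℝ)
    (a b : Fin n) : ∑ k, V k a * V k b = if a = b then 1 else 0 := by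
  have := so_rows (transpose_mem_so hV) a b
  simpa using this

theorem sum_mulVec_sq {U : Mat n} (hU : Matrix.of U ∈ Matrix.specialOrthogonalGroup (Fin n) ℝ)
    (v : Fin n → ℝ) : ∑ a, ((Matrix.of U).mulVec v a) ^ 2 = ∑ r, v r ^ 2 := by
  have h1 : ∀ a, ((Matrix.of U).mulVec v a) ^ 2 = ∑ k, ∑ l, v k * v l * (U a k * U a l) := by
    intro a
    simp only [Matrix.mulVec, dotProduct, Matrix.of_apply]
    rw [pow_two, Finset.sum_mul_sum]
    exact Finset.sum_congr rfl fun k _ => Finset.sum_congr rfl fun l _ => by ring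
  simp only [h1]
  rw [Finset.sum_comm]
  have h2 : ∀ k, ∑ a, ∑ l, v k * v l * (U a k * U a l) = v k ^ 2 := by
    intro k
    rw [Finset.sum_comm]
    have h3 : ∀ l, ∑ a, v k * v l * (U a k * U a l) = v k * v l * (if k = l then 1 else 0) := by
      intro l
      rw [← Finset.mul_sum]
      congr 1
      exact so_cols hU k l
    simp only [h3]
    simp [pow_two]
  exact Finset.sum_congr rfl fun k _ => h2 k

theorem sum_wv_sq_le {eig : Fin n → ℝ} {Λ : ℝ} (hΛ : ∀ i, |eig i| ≤ Λ) (σ : Fin n → Bool)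
    {U : Mat n} (hU : Matrix.of U ∈ Matrix.specialOrthogonalGroup (Fin n) ℝ) :
    ∑ i, (wv eig σ U i) ^ 2 ≤ Λ ^ 2 * n := by
  set x := (Matrix.of U).mulVec (spinVec σ) with hx
  -- `w = Uᵀ (Λ x)`
  have hUt := transpose_mem_so hU
  have h1 : ∀ i, wv eig σ U i =
      (Matrix.of (fun i j => U j i : Mat n)).mulVec (fun a => eig a * x a) i := by
    intro i
    simp only [wv, Matrix.mulVec, dotProduct, Matrix.of_apply]
    exact Finset.sum_congr rfl fun a _ => by rw [hx]; simp [Matrix.mulVec, dotProduct]; ring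
  have h2 : Matrix.of (fun i j => U j i : Mat n) ∈ Matrix.specialOrthogonalGroup (Fin n) ℝ := by
    have : Matrix.of (fun i j => U j i : Mat n) = (Matrix.of U).transpose := by ext; rfl
    rw [this]; exact hUt
  simp only [h1]
  rw [sum_mulVec_sq h2]
  calc ∑ a, (eig a * x a) ^ 2 ≤ ∑ a, Λ ^ 2 * (x a) ^ 2 := by
        refine Finset.sum_le_sum fun a _ => ?_
        rw [mul_pow]
        have : eig a ^ 2 ≤ Λ ^ 2 := by
          rw [← sq_abs]
          exact pow_le_pow_left₀ (abs_nonneg _) (hΛ a) 2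
        gcongr
    _ = Λ ^ 2 * ∑ a, (x a) ^ 2 := by rw [Finset.mul_sum]
    _ = Λ ^ 2 * n := by
        rw [hx, sum_mulVec_sq hU]
        have : ∀ r, spinVec σ r ^ 2 = 1 := fun r => by rw [pow_two]; exact spin_sq σ r
        simp [this]

theorem energy_qPoly {eig : Fin n → ℝ} {Λ : ℝ} (hΛ : ∀ i, |eig i| ≤ Λ) (c : Fin n → ℝ)
    (σ : Fin n → Bool) {U : Mat n}
    (hU : Matrix.of U ∈ Matrix.specialOrthogonalGroup (Fin n) ℝ) :
    ∑ i, ∑ j, (ev (Xd i j (qPoly eig c σ)) U) ^ 2 ≤ 2 * Λ ^ 2 * (n : ℝ) ^ 2 := by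
  simp only [ev_Xd_qPoly]
  set w := wv eig σ U with hw
  set s := spinVec σ with hs
  have hss : ∀ r, s r * s r = 1 := fun r => spin_sq σ r
  have e1 : ∀ i j, (s j * w i - s i * w j) ^ 2 =
      (w i) ^ 2 + (w j) ^ 2 - 2 * ((s i * w i) * (s j * w j)) := by
    intro i j
    have h1 := hss i
    have h2 := hss j
    linear_combination (w i) ^ 2 * h2 + (w j) ^ 2 * h1
  simp only [e1, Finset.sum_sub_distrib, Finset.sum_add_distrib, ← Finset.mul_sum,
    ← Finset.sum_mul]
  have hW := sum_wv_sq_le hΛ σ hU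
  rw [← hw] at hW
  simp only [Finset.sum_const, Finset.card_univ, Fintype.card_fin, nsmul_eq_mul, ← Finset.mul_sum]
  have hn : (0 : ℝ) ≤ n := Nat.cast_nonneg n
  have h0 : 0 ≤ (∑ i, s i * w i) * (∑ j, s j * w j) := mul_self_nonneg _
  nlinarith [mul_le_mul_of_nonneg_left hW hn]

/-- derivative data of the pressure -/
noncomputable def DP (eig c : Fin n → ℝ) (i j : Fin n) (U : Mat n) : ℝ :=
  (1 / (n : ℝ)) * ((∑ σ : Fin n → Bool, Real.exp (ev (qPoly eig c σ) U) *
    ev (Xd i j (qPoly eig c σ)) U) / ∑ σ : Fin n → Bool, Real.exp (ev (qPoly eig c σ) U))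

theorem pressure_eq (hn : 0 < n) (eig c : Fin n → ℝ) (U : Mat n) :
    pressureFieldN eig (Matrix.of U) c = (1 / (n : ℝ)) * (n * Real.log (1 / 2)) +
      (1 / (n : ℝ)) * Real.log (∑ σ : Fin n → Bool, Real.exp (ev (qPoly eig c σ) U)) := by
  unfold pressureFieldN
  rw [← mul_add]
  congr 1
  have hpos : 0 < ∑ σ : Fin n → Bool, Real.exp (ev (qPoly eig c σ) U) :=
    Finset.sum_pos (fun s _ => Real.exp_pos _) Finset.univ_nonempty
  rw [Real.log_mul (by positivity) (by simpa only [ev_qPoly] using hpos.ne'), Real.log_pow]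
  simp only [ev_qPoly]

theorem C1cl_pressure (hn : 0 < n) (eig c : Fin n → ℝ) :
    C1cl (fun U : Mat n => pressureFieldN eig (Matrix.of U) c) (fun i j U => DP eig c i j U) := by
  have h1 := C1cl.lse (S := Fin n → Bool) (fun σ => C1cl.poly (qPoly eig c σ))
  have h2 := (C1cl.const (n := n) ((1 / (n : ℝ)) * (n * Real.log (1 / 2)))).add
    (h1.const_mul (1 / (n : ℝ)))
  refine h2.congr (fun U _ => (pressure_eq hn eig c U).symm) (fun U _ i j => ?_)
  rw [zero_add]
  rfl

theorem energy_pressure (hn : 0 < n) {eig : Fin n → ℝ} {Λ : ℝ} (hΛ : ∀ i, |eig i| ≤ Λ)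
    (c : Fin n → ℝ) {U : Mat n}
    (hU : Matrix.of U ∈ Matrix.specialOrthogonalGroup (Fin n) ℝ) :
    ∑ i, ∑ j, (DP eig c i j U) ^ 2 ≤ 2 * Λ ^ 2 := by
  have h := lse_energy (S := Fin n → Bool) (fun σ => ev (qPoly eig c σ) U)
    (fun σ i j => ev (Xd i j (qPoly eig c σ)) U) (2 * Λ ^ 2 * (n : ℝ) ^ 2)
    (fun σ => energy_qPoly hΛ c σ hU)
  have hn' : (0 : ℝ) < n := by exact_mod_cast hn
  simp only [DP, mul_pow, ← Finset.mul_sum]
  calc (1 / (n : ℝ)) ^ 2 * _ ≤ (1 / (n : ℝ)) ^ 2 * (2 * Λ ^ 2 * (n : ℝ) ^ 2) := by gcongr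
    _ = 2 * Λ ^ 2 := by field_simp

/-- the pressure does not change when the sign of the first row of `U` is changed -/
theorem pressure_flip (eig c : Fin n → ℝ) (U : Mat n) :
    pressureFieldN eig (Matrix.of (flipR U)) c = pressureFieldN eig (Matrix.of U) c := by
  unfold pressureFieldN
  have h : ∀ (σ : Fin n → Bool) (i : Fin n), ((Matrix.of (flipR U)).mulVec (spinVec σ) i) ^ 2 =
      ((Matrix.of U).mulVec (spinVec σ) i) ^ 2 := by
    intro σ i
    simp only [Matrix.mulVec, dotProduct, Matrix.of_apply, flipR]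
    split_ifs
    · simp only [neg_mul, Finset.sum_neg_distrib, neg_sq]
    · rfl
  simp only [h]

theorem pressure_toSO (eig c : Fin n → ℝ) (U : Mat n) :
    pressureFieldN eig (Matrix.of (toSO U)) c = pressureFieldN eig (Matrix.of U) c := by
  unfold toSO
  split_ifs
  · rfl
  · exact pressure_flip eig c U

section Law

variable {Ω : Type*} [MeasurableSpace Ω] {P : Measure Ω} [IsProbabilityMeasure P]

/-- right invariance in the form of the statement gives `OInv` of the law -/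
theorem oInv_of_haar {V : Ω → (Fin n → Fin n → ℝ)} (hV : Measurable V)
    (horth : ∀ᵐ ω ∂P, Matrix.of (V ω) ∈ Matrix.orthogonalGroup (Fin n) ℝ)
    (hHaar : ∀ O : Matrix (Fin n) (Fin n) ℝ, O ∈ Matrix.orthogonalGroup (Fin n) ℝ →
      P.map (fun ω => fun i j => (Matrix.of (V ω) * O) i j) = P.map V) :
    OInv (P.map V) where
  mem := by
    refine (ae_map_iff hV.aemeasurable ?_).mpr horth
    have : {U : Mat n | Matrix.of U ∈ Matrix.orthogonalGroup (Fin n) ℝ} =
        ⋂ i, ⋂ j, {U : Mat n | (Matrix.of U * (Matrix.of U).transpose) i j =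
          (1 : Matrix (Fin n) (Fin n) ℝ) i j} := by
      ext U
      simp only [Set.mem_iInter, Set.mem_ofPred_eq, Matrix.mem_orthogonalGroup_iff]
      constructor
      · intro h i j; exact congrFun (congrFun h i) j
      · intro h; ext i j; exact h i j
    have hm : MeasurableSet {U : Mat n | Matrix.of U ∈ Matrix.orthogonalGroup (Fin n) ℝ} := by
      rw [this]
      refine MeasurableSet.iInter fun i => MeasurableSet.iInter fun j => ?_
      refine measurableSet_eq_fun ?_ measurable_const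
      simp only [Matrix.mul_apply, Matrix.transpose_apply, Matrix.of_apply]
      fun_prop
    exact hm
  inv O hO := by
    rw [Measure.map_map (continuous_rmul O).measurable hV]
    exact hHaar O hO

variable {V : Ω → (Fin n → Fin n → ℝ)} (hV : Measurable V)
  (horth : ∀ᵐ ω ∂P, Matrix.of (V ω) ∈ Matrix.orthogonalGroup (Fin n) ℝ)
  (hHaar : ∀ O : Matrix (Fin n) (Fin n) ℝ, O ∈ Matrix.orthogonalGroup (Fin n) ℝ →
      P.map (fun ω => fun i j => (Matrix.of (V ω) * O) i j) = P.map V)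
include hV horth hHaar

/-- transfer of integrals of functions of the pressure to the law on `SO(n)` -/
theorem integral_transfer (hn : 0 < n) (eig c : Fin n → ℝ) (g : ℝ → ℝ) (hg : Continuous g) :
    ∫ ω, g (pressureFieldN eig (Matrix.of (V ω)) c) ∂P =
      ∫ U, g (pressureFieldN eig (Matrix.of U) c) ∂((P.map V).map toSO) := by
  have hmeas : Measurable fun U : Mat n => g (pressureFieldN eig (Matrix.of U) c) :=
    hg.measurable.comp (measurable_pressureFieldN eig measurable_id c)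
  rw [integral_map measurable_toSO.aemeasurable hmeas.aestronglyMeasurable]
  simp only [pressure_toSO]
  rw [integral_map hV.aemeasurable hmeas.aestronglyMeasurable]

theorem fourth_moment (hn : 2 < n) {eig : Fin n → ℝ} {Λ : ℝ} (hΛ : ∀ i, |eig i| ≤ Λ)
    (c : Fin n → ℝ) :
    ∫ ω, (pressureFieldN eig (Matrix.of (V ω)) c -
      ∫ ω', pressureFieldN eig (Matrix.of (V ω')) c ∂P) ^ 4 ∂P ≤
      5 * (2 * Λ ^ 2 / ((n : ℝ) - 2)) ^ 2 := by
  have hn0 : 0 < n := by omega
  have hO := oInv_of_haar hV horth hHaar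
  have hSO := hO.toSOInv hn0
  haveI : IsProbabilityMeasure (P.map V) := Measure.isProbabilityMeasure_map hV.aemeasurable
  haveI : IsProbabilityMeasure ((P.map V).map toSO) :=
    Measure.isProbabilityMeasure_map measurable_toSO.aemeasurable
  have hmean := integral_transfer hV horth hHaar hn0 eig c id continuous_id
  simp only [id] at hmean
  rw [hmean, integral_transfer hV horth hHaar hn0 eig c
    (fun x => (x - ∫ U, pressureFieldN eig (Matrix.of U) c ∂((P.map V).map toSO)) ^ 4)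
    (by fun_prop)]
  refine (C1cl_pressure hn0 eig c).fourth_moment hSO hn (2 * Λ ^ 2) ?_
  filter_upwards [hSO.mem] with U hU
  exact energy_pressure hn0 hΛ c hU

theorem variance_le (hn : 2 < n) {eig : Fin n → ℝ} {Λ : ℝ} (hΛ : ∀ i, |eig i| ≤ Λ)
    (c : Fin n → ℝ) :
    ∫ ω, (pressureFieldN eig (Matrix.of (V ω)) c -
      ∫ ω', pressureFieldN eig (Matrix.of (V ω')) c ∂P) ^ 2 ∂P ≤ 2 * Λ ^ 2 / ((n : ℝ) - 2) := by
  have hn0 : 0 < n := by omega
  have hO := oInv_of_haar hV horth hHaar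
  have hSO := hO.toSOInv hn0
  haveI : IsProbabilityMeasure (P.map V) := Measure.isProbabilityMeasure_map hV.aemeasurable
  haveI : IsProbabilityMeasure ((P.map V).map toSO) :=
    Measure.isProbabilityMeasure_map measurable_toSO.aemeasurable
  have hmean := integral_transfer hV horth hHaar hn0 eig c id continuous_id
  simp only [id] at hmean
  rw [hmean, integral_transfer hV horth hHaar hn0 eig c
    (fun x => (x - ∫ U, pressureFieldN eig (Matrix.of U) c ∂((P.map V).map toSO)) ^ 2)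
    (by fun_prop)]
  refine (C1cl_pressure hn0 eig c).variance_le hSO hn (2 * Λ ^ 2) ?_
  filter_upwards [hSO.mem] with U hU
  exact energy_pressure hn0 hΛ c hU

end Law

/-- summable fourth moments give almost sure convergence to zero -/
theorem ae_tendsto_zero {Ω : Type*} [MeasurableSpace Ω] {P : Measure Ω} (X : ℕ → Ω → ℝ)
    (hX : ∀ N, Measurable (X N)) (hint : ∀ N, Integrable (fun ω => (X N ω) ^ 4) P)
    (B : ℕ → ℝ) (hB : Summable B) (hle : ∀ N, ∫ ω, (X N ω) ^ 4 ∂P ≤ B N) :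
    ∀ᵐ ω ∂P, Tendsto (fun N => X N ω) atTop (nhds 0) := by
  have hnn : ∀ N ω, 0 ≤ (X N ω) ^ 4 := fun N ω => by positivity
  have h1 : ∫⁻ ω, ∑' N, ENNReal.ofReal ((X N ω) ^ 4) ∂P ≠ ⊤ := by
    rw [lintegral_tsum fun N => ((hX N).pow_const 4).ennreal_ofReal.aemeasurable]
    have h2 : ∀ N, ∫⁻ ω, ENNReal.ofReal ((X N ω) ^ 4) ∂P ≤ ENNReal.ofReal (B N) := by
      intro N
      rw [← ofReal_integral_eq_lintegral_ofReal (hint N) (Eventually.of_forall (hnn N))]
      exact ENNReal.ofReal_le_ofReal (hle N)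
    have hB0 : ∀ N, 0 ≤ B N := fun N => (integral_nonneg (hnn N)).trans (hle N)
    refine ne_top_of_le_ne_top ?_ (ENNReal.tsum_le_tsum h2)
    rw [← ENNReal.ofReal_tsum_of_nonneg hB0 hB]
    exact ENNReal.ofReal_ne_top
  have h3 := ae_lt_top' (AEMeasurable.ennreal_tsum fun N =>
    ((hX N).pow_const 4).ennreal_ofReal.aemeasurable) h1
  filter_upwards [h3] with ω hω
  have h4 := ENNReal.tendsto_atTop_zero_of_tsum_ne_top hω.ne
  have h5 : Tendsto (fun N => (X N ω) ^ 4) atTop (nhds 0) := by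
    have := (ENNReal.tendsto_toReal ENNReal.zero_ne_top).comp h4
    simp only [Function.comp_def, ENNReal.toReal_zero] at this
    refine this.congr fun N => ?_
    exact ENNReal.toReal_ofReal (hnn N ω)
  rw [tendsto_zero_iff_abs_tendsto_zero]
  have h6 : Tendsto (fun N => Real.sqrt (Real.sqrt ((X N ω) ^ 4))) atTop
      (nhds (Real.sqrt (Real.sqrt 0))) :=
    ((Real.continuous_sqrt.comp Real.continuous_sqrt).tendsto 0).comp h5
  rw [Real.sqrt_zero, Real.sqrt_zero] at h6
  refine h6.congr fun N => ?_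
  have : (X N ω) ^ 4 = ((X N ω) ^ 2) ^ 2 := by ring
  rw [this, Real.sqrt_sq (by positivity), Real.sqrt_sq_eq_abs]
  rfl

/-- **Almost sure part**: the pressure minus its expectation tends to zero almost surely. -/
theorem ae_sub_expect_tendsto {Ω : Type} [MeasurableSpace Ω] {P : Measure Ω}
    [IsProbabilityMeasure P] (eig : (N : ℕ) → Fin N → ℝ) (Λ : ℝ)
    (hΛ : ∀ᶠ N : ℕ in atTop, ∀ i : Fin N, |eig N i| ≤ Λ)
    (Us : (N : ℕ) → Ω → (Fin N → Fin N → ℝ)) (hmeas : ∀ N, Measurable (Us N))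
    (horth : ∀ N, ∀ᵐ ω ∂P, Matrix.of (Us N ω) ∈ Matrix.orthogonalGroup (Fin N) ℝ)
    (hHaar : ∀ (N : ℕ) (O : Matrix (Fin N) (Fin N) ℝ), O ∈ Matrix.orthogonalGroup (Fin N) ℝ →
      P.map (fun ω => fun i j => (Matrix.of (Us N ω) * O) i j) = P.map (Us N))
    (c : (N : ℕ) → Fin N → ℝ) :
    ∀ᵐ ω ∂P, Tendsto (fun N => pressureFieldN (eig N) (Matrix.of (Us N ω)) (c N) -
      ∫ ω', pressureFieldN (eig N) (Matrix.of (Us N ω')) (c N) ∂P) atTop (nhds 0) := by
  obtain ⟨N0, hN0⟩ := eventually_atTop.mp hΛ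
  set M := max N0 3 with hM
  -- work with the sequence shifted by `M`
  set X : ℕ → Ω → ℝ := fun N ω =>
    pressureFieldN (eig (N + M)) (Matrix.of (Us (N + M) ω)) (c (N + M)) -
      ∫ ω', pressureFieldN (eig (N + M)) (Matrix.of (Us (N + M) ω')) (c (N + M)) ∂P with hX
  have hXm : ∀ N, Measurable (X N) := fun N =>
    (measurable_pressureFieldN _ (hmeas _) _).sub_const _
  have hbd : ∀ N, ∃ K : ℝ, ∀ᵐ ω ∂P, |X N ω| ≤ K := by
    intro N
    refine ⟨(1 / ((N + M : ℕ) : ℝ)) * ((1 / 2) * ((∑ i, |eig (N + M) i|) * ((N + M : ℕ) : ℝ)) +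
      ∑ r, |c (N + M) r|) + |∫ ω', pressureFieldN (eig (N + M)) (Matrix.of (Us (N + M) ω'))
        (c (N + M)) ∂P|, ?_⟩
    filter_upwards [horth (N + M)] with ω hω
    refine (abs_sub _ _).trans ?_
    gcongr
    exact abs_pressureFieldN_le _ hω _
  have hint : ∀ N, Integrable (fun ω => (X N ω) ^ 4) P := by
    intro N
    obtain ⟨K, hK⟩ := hbd N
    refine Integrable.of_bound ((hXm N).pow_const 4).aestronglyMeasurable (K ^ 4) ?_
    filter_upwards [hK] with ω hω
    rw [norm_pow, Real.norm_eq_abs]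
    exact pow_le_pow_left₀ (abs_nonneg _) hω 4
  have hfm : ∀ N, ∫ ω, (X N ω) ^ 4 ∂P ≤ 20 * Λ ^ 4 * (1 / ((N : ℝ) + 1) ^ 2) := by
    intro N
    have hN1 : N0 ≤ N + M := by have := le_max_left N0 3; omega
    have hN2 : 3 ≤ N + M := by have := le_max_right N0 3; omega
    have h1 := fourth_moment (hmeas (N + M)) (horth (N + M)) (hHaar (N + M))
      (by omega : 2 < N + M) (hN0 (N + M) hN1) (c (N + M))
    refine h1.trans ?_
    have h2 : (N : ℝ) + 1 ≤ ((N + M : ℕ) : ℝ) - 2 := by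
      have : (N : ℝ) + 3 ≤ ((N + M : ℕ) : ℝ) := by
        have h3 : N + 3 ≤ N + M := by have := le_max_right N0 3; omega
        exact_mod_cast h3
      linarith
    have h4 : (0 : ℝ) < (N : ℝ) + 1 := by positivity
    have h5 : (2 * Λ ^ 2 / (((N + M : ℕ) : ℝ) - 2)) ^ 2 ≤ (2 * Λ ^ 2 / ((N : ℝ) + 1)) ^ 2 := by
      apply pow_le_pow_left₀
      · apply div_nonneg (by positivity); linarith
      · apply div_le_div_of_nonneg_left (by positivity) h4 h2
    calc 5 * (2 * Λ ^ 2 / (((N + M : ℕ) : ℝ) - 2)) ^ 2 ≤ 5 * (2 * Λ ^ 2 / ((N : ℝ) + 1)) ^ 2 := by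
          gcongr
      _ = 20 * Λ ^ 4 * (1 / ((N : ℝ) + 1) ^ 2) := by field_simp; ring
  have hsum : Summable fun N : ℕ => 20 * Λ ^ 4 * (1 / ((N : ℝ) + 1) ^ 2) := by
    apply Summable.mul_left
    have h := (summable_nat_add_iff 1).mpr (Real.summable_one_div_nat_pow.mpr one_lt_two)
    refine h.congr fun N => ?_
    push_cast
    rfl
  have hae := ae_tendsto_zero X hXm hint _ hsum hfm
  filter_upwards [hae] with ω hω
  exact (tendsto_add_atTop_iff_nat M).mp hω

/-- **Almost sure convergence from convergence of the expectations.** -/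
theorem ae_tendsto_of_expect {Ω : Type} [MeasurableSpace Ω] {P : Measure Ω}
    [IsProbabilityMeasure P] (eig : (N : ℕ) → Fin N → ℝ) (lamMinus lamPlus : ℝ)
    (hext : ∀ ε : ℝ, 0 < ε → ∀ᶠ N : ℕ in atTop, ∀ i : Fin N,
      lamMinus - ε ≤ eig N i ∧ eig N i ≤ lamPlus + ε)
    (Us : (N : ℕ) → Ω → (Fin N → Fin N → ℝ)) (hmeas : ∀ N, Measurable (Us N))
    (horth : ∀ N, ∀ᵐ ω ∂P, Matrix.of (Us N ω) ∈ Matrix.orthogonalGroup (Fin N) ℝ)
    (hHaar : ∀ (N : ℕ) (O : Matrix (Fin N) (Fin N) ℝ), O ∈ Matrix.orthogonalGroup (Fin N) ℝ →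
      P.map (fun ω => fun i j => (Matrix.of (Us N ω) * O) i j) = P.map (Us N))
    (c : (N : ℕ) → Fin N → ℝ) (F : ℝ)
    (hF : Tendsto (fun N : ℕ => ∫ ω, pressureFieldN (eig N) (Matrix.of (Us N ω)) (c N) ∂P)
      atTop (nhds F)) :
    ∀ᵐ ω ∂P, Tendsto (fun N : ℕ => pressureFieldN (eig N) (Matrix.of (Us N ω)) (c N))
      atTop (nhds F) := by
  have hΛ : ∀ᶠ N : ℕ in atTop, ∀ i : Fin N, |eig N i| ≤ |lamMinus| + |lamPlus| + 1 := by
    filter_upwards [hext 1 one_pos] with N hN i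
    obtain ⟨h1, h2⟩ := hN i
    rw [abs_le]
    constructor
    · have := neg_abs_le lamMinus
      have := abs_nonneg lamPlus
      linarith
    · have := le_abs_self lamPlus
      have := abs_nonneg lamMinus
      linarith
  have h := ae_sub_expect_tendsto eig _ hΛ Us hmeas horth hHaar c
  filter_upwards [h] with ω hω
  have := hω.add hF
  simpa using this

end Crest.Agent.R164.AsConc
end

-- ▼ part R164/Exp248
section

set_option autoImplicit false

/-!
Row 164: it is enough to prove the convergence of the expected pressures.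
-/

namespace Crest.Agent.R164

open MeasureTheory Filter Topology
open Crest.ProbabilityR.InvariantGlass

section

variable {Ω : Type} [MeasurableSpace Ω] (μ : Measure ℝ) (lamPlus : ℝ) (eig : (N : ℕ) → Fin N → ℝ)
  (P : Measure Ω) (Us : (N : ℕ) → Ω → (Fin N → Fin N → ℝ))

/-- The expectation part of S0248 for all alphabets and labels. -/
def E248 : Prop :=
  ∀ (J : ℕ) (cval : Fin J → ℝ), Function.Injective cval →
    ∀ γ : Fin J → ℚ, (∀ j, 0 < γ j) → ∑ j, γ j = 1 →
    ∀ lab : (N : ℕ) → Fin N → Fin J,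
    (∀ j : Fin J, Tendsto
      (fun N : ℕ => ((Finset.univ.filter fun r : Fin N => lab N r = j).card : ℝ) / (N : ℝ))
      atTop (nhds ((γ j : ℚ) : ℝ))) →
    ∃ F : ℝ, magneticValue μ lamPlus cval γ = (F : EReal) ∧
      Tendsto (fun N : ℕ => ∫ ω, pressureFieldN (eig N) (Matrix.of (Us N ω))
          (fun r => cval (lab N r)) ∂P) atTop (nhds F)

variable {μ lamPlus eig P Us}

theorem h248_of_e248 [IsProbabilityMeasure P] (lamMinus : ℝ)
    (hext : ∀ ε : ℝ, 0 < ε → ∀ᶠ N : ℕ in atTop, ∀ i : Fin N,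
      lamMinus - ε ≤ eig N i ∧ eig N i ≤ lamPlus + ε)
    (hmeas : ∀ N, Measurable (Us N))
    (horth : ∀ N, ∀ᵐ ω ∂P, Matrix.of (Us N ω) ∈ Matrix.orthogonalGroup (Fin N) ℝ)
    (hHaar : ∀ (N : ℕ) (O : Matrix (Fin N) (Fin N) ℝ), O ∈ Matrix.orthogonalGroup (Fin N) ℝ →
      P.map (fun ω => fun i j => (Matrix.of (Us N ω) * O) i j) = P.map (Us N))
    (h : E248 μ lamPlus eig P Us) : H248 μ lamPlus eig P Us := by
  intro J cval hinj γ hγ hs lab hlab
  obtain ⟨F, h1, h2⟩ := h J cval hinj γ hγ hs lab hlab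
  exact ⟨F, h1, h2, AsConc.ae_tendsto_of_expect eig lamMinus lamPlus hext Us hmeas horth hHaar
    (fun N r => cval (lab N r)) F h2⟩

end

end Crest.Agent.R164
end

-- ▼ part R164/Mag0

/-!
Row 164 (helper552): generalised pressures (restricted configurations, extra weight).
-/

set_option autoImplicit false

namespace Crest.Agent.R164.Mag

open MeasureTheory Set Filter Topology
open Crest.ProbabilityR.InvariantGlass
open Crest.Agent.Lib.OrthPoinc

/-- quadratic part of the exponent -/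
noncomputable def qd {N : ℕ} (eig : Fin N → ℝ) (U : Matrix (Fin N) (Fin N) ℝ)
    (σ : Fin N → Bool) : ℝ :=
  (1 / 2) * (∑ i : Fin N, eig i * (U.mulVec (spinVec σ) i) ^ 2)

/-- generalised partition function: configurations in `A`, extra log-weight `V` -/
noncomputable def ZG {N : ℕ} (eig : Fin N → ℝ) (U : Matrix (Fin N) (Fin N) ℝ)
    (A : Finset (Fin N → Bool)) (V : (Fin N → Bool) → ℝ) : ℝ :=
  (1 / 2) ^ N * ∑ σ ∈ A, Real.exp (qd eig U σ + V σ)

/-- generalised pressure: configurations in `A`, extra log-weight `V` -/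
noncomputable def pressG {N : ℕ} (eig : Fin N → ℝ) (U : Matrix (Fin N) (Fin N) ℝ)
    (A : Finset (Fin N → Bool)) (V : (Fin N → Bool) → ℝ) : ℝ :=
  (1 / (N : ℝ)) * Real.log (ZG eig U A V)

theorem pressG_univ {N : ℕ} (eig : Fin N → ℝ) (U : Matrix (Fin N) (Fin N) ℝ) (c : Fin N → ℝ) :
    pressG eig U Finset.univ (fun σ => ∑ r : Fin N, c r * spinVec σ r) =
      pressureFieldN eig U c := rfl

theorem ZG_pos {N : ℕ} (eig : Fin N → ℝ) (U : Matrix (Fin N) (Fin N) ℝ)
    {A : Finset (Fin N → Bool)} (hA : A.Nonempty) (V : (Fin N → Bool) → ℝ) :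
    0 < ZG eig U A V :=
  mul_pos (by positivity) (Finset.sum_pos (fun _ _ => Real.exp_pos _) hA)

theorem spin_sq_sum {N : ℕ} (σ : Fin N → Bool) : ∑ r, spinVec σ r ^ 2 = N := by
  have h3 : ∀ r, spinVec σ r ^ 2 = 1 := fun r => by
    rw [← sq_abs, abs_spinVec, one_pow]
  simp [h3]

theorem abs_qd_le {N : ℕ} {eig : Fin N → ℝ} {Λ : ℝ} (hΛ : ∀ i, |eig i| ≤ Λ)
    {U : Matrix (Fin N) (Fin N) ℝ} (hU : U ∈ Matrix.orthogonalGroup (Fin N) ℝ)
    (σ : Fin N → Bool) : |qd eig U σ| ≤ Λ / 2 * N := by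
  unfold qd
  rw [abs_mul, abs_of_pos (by norm_num : (0 : ℝ) < 1 / 2)]
  have h1 : |∑ i : Fin N, eig i * (U.mulVec (spinVec σ) i) ^ 2| ≤ Λ * N := by
    refine (Finset.abs_sum_le_sum_abs _ _).trans ?_
    calc ∑ i, |eig i * (U.mulVec (spinVec σ) i) ^ 2| ≤
        ∑ i, Λ * (U.mulVec (spinVec σ) i) ^ 2 := by
          refine Finset.sum_le_sum fun i _ => ?_
          rw [abs_mul, abs_of_nonneg (sq_nonneg (U.mulVec (spinVec σ) i))]
          exact mul_le_mul_of_nonneg_right (hΛ i) (sq_nonneg _)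
      _ = Λ * N := by rw [← Finset.mul_sum, sq_sum_mulVec hU, spin_sq_sum]
  linarith

/-- monotonicity in the set and in the extra weight -/
theorem pressG_mono {N : ℕ} {eig : Fin N → ℝ} {U : Matrix (Fin N) (Fin N) ℝ}
    {A A' : Finset (Fin N → Bool)} (hA : A.Nonempty) (hAA : A ⊆ A') {V V' : (Fin N → Bool) → ℝ}
    {d : ℝ} (hd : 0 ≤ d) (hV : ∀ σ ∈ A, V σ ≤ V' σ + d * N) :
    pressG eig U A V ≤ pressG eig U A' V' + d := by
  rcases Nat.eq_zero_or_pos N with h0 | h0
  · subst h0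
    simp only [pressG, Nat.cast_zero, div_zero, zero_mul, zero_add]
    exact hd
  have hN : (0:ℝ) < N := by exact_mod_cast h0
  have h1 : ZG eig U A V ≤ Real.exp (d * N) * ZG eig U A' V' := by
    unfold ZG
    rw [← mul_left_comm]
    refine mul_le_mul_of_nonneg_left ?_ (by positivity)
    calc ∑ σ ∈ A, Real.exp (qd eig U σ + V σ) ≤
        ∑ σ ∈ A, Real.exp (d * N) * Real.exp (qd eig U σ + V' σ) := by
          refine Finset.sum_le_sum fun σ hσ => ?_
          rw [← Real.exp_add]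
          exact Real.exp_le_exp.2 (by linarith [hV σ hσ])
      _ = Real.exp (d * N) * ∑ σ ∈ A, Real.exp (qd eig U σ + V' σ) := by rw [Finset.mul_sum]
      _ ≤ _ := mul_le_mul_of_nonneg_left
          (Finset.sum_le_sum_of_subset_of_nonneg hAA fun _ _ _ => (Real.exp_pos _).le)
          (Real.exp_pos _).le
  have h2 := Real.log_le_log (ZG_pos eig U hA V) h1
  rw [Real.log_mul (Real.exp_pos _).ne' (ZG_pos eig U (hA.mono hAA) V').ne', Real.log_exp] at h2
  have h3 := mul_le_mul_of_nonneg_left h2 (by positivity : (0:ℝ) ≤ 1 / (N:ℝ))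
  rw [mul_add] at h3
  have e : 1 / (N:ℝ) * (d * N) = d := by field_simp
  rw [e] at h3
  unfold pressG
  linarith

theorem abs_pressG_le {N : ℕ} {eig : Fin N → ℝ} {Λ : ℝ} (hΛ : ∀ i, |eig i| ≤ Λ) (hΛ0 : 0 ≤ Λ)
    {U : Matrix (Fin N) (Fin N) ℝ} (hU : U ∈ Matrix.orthogonalGroup (Fin N) ℝ)
    {A : Finset (Fin N → Bool)} (hA : A.Nonempty) {V : (Fin N → Bool) → ℝ} {C : ℝ} (hC : 0 ≤ C)
    (hV : ∀ σ ∈ A, |V σ| ≤ C * N) : |pressG eig U A V| ≤ Λ / 2 + C + Real.log 2 := by
  have hl2 : 0 < Real.log 2 := Real.log_pos (by norm_num)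
  rcases Nat.eq_zero_or_pos N with h0 | h0
  · subst h0
    simp only [pressG, Nat.cast_zero, div_zero, zero_mul, abs_zero]
    linarith
  have hN : (0:ℝ) < N := by exact_mod_cast h0
  set B := (Λ / 2 + C) * N with hB
  have hterm : ∀ σ ∈ A, |qd eig U σ + V σ| ≤ B := fun σ hσ => by
    have := abs_qd_le hΛ hU σ
    have := hV σ hσ
    refine (abs_add_le _ _).trans ?_
    rw [hB]; linarith
  have hZ := ZG_pos eig U hA V
  have hup : ZG eig U A V ≤ Real.exp B := by
    unfold ZG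
    calc (1 / 2 : ℝ) ^ N * ∑ σ ∈ A, Real.exp (qd eig U σ + V σ) ≤
        (1 / 2 : ℝ) ^ N * ∑ _σ : Fin N → Bool, Real.exp B := by
          refine mul_le_mul_of_nonneg_left ?_ (by positivity)
          refine (Finset.sum_le_sum fun σ hσ =>
            Real.exp_le_exp.2 (abs_le.1 (hterm σ hσ)).2).trans ?_
          exact Finset.sum_le_sum_of_subset_of_nonneg (Finset.subset_univ _)
            fun _ _ _ => (Real.exp_pos _).le
      _ = Real.exp B := by
          rw [Finset.sum_const, Finset.card_univ, Fintype.card_fun, Fintype.card_bool,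
            Fintype.card_fin, nsmul_eq_mul, ← mul_assoc]
          push_cast
          rw [← mul_pow]; norm_num
  have hlo : (1 / 2 : ℝ) ^ N * Real.exp (-B) ≤ ZG eig U A V := by
    unfold ZG
    refine mul_le_mul_of_nonneg_left ?_ (by positivity)
    obtain ⟨σ, hσ⟩ := hA
    refine (Real.exp_le_exp.2 (abs_le.1 (hterm σ hσ)).1).trans ?_
    exact Finset.single_le_sum (f := fun σ => Real.exp (qd eig U σ + V σ))
      (fun _ _ => (Real.exp_pos _).le) hσ
  have h1 := Real.log_le_log hZ hup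
  have h2 := Real.log_le_log (by positivity) hlo
  rw [Real.log_mul (by positivity) (Real.exp_pos _).ne', Real.log_exp, Real.log_pow] at h2
  rw [Real.log_exp] at h1
  have h3 : Real.log (1 / 2) = - Real.log 2 := by rw [one_div, Real.log_inv]
  rw [h3] at h2
  unfold pressG
  have e1 : (1 / (N:ℝ)) * B = Λ / 2 + C := by rw [hB]; field_simp
  have h1' := mul_le_mul_of_nonneg_left h1 (by positivity : (0:ℝ) ≤ 1 / (N:ℝ))
  have h2' := mul_le_mul_of_nonneg_left h2 (by positivity : (0:ℝ) ≤ 1 / (N:ℝ))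
  have e2 : (1 / (N:ℝ)) * ((N:ℝ) * - Real.log 2 + - B) = - Real.log 2 - (Λ / 2 + C) := by
    rw [hB]; field_simp; ring
  rw [e2] at h2'
  rw [e1] at h1'
  rw [abs_le]
  constructor <;> linarith

theorem measurable_pressG {Ω : Type*} [MeasurableSpace Ω] {N : ℕ} (eig : Fin N → ℝ)
    {W : Ω → (Fin N → Fin N → ℝ)} (hW : Measurable W) (A : Finset (Fin N → Bool))
    (V : (Fin N → Bool) → ℝ) :
    Measurable (fun ω => pressG eig (Matrix.of (W ω)) A V) := by
  unfold pressG ZG qd
  refine measurable_const.mul (Real.measurable_log.comp (measurable_const.mul ?_))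
  refine Finset.measurable_sum _ fun σ _ => ?_
  refine Real.measurable_exp.comp (Measurable.add_const (measurable_const.mul ?_) _)
  refine Finset.measurable_sum _ fun i _ => measurable_const.mul ?_
  have : Measurable (fun ω => (Matrix.of (W ω)).mulVec (spinVec σ) i) := by
    unfold Matrix.mulVec dotProduct
    refine Finset.measurable_sum _ fun j _ => Measurable.mul_const ?_ _
    exact (measurable_pi_apply j).comp ((measurable_pi_apply i).comp hW)
  exact this.pow_const 2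

theorem integrable_pressG {Ω : Type*} [MeasurableSpace Ω] (P : Measure Ω)
    [IsProbabilityMeasure P] {N : ℕ} (eig : Fin N → ℝ)
    {W : Ω → (Fin N → Fin N → ℝ)} (hW : Measurable W)
    (horth : ∀ᵐ ω ∂P, Matrix.of (W ω) ∈ Matrix.orthogonalGroup (Fin N) ℝ)
    {A : Finset (Fin N → Bool)} (hA : A.Nonempty) (V : (Fin N → Bool) → ℝ) :
    Integrable (fun ω => pressG eig (Matrix.of (W ω)) A V) P := by
  set Λ := ∑ i, |eig i| with hΛ
  have h1 : ∀ i, |eig i| ≤ Λ := fun i =>
    Finset.single_le_sum (f := fun i => |eig i|) (fun _ _ => abs_nonneg _) (Finset.mem_univ i)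
  have h0 : 0 ≤ Λ := Finset.sum_nonneg fun _ _ => abs_nonneg _
  rcases Nat.eq_zero_or_pos N with hN | hN
  · subst hN
    have : (fun ω => pressG eig (Matrix.of (W ω)) A V) = fun _ => 0 := by
      funext ω; simp [pressG]
    rw [this]
    exact integrable_zero _ _ _
  have hN' : (1:ℝ) ≤ N := by exact_mod_cast hN
  set C := ∑ σ : Fin N → Bool, |V σ| with hC
  have hC0 : 0 ≤ C := Finset.sum_nonneg fun _ _ => abs_nonneg _
  have h2 : ∀ σ ∈ A, |V σ| ≤ C * N := fun σ _ => by
    have : |V σ| ≤ C :=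
      Finset.single_le_sum (f := fun σ => |V σ|) (fun _ _ => abs_nonneg _) (Finset.mem_univ σ)
    nlinarith
  refine Integrable.of_bound (measurable_pressG eig hW A V).aestronglyMeasurable
    (Λ / 2 + C + Real.log 2) ?_
  filter_upwards [horth] with ω hω
  rw [Real.norm_eq_abs]
  exact abs_pressG_le h1 h0 hω hA hC0 h2

/-! ### Concentration -/

section conc

variable {n : ℕ}

noncomputable def vPoly (eig : Fin n → ℝ) (V : (Fin n → Bool) → ℝ) (σ : Fin n → Bool) :
    PolyM n :=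
  AsConc.qPoly eig 0 σ + MvPolynomial.C (V σ)

theorem ev_vPoly (eig : Fin n → ℝ) (V : (Fin n → Bool) → ℝ) (σ : Fin n → Bool) (U : Mat n) :
    ev (vPoly eig V σ) U = qd eig (Matrix.of U) σ + V σ := by
  rw [vPoly, ev_add, ev_C, AsConc.ev_qPoly]
  simp [qd]

theorem energy_vPoly {eig : Fin n → ℝ} {Λ : ℝ} (hΛ : ∀ i, |eig i| ≤ Λ)
    (V : (Fin n → Bool) → ℝ) (σ : Fin n → Bool) {U : Mat n}
    (hU : Matrix.of U ∈ Matrix.specialOrthogonalGroup (Fin n) ℝ) :
    ∑ i, ∑ j, (ev (Xd i j (vPoly eig V σ)) U) ^ 2 ≤ 2 * Λ ^ 2 * (n : ℝ) ^ 2 := by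
  have h : ∀ i j, Xd i j (vPoly eig V σ) = Xd i j (AsConc.qPoly eig 0 σ) := fun i j => by
    rw [vPoly, map_add, MvPolynomial.derivation_C, add_zero]
  simp only [h]
  exact AsConc.energy_qPoly hΛ 0 σ hU

/-- derivative data -/
noncomputable def DG (eig : Fin n → ℝ) (A : Finset (Fin n → Bool)) (V : (Fin n → Bool) → ℝ)
    (i j : Fin n) (U : Mat n) : ℝ :=
  (1 / (n : ℝ)) * ((∑ σ : A, Real.exp (ev (vPoly eig V σ) U) *
    ev (Xd i j (vPoly eig V σ)) U) / ∑ σ : A, Real.exp (ev (vPoly eig V σ) U))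

theorem pressG_eq (hn : 0 < n) (eig : Fin n → ℝ) {A : Finset (Fin n → Bool)} (hA : A.Nonempty)
    (V : (Fin n → Bool) → ℝ) (U : Mat n) :
    pressG eig (Matrix.of U) A V = (1 / (n : ℝ)) * (n * Real.log (1 / 2)) +
      (1 / (n : ℝ)) * Real.log (∑ σ : A, Real.exp (ev (vPoly eig V σ) U)) := by
  unfold pressG ZG
  rw [← mul_add]
  congr 1
  have hpos : 0 < ∑ σ ∈ A, Real.exp (qd eig (Matrix.of U) σ + V σ) :=
    Finset.sum_pos (fun s _ => Real.exp_pos _) hA
  rw [Real.log_mul (by positivity) hpos.ne', Real.log_pow]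
  congr 2
  rw [← Finset.sum_coe_sort A]
  simp only [ev_vPoly]

theorem C1cl_pressG (hn : 0 < n) (eig : Fin n → ℝ) {A : Finset (Fin n → Bool)}
    (hA : A.Nonempty) (V : (Fin n → Bool) → ℝ) :
    C1cl (fun U : Mat n => pressG eig (Matrix.of U) A V) (fun i j U => DG eig A V i j U) := by
  haveI : Nonempty A := hA.to_subtype
  have h1 := C1cl.lse (S := A) (fun σ => C1cl.poly (vPoly eig V σ))
  have h2 := (C1cl.const (n := n) ((1 / (n : ℝ)) * (n * Real.log (1 / 2)))).add
    (h1.const_mul (1 / (n : ℝ)))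
  refine h2.congr (fun U _ => (pressG_eq hn eig hA V U).symm) (fun U _ i j => ?_)
  rw [zero_add]
  rfl

theorem energy_pressG (hn : 0 < n) {eig : Fin n → ℝ} {Λ : ℝ} (hΛ : ∀ i, |eig i| ≤ Λ)
    {A : Finset (Fin n → Bool)} (hA : A.Nonempty) (V : (Fin n → Bool) → ℝ) {U : Mat n}
    (hU : Matrix.of U ∈ Matrix.specialOrthogonalGroup (Fin n) ℝ) :
    ∑ i, ∑ j, (DG eig A V i j U) ^ 2 ≤ 2 * Λ ^ 2 := by
  haveI : Nonempty A := hA.to_subtype
  have h := lse_energy (S := A) (fun σ => ev (vPoly eig V σ) U)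
    (fun σ i j => ev (Xd i j (vPoly eig V σ)) U) (2 * Λ ^ 2 * (n : ℝ) ^ 2)
    (fun σ => energy_vPoly hΛ V σ hU)
  have hn' : (0 : ℝ) < n := by exact_mod_cast hn
  simp only [DG, mul_pow, ← Finset.mul_sum]
  calc (1 / (n : ℝ)) ^ 2 * _ ≤ (1 / (n : ℝ)) ^ 2 * (2 * Λ ^ 2 * (n : ℝ) ^ 2) := by gcongr
    _ = 2 * Λ ^ 2 := by field_simp

theorem pressG_flip (eig : Fin n → ℝ) (A : Finset (Fin n → Bool)) (V : (Fin n → Bool) → ℝ)
    (U : Mat n) :
    pressG eig (Matrix.of (flipR U)) A V = pressG eig (Matrix.of U) A V := by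
  unfold pressG ZG qd
  have h : ∀ (σ : Fin n → Bool) (i : Fin n), ((Matrix.of (flipR U)).mulVec (spinVec σ) i) ^ 2 =
      ((Matrix.of U).mulVec (spinVec σ) i) ^ 2 := by
    intro σ i
    simp only [Matrix.mulVec, dotProduct, Matrix.of_apply, flipR]
    split_ifs
    · simp only [neg_mul, Finset.sum_neg_distrib, neg_sq]
    · rfl
  simp only [h]

theorem pressG_toSO (eig : Fin n → ℝ) (A : Finset (Fin n → Bool)) (V : (Fin n → Bool) → ℝ)
    (U : Mat n) :
    pressG eig (Matrix.of (toSO U)) A V = pressG eig (Matrix.of U) A V := by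
  unfold toSO
  split_ifs
  · rfl
  · exact pressG_flip eig A V U

variable {Ω : Type*} [MeasurableSpace Ω] {P : Measure Ω} [IsProbabilityMeasure P]
variable {W : Ω → (Fin n → Fin n → ℝ)} (hW : Measurable W)
  (horth : ∀ᵐ ω ∂P, Matrix.of (W ω) ∈ Matrix.orthogonalGroup (Fin n) ℝ)
  (hHaar : ∀ O : Matrix (Fin n) (Fin n) ℝ, O ∈ Matrix.orthogonalGroup (Fin n) ℝ →
      P.map (fun ω => fun i j => (Matrix.of (W ω) * O) i j) = P.map W)
include hW horth hHaar

theorem integral_transferG (hn : 0 < n) (eig : Fin n → ℝ) (A : Finset (Fin n → Bool))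
    (V : (Fin n → Bool) → ℝ) (g : ℝ → ℝ) (hg : Continuous g) :
    ∫ ω, g (pressG eig (Matrix.of (W ω)) A V) ∂P =
      ∫ U, g (pressG eig (Matrix.of U) A V) ∂((P.map W).map toSO) := by
  have hmeas : Measurable fun U : Mat n => g (pressG eig (Matrix.of U) A V) :=
    hg.measurable.comp (measurable_pressG eig measurable_id A V)
  rw [integral_map measurable_toSO.aemeasurable hmeas.aestronglyMeasurable]
  simp only [pressG_toSO]
  rw [integral_map hW.aemeasurable hmeas.aestronglyMeasurable]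

theorem variance_leG (hn : 2 < n) {eig : Fin n → ℝ} {Λ : ℝ} (hΛ : ∀ i, |eig i| ≤ Λ)
    {A : Finset (Fin n → Bool)} (hA : A.Nonempty) (V : (Fin n → Bool) → ℝ) :
    ∫ ω, (pressG eig (Matrix.of (W ω)) A V -
      ∫ ω', pressG eig (Matrix.of (W ω')) A V ∂P) ^ 2 ∂P ≤ 2 * Λ ^ 2 / ((n : ℝ) - 2) := by
  have hn0 : 0 < n := by omega
  have hO := AsConc.oInv_of_haar hW horth hHaar
  have hSO := hO.toSOInv hn0
  haveI : IsProbabilityMeasure (P.map W) := Measure.isProbabilityMeasure_map hW.aemeasurable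
  haveI : IsProbabilityMeasure ((P.map W).map toSO) :=
    Measure.isProbabilityMeasure_map measurable_toSO.aemeasurable
  have hmean := integral_transferG hW horth hHaar hn0 eig A V id continuous_id
  simp only [id] at hmean
  rw [hmean, integral_transferG hW horth hHaar hn0 eig A V
    (fun x => (x - ∫ U, pressG eig (Matrix.of U) A V ∂((P.map W).map toSO)) ^ 2)
    (by fun_prop)]
  refine (C1cl_pressG hn0 eig hA V).variance_le hSO hn (2 * Λ ^ 2) ?_
  filter_upwards [hSO.mem] with U hU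
  exact energy_pressG hn0 hΛ hA V hU

/-- first absolute moment -/
theorem abs_dev_leG (hn : 2 < n) {eig : Fin n → ℝ} {Λ : ℝ} (hΛ : ∀ i, |eig i| ≤ Λ)
    {A : Finset (Fin n → Bool)} (hA : A.Nonempty) (V : (Fin n → Bool) → ℝ) :
    ∫ ω, |pressG eig (Matrix.of (W ω)) A V -
      ∫ ω', pressG eig (Matrix.of (W ω')) A V ∂P| ∂P ≤
      Real.sqrt (2 * Λ ^ 2 / ((n : ℝ) - 2)) := by
  set m := ∫ ω', pressG eig (Matrix.of (W ω')) A V ∂P with hm
  have hn' : (0:ℝ) < (n:ℝ) - 2 := by
    have : (2:ℝ) < n := by exact_mod_cast hn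
    linarith
  have hint := integrable_pressG P eig hW horth hA V
  have hv := variance_leG hW horth hHaar hn hΛ hA V
  rw [← hm] at hv
  set v := 2 * Λ ^ 2 / ((n : ℝ) - 2) with hvd
  have hv0 : 0 ≤ v := by positivity
  have hmd : Integrable (fun ω => pressG eig (Matrix.of (W ω)) A V - m) P :=
    hint.sub (integrable_const _)
  rcases Nat.eq_zero_or_pos n with h0 | h0
  · omega
  -- boundedness for square integrability
  have hsq : Integrable (fun ω => (pressG eig (Matrix.of (W ω)) A V - m) ^ 2) P := by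
    set Λ' := ∑ i, |eig i| with hΛ'
    have h1 : ∀ i, |eig i| ≤ Λ' := fun i =>
      Finset.single_le_sum (f := fun i => |eig i|) (fun _ _ => abs_nonneg _) (Finset.mem_univ i)
    have h0' : 0 ≤ Λ' := Finset.sum_nonneg fun _ _ => abs_nonneg _
    have hN' : (1:ℝ) ≤ n := by exact_mod_cast h0
    set C := ∑ σ : Fin n → Bool, |V σ| with hC
    have hC0 : 0 ≤ C := Finset.sum_nonneg fun _ _ => abs_nonneg _
    have h2 : ∀ σ ∈ A, |V σ| ≤ C * n := fun σ _ => by
      have : |V σ| ≤ C :=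
        Finset.single_le_sum (f := fun σ => |V σ|) (fun _ _ => abs_nonneg _) (Finset.mem_univ σ)
      nlinarith
    refine Integrable.of_bound
      (((measurable_pressG eig hW A V).sub_const m).pow_const 2).aestronglyMeasurable
      ((Λ' / 2 + C + Real.log 2 + |m|) ^ 2) ?_
    filter_upwards [horth] with ω hω
    rw [Real.norm_eq_abs, abs_pow]
    refine pow_le_pow_left₀ (abs_nonneg _) ?_ 2
    refine (abs_sub _ _).trans ?_
    have := abs_pressG_le h1 h0' hω hA hC0 h2
    linarith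
  rcases hv0.eq_or_lt with hz | hpos
  · -- zero variance
    have h3 : ∫ ω, (pressG eig (Matrix.of (W ω)) A V - m) ^ 2 ∂P = 0 :=
      le_antisymm (by rw [hz]; exact hv) (integral_nonneg fun _ => sq_nonneg _)
    have h4 := (integral_eq_zero_iff_of_nonneg (fun _ => sq_nonneg _) hsq).1 h3
    have h5 : ∫ ω, |pressG eig (Matrix.of (W ω)) A V - m| ∂P = 0 := by
      rw [integral_eq_zero_of_ae]
      filter_upwards [h4] with ω hω
      have : (pressG eig (Matrix.of (W ω)) A V - m) ^ 2 = 0 := hω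
      rw [sq_eq_zero_iff] at this
      simp [this]
    rw [h5]; exact Real.sqrt_nonneg _
  · set s := Real.sqrt v with hs
    have hs0 : 0 < s := Real.sqrt_pos.2 hpos
    have hss : s * s = v := Real.mul_self_sqrt hv0
    have h6 : ∀ x : ℝ, |x| ≤ (x ^ 2 / s + s) / 2 := by
      intro x
      have h7 : 0 ≤ (|x| - s) ^ 2 / s := by positivity
      have h8 : (|x| - s) ^ 2 / s = x ^ 2 / s - 2 * |x| + s := by
        have : |x| ^ 2 = x ^ 2 := sq_abs x
        field_simp
        nlinarith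
      linarith
    calc ∫ ω, |pressG eig (Matrix.of (W ω)) A V - m| ∂P ≤
        ∫ ω, ((pressG eig (Matrix.of (W ω)) A V - m) ^ 2 / s + s) / 2 ∂P := by
          refine integral_mono hmd.abs (((hsq.div_const s).add (integrable_const _)).div_const 2) ?_
          intro ω; exact h6 _
      _ = ((∫ ω, (pressG eig (Matrix.of (W ω)) A V - m) ^ 2 ∂P) / s + s) / 2 := by
          rw [integral_div, integral_add (hsq.div_const s) (integrable_const _), integral_div]
          simp
      _ ≤ (v / s + s) / 2 := by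
          have := div_le_div_of_nonneg_right hv hs0.le
          linarith
      _ = s := by rw [← hss]; field_simp; ring

end conc

end Crest.Agent.R164.Mag
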