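import Mathlib
import Crest.Agent.R141.HierA
import Crest.Agent.Lib.OrthPoinc.Moment
import Crest.Agent.R164.ObsFin
import Crest.Agent.R164.Sys164

-- ▼ part R164/ConcA
section

set_option autoImplicit false

/-!
Row 164: concentration over the orthogonal group of hierarchical free energies
`A P F x (fun ω => h ω U) k ω0` (nested power means) with log-weights `h ω` depending on the
orthogonal matrix `U`.
-/

namespace Crest.Agent.R164.ConcA

open MeasureTheory Filter
open Crest.Agent.Lib.OrthPoinc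
open Crest.Agent.R141

variable {n : ℕ} {Ω : Type*} [Fintype Ω] {P : Ω → ℝ}

/-- energy of a family of derivatives at a matrix -/
noncomputable def En (D : Fin n → Fin n → Mat n → ℝ) (U : Mat n) : ℝ :=
  ∑ i, ∑ j, (D i j U) ^ 2

/-- derivative of a power mean -/
noncomputable def Dpm (P : Ω → ℝ) (r : Setoid Ω) (x : ℝ) (f : Ω → Mat n → ℝ)
    (Df : Ω → Fin n → Fin n → Mat n → ℝ) (ω : Ω) (i j : Fin n) (U : Mat n) : ℝ :=
  cE P r (fun a => Real.exp (x * f a U) * Df a i j U) ω /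
    cE P r (fun a => Real.exp (x * f a U)) ω

theorem C1cl_pm (hP : IsProb P) (r : Setoid Ω) {x : ℝ} (hx : 0 < x) {f : Ω → Mat n → ℝ}
    {Df : Ω → Fin n → Fin n → Mat n → ℝ} (hf : ∀ a, C1cl (f a) (Df a)) (ω : Ω) :
    C1cl (fun U => pm P r x (fun a => f a U) ω) (Dpm P r x f Df ω) := by
  classical
  choose K hK0 hK using fun s => (hf s).bound
  set Z := ∑ ω' ∈ Finset.univ.filter (fun ω' => r ω ω'), P ω' with hZ
  have hZpos : 0 < Z := cls_pos hP r ω
  have hcE : ∀ g : Ω → ℝ, cE P r g ω =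
      ∑ a ∈ Finset.univ.filter (fun a => r ω a), (P a / Z) * g a := by
    intro g
    unfold cE
    rw [← hZ, Finset.sum_div]
    exact Finset.sum_congr rfl fun a _ => by ring
  have hfx : ∀ a, C1cl (fun U => x * f a U) (fun i j U => x * Df a i j U) := fun a =>
    (hf a).const_mul x
  have hexp : ∀ a, C1cl (fun U => Real.exp (x * f a U))
      (fun i j U => Real.exp (x * f a U) * (x * Df a i j U)) := by
    intro a
    refine (hfx a).comp (-(x * K a)) (x * K a) (fun U hU => ?_) Real.exp Real.exp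
      (fun y _ => Real.hasDerivAt_exp y) Real.continuous_exp.continuousOn
    have h1 := abs_le.mp (hK a U hU).1
    constructor
    · nlinarith [h1.1]
    · nlinarith [h1.2]
  have hw : ∀ a, C1cl (fun U => (P a / Z) * Real.exp (x * f a U))
      (fun i j U => (P a / Z) * (Real.exp (x * f a U) * (x * Df a i j U))) := fun a =>
    (hexp a).const_mul _
  have hsum := C1cl.sum (Finset.univ.filter (fun a => r ω a)) (fun a _ => hw a)
  have hne : (Finset.univ.filter (fun a => r ω a)).Nonempty := ⟨ω, by simpa using r.refl ω⟩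
  set m := ∑ a ∈ Finset.univ.filter (fun a => r ω a), (P a / Z) * Real.exp (-(x * K a)) with hm
  have hmpos : 0 < m := Finset.sum_pos
    (fun a _ => mul_pos (div_pos (hP.pos a) hZpos) (Real.exp_pos _)) hne
  have hlog := hsum.comp m
    (∑ a ∈ Finset.univ.filter (fun a => r ω a), (P a / Z) * Real.exp (x * K a))
    (fun U hU => by
      constructor
      · refine Finset.sum_le_sum fun a _ => ?_
        refine mul_le_mul_of_nonneg_left (Real.exp_le_exp.mpr ?_) (div_pos (hP.pos a) hZpos).le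
        have h1 := abs_le.mp (hK a U hU).1
        nlinarith [h1.1]
      · refine Finset.sum_le_sum fun a _ => ?_
        refine mul_le_mul_of_nonneg_left (Real.exp_le_exp.mpr ?_) (div_pos (hP.pos a) hZpos).le
        have h1 := abs_le.mp (hK a U hU).1
        nlinarith [h1.2]) Real.log (fun y => y⁻¹)
    (fun y hy => Real.hasDerivAt_log (hmpos.trans_le hy.1).ne')
    (ContinuousOn.inv₀ continuousOn_id fun y hy => (hmpos.trans_le hy.1).ne')
  have hfin := hlog.const_mul (1 / x)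
  refine hfin.congr (fun U _ => ?_) (fun U _ i j => ?_)
  · unfold pm
    rw [hcE]
  · unfold Dpm
    rw [hcE, hcE, div_eq_inv_mul]
    have e : ∑ a ∈ Finset.univ.filter (fun a => r ω a),
        (P a / Z) * (Real.exp (x * f a U) * (x * Df a i j U)) =
        x * ∑ a ∈ Finset.univ.filter (fun a => r ω a),
          (P a / Z) * (Real.exp (x * f a U) * Df a i j U) := by
      rw [Finset.mul_sum]
      exact Finset.sum_congr rfl fun a _ => by ring
    rw [e]
    field_simp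


variable {𝓕 : Filt Ω} {x : ℕ → ℝ}



variable {μ : Measure (Mat n)} [IsProbabilityMeasure μ]


end Crest.Agent.R164.ConcA
end

-- ▼ part R164/ConcA2
section

set_option autoImplicit false

/-!
Row 164: concentration over the orthogonal group of hierarchical free energies, AVERAGED energy
version: the derivative of `A_k` is the tilted conditional expectation of the derivative of the
log-weight, so only the tilted average of the energy has to be bounded.
-/

namespace Crest.Agent.R164.ConcA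

open MeasureTheory Filter
open Crest.Agent.Lib.OrthPoinc
open Crest.Agent.R141

variable {n : ℕ} {Ω : Type*} [Fintype Ω] {P : Ω → ℝ} {𝓕 : Filt Ω} {x : ℕ → ℝ}

/-- derivative of `A_k`: tilted conditional expectation -/
noncomputable def DAt (P : Ω → ℝ) (𝓕 : Filt Ω) (x : ℕ → ℝ) (h : Ω → Mat n → ℝ)
    (Dh : Ω → Fin n → Fin n → Mat n → ℝ) (k : ℕ) (ω : Ω) (i j : Fin n) (U : Mat n) : ℝ :=
  cE (tl P 𝓕 x (fun a => h a U)) (𝓕.F k) (fun a => Dh a i j U) ω

theorem C1cl_At (hP : IsProb P) (hx : ∀ k, 0 < x k) {h : Ω → Mat n → ℝ}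
    {Dh : Ω → Fin n → Fin n → Mat n → ℝ} (hh : ∀ a, C1cl (h a) (Dh a)) (k : ℕ) (ω : Ω) :
    C1cl (fun U => A P 𝓕 x (fun a => h a U) k ω) (DAt P 𝓕 x h Dh k ω) := by
  have base : ∀ k, 𝓕.L ≤ k → ∀ ω,
      C1cl (fun U => A P 𝓕 x (fun a => h a U) k ω) (DAt P 𝓕 x h Dh k ω) := by
    intro k hk ω
    refine (hh ω).congr (fun U _ => ?_) (fun U _ i j => ?_)
    · rw [A_of_ge _ hk]
    · unfold DAt
      rw [cE_of_meas (tl_isProb hP hx _) (rmeas_of_ge hk _)]
  have step : ∀ k, k < 𝓕.L → (∀ ω,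
      C1cl (fun U => A P 𝓕 x (fun a => h a U) (k + 1) ω) (DAt P 𝓕 x h Dh (k + 1) ω)) →
      ∀ ω, C1cl (fun U => A P 𝓕 x (fun a => h a U) k ω) (DAt P 𝓕 x h Dh k ω) := by
    intro k hk ih ω
    refine (C1cl_pm hP (𝓕.F k) (hx (k + 1)) ih ω).congr (fun U _ => ?_) (fun U _ i j => ?_)
    · simp only [A_step_lt _ hk]
    · unfold Dpm
      rw [← exp_A_step hP hx]
      have hQ := tl_isProb (𝓕 := 𝓕) hP hx (fun a => h a U)
      have hmeas : RMeas (𝓕.F (k + 1)) (fun a => DAt P 𝓕 x h Dh (k + 1) a i j U) :=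
        cE_meas _ _ _
      have h1 : DAt P 𝓕 x h Dh k ω i j U =
          cE (tl P 𝓕 x (fun a => h a U)) (𝓕.F k) (fun a => DAt P 𝓕 x h Dh (k + 1) a i j U) ω := by
        unfold DAt
        exact (cE_tower hQ (𝓕.anti' (Nat.le_succ k)) _ ω).symm
      rw [h1, cE_tl_meas hP hx _ (Nat.le_succ k) hmeas]
      have e : (fun w => Real.exp (S P 𝓕 x (fun a => h a U) k (k + 1) w) *
          DAt P 𝓕 x h Dh (k + 1) w i j U) = fun w =>
          Real.exp (-(x (k + 1) * A P 𝓕 x (fun a => h a U) k w)) *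
            (Real.exp (x (k + 1) * A P 𝓕 x (fun a => h a U) (k + 1) w) *
              DAt P 𝓕 x h Dh (k + 1) w i j U) := by
        funext w
        rw [S_succ _ le_rfl, S_self, ← mul_assoc, ← Real.exp_add]
        ring_nf
      have hm2 : RMeas (𝓕.F k) (fun w =>
          Real.exp (-(x (k + 1) * A P 𝓕 x (fun a => h a U) k w))) := by
        intro a b hab
        simp only [A_meas hP hx _ k a b hab]
      rw [e, cE_mul_left hm2, Real.exp_neg, div_eq_inv_mul]
  obtain ⟨j, hj⟩ : ∃ j, j = 𝓕.L - k := ⟨_, rfl⟩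
  induction j generalizing k ω with
  | zero => exact base k (by omega) ω
  | succ j ih => exact step k (by omega) (fun ω' => ih (k + 1) ω' (by omega)) ω

theorem En_DAt_le (hP : IsProb P) (hx : ∀ k, 0 < x k) (h : Ω → Mat n → ℝ)
    (Dh : Ω → Fin n → Fin n → Mat n → ℝ) (k : ℕ) (ω : Ω) (U : Mat n) :
    En (DAt P 𝓕 x h Dh k ω) U ≤
      cE (tl P 𝓕 x (fun a => h a U)) (𝓕.F k) (fun a => En (Dh a) U) ω := by
  have hQ := tl_isProb (𝓕 := 𝓕) hP hx (fun a => h a U)
  unfold En DAt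
  simp only [cE_sum]
  exact Finset.sum_le_sum fun i _ => Finset.sum_le_sum fun j _ => cE_sq_le hQ _ _ _

/-- derivative of the averaged functional -/
noncomputable def DE (P : Ω → ℝ) (𝓕 : Filt Ω) (x : ℕ → ℝ) (h : Ω → Mat n → ℝ)
    (Dh : Ω → Fin n → Fin n → Mat n → ℝ) (k : ℕ) (i j : Fin n) (U : Mat n) : ℝ :=
  eE P (fun ω => DAt P 𝓕 x h Dh k ω i j U)

theorem C1cl_eE_At (hP : IsProb P) (hx : ∀ k, 0 < x k) {h : Ω → Mat n → ℝ}
    {Dh : Ω → Fin n → Fin n → Mat n → ℝ} (hh : ∀ a, C1cl (h a) (Dh a)) (k : ℕ) :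
    C1cl (fun U => eE P (A P 𝓕 x (fun a => h a U) k)) (DE P 𝓕 x h Dh k) :=
  C1cl.sum Finset.univ (fun ω _ => (C1cl_At (𝓕 := 𝓕) hP hx hh k ω).const_mul (P ω))

theorem En_DE_le (hP : IsProb P) (hx : ∀ k, 0 < x k) (h : Ω → Mat n → ℝ)
    (Dh : Ω → Fin n → Fin n → Mat n → ℝ) (k : ℕ) (U : Mat n) :
    En (DE P 𝓕 x h Dh k) U ≤
      eE P (cE (tl P 𝓕 x (fun a => h a U)) (𝓕.F k) (fun a => En (Dh a) U)) := by
  have hcs : ∀ y : Ω → ℝ, (eE P y) ^ 2 ≤ eE P (fun ω => (y ω) ^ 2) := by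
    intro y
    have := Finset.sum_sq_le_sum_mul_sum_of_sq_le_mul (Finset.univ : Finset Ω)
      (r := fun ω => P ω * y ω) (f := P) (g := fun ω => P ω * (y ω) ^ 2)
      (fun ω _ => (hP.pos ω).le) (fun ω _ => mul_nonneg (hP.pos ω).le (sq_nonneg _))
      (fun ω _ => le_of_eq (by ring))
    rw [hP.sum, one_mul] at this
    exact this
  calc En (DE P 𝓕 x h Dh k) U ≤ ∑ i, ∑ j, eE P (fun ω => (DAt P 𝓕 x h Dh k ω i j U) ^ 2) :=
        Finset.sum_le_sum fun i _ => Finset.sum_le_sum fun j _ => hcs _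
    _ = eE P (fun ω => En (DAt P 𝓕 x h Dh k ω) U) := by
        unfold eE En
        calc ∑ i, ∑ j, ∑ ω, P ω * (DAt P 𝓕 x h Dh k ω i j U) ^ 2
            = ∑ i, ∑ ω, ∑ j, P ω * (DAt P 𝓕 x h Dh k ω i j U) ^ 2 :=
              Finset.sum_congr rfl fun i _ => Finset.sum_comm
          _ = ∑ ω, ∑ i, ∑ j, P ω * (DAt P 𝓕 x h Dh k ω i j U) ^ 2 := Finset.sum_comm
          _ = _ := by
              refine Finset.sum_congr rfl fun ω _ => ?_
              rw [Finset.mul_sum]
              exact Finset.sum_congr rfl fun i _ => by rw [Finset.mul_sum]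
    _ ≤ _ := eE_mono hP fun ω => En_DAt_le hP hx h Dh k ω U

variable {μ : Measure (Mat n)} [IsProbabilityMeasure μ]


/-! ### exponential-moment bound for tilted expectations -/

/-- tilted expectation of `V` is at most `A[U+V] - A[U]` (from the top) -/
theorem cE_tl_le_A_sub (hP : IsProb P) (hx : ∀ k, 0 < x k) (U V : Ω → ℝ) (k : ℕ) (ω : Ω) :
    cE (tl P 𝓕 x U) (𝓕.F k) V ω ≤
      A P 𝓕 x (fun w => U w + V w) k ω - A P 𝓕 x U k ω := by
  have hQ := tl_isProb (𝓕 := 𝓕) hP hx U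
  rw [A_cocycle hP hx U V k ω, add_sub_cancel_left]
  exact cE_le_A hQ hx V k ω

end Crest.Agent.R164.ConcA
end

-- ▼ part R164/ConcSys2

set_option autoImplicit false

/-!
Row 164, module (Conc): the square of the coin fields is `O(N)` under the tilted law, for every
realisation of the disorder.
-/

namespace Crest.Agent.R164.CSys

open Finset MeasureTheory
open Crest.Agent.R141
open Crest.Agent.R164

noncomputable section

/-! ### exponential square moment of a coin sum -/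

/-- the coin sum -/
def zc (n : ℕ) (c : Fin n → Bool) : ℝ := (Real.sqrt n)⁻¹ * ∑ t, sv (c t)

theorem integral_exp_lin (z : ℝ) :
    Integrable (fun x : ℝ => Real.exp (-x ^ 2 + z * x)) ∧
    ∫ x : ℝ, Real.exp (-x ^ 2 + z * x) = Real.sqrt Real.pi * Real.exp (z ^ 2 / 4) := by
  have e : (fun x : ℝ => Real.exp (-x ^ 2 + z * x)) =
      fun x : ℝ => Real.exp (z ^ 2 / 4) * Real.exp (-1 * (x - z / 2) ^ 2) := by
    funext x
    rw [← Real.exp_add]; ring_nf
  have hi : Integrable (fun x : ℝ => Real.exp (-1 * x ^ 2)) := integrable_exp_neg_mul_sq one_pos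
  rw [e]
  refine ⟨(hi.comp_sub_right (z / 2)).const_mul _, ?_⟩
  rw [integral_const_mul, integral_sub_right_eq_self (fun x : ℝ => Real.exp (-1 * x ^ 2)) (z / 2),
    integral_gaussian, div_one]
  ring

theorem sum_exp_lin (n : ℕ) (x : ℝ) :
    ∑ c : Fin n → Bool, Real.exp (zc n c * x) ≤ 2 ^ n * Real.exp (x ^ 2 / 2) := by
  have h1 : ∀ c : Fin n → Bool, Real.exp (zc n c * x) =
      ∏ t, Real.exp (sv (c t) * ((Real.sqrt n)⁻¹ * x)) := by
    intro c
    rw [← Real.exp_sum]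
    congr 1
    unfold zc
    rw [← Finset.sum_mul]; ring
  simp only [h1]
  rw [← Fintype.sum_pow (fun b : Bool => Real.exp (sv b * ((Real.sqrt n)⁻¹ * x))) n]
  have h2 : ∑ b : Bool, Real.exp (sv b * ((Real.sqrt n)⁻¹ * x)) =
      2 * Real.cosh ((Real.sqrt n)⁻¹ * x) := by
    rw [Fintype.sum_bool, Real.cosh_eq]
    simp only [sv, if_true, one_mul, Bool.false_eq_true, if_false]
    ring_nf
  rw [h2, mul_pow]
  have h3 := Real.cosh_le_exp_half_sq ((Real.sqrt n)⁻¹ * x)
  have h4 : Real.cosh ((Real.sqrt n)⁻¹ * x) ^ n ≤ Real.exp (x ^ 2 / 2) := by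
    calc Real.cosh ((Real.sqrt n)⁻¹ * x) ^ n ≤
        (Real.exp (((Real.sqrt n)⁻¹ * x) ^ 2 / 2)) ^ n :=
          pow_le_pow_left₀ (Real.cosh_pos _).le h3 n
      _ = Real.exp (n * (((Real.sqrt n)⁻¹ * x) ^ 2 / 2)) := by rw [← Real.exp_nat_mul]
      _ ≤ Real.exp (x ^ 2 / 2) := by
          apply Real.exp_le_exp.mpr
          rcases Nat.eq_zero_or_pos n with h0 | h0
          · subst h0; simp; positivity
          · have hn : (0 : ℝ) < n := by exact_mod_cast h0
            have : (n : ℝ) * (((Real.sqrt n)⁻¹ * x) ^ 2 / 2) = x ^ 2 / 2 := by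
              rw [mul_pow, inv_pow, Real.sq_sqrt hn.le]
              field_simp
            rw [this]
  exact mul_le_mul_of_nonneg_left h4 (by positivity)

/-- `E exp(z²/4) ≤ 2` -/
theorem sum_exp_sq (n : ℕ) :
    ∑ c : Fin n → Bool, Real.exp (1 / 4 * (zc n c) ^ 2) ≤ 2 ^ n * 2 := by
  have hpi := Real.sqrt_pos.mpr Real.pi_pos
  have h1 : ∑ c : Fin n → Bool, Real.sqrt Real.pi * Real.exp ((zc n c) ^ 2 / 4) =
      ∫ x : ℝ, ∑ c : Fin n → Bool, Real.exp (-x ^ 2 + zc n c * x) := by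
    rw [integral_finsetSum _ fun c _ => (integral_exp_lin (zc n c)).1]
    exact Finset.sum_congr rfl fun c _ => (integral_exp_lin (zc n c)).2.symm
  have hi2 : Integrable (fun x : ℝ => (2 : ℝ) ^ n * Real.exp (-(1 / 2) * x ^ 2)) :=
    (integrable_exp_neg_mul_sq (by norm_num : (0 : ℝ) < 1 / 2)).const_mul _
  have h2 : ∫ x : ℝ, ∑ c : Fin n → Bool, Real.exp (-x ^ 2 + zc n c * x) ≤
      ∫ x : ℝ, (2 : ℝ) ^ n * Real.exp (-(1 / 2) * x ^ 2) := by
    refine integral_mono (integrable_finsetSum _ fun c _ => (integral_exp_lin (zc n c)).1) hi2 ?_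
    intro x
    have e : ∑ c : Fin n → Bool, Real.exp (-x ^ 2 + zc n c * x) =
        Real.exp (-x ^ 2) * ∑ c : Fin n → Bool, Real.exp (zc n c * x) := by
      rw [Finset.mul_sum]
      exact Finset.sum_congr rfl fun c _ => by rw [← Real.exp_add]
    show ∑ c : Fin n → Bool, Real.exp (-x ^ 2 + zc n c * x) ≤
      (2 : ℝ) ^ n * Real.exp (-(1 / 2) * x ^ 2)
    rw [e]
    calc Real.exp (-x ^ 2) * ∑ c : Fin n → Bool, Real.exp (zc n c * x) ≤
        Real.exp (-x ^ 2) * (2 ^ n * Real.exp (x ^ 2 / 2)) :=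
          mul_le_mul_of_nonneg_left (sum_exp_lin n x) (Real.exp_pos _).le
      _ = (2 : ℝ) ^ n * Real.exp (-(1 / 2) * x ^ 2) := by
          rw [mul_left_comm, ← Real.exp_add]; ring_nf
  have h3 : ∫ x : ℝ, (2 : ℝ) ^ n * Real.exp (-(1 / 2) * x ^ 2) =
      2 ^ n * (Real.sqrt 2 * Real.sqrt Real.pi) := by
    rw [integral_const_mul, integral_gaussian]
    congr 1
    rw [← Real.sqrt_mul (by norm_num)]
    congr 1
    ring
  rw [h3] at h2
  rw [← h1, ← Finset.mul_sum] at h2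
  have h4 : ∑ c : Fin n → Bool, Real.exp ((zc n c) ^ 2 / 4) ≤ 2 ^ n * Real.sqrt 2 := by
    have h5 : Real.sqrt Real.pi * ∑ c : Fin n → Bool, Real.exp ((zc n c) ^ 2 / 4) ≤
        Real.sqrt Real.pi * (2 ^ n * Real.sqrt 2) := by
      refine h2.trans (le_of_eq ?_); ring
    exact le_of_mul_le_mul_left h5 hpi
  have h6 : Real.sqrt 2 ≤ 2 := by
    rw [Real.sqrt_le_left (by norm_num)]; norm_num
  calc ∑ c : Fin n → Bool, Real.exp (1 / 4 * (zc n c) ^ 2) =
      ∑ c : Fin n → Bool, Real.exp ((zc n c) ^ 2 / 4) :=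
        Finset.sum_congr rfl fun c _ => by rw [show 1 / 4 * (zc n c) ^ 2 = (zc n c) ^ 2 / 4 by ring]
    _ ≤ 2 ^ n * Real.sqrt 2 := h4
    _ ≤ 2 ^ n * 2 := mul_le_mul_of_nonneg_left h6 (by positivity)

open SY

variable {p : Par} {N n : ℕ} {A : Finset (Fin N → Bool)}

/-- sum of the squares of one family of fields -/
def Tc (c : FC p N n) : ℝ := ∑ g, ∑ i, (zf c g i) ^ 2

theorem Tc_nonneg (c : FC p N n) : 0 ≤ Tc c :=
  Finset.sum_nonneg fun _ _ => Finset.sum_nonneg fun _ _ => sq_nonneg _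

theorem sum_FC_exp : ∑ c : FC p N n, Real.exp (1 / 4 * Tc c) ≤ ((2 : ℝ) ^ n * 2) ^ (N * p.nc) := by
  have h1 : ∀ c : FC p N n, Real.exp (1 / 4 * Tc c) =
      ∏ g, ∏ i, Real.exp (1 / 4 * (zc n (c g i)) ^ 2) := by
    intro c
    unfold Tc
    rw [Finset.mul_sum, Real.exp_sum]
    refine Finset.prod_congr rfl fun g _ => ?_
    rw [Finset.mul_sum, Real.exp_sum]
    rfl
  simp only [h1]
  rw [← Fintype.sum_pow (fun r : Fin N → Fin n → Bool => ∏ i, Real.exp (1 / 4 * (zc n (r i)) ^ 2))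
    p.nc, ← Fintype.sum_pow (fun r : Fin n → Bool => Real.exp (1 / 4 * (zc n r) ^ 2)) N, ← pow_mul]
  exact pow_le_pow_left₀ (Finset.sum_nonneg fun _ _ => (Real.exp_pos _).le) (sum_exp_sq n) _

theorem card_FC : (Fintype.card (FC p N n) : ℝ) = ((2 : ℝ) ^ n) ^ (N * p.nc) := by
  rw [Fintype.card_fun, Fintype.card_fun, Fintype.card_fun, Fintype.card_bool, Fintype.card_fin,
    Fintype.card_fin, Fintype.card_fin]
  push_cast
  rw [← pow_mul, ← pow_mul]

/-- total square of the fields of a base configuration -/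
def Ts (s : SS p n A) : ℝ := Tc s.2.1 + Tc s.2.2

theorem Ts_nonneg (s : SS p n A) : 0 ≤ Ts s := add_nonneg (Tc_nonneg _) (Tc_nonneg _)

theorem sum_SS_exp (hA : A.Nonempty) :
    (Fintype.card (SS p n A) : ℝ)⁻¹ * ∑ s : SS p n A, Real.exp (1 / 4 * Ts s) ≤
      (4 : ℝ) ^ (N * p.nc) := by
  have hS0 : 0 ≤ ∑ c : FC p N n, Real.exp (1 / 4 * Tc c) :=
    Finset.sum_nonneg fun _ _ => (Real.exp_pos _).le
  have h1 : ∑ s : SS p n A, Real.exp (1 / 4 * Ts s) =
      (Fintype.card {σ : Fin N → Bool // σ ∈ A} : ℝ) *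
        ((∑ c : FC p N n, Real.exp (1 / 4 * Tc c)) * ∑ c : FC p N n, Real.exp (1 / 4 * Tc c)) := by
    have h0 : ∀ (σ : {σ : Fin N → Bool // σ ∈ A}) (c c' : FC p N n),
        Real.exp (1 / 4 * Ts ((σ, c, c') : SS p n A)) =
          Real.exp (1 / 4 * Tc c) * Real.exp (1 / 4 * Tc c') := by
      intro σ c c'
      rw [← Real.exp_add]
      unfold Ts
      ring_nf
    rw [Fintype.sum_prod_type]
    simp only [Fintype.sum_prod_type, h0]
    rw [Finset.sum_const, Finset.card_univ, nsmul_eq_mul, Finset.sum_mul_sum]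
  have h2 : (Fintype.card (SS p n A) : ℝ) =
      (Fintype.card {σ : Fin N → Bool // σ ∈ A} : ℝ) *
        (((2 : ℝ) ^ n) ^ (N * p.nc) * ((2 : ℝ) ^ n) ^ (N * p.nc)) := by
    rw [Fintype.card_prod, Fintype.card_prod]
    push_cast
    rw [card_FC]
  haveI : Nonempty {σ : Fin N → Bool // σ ∈ A} := ⟨⟨hA.choose, hA.choose_spec⟩⟩
  have hc : (0 : ℝ) < (Fintype.card {σ : Fin N → Bool // σ ∈ A} : ℝ) := by
    exact_mod_cast Fintype.card_pos
  have hp : (0 : ℝ) < ((2 : ℝ) ^ n) ^ (N * p.nc) := by positivity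
  rw [h1, h2, inv_mul_le_iff₀ (by positivity)]
  have h3 := sum_FC_exp (p := p) (N := N) (n := n)
  calc (Fintype.card {σ : Fin N → Bool // σ ∈ A} : ℝ) *
        ((∑ c : FC p N n, Real.exp (1 / 4 * Tc c)) * ∑ c : FC p N n, Real.exp (1 / 4 * Tc c)) ≤
      (Fintype.card {σ : Fin N → Bool // σ ∈ A} : ℝ) *
        (((2 : ℝ) ^ n * 2) ^ (N * p.nc) * ((2 : ℝ) ^ n * 2) ^ (N * p.nc)) := by
        gcongr
    _ = _ := by
        rw [mul_pow]
        have : (4 : ℝ) ^ (N * p.nc) = 2 ^ (N * p.nc) * 2 ^ (N * p.nc) := by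
          rw [← mul_pow]; norm_num
        rw [this]; ring

variable (hA : A.Nonempty)

/-- prior expectation of a function of the base configuration -/
theorem eE_prior_base (f : SS p n A → ℝ) :
    eE (G.prior (base p n A hA)) (fun ω => f ω.1) =
      (Fintype.card (SS p n A) : ℝ)⁻¹ * ∑ s, f s := by
  have hL : (Fintype.card (G.Lab p N) : ℝ) ≠ 0 := by
    have : (0 : ℝ) < (Fintype.card (G.Lab p N) : ℝ) := by exact_mod_cast Fintype.card_pos
    exact this.ne'
  unfold eE G.prior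
  rw [Fintype.sum_prod_type]
  simp only [Finset.sum_const, Finset.card_univ, nsmul_eq_mul]
  rw [Finset.mul_sum]
  refine Finset.sum_congr rfl fun s _ => ?_
  show (Fintype.card (G.Lab p N) : ℝ) * ((Fintype.card (SS p n A) : ℝ)⁻¹ *
    (Fintype.card (G.Lab p N) : ℝ)⁻¹ * f s) = (Fintype.card (SS p n A) : ℝ)⁻¹ * f s
  field_simp

/-- the coin part of the log-weight is bounded -/
theorem WW_bounds (hnb : p.nb = 0) (d : DD p N) (ω : G.Om (base p n A hA)) :
    0 ≤ G.WW (base p n A hA) d ω ∧ G.WW (base p n A hA) d ω ≤ p.nc * p.T * p.τ := by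
  haveI : IsEmpty (Fin p.nb) := by rw [hnb]; infer_instance
  have h1 : G.WW (base p n A hA) d ω = ∑ k, G.cfac (base p n A hA) (d k) k ω := by
    unfold G.WW
    simp
  have h2 : ∀ k, 0 ≤ G.cfac (base p n A hA) (d k) k ω ∧
      G.cfac (base p n A hA) (d k) k ω ≤ p.τ := by
    intro k
    unfold G.cfac
    cases d k with
    | none => exact ⟨le_rfl, p.hτ0.le⟩
    | some c =>
      simp only
      have h3 := G.cv_nonneg (base p n A hA) c ω
      have h4 := G.cv_le_one (base p n A hA) c ω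
      have h5 := p.hτ0
      split_ifs
      · constructor
        · positivity
        · nlinarith
      · simp [h5.le]
  rw [h1]
  constructor
  · exact Finset.sum_nonneg fun k _ => (h2 k).1
  · refine (Finset.sum_le_sum fun k _ => (h2 k).2).trans (le_of_eq ?_)
    rw [Finset.sum_const, nsmul_eq_mul, Finset.card_univ]
    simp [Stp]

/-- **Second moment of the fields under the tilted law**, for every Hamiltonian with
`|H| ≤ B N + T/8`. -/
theorem eE_Ts_le (hnb : p.nb = 0) (H : SS p n A → ℝ) {B : ℝ}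
    (hH : ∀ s, |H s| ≤ B + 1 / 8 * Ts s) (d : DD p N) :
    eE (G.PP (base p n A hA) H d) (fun ω => Ts ω.1) ≤
      16 * B + 8 * (p.nc * p.T * p.τ) + 32 * (N * p.nc) := by
  set Bs := base p n A hA with hBs
  have hP := G.prior_isProb Bs
  have hx := p.xs_expo
  have hF0 : (G.fil Bs).F 0 = ⊤ := SY.fil_zero hA
  set W0 : ℝ := p.nc * p.T * p.τ with hW0
  have hne : Nonempty (G.Om Bs) := inferInstance
  obtain ⟨ω⟩ := hne
  have h1 := ConcA.cE_tl_le_A_sub (𝓕 := G.fil Bs) hP hx.pos (G.UU Bs H d)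
    (fun ω => 1 / 8 * Ts ω.1) 0 ω
  rw [ObsConc.cE_top hF0 (tl_isProb hP hx.pos _), eE_smul] at h1
  -- upper bound of the numerator
  have h2 := A_le_log (𝓕 := G.fil Bs) hP hx (fun w => G.UU Bs H d w + 1 / 8 * Ts w.1) 0 ω
  rw [ObsConc.cE_top hF0 hP] at h2
  have h3 : eE (G.prior Bs) (fun w => Real.exp (G.UU Bs H d w + 1 / 8 * Ts w.1)) ≤
      Real.exp (B + W0) * (4 : ℝ) ^ (N * p.nc) := by
    have e : ∀ w : G.Om Bs, Real.exp (G.UU Bs H d w + 1 / 8 * Ts w.1) ≤
        Real.exp (B + W0) * Real.exp (1 / 4 * Ts w.1) := by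
      intro w
      rw [← Real.exp_add]
      apply Real.exp_le_exp.mpr
      unfold G.UU
      have h4 := (abs_le.mp (hH w.1)).2
      have h5 := (WW_bounds hA hnb d w).2
      linarith
    refine (eE_mono hP e).trans ?_
    rw [eE_smul, eE_prior_base hA (fun s => Real.exp (1 / 4 * Ts s))]
    exact mul_le_mul_of_nonneg_left (sum_SS_exp hA) (Real.exp_pos _).le
  have hpos : 0 < eE (G.prior Bs) (fun w => Real.exp (G.UU Bs H d w + 1 / 8 * Ts w.1)) :=
    Finset.sum_pos (fun w _ => mul_pos (hP.pos w) (Real.exp_pos _)) ⟨ω, Finset.mem_univ _⟩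
  have hlog4 : Real.log 4 ≤ 2 := by
    have : Real.log 4 = 2 * Real.log 2 := by
      rw [show (4 : ℝ) = 2 ^ 2 by norm_num, Real.log_pow]; norm_num
    rw [this]
    have := Real.log_two_lt_d9
    linarith
  have h4 : Real.log (eE (G.prior Bs) (fun w => Real.exp (G.UU Bs H d w + 1 / 8 * Ts w.1))) ≤
      B + W0 + 2 * (N * p.nc) := by
    refine (Real.log_le_log hpos h3).trans ?_
    rw [Real.log_mul (Real.exp_pos _).ne' (by positivity), Real.log_exp, Real.log_pow]
    push_cast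
    have : (0 : ℝ) ≤ N * p.nc := by positivity
    nlinarith
  -- lower bound of the denominator
  have h5 := cE_le_A (𝓕 := G.fil Bs) hP hx.pos (G.UU Bs H d) 0 ω
  rw [ObsConc.cE_top hF0 hP] at h5
  have h6 : -(B + 1 / 8 * eE (G.prior Bs) (fun w => Ts w.1)) ≤ eE (G.prior Bs) (G.UU Bs H d) := by
    have e : ∀ w : G.Om Bs, -(B + 1 / 8 * Ts w.1) ≤ G.UU Bs H d w := by
      intro w
      unfold G.UU
      have h7 := (abs_le.mp (hH w.1)).1
      have h8 := (WW_bounds hA hnb d w).1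
      linarith
    have := eE_mono hP e
    refine le_trans (le_of_eq ?_) this
    have e2 : (fun w : G.Om Bs => -(B + 1 / 8 * Ts w.1)) =
        fun w => (-B) + (-(1 / 8)) * Ts w.1 := by funext w; ring
    rw [e2, eE_add, eE_smul, eE_const hP]; ring
  have h7 : 1 / 4 * eE (G.prior Bs) (fun w => Ts w.1) ≤ 2 * (N * p.nc) := by
    have hJ : Real.exp (1 / 4 * eE (G.prior Bs) (fun w => Ts w.1)) ≤ (4 : ℝ) ^ (N * p.nc) := by
      have h8 := exp_cE_le hP (⊤ : Setoid (G.Om Bs)) (fun w => 1 / 4 * Ts w.1) ω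
      rw [eE_top hP, eE_top hP, eE_smul] at h8
      refine h8.trans ?_
      rw [eE_prior_base hA (fun s => Real.exp (1 / 4 * Ts s))]
      exact sum_SS_exp hA
    have h9 := Real.log_le_log (Real.exp_pos _) hJ
    rw [Real.log_exp, Real.log_pow] at h9
    push_cast at h9
    have : (0 : ℝ) ≤ N * p.nc := by positivity
    nlinarith
  have hPP : G.PP Bs H d = tl (G.prior Bs) (G.fil Bs) p.xs (G.UU Bs H d) := rfl
  rw [hPP]
  have hNn : (0 : ℝ) ≤ N * p.nc := by positivity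
  linarith

/-- bound of the small-field sum: `|∑ lam ζ x| ≤ T/8 + 2 Λ² nc ∑ x²` -/
theorem abs_small_le (c : FC p N n) (lam : Fin N → Fin p.nc → ℝ) {Λ : ℝ}
    (hΛ : ∀ i g, |lam i g| ≤ Λ) (y : Fin N → ℝ) :
    |∑ g, ∑ i, lam i g * (zf c g i * y i)| ≤ 1 / 8 * Tc c + 2 * Λ ^ 2 * p.nc * ∑ i, (y i) ^ 2 := by
  have h1 : ∀ g i, |lam i g * (zf c g i * y i)| ≤ 1 / 8 * (zf c g i) ^ 2 + 2 * Λ ^ 2 * (y i) ^ 2 := by
    intro g i
    have h2 : (lam i g) ^ 2 ≤ Λ ^ 2 := by
      rw [← sq_abs]; exact pow_le_pow_left₀ (abs_nonneg _) (hΛ i g) 2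
    have h3 : 2 * (lam i g) ^ 2 * (y i) ^ 2 ≤ 2 * Λ ^ 2 * (y i) ^ 2 := by
      have := mul_le_mul_of_nonneg_right h2 (sq_nonneg (y i))
      nlinarith
    refine le_trans ?_ (add_le_add_right h3 _)
    rw [abs_le]
    constructor
    · nlinarith [sq_nonneg (zf c g i + 4 * (lam i g * y i))]
    · nlinarith [sq_nonneg (zf c g i - 4 * (lam i g * y i))]
  calc |∑ g, ∑ i, lam i g * (zf c g i * y i)| ≤ ∑ g, ∑ i, |lam i g * (zf c g i * y i)| :=
        (Finset.abs_sum_le_sum_abs _ _).trans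
          (Finset.sum_le_sum fun g _ => Finset.abs_sum_le_sum_abs _ _)
    _ ≤ ∑ g : Fin p.nc, ∑ i, (1 / 8 * (zf c g i) ^ 2 + 2 * Λ ^ 2 * (y i) ^ 2) :=
        Finset.sum_le_sum fun g _ => Finset.sum_le_sum fun i _ => h1 g i
    _ = _ := by
        simp only [Finset.sum_add_distrib, ← Finset.mul_sum]
        rw [Finset.sum_const, Finset.card_univ, Fintype.card_fin, nsmul_eq_mul]
        unfold Tc
        ring

end

end Crest.Agent.R164.CSys
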