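import Crest.Agent.R141.PurB
import Crest.Agent.R164.GCoin
import Crest.Agent.R141.PurD
import Crest.Agent.R141.OuterSys2

-- ▼ part R164/GPurB
section

/-!
Row 164: purity of coordinates, averaged over the outer randomness (port of `R141/PurB.lean`).
-/

set_option autoImplicit false

namespace Crest.Agent.R164.G

open Finset Crest.Agent.R141 Crest.Agent.R141.Pur

noncomputable section

variable {p : Par} {N : ℕ} (B : Base p N)

/-- the variance of the coordinate `(i,o)` at the coin step `k`. -/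
def Wv (H : B.S → ℝ) (k : Stp p) (o : Option (Fin p.nb))
    (d : DD p N) (i : Fin N) : ℝ :=
  eE (PP B H d) (fun ω => (cE (PP B H d) ((fil B).F (p.ct k.1 k.2)) (cv B (i, o)) ω -
    cE (PP B H d) ((fil B).F (p.ct k.1 k.2 - 1)) (cv B (i, o)) ω) ^ 2)

/-- the impurity of the types `o, o'` at the coin step `k`. -/
def bad (H : B.S → ℝ) (k : Stp p) (o o' : Option (Fin p.nb))
    (d : DD p N) : ℝ :=
  ((N : ℝ) ^ 2)⁻¹ * ∑ i ∈ Un p N d, ∑ j ∈ (Un p N d).erase i, eE (PP B H d) (fun ω =>
    (Yf (PP B H d) (fil B).F p.xs p.L (p.ct k.1 k.2) (cv B (i, o)) (cv B (j, o')) ω) ^ 2)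

theorem Wv_nonneg (H : B.S → ℝ) (k : Stp p) (o : Option (Fin p.nb))
    (d : DD p N) (i : Fin N) : 0 ≤ Wv B H k o d i :=
  eE_nonneg (PP_isProb B H d) (fun _ => sq_nonneg _)

theorem bad_nonneg (H : B.S → ℝ) (k : Stp p)
    (o o' : Option (Fin p.nb)) (d : DD p N) : 0 ≤ bad B H k o o' d := by
  apply mul_nonneg (by positivity)
  apply Finset.sum_nonneg; intro i _
  apply Finset.sum_nonneg; intro j _
  exact eE_nonneg (PP_isProb B H d) (fun _ => sq_nonneg _)

theorem bad_le_one (hN : 0 < N) (H : B.S → ℝ) (k : Stp p)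
    (o o' : Option (Fin p.nb)) (d : DD p N) : bad B H k o o' d ≤ 1 := by
  have h1 : ∀ i j : Fin N, eE (PP B H d) (fun ω =>
      (Yf (PP B H d) (fil B).F p.xs p.L (p.ct k.1 k.2) (cv B (i, o)) (cv B (j, o')) ω) ^ 2)
      ≤ 1 := by
    intro i j
    rw [← eE_const (PP_isProb B H d) 1]
    apply eE_mono (PP_isProb B H d)
    intro ω
    have hsq : ∀ c : Crd p N, cE (PP B H d) ((fil B).F (p.ct k.1 k.2))
        (fun a => cv B c a ^ 2) ω ≤ 1 := by
      intro c
      apply cE_le_of_le (PP_isProb B H d)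
      intro a
      have h0 := cv_nonneg B c a
      have h1 := cv_le_one B c a
      nlinarith
    have hY := Yf_abs_le (x := p.xs) (L := p.L) (PP_isProb B H d) (fil B).antitone
      (fun l _ => (p.xs_expo.pos l).le) (fun l _ => p.xs_expo.le_one l) (hsq (i, o)) (hsq (j, o'))
    rw [← sq_abs]
    calc _ ≤ (1:ℝ) ^ 2 := pow_le_pow_left₀ (abs_nonneg _) hY 2
      _ = 1 := one_pow 2
  have hN' : (0 : ℝ) < N := by exact_mod_cast hN
  have h2 : ∑ i ∈ Un p N d, ∑ j ∈ (Un p N d).erase i, eE (PP B H d) (fun ω =>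
      (Yf (PP B H d) (fil B).F p.xs p.L (p.ct k.1 k.2) (cv B (i, o)) (cv B (j, o')) ω) ^ 2)
      ≤ (N : ℝ) ^ 2 := by
    calc _ ≤ ∑ i ∈ Un p N d, ∑ j ∈ (Un p N d).erase i, (1 : ℝ) :=
          Finset.sum_le_sum fun i _ => Finset.sum_le_sum fun j _ => h1 i j
      _ ≤ ∑ i ∈ Un p N d, (N : ℝ) := by
          apply Finset.sum_le_sum; intro i _
          rw [Finset.sum_const, nsmul_eq_mul, mul_one]
          calc (((Un p N d).erase i).card : ℝ) ≤ ((Un p N d).card : ℝ) := by
                exact_mod_cast Finset.card_le_card (Finset.erase_subset _ _)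
            _ ≤ N := Un_card_le p N d
      _ = (Un p N d).card * (N : ℝ) := by rw [Finset.sum_const, nsmul_eq_mul]
      _ ≤ N * N := mul_le_mul_of_nonneg_right (Un_card_le p N d) hN'.le
      _ = (N : ℝ) ^ 2 := by ring
  unfold bad
  rw [inv_mul_eq_div, div_le_one (by positivity)]
  exact h2

/-- sum over the coin steps of a cell of the variances. -/
theorem Wv_sum (H : B.S → ℝ) (g : Fin p.nc) (o : Option (Fin p.nb))
    (d : DD p N) (i : Fin N) {κ : ℝ}
    (hκ : ∀ ω, |cE (PP B H d) ((fil B).F (p.mt g - 1)) (cv B (i, o)) ω| ≤ κ) :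
    ∑ t : Fin p.T, Wv B H (g, t) o d i ≤ κ ^ 2 := by
  have hab : (g : ℕ) * (p.T + 1) ≤ p.mt g - 1 := by
    unfold Par.mt
    have : ((g : ℕ) + 1) * (p.T + 1) = (g : ℕ) * (p.T + 1) + (p.T + 1) := by ring
    omega
  have h := var_sum_le (PP_isProb B H d) (fil B).antitone (cv B (i, o)) hab hκ
  refine le_trans ?_ h
  have hinj : Function.Injective (fun t : Fin p.T => p.ct g t) := by
    intro a b hab
    simp only [Par.ct] at hab
    exact Fin.ext (by omega)
  have himg := Finset.sum_image (s := (univ : Finset (Fin p.T))) (g := fun t : Fin p.T => p.ct g t)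
    (f := fun k => eE (PP B H d) (fun ω =>
      (cE (PP B H d) ((fil B).F k) (cv B (i, o)) ω -
        cE (PP B H d) ((fil B).F (k - 1)) (cv B (i, o)) ω) ^ 2))
    (fun a _ b _ hab => hinj hab)
  refine le_trans (le_of_eq himg.symm) ?_
  apply Finset.sum_le_sum_of_subset_of_nonneg
  · intro k hk
    rw [Finset.mem_image] at hk
    obtain ⟨t, _, rfl⟩ := hk
    rw [Finset.mem_Ioc]
    have ht := t.2
    have : ((g : ℕ) + 1) * (p.T + 1) = (g : ℕ) * (p.T + 1) + (p.T + 1) := by ring
    unfold Par.ct Par.mt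
    constructor <;> omega
  · intro k _ _
    exact eE_nonneg (PP_isProb B H d) (fun _ => sq_nonneg _)

/-- (2.3): the impurities of a cell are small on average. -/
theorem badSum (hN : 0 < N) (H : B.S → ℝ) (g : Fin p.nc)
    (o o' : Option (Fin p.nb)) {κ : ℝ}
    (hnoise : ∀ (d : DD p N) (t : Fin p.T) (i j : Fin N), d (g, t) = none → i ≠ j →
      i ∈ Un p N d → j ∈ Un p N d →
      eE (PP B H d) (fun ω => (Yf (PP B H d) (fil B).F p.xs p.L (p.ct g t)
        (cv B (i, o)) (cv B (j, o')) ω) ^ 2) ≤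
      16 / p.τ ^ 2 * Wv B H (g, t) o (Function.update d (g, t) (some (j, o'))) i +
        242 * p.τ ^ 2 * κ ^ 4)
    (hdens : ∀ (d : DD p N) (i : Fin N), i ∈ Un p N d →
      ∀ ω, |cE (PP B H d) ((fil B).F (p.mt g - 1)) (cv B (i, o)) ω| ≤ κ) :
    ∑ t : Fin p.T, Ed p N (fun d => if d (g, t) = none then bad B H (g, t) o o' d else 0) ≤
      16 / p.τ ^ 2 * (((p.nb : ℝ) + 1) * κ ^ 2) + p.T * (242 * p.τ ^ 2 * κ ^ 4) := by
  classical
  have hN' : (0 : ℝ) < N := by exact_mod_cast hN
  have hτ0 := p.hτ0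
  -- the averaged variance
  set G : Fin p.T → DD p N → ℝ := fun t d => (N : ℝ)⁻¹ * ∑ i ∈ Un p N d, Wv B H (g, t) o d i with hG
  have hG0 : ∀ t d, 0 ≤ G t d := fun t d => mul_nonneg (by positivity)
    (Finset.sum_nonneg fun i _ => Wv_nonneg B H (g, t) o d i)
  have hpt : ∀ t (d : DD p N), (if d (g, t) = none then bad B H (g, t) o o' d else 0) ≤
      16 / p.τ ^ 2 * (if d (g, t) = none then (N : ℝ)⁻¹ *
        ∑ j : Fin N, G t (Function.update d (g, t) (some (j, o'))) else 0) +
      242 * p.τ ^ 2 * κ ^ 4 := by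
    intro t d
    by_cases hd : d (g, t) = none
    · rw [if_pos hd, if_pos hd]
      have h1 : bad B H (g, t) o o' d ≤ ((N : ℝ) ^ 2)⁻¹ * ∑ i ∈ Un p N d, ∑ j ∈ (Un p N d).erase i,
          (16 / p.τ ^ 2 * Wv B H (g, t) o (Function.update d (g, t) (some (j, o'))) i +
            242 * p.τ ^ 2 * κ ^ 4) := by
        apply mul_le_mul_of_nonneg_left _ (by positivity)
        apply Finset.sum_le_sum; intro i hi
        apply Finset.sum_le_sum; intro j hj
        rw [Finset.mem_erase] at hj
        exact hnoise d t i j hd (Ne.symm hj.1) hi hj.2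
      have h2 : ∑ i ∈ Un p N d, ∑ j ∈ (Un p N d).erase i,
          (16 / p.τ ^ 2 * Wv B H (g, t) o (Function.update d (g, t) (some (j, o'))) i +
            242 * p.τ ^ 2 * κ ^ 4) ≤
          16 / p.τ ^ 2 * ∑ j : Fin N, ∑ i ∈ Un p N (Function.update d (g, t) (some (j, o'))),
            Wv B H (g, t) o (Function.update d (g, t) (some (j, o'))) i +
          (N : ℝ) ^ 2 * (242 * p.τ ^ 2 * κ ^ 4) := by
        simp only [Finset.sum_add_distrib]
        apply add_le_add
        · simp only [← Finset.mul_sum]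
          apply mul_le_mul_of_nonneg_left _ (by positivity)
          have e1 : ∑ i ∈ Un p N d, ∑ j ∈ (Un p N d).erase i,
              Wv B H (g, t) o (Function.update d (g, t) (some (j, o'))) i =
              ∑ i : Fin N, ∑ j : Fin N, if (i ∈ Un p N d ∧ j ∈ (Un p N d).erase i) then
                Wv B H (g, t) o (Function.update d (g, t) (some (j, o'))) i else 0 := by
            rw [← Finset.sum_subset (Finset.subset_univ (Un p N d))]
            · apply Finset.sum_congr rfl; intro i hi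
              rw [← Finset.sum_subset (Finset.subset_univ ((Un p N d).erase i))]
              · apply Finset.sum_congr rfl; intro j hj
                rw [if_pos ⟨hi, hj⟩]
              · intro j _ hj
                rw [if_neg (fun h => hj h.2)]
            · intro i _ hi
              apply Finset.sum_eq_zero; intro j _
              rw [if_neg (fun h => hi h.1)]
          rw [e1, Finset.sum_comm]
          apply Finset.sum_le_sum; intro j _
          rw [← Finset.sum_subset (Finset.subset_univ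
            (Un p N (Function.update d (g, t) (some (j, o')))))]
          · apply Finset.sum_le_sum; intro i _
            split_ifs
            · exact le_rfl
            · exact Wv_nonneg B H (g, t) o _ i
          · intro i _ hi
            rw [if_neg]
            rintro ⟨h3, h4⟩
            rw [Finset.mem_erase] at h4
            exact hi (Un_update hd h3 (Ne.symm h4.1))
        · have hc : 0 ≤ 242 * p.τ ^ 2 * κ ^ 4 := by positivity
          calc ∑ i ∈ Un p N d, ∑ j ∈ (Un p N d).erase i, 242 * p.τ ^ 2 * κ ^ 4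
              ≤ ∑ i ∈ Un p N d, (N : ℝ) * (242 * p.τ ^ 2 * κ ^ 4) := by
                apply Finset.sum_le_sum; intro i _
                rw [Finset.sum_const, nsmul_eq_mul]
                apply mul_le_mul_of_nonneg_right _ hc
                calc (((Un p N d).erase i).card : ℝ) ≤ ((Un p N d).card : ℝ) := by
                      exact_mod_cast Finset.card_le_card (Finset.erase_subset _ _)
                  _ ≤ N := Un_card_le p N d
            _ = (Un p N d).card * ((N : ℝ) * (242 * p.τ ^ 2 * κ ^ 4)) := by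
                rw [Finset.sum_const, nsmul_eq_mul]
            _ ≤ N * ((N : ℝ) * (242 * p.τ ^ 2 * κ ^ 4)) :=
                mul_le_mul_of_nonneg_right (Un_card_le p N d) (by positivity)
            _ = (N : ℝ) ^ 2 * (242 * p.τ ^ 2 * κ ^ 4) := by ring
      refine h1.trans ((mul_le_mul_of_nonneg_left h2 (by positivity)).trans (le_of_eq ?_))
      simp only [hG, ← Finset.mul_sum]
      field_simp
    · rw [if_neg hd, if_neg hd]
      positivity
  have hEd : ∀ t, Ed p N (fun d => if d (g, t) = none then bad B H (g, t) o o' d else 0) ≤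
      16 / p.τ ^ 2 * (((p.nb : ℝ) + 1) * Ed p N (G t)) + 242 * p.τ ^ 2 * κ ^ 4 := by
    intro t
    refine (Ed_mono p N (hpt t)).trans ?_
    rw [Ed_add, Ed_smul, exch p hN (g, t) o' (G t), Ed_const p hN]
    gcongr
    apply Ed_mono
    intro d
    split_ifs
    · exact le_rfl
    · exact hG0 t d
  have hsumG : ∑ t, Ed p N (G t) ≤ κ ^ 2 := by
    rw [← Ed_sum]
    rw [← Ed_const p hN (κ ^ 2)]
    apply Ed_mono
    intro d
    simp only [hG]
    rw [← Finset.mul_sum, Finset.sum_comm]
    calc (N : ℝ)⁻¹ * ∑ i ∈ Un p N d, ∑ t, Wv B H (g, t) o d i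
        ≤ (N : ℝ)⁻¹ * ∑ i ∈ Un p N d, κ ^ 2 := by
          apply mul_le_mul_of_nonneg_left _ (by positivity)
          apply Finset.sum_le_sum; intro i hi
          exact Wv_sum B H g o d i (hdens d i hi)
      _ = (N : ℝ)⁻¹ * ((Un p N d).card * κ ^ 2) := by rw [Finset.sum_const, nsmul_eq_mul]
      _ ≤ (N : ℝ)⁻¹ * (N * κ ^ 2) := by
          apply mul_le_mul_of_nonneg_left _ (by positivity)
          exact mul_le_mul_of_nonneg_right (Un_card_le p N d) (sq_nonneg _)
      _ = κ ^ 2 := by field_simp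
  calc ∑ t : Fin p.T, Ed p N (fun d => if d (g, t) = none then bad B H (g, t) o o' d else 0)
      ≤ ∑ t : Fin p.T, (16 / p.τ ^ 2 * (((p.nb : ℝ) + 1) * Ed p N (G t)) +
        242 * p.τ ^ 2 * κ ^ 4) := Finset.sum_le_sum fun t _ => hEd t
    _ = 16 / p.τ ^ 2 * (((p.nb : ℝ) + 1) * ∑ t, Ed p N (G t)) +
        p.T * (242 * p.τ ^ 2 * κ ^ 4) := by
      rw [Finset.sum_add_distrib, ← Finset.mul_sum, ← Finset.mul_sum, Finset.sum_const,
        Finset.card_univ, Fintype.card_fin, nsmul_eq_mul]
    _ ≤ _ := by gcongr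

end

end Crest.Agent.R164.G
end

-- ▼ part R164/GSpin

/-!
Row 164: linear purity (spin coordinates only, no gadgets) of the general enriched system, in squared
form, with observation steps that do not depend on the disorder `θ`.
-/

set_option autoImplicit false

namespace Crest.Agent.R164.G

open Finset Crest.Agent.R141 Crest.Agent.R141.Pur MeasureTheory

noncomputable section

/-! ### Measurability in a parameter -/

section meas

variable {Θ : Type*} [MeasurableSpace Θ] {Ω : Type*} [Fintype Ω]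

theorem meas_eE {P f : Θ → Ω → ℝ} (hP : ∀ ω, Measurable fun θ => P θ ω)
    (hf : ∀ ω, Measurable fun θ => f θ ω) : Measurable fun θ => eE (P θ) (f θ) := by
  unfold eE
  exact Finset.measurable_sum _ fun ω _ => (hP ω).mul (hf ω)

theorem meas_cE {P f : Θ → Ω → ℝ} (hP : ∀ ω, Measurable fun θ => P θ ω)
    (hf : ∀ ω, Measurable fun θ => f θ ω) (r : Setoid Ω) (ω : Ω) :
    Measurable fun θ => cE (P θ) r (f θ) ω := by
  unfold cE
  exact (Finset.measurable_sum _ fun a _ => (hP a).mul (hf a)).div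
    (Finset.measurable_sum _ fun a _ => hP a)

theorem meas_A {P : Ω → ℝ} (hP : IsProb P) {𝓕 : Filt Ω} {x : ℕ → ℝ} (hx : ∀ k, 0 < x k)
    {U : Θ → Ω → ℝ} (hU : ∀ ω, Measurable fun θ => U θ ω) (k : ℕ) :
    ∀ ω, Measurable fun θ => A P 𝓕 x (U θ) k ω := by
  induction k using back_induction 𝓕 with
  | h0 k hk =>
    intro ω
    simp only [A_of_ge _ hk]
    exact hU ω
  | h1 k ih =>
    intro ω
    have h : (fun θ => A P 𝓕 x (U θ) k ω) =
        fun θ => pm P (𝓕.F k) (x (k + 1)) (A P 𝓕 x (U θ) (k + 1)) ω := by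
      funext θ
      rw [A_step hP hx (U θ) k]
    rw [h]
    unfold pm
    have h2 : Measurable fun θ => cE P (𝓕.F k)
        (fun w => Real.exp (x (k + 1) * A P 𝓕 x (U θ) (k + 1) w)) ω :=
      meas_cE (P := fun _ => P) (fun _ => measurable_const)
        (fun w => (Real.measurable_exp.comp ((ih w).const_mul _))) (𝓕.F k) ω
    exact (Real.measurable_log.comp h2).const_mul _

theorem meas_S {P : Ω → ℝ} (hP : IsProb P) {𝓕 : Filt Ω} {x : ℕ → ℝ} (hx : ∀ k, 0 < x k)
    {U : Θ → Ω → ℝ} (hU : ∀ ω, Measurable fun θ => U θ ω) (k m : ℕ) (ω : Ω) :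
    Measurable fun θ => S P 𝓕 x (U θ) k m ω := by
  unfold S
  exact Finset.measurable_sum _ fun l _ =>
    ((meas_A hP hx hU _ ω).sub (meas_A hP hx hU _ ω)).const_mul _

theorem meas_tl {P : Ω → ℝ} (hP : IsProb P) {𝓕 : Filt Ω} {x : ℕ → ℝ} (hx : ∀ k, 0 < x k)
    {U : Θ → Ω → ℝ} (hU : ∀ ω, Measurable fun θ => U θ ω) (ω : Ω) :
    Measurable fun θ => tl P 𝓕 x (U θ) ω := by
  unfold tl
  exact (Real.measurable_exp.comp (meas_S hP hx hU _ _ ω)).const_mul _

theorem meas_Dl {P f : Θ → Ω → ℝ} (hP : ∀ ω, Measurable fun θ => P θ ω)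
    (hf : ∀ ω, Measurable fun θ => f θ ω) (F : ℕ → Setoid Ω) (l : ℕ) (ω : Ω) :
    Measurable fun θ => Dl (P θ) F l (f θ) ω := by
  unfold Dl
  exact (meas_cE hP hf _ ω).sub (meas_cE hP hf _ ω)

theorem meas_Yf {P f g : Θ → Ω → ℝ} (hP : ∀ ω, Measurable fun θ => P θ ω)
    (hf : ∀ ω, Measurable fun θ => f θ ω) (hg : ∀ ω, Measurable fun θ => g θ ω)
    (F : ℕ → Setoid Ω) (x : ℕ → ℝ) (L k : ℕ) (ω : Ω) :
    Measurable fun θ => Yf (P θ) F x L k (f θ) (g θ) ω := by
  unfold Yf
  exact Finset.measurable_sum _ fun l _ => (meas_cE hP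
    (fun a => (meas_Dl hP hf F l a).mul (meas_Dl hP hg F l a)) _ ω).const_mul _


end meas

/-! ### Linear purity -/

variable {p : Par} {N : ℕ} (B : Base p N)

theorem RMeas_L (f : Om B → ℝ) : RMeas ((fil B).F p.L) f := by
  intro a b h
  rw [(fil B).bot p.L le_rfl] at h
  have h : a = b := h
  rw [h]

/-- the spin coordinates. -/
theorem badSum_none (hτ : p.τ ≤ 1 / 3) (hN : 0 < N) (H : B.S → ℝ)
    (g : Fin p.nc) :
    ∑ t : Fin p.T, Ed p N (fun d => if d (g, t) = none then bad B H (g, t) none none d else 0) ≤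
      16 / p.τ ^ 2 * (((p.nb : ℝ) + 1) * 1 ^ 2) + p.T * (242 * p.τ ^ 2 * 1 ^ 4) := by
  refine badSum B hN H g none none ?_ ?_
  · intro d t i j hd hij hi hj
    have h := noise_sys B hτ H d (g, t) hd (i, none) (j, none) (m := p.L) (RMeas_L B _)
      (κc := 1) (κd := 1) zero_le_one zero_le_one le_rfl
      (fun l _ _ ω => cE_le_of_le (PP_isProb B H d) (cv_le_one B _) ω)
      (fun ω => cE_le_of_le (PP_isProb B H d) (fun a =>
        mul_le_mul (cv_le_one B _ a) (cv_le_one B _ a) (cv_nonneg B _ a) zero_le_one) ω)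
      (fun ω => cE_le_of_le (PP_isProb B H d) (cv_le_one B _) ω)
    unfold eE Wv
    refine h.trans (le_of_eq ?_)
    unfold eE
    norm_num
  · intro d i _ ω
    refine abs_cE_le_of_le (PP_isProb B H d) (fun a => ?_) ω
    rw [abs_of_nonneg (cv_nonneg B _ a)]
    exact cv_le_one B _ a

/-- average over the pairs of sites of the squared conditional covariance of the `F m`-martingale
values of the site functions. -/
def avc2 (P : Om B → ℝ) (k m : ℕ) : ℝ :=
  ((N : ℝ) ^ 2)⁻¹ * ∑ i, ∑ j, eE P (fun ω => (covR P ((fil B).F k)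
    (cE P ((fil B).F m) (fun ω => B.f i ω.1)) (cE P ((fil B).F m) (fun ω => B.f j ω.1)) ω) ^ 2)


/-- deterministic bound. -/
theorem avc2_le (hN : 0 < N) (H : B.S → ℝ) (d : DD p N) (k : Stp p) {m : ℕ}
    (hkm : p.ct k.1 k.2 ≤ m) (hmL : m ≤ p.L) :
    avc2 B (PP B H d) (p.ct k.1 k.2) m ≤
      16 * ((p.nc : ℝ) + 1) ^ 2 * (bad B H k none none d + 1 / N) + 8 * (p.nc * p.T) / N := by
  classical
  have hN' : (0 : ℝ) < N := by exact_mod_cast hN
  have hP := PP_isProb B H d
  set P := PP B H d with hPdef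
  set F := (fil B).F with hF
  set k0 := p.ct k.1 k.2 with hk0
  set g : Fin N → Fin N → ℝ := fun i j => eE P (fun ω => (covR P (F k0)
    (cE P (F m) (fun ω => B.f i ω.1)) (cE P (F m) (fun ω => B.f j ω.1)) ω) ^ 2) with hg
  have hfabs : ∀ i ω, |cE P (F m) (fun ω => B.f i ω.1) ω| ≤ 1 := fun i ω =>
    abs_cE_le_of_le hP (fun a => B.hf i a.1) ω
  have hg0 : ∀ i j, 0 ≤ g i j := fun i j => eE_nonneg hP (fun _ => sq_nonneg _)
  have hg4 : ∀ i j, g i j ≤ 4 := fun i j => by
    apply eE_le_of_le hP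
    intro ω
    have h := covR_abs_le hP (F k0) (hfabs i) (hfabs j) ω
    rw [← sq_abs]
    nlinarith [abs_nonneg (covR P (F k0) (cE P (F m) (fun ω => B.f i ω.1))
      (cE P (F m) (fun ω => B.f j ω.1)) ω)]
  -- untouched pairs
  have hβ : ∀ b b' : Unit, ∑ i ∈ Un p N d, ∑ j ∈ (Un p N d).erase i,
      eE P (fun ω => (Yf P F p.xs p.L k0 (cv B (i, none)) (cv B (j, none)) ω) ^ 2) ≤
        (N : ℝ) ^ 2 * bad B H k none none d := by
    intro _ _
    unfold bad
    rw [← mul_assoc, mul_inv_cancel₀ (by positivity), one_mul]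
  have hcombo := combo (P := P) hP (fil B).antitone (x := p.xs) (L := p.L) hkm hmL
    (y0 := ((p.nc : ℝ) + 1)⁻¹) (by positivity) (fun l _ => xs_ge p l)
    (fun l _ => p.xs_expo.le_one l) (Un p N d) (fun i (_ : Unit) => cv B (i, none))
    (fun i _ ω => cv_abs B _ ω) (fun _ => 1) (Q := 1) zero_le_one (Un_card_le p N d) hβ
  have hid : ∀ i : Fin N, (fun ω : Om B => B.f i ω.1) =
      fun ω => 2 * cv B (i, none) ω + (-1) := by
    intro i; funext ω; rw [cv_none]; ring
  have hcE : ∀ i : Fin N, cE P (F m) (fun ω => B.f i ω.1) =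
      fun ω => 2 * cE P (F m) (cv B (i, none)) ω + (-1) := by
    intro i
    funext ω
    rw [hid i, cE_add P (F m) (fun ω => 2 * cv B (i, none) ω) (fun _ => (-1 : ℝ)),
      cE_const hP, cE_smul]
  have hcov : ∀ (i j : Fin N) (ω : Om B), covR P (F k0)
      (cE P (F m) (fun ω => B.f i ω.1)) (cE P (F m) (fun ω => B.f j ω.1)) ω =
      2 ^ 2 * covR P (F k0) (cE P (F m) (cv B (i, none))) (cE P (F m) (cv B (j, none))) ω := by
    intro i j ω
    rw [hcE i, hcE j]
    exact (covR_affine hP (F k0) 2 (-1) (cE P (F m) (cv B (i, none)))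
      (cE P (F m) (cv B (j, none))) ω).trans (covR_scale (F k0) 2 _ _ ω)
  have e : ∀ i : Fin N, (fun a => ∑ _b : Unit, ((1 : ℝ) * 1) * cv B (i, none) a) =
      cv B (i, none) := by
    intro i; funext a; simp
  simp only [e] at hcombo
  have hgc : ∀ i j, g i j = 16 * eE P (fun ω => (covR P (F k0)
      (cE P (F m) (cv B (i, none))) (cE P (F m) (cv B (j, none))) ω) ^ 2) := by
    intro i j
    simp only [hg]
    rw [← eE_smul]
    congr 1
    funext ω
    rw [hcov i j ω]
    ring
  have hUn : ∑ i ∈ Un p N d, ∑ j ∈ Un p N d, g i j ≤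
      16 * ((((p.nc : ℝ) + 1) ^ 2) * ((N : ℝ) ^ 2 * bad B H k none none d + N)) := by
    simp only [hgc, ← Finset.mul_sum]
    apply mul_le_mul_of_nonneg_left _ (by norm_num)
    refine hcombo.trans (le_of_eq ?_)
    rw [inv_pow, inv_inv]
    simp
  -- all pairs
  have h1 : ∀ i j, g i j ≤ (if i ∈ Un p N d then (if j ∈ Un p N d then g i j else 0) else 0) +
      ((if i ∈ (Un p N d)ᶜ then (4:ℝ) else 0) + (if j ∈ (Un p N d)ᶜ then (4:ℝ) else 0)) := by
    intro i j
    have := hg0 i j
    have := hg4 i j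
    by_cases hi : i ∈ Un p N d <;> by_cases hj : j ∈ Un p N d <;> simp [hi, hj] <;> linarith
  have h2 : ∑ i, ∑ j, g i j ≤ (∑ i ∈ Un p N d, ∑ j ∈ Un p N d, g i j) +
      8 * (N * (p.nc * p.T)) := by
    calc ∑ i, ∑ j, g i j ≤ ∑ i, ∑ j, ((if i ∈ Un p N d then
          (if j ∈ Un p N d then g i j else 0) else 0) +
          ((if i ∈ (Un p N d)ᶜ then (4:ℝ) else 0) + (if j ∈ (Un p N d)ᶜ then (4:ℝ) else 0))) :=
          Finset.sum_le_sum fun i _ => Finset.sum_le_sum fun j _ => h1 i j
      _ = (∑ i ∈ Un p N d, ∑ j ∈ Un p N d, g i j) + 8 * (N * ((Un p N d)ᶜ).card) := by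
          simp only [Finset.sum_add_distrib]
          congr 1
          · rw [← Finset.sum_subset (Finset.subset_univ (Un p N d))]
            · apply Finset.sum_congr rfl; intro i hi
              rw [← Finset.sum_subset (Finset.subset_univ (Un p N d))]
              · apply Finset.sum_congr rfl; intro j hj
                rw [if_pos hi, if_pos hj]
              · intro j _ hj
                rw [if_pos hi, if_neg hj]
            · intro i _ hi
              apply Finset.sum_eq_zero; intro j _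
              rw [if_neg hi]
          · have e1 : ∑ i : Fin N, ∑ j : Fin N, (if i ∈ (Un p N d)ᶜ then (4:ℝ) else 0) =
                N * (4 * ((Un p N d)ᶜ).card) := by
              simp only [Finset.sum_const, Finset.card_univ, Fintype.card_fin, nsmul_eq_mul]
              rw [← Finset.mul_sum, Finset.sum_ite_mem, Finset.univ_inter, Finset.sum_const,
                nsmul_eq_mul]
              ring
            have e2 : ∑ i : Fin N, ∑ j : Fin N, (if j ∈ (Un p N d)ᶜ then (4:ℝ) else 0) =
                N * (4 * ((Un p N d)ᶜ).card) := by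
              rw [Finset.sum_const, Finset.card_univ, Fintype.card_fin, nsmul_eq_mul,
                Finset.sum_ite_mem, Finset.univ_inter, Finset.sum_const, nsmul_eq_mul]
              ring
            rw [e1, e2]; ring
      _ ≤ _ := by
          have := card_touched p N d
          gcongr
  unfold avc2
  calc ((N : ℝ) ^ 2)⁻¹ * ∑ i, ∑ j, g i j ≤ ((N : ℝ) ^ 2)⁻¹ *
        (16 * ((((p.nc : ℝ) + 1) ^ 2) * ((N : ℝ) ^ 2 * bad B H k none none d + N)) +
          8 * (N * (p.nc * p.T))) :=
        mul_le_mul_of_nonneg_left (h2.trans (add_le_add_left hUn _)) (by positivity)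
    _ = _ := by field_simp

/-! ### Selection of the observation steps, uniformly in the disorder -/

section select

variable {Θ : Type*} [MeasurableSpace Θ] (ν : Measure Θ) [IsProbabilityMeasure ν]
  {H : Θ → B.S → ℝ}

theorem meas_UU (hH : ∀ s, Measurable fun θ => H θ s) (d : DD p N) (ω : Om B) :
    Measurable fun θ => UU B (H θ) d ω := by
  unfold UU
  exact (hH ω.1).add_const _

theorem meas_PP (hH : ∀ s, Measurable fun θ => H θ s) (d : DD p N) (ω : Om B) :
    Measurable fun θ => PP B (H θ) d ω := by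
  unfold PP
  exact meas_tl (prior_isProb B) p.xs_expo.pos (fun ω => meas_UU B hH d ω) ω

theorem meas_bad (hH : ∀ s, Measurable fun θ => H θ s) (k : Stp p) (o o' : Option (Fin p.nb))
    (d : DD p N) : Measurable fun θ => bad B (H θ) k o o' d := by
  unfold bad
  refine Measurable.const_mul (Finset.measurable_sum _ fun i _ =>
    Finset.measurable_sum _ fun j _ => ?_) _
  exact meas_eE (fun ω => meas_PP B hH d ω) (fun ω => (meas_Yf (fun ω => meas_PP B hH d ω)
    (f := fun _ => cv B (i, o)) (g := fun _ => cv B (j, o')) (fun _ => measurable_const)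
    (fun _ => measurable_const) _ _ _ _ ω).pow_const 2)

theorem integrable_bad (hN : 0 < N) (hH : ∀ s, Measurable fun θ => H θ s) (k : Stp p)
    (o o' : Option (Fin p.nb)) (d : DD p N) : Integrable (fun θ => bad B (H θ) k o o' d) ν := by
  refine Integrable.of_bound (meas_bad B hH k o o' d).aestronglyMeasurable 1 ?_
  filter_upwards with θ
  rw [Real.norm_eq_abs, abs_of_nonneg (bad_nonneg B _ _ _ _ _)]
  exact bad_le_one B hN _ _ _ _ _



theorem selSpin (hτ : p.τ ≤ 1 / 3) (hN : 0 < N) (hT : 0 < p.T)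
    (hH : ∀ s, Measurable fun θ => H θ s) :
    ∃ sel : Fin p.nc → DD p N → Fin p.T, ∀ g,
      Ed p N (fun d => ∫ θ, bad B (H θ) (g, sel g d) none none d ∂ν) ≤
        4 / p.T * (16 / p.τ ^ 2 * ((p.nb : ℝ) + 1) + 1) + 4 * (242 * p.τ ^ 2) := by
  classical
  have hT0 : (0 : ℝ) < p.T := by exact_mod_cast hT
  have hτ0 := p.hτ0
  set S : ℝ := 16 / p.τ ^ 2 * (((p.nb : ℝ) + 1) * 1 ^ 2) + p.T * (242 * p.τ ^ 2 * 1 ^ 4) with hS
  have hsum : ∀ g : Fin p.nc, ∑ t : Fin p.T, Ed p N (fun d => if d (g, t) = none then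
      ∫ θ, bad B (H θ) (g, t) none none d ∂ν else 0) ≤ S := by
    intro g
    have e1 : ∀ (t : Fin p.T), Ed p N (fun d => if d (g, t) = none then
        ∫ θ, bad B (H θ) (g, t) none none d ∂ν else 0) =
        ∫ θ, Ed p N (fun d => if d (g, t) = none then
          bad B (H θ) (g, t) none none d else 0) ∂ν := by
      intro t
      unfold Ed
      rw [integral_finsetSum]
      · apply Finset.sum_congr rfl; intro d _
        by_cases h : d (g, t) = none
        · simp only [if_pos h]
          rw [integral_const_mul]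
        · simp only [if_neg h, mul_zero, integral_zero]
      · intro d _
        by_cases h : d (g, t) = none
        · simp only [if_pos h]
          exact (integrable_bad B ν hN hH _ _ _ d).const_mul _
        · simp only [if_neg h, mul_zero]
          exact integrable_zero _ _ _
    have hint : ∀ (t : Fin p.T), Integrable (fun θ => Ed p N (fun d => if d (g, t) = none then
          bad B (H θ) (g, t) none none d else 0)) ν := by
      intro t
      unfold Ed
      refine integrable_finsetSum _ fun d _ => ?_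
      by_cases h : d (g, t) = none
      · simp only [if_pos h]
        exact (integrable_bad B ν hN hH _ _ _ d).const_mul _
      · simp only [if_neg h, mul_zero]
        exact integrable_zero _ _ _
    simp only [e1]
    rw [← integral_finsetSum _ (fun t _ => hint t)]
    calc ∫ θ, ∑ t : Fin p.T, Ed p N (fun d => if d (g, t) = none then
          bad B (H θ) (g, t) none none d else 0) ∂ν ≤ ∫ _, S ∂ν := by
          apply integral_mono (integrable_finsetSum _ fun t _ => hint t) (integrable_const _)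
          intro θ
          exact badSum_none B hτ hN (H θ) g
      _ = S := by simp
  obtain ⟨sel, hsel⟩ := selection_cell p hN hT (M := 1) (S := S)
    (fun k d => ∫ θ, bad B (H θ) k none none d ∂ν)
    (fun k d => integral_nonneg fun θ => bad_nonneg B _ _ _ _ _)
    (fun k d => by
      calc ∫ θ, bad B (H θ) k none none d ∂ν ≤ ∫ _, (1 : ℝ) ∂ν :=
            integral_mono (integrable_bad B ν hN hH _ _ _ d) (integrable_const _)
              (fun θ => bad_le_one B hN _ _ _ _ _)
        _ = 1 := by simp) hsum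
  refine ⟨sel, fun g => ?_⟩
  have h1 : Ed p N (fun d => ∫ θ, bad B (H θ) (g, sel g d) none none d ∂ν) ≤
      Ed p N (fun d => if d (g, sel g d) = none then
        ∫ θ, bad B (H θ) (g, sel g d) none none d ∂ν else 1) := by
    apply Ed_mono
    intro d
    split_ifs
    · exact le_rfl
    · calc ∫ θ, bad B (H θ) (g, sel g d) none none d ∂ν ≤ ∫ _, (1 : ℝ) ∂ν :=
            integral_mono (integrable_bad B ν hN hH _ _ _ d) (integrable_const _)
              (fun θ => bad_le_one B hN _ _ _ _ _)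
        _ = 1 := by simp
  refine h1.trans ((hsel g).trans (le_of_eq ?_))
  rw [hS]
  field_simp
  ring

/-- The purity number of the cell `g`: bounds `avc2` at the observation step for all `m`. -/
def purNum (H : B.S → ℝ) (k : Stp p) (d : DD p N) : ℝ :=
  16 * ((p.nc : ℝ) + 1) ^ 2 * (bad B H k none none d + 1 / N) + 8 * (p.nc * p.T) / N

theorem avc2_le_purNum (hN : 0 < N) (H : B.S → ℝ) (d : DD p N) (k : Stp p) {m : ℕ}
    (hkm : p.ct k.1 k.2 ≤ m) (hmL : m ≤ p.L) :
    avc2 B (PP B H d) (p.ct k.1 k.2) m ≤ purNum B H k d := avc2_le B hN H d k hkm hmL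

theorem integrable_purNum (hN : 0 < N) (hH : ∀ s, Measurable fun θ => H θ s) (k : Stp p)
    (d : DD p N) : Integrable (fun θ => purNum B (H θ) k d) ν := by
  unfold purNum
  exact (((integrable_bad B ν hN hH _ _ _ d).add (integrable_const _)).const_mul _).add
    (integrable_const _)

end select

/-- parameters without gadgets. -/
def pSpin (nc T : ℕ) (hnc : 0 < nc) (τ : ℝ) (hτ0 : 0 < τ) (hτ1 : τ ≤ 1 / 2) : Par where
  nc := nc
  T := T
  nb := 0
  Q := 2
  lev := fun b => b.elim0
  tree := fun b => b.elim0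
  good := fun b => b.elim0
  τ := τ
  hnc := hnc
  hQ := le_rfl
  hτ0 := hτ0
  hτ1 := hτ1

/-- **Linear purity** with steps independent of the disorder: for every number of cells and every
accuracy there are parameters WITHOUT gadgets such that for all large `N`, all bases `B`, all
measurable families of Hamiltonians, there are steps `sel g d` with small averaged purity numbers. -/
theorem spin_purity (nc : ℕ) (hnc : 0 < nc) {eta : ℝ} (heta : 0 < eta) :
    ∃ p : Par, p.nc = nc ∧ p.nb = 0 ∧ ∃ N0 : ℕ, ∀ N, N0 ≤ N → ∀ (B : Base p N) (Θ : Type)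
      [MeasurableSpace Θ] (ν : Measure Θ) [IsProbabilityMeasure ν] (H : Θ → B.S → ℝ),
      (∀ s, Measurable fun θ => H θ s) →
        ∃ sel : Fin p.nc → DD p N → Fin p.T, ∀ g,
          Ed p N (fun d => ∫ θ, purNum B (H θ) (g, sel g d) d ∂ν) ≤ eta := by
  obtain ⟨K, hK⟩ : ∃ K : ℝ, K = 16 * ((nc : ℝ) + 1) ^ 2 := ⟨_, rfl⟩
  have hK0 : 0 < K := by rw [hK]; positivity
  obtain ⟨τ, hτ⟩ : ∃ τ : ℝ, τ = min (1 / 3) (eta / (K * 4 * 242 * 4)) := ⟨_, rfl⟩
  have hτ0 : 0 < τ := by rw [hτ]; positivity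
  have hτ3 : τ ≤ 1 / 3 := by rw [hτ]; exact min_le_left _ _
  have h1 : K * (4 * (242 * τ ^ 2)) ≤ eta / 4 := by
    have h2 : τ ^ 2 ≤ τ := by nlinarith
    have h3 : τ ≤ eta / (K * 4 * 242 * 4) := by rw [hτ]; exact min_le_right _ _
    have h4 : 0 < K * 4 * 242 * 4 := by positivity
    rw [le_div_iff₀ h4] at h3
    have h5 : τ ^ 2 * (K * 4 * 242 * 4) ≤ τ * (K * 4 * 242 * 4) :=
      mul_le_mul_of_nonneg_right h2 h4.le
    linarith
  obtain ⟨X, hX⟩ : ∃ X : ℝ, X = 16 / τ ^ 2 + 1 := ⟨_, rfl⟩
  have hX0 : 0 < X := by rw [hX]; positivity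
  obtain ⟨T, hT⟩ := exists_nat_gt (16 * K * X / eta)
  have hT0 : (0 : ℝ) < T := lt_of_le_of_lt (by positivity) hT
  have hT0' : 0 < T := by exact_mod_cast hT0
  have h2 : K * (4 / T * X) ≤ eta / 4 := by
    rw [div_lt_iff₀ heta] at hT
    rw [mul_comm (4 / (T : ℝ)), mul_div_assoc', ← mul_div_assoc, div_le_div_iff₀ hT0 (by norm_num)]
    linarith
  obtain ⟨N0, hN0⟩ := exists_nat_gt (max (4 * K / eta) (4 * (8 * ((nc : ℝ) * T)) / eta))
  refine ⟨pSpin nc T hnc τ hτ0 (by linarith), rfl, rfl, N0 + 1, ?_⟩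
  intro N hNN B Θ _ ν _ H hH
  have hN : 0 < N := by omega
  have hN' : (0 : ℝ) < N := by exact_mod_cast hN
  have hNN0 : (N0 : ℝ) ≤ N := by exact_mod_cast (by omega : N0 ≤ N)
  have h3 : K * (1 / N) ≤ eta / 4 := by
    have h5 := (lt_of_le_of_lt (le_max_left _ _) hN0).le.trans hNN0
    rw [div_le_iff₀ heta] at h5
    rw [mul_one_div, div_le_div_iff₀ hN' (by norm_num)]
    linarith
  have h4 : 8 * ((nc : ℝ) * T) / N ≤ eta / 4 := by
    have h5 := (lt_of_le_of_lt (le_max_right _ _) hN0).le.trans hNN0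
    rw [div_le_iff₀ heta] at h5
    rw [div_le_div_iff₀ hN' (by norm_num)]
    linarith
  obtain ⟨sel, hsel⟩ := selSpin B ν hτ3 hN hT0' hH
  refine ⟨sel, fun g => ?_⟩
  have h5 : ∀ d, ∫ θ, purNum B (H θ) (g, sel g d) d ∂ν =
      K * (∫ θ, bad B (H θ) (g, sel g d) none none d ∂ν) +
        (K * (1 / N) + 8 * ((nc : ℝ) * T) / N) := by
    intro d
    have hb := integrable_bad B ν hN hH (g, sel g d) none none d
    have e : ∀ θ, purNum B (H θ) (g, sel g d) d =
        K * bad B (H θ) (g, sel g d) none none d + (K * (1 / N) + 8 * ((nc : ℝ) * T) / N) := by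
      intro θ
      unfold purNum
      rw [hK]
      show 16 * ((nc : ℝ) + 1) ^ 2 * (_ + 1 / N) + 8 * ((nc : ℝ) * T) / N = _
      ring
    simp only [e]
    rw [integral_add (hb.const_mul _) (integrable_const _), integral_const_mul]
    simp
  simp only [h5]
  rw [Ed_add, Ed_smul, Ed_const _ hN]
  have h6 := mul_le_mul_of_nonneg_left (hsel g) hK0.le
  have h7 : K * (4 / ((pSpin nc T hnc τ hτ0 (by linarith)).T : ℝ) *
      (16 / (pSpin nc T hnc τ hτ0 (by linarith)).τ ^ 2 *
        (((pSpin nc T hnc τ hτ0 (by linarith)).nb : ℝ) + 1) + 1) +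
      4 * (242 * (pSpin nc T hnc τ hτ0 (by linarith)).τ ^ 2)) =
      K * (4 / T * X) + K * (4 * (242 * τ ^ 2)) := by
    show K * (4 / (T : ℝ) * (16 / τ ^ 2 * (((0 : ℕ) : ℝ) + 1) + 1) + 4 * (242 * τ ^ 2)) = _
    rw [hX]
    push_cast
    ring
  rw [h7] at h6
  linarith

end

end Crest.Agent.R164.G
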