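import Mathlib
import Crest.Agent.R164.ConcSys2
import Crest.Agent.R164.Mag0
import Crest.Agent.R164.GSpin
import Crest.Agent.R141.SysSym

-- ▼ part R164/ConcSys3
section

set_option autoImplicit false

/-!
Row 164, module (Conc): concentration over the orthogonal group of the free energy of `Sys164`
(`E|Φ - EΦ| ≤ C √N`).
-/

namespace Crest.Agent.R164.CSys

open Finset MeasureTheory
open Crest.Agent.R141
open Crest.Agent.R164 SY
open Crest.Agent.Lib.OrthPoinc
open Crest.ProbabilityR.InvariantGlass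
open Crest.Agent.R164.AsConc

noncomputable section

/-! ### polynomials -/

section Poly

variable {n : ℕ}

/-- linear form of the coordinates `(U σ)_a` -/
def lPoly (c : Fin n → ℝ) (σ : Fin n → Bool) : PolyM n :=
  ∑ a : Fin n, c a • (∑ k : Fin n, spinVec σ k • (MvPolynomial.X (a, k) : PolyM n))

theorem ev_lPoly (c : Fin n → ℝ) (σ : Fin n → Bool) (U : Mat n) :
    ev (lPoly c σ) U = ∑ a, c a * (Matrix.of U).mulVec (spinVec σ) a := by
  rw [lPoly, ev_sum]
  exact Finset.sum_congr rfl fun a _ => by rw [ev_smul, ev_row]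

theorem ev_Xd_lPoly (c : Fin n → ℝ) (σ : Fin n → Bool) (i j : Fin n) (U : Mat n) :
    ev (Xd i j (lPoly c σ)) U = spinVec σ j * (∑ a, c a * U a i) -
      spinVec σ i * (∑ a, c a * U a j) := by
  rw [lPoly, map_sum, ev_sum, Finset.mul_sum, Finset.mul_sum, ← Finset.sum_sub_distrib]
  refine Finset.sum_congr rfl fun a _ => ?_
  rw [Derivation.map_smul, ev_smul, Xd_row, ev_sub, ev_smul, ev_smul, ev_X, ev_X]
  ring

/-- energy of an antisymmetric form -/
theorem energy_asym (s w : Fin n → ℝ) (hss : ∀ r, s r * s r = 1) :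
    ∑ i, ∑ j, (s j * w i - s i * w j) ^ 2 ≤ 2 * n * ∑ i, (w i) ^ 2 := by
  have e1 : ∀ i j, (s j * w i - s i * w j) ^ 2 =
      (w i) ^ 2 + (w j) ^ 2 - 2 * ((s i * w i) * (s j * w j)) := by
    intro i j
    have h1 := hss i
    have h2 := hss j
    linear_combination (w i) ^ 2 * h2 + (w j) ^ 2 * h1
  simp only [e1, Finset.sum_sub_distrib, Finset.sum_add_distrib, ← Finset.mul_sum,
    ← Finset.sum_mul]
  simp only [Finset.sum_const, Finset.card_univ, Fintype.card_fin, nsmul_eq_mul, ← Finset.mul_sum]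
  have h0 : 0 ≤ (∑ i, s i * w i) * (∑ j, s j * w j) := mul_self_nonneg _
  nlinarith

/-- `w = Uᵀ y` has the norm of `y` -/
theorem sum_tr_sq {U : Mat n} (hU : Matrix.of U ∈ Matrix.specialOrthogonalGroup (Fin n) ℝ)
    (y : Fin n → ℝ) : ∑ i, (∑ a, y a * U a i) ^ 2 = ∑ a, (y a) ^ 2 := by
  have hUt := transpose_mem_so hU
  have h1 : ∀ i, ∑ a, y a * U a i = (Matrix.of (fun i j => U j i : Mat n)).mulVec y i := by
    intro i
    simp only [Matrix.mulVec, dotProduct, Matrix.of_apply]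
    exact Finset.sum_congr rfl fun a _ => by ring
  have h2 : Matrix.of (fun i j => U j i : Mat n) ∈ Matrix.specialOrthogonalGroup (Fin n) ℝ := by
    have : Matrix.of (fun i j => U j i : Mat n) = (Matrix.of U).transpose := by ext; rfl
    rw [this]; exact hUt
  simp only [h1]
  exact sum_mulVec_sq h2 y

/-- energy of the sum of a quadratic and a linear form -/
theorem energy_ql {eig : Fin n → ℝ} {Λ : ℝ} (hΛ : ∀ i, |eig i| ≤ Λ) (c : Fin n → ℝ)
    (σ : Fin n → Bool) {U : Mat n}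
    (hU : Matrix.of U ∈ Matrix.specialOrthogonalGroup (Fin n) ℝ) :
    ∑ i, ∑ j, (ev (Xd i j (qPoly eig 0 σ + lPoly c σ)) U) ^ 2 ≤
      4 * n * (Λ ^ 2 * n + ∑ a, (c a) ^ 2) := by
  set s := spinVec σ with hs
  set x := (Matrix.of U).mulVec s with hx
  have hss : ∀ r, s r * s r = 1 := fun r => spin_sq σ r
  have e1 : ∀ i j, ev (Xd i j (qPoly eig 0 σ + lPoly c σ)) U =
      s j * (∑ a, (eig a * x a + c a) * U a i) - s i * (∑ a, (eig a * x a + c a) * U a j) := by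
    intro i j
    rw [map_add, ev_add, ev_Xd_qPoly, ev_Xd_lPoly]
    simp only [wv, add_mul, Finset.sum_add_distrib]
    ring
  simp only [e1]
  refine (energy_asym s (fun i => ∑ a, (eig a * x a + c a) * U a i) hss).trans ?_
  rw [sum_tr_sq hU]
  have h2 : ∑ a, (eig a * x a + c a) ^ 2 ≤ 2 * (Λ ^ 2 * n) + 2 * ∑ a, (c a) ^ 2 := by
    have h3 : ∑ a, (x a) ^ 2 = n := by
      rw [hx, sum_mulVec_sq hU]
      have : ∀ r, s r ^ 2 = 1 := fun r => by rw [pow_two]; exact hss r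
      simp [this]
    calc ∑ a, (eig a * x a + c a) ^ 2 ≤ ∑ a, (2 * (Λ ^ 2 * (x a) ^ 2) + 2 * (c a) ^ 2) := by
          refine Finset.sum_le_sum fun a _ => ?_
          have h4 : eig a ^ 2 ≤ Λ ^ 2 := by
            rw [← sq_abs]; exact pow_le_pow_left₀ (abs_nonneg _) (hΛ a) 2
          have h5 := mul_le_mul_of_nonneg_right h4 (sq_nonneg (x a))
          nlinarith [sq_nonneg (eig a * x a - c a)]
      _ = 2 * (Λ ^ 2 * n) + 2 * ∑ a, (c a) ^ 2 := by
          rw [Finset.sum_add_distrib, ← Finset.mul_sum, ← Finset.mul_sum, ← Finset.mul_sum, h3]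
  have hn : (0 : ℝ) ≤ n := Nat.cast_nonneg n
  nlinarith [mul_le_mul_of_nonneg_left h2 (by linarith : (0:ℝ) ≤ 2 * n)]

end Poly

variable {p : Par} {N n : ℕ} {A : Finset (Fin N → Bool)} (hA : A.Nonempty)
  (eig : Fin N → ℝ) (t : ℝ) (V : (Fin N → Bool) → ℝ) (a lam : Fin N → Fin p.nc → ℝ) (d : DD p N)

/-- the Hamiltonian as a function of the matrix -/
def HU (U : Mat N) : SS p n A → ℝ := HS (h0q eig (Matrix.of U) t V) a lam (xU (Matrix.of U))

/-- the strengths of the linear form -/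
def cl (ω : G.Om (base p n A hA)) (i : Fin N) : ℝ := ∑ g, lam i g * zf ω.1.2.2 g i

/-- the log-weight as a polynomial -/
def pP (ω : G.Om (base p n A hA)) : PolyM N :=
  (qPoly (fun i => t * eig i) 0 ω.1.1.1 + lPoly (cl hA lam ω) ω.1.1.1) +
    MvPolynomial.C (V ω.1.1.1 + (∑ g, ∑ i, a i g * (zf ω.1.2.1 g i * sv (ω.1.1.1 i))) +
      G.WW (base p n A hA) d ω)

theorem ev_pP (ω : G.Om (base p n A hA)) (U : Mat N) :
    ev (pP hA eig t V a lam d ω) U = G.UU (base p n A hA) (HU eig t V a lam U) d ω := by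
  rw [pP, ev_add, ev_add, ev_C, ev_qPoly, ev_lPoly]
  have h1 : ∑ a, cl hA lam ω a * (Matrix.of U).mulVec (spinVec ω.1.1.1) a =
      ∑ g, ∑ i, lam i g * (zf ω.1.2.2 g i * xU (Matrix.of U) ω.1.1.1 i) := by
    rw [Finset.sum_comm]
    refine Finset.sum_congr rfl fun i _ => ?_
    unfold cl xU
    rw [Finset.sum_mul]
    exact Finset.sum_congr rfl fun g _ => by ring
  have h2 : (1 / 2 : ℝ) * ∑ i : Fin N, t * eig i * ((Matrix.of U).mulVec (spinVec ω.1.1.1) i) ^ 2 +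
      ∑ r : Fin N, (0 : Fin N → ℝ) r * spinVec ω.1.1.1 r = t * Mag.qd eig (Matrix.of U) ω.1.1.1 := by
    simp only [Pi.zero_apply, zero_mul, Finset.sum_const_zero, add_zero]
    unfold Mag.qd
    rw [Finset.mul_sum, Finset.mul_sum, Finset.mul_sum]
    exact Finset.sum_congr rfl fun i _ => by ring
  rw [h1, h2]
  have h3 : G.UU (base p n A hA) (HU eig t V a lam U) d ω =
    HS (h0q eig (Matrix.of U) t V) a lam (xU (Matrix.of U)) ω.1 + G.WW (base p n A hA) d ω := rfl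
  rw [h3]
  unfold HS h0q
  ring

theorem sum_cl_sq_le {Λ : ℝ} (hΛ : ∀ i g, |lam i g| ≤ Λ) (ω : G.Om (base p n A hA)) :
    ∑ i, (cl hA lam ω i) ^ 2 ≤ p.nc * Λ ^ 2 * Ts ω.1 := by
  have h1 : ∀ i, (cl hA lam ω i) ^ 2 ≤ p.nc * Λ ^ 2 * ∑ g, (zf ω.1.2.2 g i) ^ 2 := by
    intro i
    unfold cl
    have h2 := sq_sum_le_card_mul_sum_sq (s := (Finset.univ : Finset (Fin p.nc)))
      (f := fun g => lam i g * zf ω.1.2.2 g i)
    rw [Finset.card_univ, Fintype.card_fin] at h2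
    refine h2.trans ?_
    rw [mul_assoc]
    refine mul_le_mul_of_nonneg_left ?_ (Nat.cast_nonneg _)
    rw [Finset.mul_sum]
    refine Finset.sum_le_sum fun g _ => ?_
    rw [mul_pow]
    refine mul_le_mul_of_nonneg_right ?_ (sq_nonneg _)
    rw [← sq_abs]; exact pow_le_pow_left₀ (abs_nonneg _) (hΛ i g) 2
  calc ∑ i, (cl hA lam ω i) ^ 2 ≤ ∑ i, p.nc * Λ ^ 2 * ∑ g, (zf ω.1.2.2 g i) ^ 2 :=
        Finset.sum_le_sum fun i _ => h1 i
    _ = p.nc * Λ ^ 2 * Tc ω.1.2.2 := by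
        rw [← Finset.mul_sum]
        congr 1
        unfold Tc
        exact Finset.sum_comm
    _ ≤ p.nc * Λ ^ 2 * Ts ω.1 := by
        refine mul_le_mul_of_nonneg_left ?_ (by positivity)
        unfold Ts
        linarith [Tc_nonneg ω.1.2.1]

/-- pointwise energy bound -/
theorem energy_pP {Λ0 Λ : ℝ} (hΛ0 : ∀ i, |eig i| ≤ Λ0) (ht : |t| ≤ 1)
    (hΛ : ∀ i g, |lam i g| ≤ Λ) (ω : G.Om (base p n A hA)) {U : Mat N}
    (hU : Matrix.of U ∈ Matrix.specialOrthogonalGroup (Fin N) ℝ) :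
    ∑ i, ∑ j, (ev (Xd i j (pP hA eig t V a lam d ω)) U) ^ 2 ≤
      4 * N * (Λ0 ^ 2 * N + p.nc * Λ ^ 2 * Ts ω.1) := by
  have h1 : ∀ i j, ev (Xd i j (pP hA eig t V a lam d ω)) U =
      ev (Xd i j (qPoly (fun i => t * eig i) 0 ω.1.1.1 + lPoly (cl hA lam ω) ω.1.1.1)) U := by
    intro i j
    rw [pP, map_add, MvPolynomial.derivation_C, add_zero]
  simp only [h1]
  refine (energy_ql (Λ := Λ0) (fun i => ?_) _ _ hU).trans ?_
  · rw [abs_mul]
    calc |t| * |eig i| ≤ 1 * Λ0 := mul_le_mul ht (hΛ0 i) (abs_nonneg _) one_pos.le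
      _ = Λ0 := one_mul _
  · have := sum_cl_sq_le hA lam hΛ ω
    gcongr

/-- bound of the Hamiltonian -/
theorem abs_HU_le {Λ0 Λ Λa BV : ℝ} (hΛ0 : ∀ i, |eig i| ≤ Λ0) (ht : |t| ≤ 1)
    (hΛ : ∀ i g, |lam i g| ≤ Λ) (ha : ∀ i g, |a i g| ≤ Λa) (hV : ∀ σ, |V σ| ≤ BV * N)
    {U : Mat N} (hU : Matrix.of U ∈ Matrix.orthogonalGroup (Fin N) ℝ) (s : SS p n A) :
    |HU eig t V a lam U s| ≤
      (Λ0 / 2 + BV + 2 * p.nc * Λa ^ 2 + 2 * p.nc * Λ ^ 2) * N + 1 / 8 * Ts s := by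
  have h1 : |t * Mag.qd eig (Matrix.of U) s.1.1| ≤ Λ0 / 2 * N := by
    rw [abs_mul]
    have := Mag.abs_qd_le hΛ0 hU s.1.1
    calc |t| * |Mag.qd eig (Matrix.of U) s.1.1| ≤ 1 * (Λ0 / 2 * N) :=
          mul_le_mul ht this (abs_nonneg _) one_pos.le
      _ = _ := one_mul _
  have h2 := abs_small_le s.2.1 a ha (fun i => sv (s.1.1 i))
  have h3 := abs_small_le s.2.2 lam hΛ (fun i => xU (Matrix.of U) s.1.1 i)
  have h4 : ∑ i, (sv (s.1.1 i)) ^ 2 = (N : ℝ) := by
    have : ∀ i, (sv (s.1.1 i)) ^ 2 = 1 := fun i => by rw [← sq_abs, sv_abs, one_pow]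
    simp [this]
  have h5 : ∑ i, (xU (Matrix.of U) s.1.1 i) ^ 2 = (N : ℝ) := by
    unfold xU
    rw [sq_sum_mulVec hU, Mag.spin_sq_sum]
  rw [h4] at h2
  rw [h5] at h3
  have h6 := hV s.1.1
  have e : HU eig t V a lam U s = t * Mag.qd eig (Matrix.of U) s.1.1 + V s.1.1 +
      (∑ g, ∑ i, a i g * (zf s.2.1 g i * sv (s.1.1 i))) +
      ∑ g, ∑ i, lam i g * (zf s.2.2 g i * xU (Matrix.of U) s.1.1 i) := by
    unfold HU HS h0q
    ring
  rw [e]
  unfold Ts
  rw [abs_le] at h1 h2 h3 h6 ⊢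
  constructor <;> nlinarith [h1.1, h1.2, h2.1, h2.2, h3.1, h3.2, h6.1, h6.2]

/-- the constant of the second moment of the fields -/
def CT (p : Par) (Λ0 Λ Λa BV : ℝ) : ℝ :=
  16 * (Λ0 / 2 + BV + 2 * p.nc * Λa ^ 2 + 2 * p.nc * Λ ^ 2) + 8 * (p.nc * p.T * p.τ) + 32 * p.nc

theorem eE_Ts_HU (hnb : p.nb = 0) (hN : 0 < N) {Λ0 Λ Λa BV : ℝ} (hΛ0 : ∀ i, |eig i| ≤ Λ0)
    (ht : |t| ≤ 1) (hΛ : ∀ i g, |lam i g| ≤ Λ) (ha : ∀ i g, |a i g| ≤ Λa)
    (hV : ∀ σ, |V σ| ≤ BV * N) {U : Mat N}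
    (hU : Matrix.of U ∈ Matrix.orthogonalGroup (Fin N) ℝ) :
    eE (G.PP (base p n A hA) (HU eig t V a lam U) d) (fun ω => Ts ω.1) ≤
      CT p Λ0 Λ Λa BV * N := by
  refine (eE_Ts_le hA hnb _ (fun s => abs_HU_le eig t V a lam hΛ0 ht hΛ ha hV hU s) d).trans ?_
  unfold CT
  have h1 : (1 : ℝ) ≤ N := by exact_mod_cast hN
  have h2 : (0 : ℝ) ≤ p.nc * p.T * p.τ := by
    have := p.hτ0
    positivity
  nlinarith

/-- averaged energy bound -/
theorem avg_energy (hnb : p.nb = 0) (hN : 0 < N) {Λ0 Λ Λa BV : ℝ} (hΛ0 : ∀ i, |eig i| ≤ Λ0)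
    (ht : |t| ≤ 1) (hΛ : ∀ i g, |lam i g| ≤ Λ) (ha : ∀ i g, |a i g| ≤ Λa)
    (hV : ∀ σ, |V σ| ≤ BV * N) {U : Mat N}
    (hU : Matrix.of U ∈ Matrix.specialOrthogonalGroup (Fin N) ℝ) :
    eE (G.PP (base p n A hA) (HU eig t V a lam U) d)
      (fun ω => ∑ i, ∑ j, (ev (Xd i j (pP hA eig t V a lam d ω)) U) ^ 2) ≤
      4 * (Λ0 ^ 2 + p.nc * Λ ^ 2 * CT p Λ0 Λ Λa BV) * (N : ℝ) ^ 2 := by
  have hP := G.PP_isProb (base p n A hA) (HU eig t V a lam U) d
  have hUo : Matrix.of U ∈ Matrix.orthogonalGroup (Fin N) ℝ :=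
    (Matrix.mem_specialOrthogonalGroup_iff.mp hU).1
  refine (eE_mono hP (fun ω => energy_pP hA eig t V a lam d hΛ0 ht hΛ ω hU)).trans ?_
  have e : (fun ω : G.Om (base p n A hA) => 4 * (N : ℝ) * (Λ0 ^ 2 * N + p.nc * Λ ^ 2 * Ts ω.1)) =
      fun ω => 4 * (N : ℝ) * (Λ0 ^ 2 * N) + (4 * N * (p.nc * Λ ^ 2)) * Ts ω.1 := by
    funext ω; ring
  rw [e, eE_add, eE_const hP, eE_smul]
  have h1 := eE_Ts_HU (n := n) hA eig t V a lam d hnb hN hΛ0 ht hΛ ha hV hUo
  have h2 : (0 : ℝ) ≤ 4 * N * (p.nc * Λ ^ 2) := by positivity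
  have h3 := mul_le_mul_of_nonneg_left h1 h2
  nlinarith

/-- the free energy -/
def PhU (n : ℕ) (U : Mat N) : ℝ := G.Phi (base p n A hA) (HU eig t V a lam U) d

theorem C1cl_PhU : C1cl (PhU hA eig t V a lam d n) (ConcA.DE (G.prior (base p n A hA))
    (G.fil (base p n A hA)) p.xs (fun ω U => ev (pP hA eig t V a lam d ω) U)
      (fun ω i j => ev (Xd i j (pP hA eig t V a lam d ω))) 0) := by
  have h := ConcA.C1cl_eE_At (𝓕 := G.fil (base p n A hA)) (G.prior_isProb (base p n A hA))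
    p.xs_expo.pos (h := fun ω U => ev (pP hA eig t V a lam d ω) U)
    (Dh := fun ω i j => ev (Xd i j (pP hA eig t V a lam d ω)))
    (fun ω => C1cl.poly (pP hA eig t V a lam d ω)) 0
  refine h.congr (fun U _ => ?_) (fun U _ i j => rfl)
  unfold PhU G.Phi
  congr 2
  funext ω
  exact ev_pP hA eig t V a lam d ω U

theorem variance_SO (hnb : p.nb = 0) (hN : 2 < N) {Λ0 Λ Λa BV : ℝ} (hΛ0 : ∀ i, |eig i| ≤ Λ0)
    (ht : |t| ≤ 1) (hΛ : ∀ i g, |lam i g| ≤ Λ) (ha : ∀ i g, |a i g| ≤ Λa)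
    (hV : ∀ σ, |V σ| ≤ BV * N) {μ : Measure (Mat N)} [IsProbabilityMeasure μ] (hμ : SOInv μ) :
    ∫ U, (PhU hA eig t V a lam d n U - ∫ V', PhU hA eig t V a lam d n V' ∂μ) ^ 2 ∂μ ≤
      4 * (Λ0 ^ 2 + p.nc * Λ ^ 2 * CT p Λ0 Λ Λa BV) * (N : ℝ) ^ 2 / ((N : ℝ) - 2) := by
  refine (C1cl_PhU (n := n) hA eig t V a lam d).variance_le hμ hN _ ?_
  filter_upwards [hμ.mem] with U hU
  have h1 := ConcA.En_DE_le (𝓕 := G.fil (base p n A hA)) (G.prior_isProb (base p n A hA))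
    p.xs_expo.pos (fun ω U => ev (pP hA eig t V a lam d ω) U)
    (fun ω i j => ev (Xd i j (pP hA eig t V a lam d ω))) 0 U
  refine h1.trans ?_
  have e0 : (fun ω => ev (pP hA eig t V a lam d ω) U) =
      G.UU (base p n A hA) (HU eig t V a lam U) d := by
    funext ω; exact ev_pP hA eig t V a lam d ω U
  rw [e0]
  have hF0 : (G.fil (base p n A hA)).F 0 = ⊤ := SY.fil_zero hA
  have hPP : tl (G.prior (base p n A hA)) (G.fil (base p n A hA)) p.xs
      (G.UU (base p n A hA) (HU eig t V a lam U) d) =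
      G.PP (base p n A hA) (HU eig t V a lam U) d := rfl
  rw [hPP]
  have hQ := G.PP_isProb (base p n A hA) (HU eig t V a lam U) d
  have e1 : cE (G.PP (base p n A hA) (HU eig t V a lam U) d) ((G.fil (base p n A hA)).F 0)
      (fun ω => ConcA.En (fun i j => ev (Xd i j (pP hA eig t V a lam d ω))) U) =
      fun _ => eE (G.PP (base p n A hA) (HU eig t V a lam U) d)
        (fun ω => ConcA.En (fun i j => ev (Xd i j (pP hA eig t V a lam d ω))) U) := by
    funext ω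
    exact ObsConc.cE_top hF0 hQ _ ω
  rw [e1, eE_const (G.prior_isProb _)]
  exact avg_energy (n := n) hA eig t V a lam d hnb (by omega) hΛ0 ht hΛ ha hV hU

end

end Crest.Agent.R164.CSys
end

-- ▼ part R164/ConcSys4

set_option autoImplicit false

/-!
Row 164, module (Conc): concentration over `O(N)` of the free energy of `Sys164`.
-/

namespace Crest.Agent.R164.CSys

open Finset MeasureTheory
open Crest.Agent.R141
open Crest.Agent.R164 SY
open Crest.Agent.Lib.OrthPoinc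
open Crest.ProbabilityR.InvariantGlass
open Crest.Agent.R164.AsConc

noncomputable section

variable {p : Par} {N n : ℕ} {A : Finset (Fin N → Bool)} (hA : A.Nonempty)
  (eig : Fin N → ℝ) (t : ℝ) (V : (Fin N → Bool) → ℝ) (a lam : Fin N → Fin p.nc → ℝ) (d : DD p N)

/-- flip of all small coins of the first site -/
def kc (c : FC p N n) : FC p N n := fun g i s => if i.val = 0 then !(c g i s) else c g i s

theorem kc_kc (c : FC p N n) : kc (kc c) = c := by
  funext g i s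
  unfold kc
  split_ifs <;> simp

theorem zf_kc (c : FC p N n) (g : Fin p.nc) (i : Fin N) :
    zf (kc c) g i = (if i.val = 0 then -1 else 1) * zf c g i := by
  unfold zf kc
  split_ifs with h
  · simp only [sv_not, Finset.sum_neg_distrib]
    ring
  · simp

/-- the symmetry -/
def kE : G.Om (base p n A hA) ≃ G.Om (base p n A hA) where
  toFun ω := ((ω.1.1, ω.1.2.1, kc ω.1.2.2), ω.2)
  invFun ω := ((ω.1.1, ω.1.2.1, kc ω.1.2.2), ω.2)
  left_inv ω := by
    refine Prod.ext (Prod.ext rfl (Prod.ext rfl ?_)) rfl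
    exact kc_kc _
  right_inv ω := by
    refine Prod.ext (Prod.ext rfl (Prod.ext rfl ?_)) rfl
    exact kc_kc _

theorem kc_rel (c c' : FC p N n) (g : Fin p.nc) : kc c g = kc c' g ↔ c g = c' g := by
  constructor
  · intro h
    have h1 := congrArg (fun r : Fin N → Fin n → Bool => fun i s =>
      if i.val = 0 then !(r i s) else r i s) h
    have e : ∀ c : FC p N n, (fun i s => if (i : Fin N).val = 0 then !(kc c g i s) else kc c g i s) =
        c g := fun c => congrFun (kc_kc c) g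
    simp only [e] at h1
    exact h1
  · intro h
    funext i s
    unfold kc
    rw [h]

theorem kE_sym : Sym.IsSym (G.prior (base p n A hA)) (G.fil (base p n A hA)) (kE hA) where
  law ω := rfl
  rel k ω ω' := by
    show G.frel (base p n A hA) k _ _ ↔ G.frel (base p n A hA) k _ _
    constructor
    · intro h
      refine ⟨h.1, h.2.1, h.2.2.1, fun g hg => ?_, h.2.2.2.2⟩
      exact (kc_rel _ _ g).mp (h.2.2.2.1 g hg)
    · intro h
      refine ⟨h.1, h.2.1, h.2.2.1, fun g hg => ?_, h.2.2.2.2⟩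
      exact (kc_rel _ _ g).mpr (h.2.2.2.1 g hg)

theorem xU_flipR (U : Mat N) (σ : Fin N → Bool) (i : Fin N) :
    xU (Matrix.of (flipR U)) σ i = (if i.val = 0 then -1 else 1) * xU (Matrix.of U) σ i := by
  unfold xU
  simp only [Matrix.mulVec, dotProduct, Matrix.of_apply, flipR]
  split_ifs
  · simp only [neg_mul, Finset.sum_neg_distrib, one_mul]
  · simp

theorem HU_flipR (U : Mat N) (s : SS p n A) :
    HU eig t V a lam (flipR U) s = HU eig t V a lam U (s.1, s.2.1, kc s.2.2) := by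
  have hsq : ∀ i : Fin N, ((if i.val = 0 then (-1 : ℝ) else 1)) *
      (if i.val = 0 then (-1 : ℝ) else 1) = 1 := by
    intro i; split_ifs <;> norm_num
  have h1 : Mag.qd eig (Matrix.of (flipR U)) s.1.1 = Mag.qd eig (Matrix.of U) s.1.1 := by
    unfold Mag.qd
    congr 1
    refine Finset.sum_congr rfl fun i _ => ?_
    have := xU_flipR U s.1.1 i
    unfold xU at this
    rw [this, mul_pow]
    have h2 : ((if i.val = 0 then (-1 : ℝ) else 1)) ^ 2 = 1 := by rw [pow_two]; exact hsq i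
    rw [h2, one_mul]
  unfold HU HS h0q
  simp only [h1, xU_flipR, zf_kc]
  congr 1
  refine Finset.sum_congr rfl fun g _ => Finset.sum_congr rfl fun i _ => ?_
  ring

theorem UU_flipR (U : Mat N) (ω : G.Om (base p n A hA)) :
    G.UU (base p n A hA) (HU eig t V a lam (flipR U)) d ω =
      G.UU (base p n A hA) (HU eig t V a lam U) d (kE hA ω) := by
  have h := HU_flipR eig t V a lam U (n := n) (A := A) ω.1
  show HU eig t V a lam (flipR U) ω.1 + G.WW (base p n A hA) d ω =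
    HU eig t V a lam U (ω.1.1, ω.1.2.1, kc ω.1.2.2) + G.WW (base p n A hA) d ω
  exact congrArg (fun z => z + G.WW (base p n A hA) d ω) h

theorem PhU_flipR (U : Mat N) : PhU hA eig t V a lam d n (flipR U) = PhU hA eig t V a lam d n U := by
  unfold PhU G.Phi
  have h1 : R141.A (G.prior (base p n A hA)) (G.fil (base p n A hA)) p.xs
      (G.UU (base p n A hA) (HU eig t V a lam (flipR U)) d) 0 = fun ω =>
      R141.A (G.prior (base p n A hA)) (G.fil (base p n A hA)) p.xs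
      (G.UU (base p n A hA) (HU eig t V a lam U) d) 0 (kE hA ω) := by
    funext ω
    rw [← Sym.A_comp (G.prior_isProb _) p.xs_expo.pos (kE_sym hA)]
    congr 1
    funext ω'
    exact UU_flipR hA eig t V a lam d U ω'
  rw [h1]
  unfold eE
  refine Fintype.sum_bijective (kE hA) (kE hA).bijective _ _ fun ω => ?_
  rw [(kE_sym hA).law]

theorem PhU_toSO (U : Mat N) : PhU hA eig t V a lam d n (toSO U) = PhU hA eig t V a lam d n U := by
  unfold toSO
  split_ifs
  · rfl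
  · exact PhU_flipR hA eig t V a lam d U

theorem measurable_HU (s : SS p n A) : Measurable fun U : Mat N => HU eig t V a lam U s := by
  unfold HU HS h0q xU Mag.qd
  simp only [Matrix.mulVec, dotProduct, Matrix.of_apply]
  fun_prop


theorem measurable_PhU : Measurable (PhU hA eig t V a lam d n) := by
  unfold PhU G.Phi
  exact G.meas_eE (P := fun _ => G.prior (base p n A hA)) (fun _ => measurable_const)
    (fun ω => G.meas_A (G.prior_isProb _) p.xs_expo.pos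
      (fun ω => G.meas_UU (base p n A hA) (H := fun U => HU eig t V a lam U)
        (fun s => measurable_HU eig t V a lam s) d ω) 0 ω)

/-- entries of an orthogonal matrix -/
theorem orth_entries {U : Mat N} (hU : Matrix.of U ∈ Matrix.orthogonalGroup (Fin N) ℝ) :
    ∀ a b, |U a b| ≤ 1 := by
  have h : ∀ a : Fin N, ∑ k, U a k * U a k = 1 := by
    intro a
    have := congrFun (congrFun ((Matrix.mem_orthogonalGroup_iff (Fin N) ℝ).mp hU) a) a
    simpa [Matrix.mul_apply] using this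
  exact abs_le_one_of_rows h

theorem integrable_PhU {ν : Measure (Mat N)} [IsProbabilityMeasure ν]
    (hν : ∀ᵐ U ∂ν, Matrix.of U ∈ Matrix.orthogonalGroup (Fin N) ℝ) :
    Integrable (PhU hA eig t V a lam d n) ν := by
  refine (C1cl_PhU (n := n) hA eig t V a lam d).integrable ?_
  filter_upwards [hν] with U hU
  exact orth_entries hU

/-- the variance constant -/
def CV (p : Par) (Λ0 Λ Λa BV : ℝ) : ℝ :=
  12 * (Λ0 ^ 2 + p.nc * Λ ^ 2 * CT p Λ0 Λ Λa BV) + 1

variable {ν : Measure (Mat N)} [IsProbabilityMeasure ν]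

theorem CT_nonneg {Λ0 Λ Λa BV : ℝ} (h0 : 0 ≤ Λ0) (hB : 0 ≤ BV) : 0 ≤ CT p Λ0 Λ Λa BV := by
  unfold CT
  have := p.hτ0
  positivity

theorem variance_O (hnb : p.nb = 0) (hN : 2 < N) {Λ0 Λ Λa BV : ℝ} (hΛ0 : ∀ i, |eig i| ≤ Λ0)
    (ht : |t| ≤ 1) (hΛ : ∀ i g, |lam i g| ≤ Λ) (ha : ∀ i g, |a i g| ≤ Λa)
    (hV : ∀ σ, |V σ| ≤ BV * N) (hν : OInv ν) :
    ∫ U, (PhU hA eig t V a lam d n U - ∫ V', PhU hA eig t V a lam d n V' ∂ν) ^ 2 ∂ν ≤
      CV p Λ0 Λ Λa BV * N := by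
  have hSO := hν.toSOInv (by omega)
  haveI : IsProbabilityMeasure (ν.map toSO) :=
    Measure.isProbabilityMeasure_map measurable_toSO.aemeasurable
  have hm := measurable_PhU (n := n) hA eig t V a lam d
  have e1 : ∫ V', PhU hA eig t V a lam d n V' ∂ν = ∫ V', PhU hA eig t V a lam d n V' ∂(ν.map toSO) := by
    rw [integral_map measurable_toSO.aemeasurable hm.aestronglyMeasurable]
    simp only [PhU_toSO]
  have e2 : ∀ c : ℝ, ∫ U, (PhU hA eig t V a lam d n U - c) ^ 2 ∂ν =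
      ∫ U, (PhU hA eig t V a lam d n U - c) ^ 2 ∂(ν.map toSO) := by
    intro c
    rw [integral_map measurable_toSO.aemeasurable
      ((hm.sub_const c).pow_const 2).aestronglyMeasurable]
    simp only [PhU_toSO]
  rw [e1, e2]
  refine (variance_SO hA eig t V a lam d hnb hN hΛ0 ht hΛ ha hV hSO).trans ?_
  have hN3 : (3 : ℝ) ≤ N := by exact_mod_cast hN
  have hN2 : (0 : ℝ) < (N : ℝ) - 2 := by linarith
  have hΛ00 : 0 ≤ Λ0 := (abs_nonneg _).trans (hΛ0 ⟨0, by omega⟩)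
  have hBV : 0 ≤ BV := by
    have h1 := (abs_nonneg _).trans (hV (fun _ => true))
    have h2 : (0 : ℝ) < N := by linarith
    by_contra hneg
    push Not at hneg
    nlinarith
  have hCT := CT_nonneg (p := p) (Λ := Λ) (Λa := Λa) hΛ00 hBV
  set c := Λ0 ^ 2 + p.nc * Λ ^ 2 * CT p Λ0 Λ Λa BV with hc
  have hc0 : 0 ≤ c := by positivity
  rw [div_le_iff₀ hN2]
  unfold CV
  rw [← hc]
  nlinarith [mul_nonneg hc0 (by linarith : (0:ℝ) ≤ (N:ℝ)), mul_nonneg (mul_nonneg hc0 (by linarith : (0:ℝ) ≤ (N:ℝ))) (by linarith : (0:ℝ) ≤ (N:ℝ) - 3)]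

theorem CV_pos {Λ0 Λ Λa BV : ℝ} (h0 : 0 ≤ Λ0) (hB : 0 ≤ BV) : 0 < CV p Λ0 Λ Λa BV := by
  have hCT := CT_nonneg (p := p) (Λ := Λ) (Λa := Λa) h0 hB
  unfold CV
  positivity

/-- **Concentration of the free energy over `O(N)`**, first moment. -/
theorem dev_O (hnb : p.nb = 0) (hN : 2 < N) {Λ0 Λ Λa BV : ℝ} (hΛ0 : ∀ i, |eig i| ≤ Λ0)
    (ht : |t| ≤ 1) (hΛ : ∀ i g, |lam i g| ≤ Λ) (ha : ∀ i g, |a i g| ≤ Λa)
    (hV : ∀ σ, |V σ| ≤ BV * N) (hν : OInv ν) :
    ∫ U, |PhU hA eig t V a lam d n U - ∫ V', PhU hA eig t V a lam d n V' ∂ν| ∂ν ≤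
      Real.sqrt (CV p Λ0 Λ Λa BV * N) := by
  have hvar := variance_O (n := n) hA eig t V a lam d hnb hN hΛ0 ht hΛ ha hV hν
  have hN3 : (3 : ℝ) ≤ N := by exact_mod_cast hN
  have hΛ00 : 0 ≤ Λ0 := (abs_nonneg _).trans (hΛ0 ⟨0, by omega⟩)
  have hBV : 0 ≤ BV := by
    have h1 := (abs_nonneg _).trans (hV (fun _ => true))
    have h2 : (0 : ℝ) < N := by linarith
    by_contra hneg
    push Not at hneg
    nlinarith
  have hCV := CV_pos (p := p) (Λ := Λ) (Λa := Λa) hΛ00 hBV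
  set m := ∫ V', PhU hA eig t V a lam d n V' ∂ν with hm
  set s := Real.sqrt (CV p Λ0 Λ Λa BV * N) with hs
  have hspos : 0 < s := Real.sqrt_pos.mpr (by positivity)
  have hss : s * s = CV p Λ0 Λ Λa BV * N := Real.mul_self_sqrt (by positivity)
  have hae : ∀ᵐ U ∂ν, ∀ a b, |U a b| ≤ 1 := by
    filter_upwards [hν.mem] with U hU
    exact orth_entries hU
  have hint2 : Integrable (fun U => (PhU hA eig t V a lam d n U - m) ^ 2) ν :=
    ((C1cl_PhU (n := n) hA eig t V a lam d).sq_sub m).integrable hae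
  have hint := integrable_PhU (n := n) hA eig t V a lam d hν.mem
  have hint1 : Integrable (fun U => |PhU hA eig t V a lam d n U - m|) ν :=
    (hint.sub (integrable_const m)).abs
  have hpt : ∀ U, |PhU hA eig t V a lam d n U - m| ≤
      (1 / (2 * s)) * (PhU hA eig t V a lam d n U - m) ^ 2 + s / 2 := by
    intro U
    set z := PhU hA eig t V a lam d n U - m
    have h1 : 0 ≤ (|z| - s) ^ 2 := sq_nonneg _
    have h2 : |z| ^ 2 = z ^ 2 := sq_abs z
    have h3 : (1 / (2 * s)) * z ^ 2 + s / 2 - |z| = (1 / (2 * s)) * (|z| - s) ^ 2 := by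
      field_simp
      nlinarith [h2]
    have h4 : 0 ≤ (1 / (2 * s)) * (|z| - s) ^ 2 := by positivity
    linarith
  calc ∫ U, |PhU hA eig t V a lam d n U - m| ∂ν ≤
      ∫ U, ((1 / (2 * s)) * (PhU hA eig t V a lam d n U - m) ^ 2 + s / 2) ∂ν :=
        integral_mono hint1 ((hint2.const_mul _).add (integrable_const _)) hpt
    _ = (1 / (2 * s)) * ∫ U, (PhU hA eig t V a lam d n U - m) ^ 2 ∂ν + s / 2 := by
        rw [integral_add (hint2.const_mul _) (integrable_const _), integral_const_mul,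
          integral_const]
        simp
    _ ≤ (1 / (2 * s)) * (s * s) + s / 2 := by
        rw [hss]
        gcongr
    _ = s := by field_simp; ring

end

end Crest.Agent.R164.CSys
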