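import Mathlib
import Crest.Prelude.Def_InvariantGlass

-- ▼ part R164/CvA
section

/-!
Row 164: concavity of the constrained one-site value in the field path, by a maximum principle
(helper491). Part A: tilted Gaussian averages and the class of functions preserved by `gaussOp`.
-/

set_option autoImplicit false

namespace Crest.Agent.R164.Cv

open MeasureTheory Set Filter Topology ProbabilityTheory
open Crest.ProbabilityR.InvariantGlass

noncomputable section

/-- the standard Gaussian -/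
abbrev gm : Measure ℝ := gaussianReal 0 1

theorem integrable_exp_abs (c : ℝ) : Integrable (fun g : ℝ => Real.exp (c * |g|)) gm := by
  have h1 : Integrable (fun g : ℝ => Real.exp (c * g)) gm := integrable_exp_mul_gaussianReal c
  have h2 : Integrable (fun g : ℝ => Real.exp ((-c) * g)) gm :=
    integrable_exp_mul_gaussianReal (-c)
  refine Integrable.mono' (h1.add h2) (by fun_prop) (Eventually.of_forall fun g => ?_)
  rw [Real.norm_eq_abs, abs_of_pos (Real.exp_pos _)]
  simp only [Pi.add_apply]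
  rcases le_total 0 g with hg | hg
  · rw [abs_of_nonneg hg]
    have := Real.exp_pos (-c * g)
    linarith
  · rw [abs_of_nonpos hg]
    have := Real.exp_pos (c * g)
    have e : c * -g = -c * g := by ring
    rw [e]
    linarith

/-- growth at most `K exp |x|` -/
def Gr (K : ℝ) (ψ : ℝ → ℝ) : Prop := ∀ x, |ψ x| ≤ K * Real.exp |x|

theorem Gr.K_nonneg {K : ℝ} {ψ : ℝ → ℝ} (h : Gr K ψ) : 0 ≤ K := by
  have := (abs_nonneg _).trans (h 0)
  simpa using this

theorem abs_shift_le (v x g : ℝ) : |x + Real.sqrt v * g| ≤ |x| + Real.sqrt v * |g| := by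
  refine (abs_add_le _ _).trans ?_
  rw [abs_mul, abs_of_nonneg (Real.sqrt_nonneg v)]

theorem Gr.shift {K : ℝ} {ψ : ℝ → ℝ} (h : Gr K ψ) (v x g : ℝ) :
    |ψ (x + Real.sqrt v * g)| ≤ K * Real.exp |x| * Real.exp (Real.sqrt v * |g|) := by
  refine (h _).trans ?_
  rw [mul_assoc, ← Real.exp_add]
  exact mul_le_mul_of_nonneg_left (Real.exp_le_exp.2 (abs_shift_le v x g)) h.K_nonneg

theorem Gr.integrable {K : ℝ} {ψ : ℝ → ℝ} (h : Gr K ψ) (hm : Measurable ψ) (v x : ℝ) :
    Integrable (fun g : ℝ => ψ (x + Real.sqrt v * g)) gm := by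
  refine Integrable.mono' ((integrable_exp_abs (Real.sqrt v)).const_mul (K * Real.exp |x|))
    (hm.comp (by fun_prop)).aestronglyMeasurable (Eventually.of_forall fun g => ?_)
  rw [Real.norm_eq_abs]
  exact h.shift v x g

/-- differentiation under the Gaussian integral -/
theorem hasDerivAt_gauss {K : ℝ} {ψ ψ' : ℝ → ℝ} (hd : ∀ x, HasDerivAt ψ (ψ' x) x)
    (hm : Measurable ψ') (hK : Gr K ψ) (hK' : Gr K ψ') (v x : ℝ) :
    HasDerivAt (fun x => ∫ g, ψ (x + Real.sqrt v * g) ∂gm)
      (∫ g, ψ' (x + Real.sqrt v * g) ∂gm) x := by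
  have hc : Continuous ψ := continuous_iff_continuousAt.2 fun x => (hd x).continuousAt
  have hb : Integrable (fun g : ℝ => K * Real.exp (|x| + 1) * Real.exp (Real.sqrt v * |g|)) gm :=
    (integrable_exp_abs (Real.sqrt v)).const_mul _
  refine (hasDerivAt_integral_of_dominated_loc_of_deriv_le (μ := gm)
    (F := fun x g => ψ (x + Real.sqrt v * g)) (F' := fun x g => ψ' (x + Real.sqrt v * g))
    (x₀ := x) (s := Metric.ball x 1) (bound := fun g => K * Real.exp (|x| + 1) *
      Real.exp (Real.sqrt v * |g|)) (Metric.ball_mem_nhds x one_pos) ?_ ?_ ?_ ?_ hb ?_).2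
  · exact Eventually.of_forall fun y => (hc.measurable.comp (by fun_prop)).aestronglyMeasurable
  · exact hK.integrable hc.measurable v x
  · exact (hm.comp (by fun_prop)).aestronglyMeasurable
  · refine Eventually.of_forall fun g y hy => ?_
    rw [Real.norm_eq_abs]
    refine (hK'.shift v y g).trans ?_
    refine mul_le_mul_of_nonneg_right ?_ (Real.exp_pos _).le
    refine mul_le_mul_of_nonneg_left (Real.exp_le_exp.2 ?_) hK.K_nonneg
    rw [Metric.mem_ball, Real.dist_eq] at hy
    have h1 : |y| ≤ |x| + |y - x| := by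
      have := abs_add_le x (y - x)
      rwa [add_sub_cancel] at this
    linarith
  · refine Eventually.of_forall fun g y _ => ?_
    exact (hd (y + Real.sqrt v * g)).comp_add_const y (Real.sqrt v * g)

/-- tilted average -/
def av (ζ v : ℝ) (f φ : ℝ → ℝ) (x : ℝ) : ℝ :=
  (∫ g, φ (x + Real.sqrt v * g) * Real.exp (ζ * f (x + Real.sqrt v * g)) ∂gm) /
    ∫ g, Real.exp (ζ * f (x + Real.sqrt v * g)) ∂gm

/-- `1`-Lipschitz functions -/
def Lip (f : ℝ → ℝ) : Prop := ∀ x y, |f x - f y| ≤ |x - y|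

theorem Lip.cont {f : ℝ → ℝ} (hf : Lip f) : Continuous f := by
  have : LipschitzWith 1 f := LipschitzWith.of_dist_le_mul fun x y => by
    rw [Real.dist_eq, Real.dist_eq]; simpa using hf x y
  exact this.continuous

theorem Lip.bound {f : ℝ → ℝ} (hf : Lip f) (x : ℝ) : |f x| ≤ |f 0| + |x| := by
  have h := hf x 0
  rw [sub_zero] at h
  have h2 := abs_add_le (f 0) (f x - f 0)
  rw [add_sub_cancel] at h2
  linarith

theorem Lip.gr_exp {f : ℝ → ℝ} (hf : Lip f) {ζ : ℝ} (h0 : 0 ≤ ζ) (h1 : ζ ≤ 1) {B : ℝ}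
    {φ : ℝ → ℝ} (hφ : ∀ x, |φ x| ≤ B) :
    Gr (B * Real.exp |f 0|) (fun x => φ x * Real.exp (ζ * f x)) := by
  intro x
  have hB : 0 ≤ B := (abs_nonneg _).trans (hφ 0)
  rw [abs_mul, abs_of_pos (Real.exp_pos (ζ * f x)), mul_assoc, ← Real.exp_add]
  refine mul_le_mul (hφ x) (Real.exp_le_exp.2 ?_) (Real.exp_pos _).le hB
  have h2 := hf.bound x
  have h3 := le_abs_self (f x)
  have h4 : ζ * f x ≤ ζ * (|f 0| + |x|) := mul_le_mul_of_nonneg_left (by linarith) h0
  have h5 : ζ * (|f 0| + |x|) ≤ 1 * (|f 0| + |x|) :=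
    mul_le_mul_of_nonneg_right h1 (by positivity)
  linarith

theorem Lip.gr_exp1 {f : ℝ → ℝ} (hf : Lip f) {ζ : ℝ} (h0 : 0 ≤ ζ) (h1 : ζ ≤ 1) :
    Gr (Real.exp |f 0|) (fun x => Real.exp (ζ * f x)) := by
  have := hf.gr_exp h0 h1 (φ := fun _ => 1) (B := 1) (fun _ => by simp)
  simpa using this

theorem Lip.integrable_exp {f : ℝ → ℝ} (hf : Lip f) {ζ : ℝ} (h0 : 0 ≤ ζ) (h1 : ζ ≤ 1)
    (v x : ℝ) : Integrable (fun g => Real.exp (ζ * f (x + Real.sqrt v * g))) gm :=
  (hf.gr_exp1 h0 h1).integrable (by have := hf.cont.measurable; fun_prop) v x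

theorem Lip.den_pos {f : ℝ → ℝ} (hf : Lip f) {ζ : ℝ} (h0 : 0 ≤ ζ) (h1 : ζ ≤ 1)
    (v x : ℝ) : 0 < ∫ g, Real.exp (ζ * f (x + Real.sqrt v * g)) ∂gm :=
  integral_exp_pos (hf.integrable_exp h0 h1 v x)

theorem Lip.integrable_mul {f : ℝ → ℝ} (hf : Lip f) {ζ : ℝ} (h0 : 0 ≤ ζ) (h1 : ζ ≤ 1) {B : ℝ}
    {φ : ℝ → ℝ} (hφ : ∀ x, |φ x| ≤ B) (hm : Measurable φ) (v x : ℝ) :
    Integrable (fun g => φ (x + Real.sqrt v * g) * Real.exp (ζ * f (x + Real.sqrt v * g))) gm :=
  (hf.gr_exp h0 h1 hφ).integrable (by have := hf.cont.measurable; fun_prop) v x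

section avlemmas

variable {f : ℝ → ℝ} {ζ : ℝ}

theorem av_const (hf : Lip f) (h0 : 0 ≤ ζ) (h1 : ζ ≤ 1) (v x c : ℝ) :
    av ζ v f (fun _ => c) x = c := by
  unfold av
  rw [integral_const_mul, mul_div_assoc, div_self (hf.den_pos h0 h1 v x).ne', mul_one]

theorem av_mono (hf : Lip f) (h0 : 0 ≤ ζ) (h1 : ζ ≤ 1) (v x : ℝ) {φ φ' : ℝ → ℝ} {B B' : ℝ}
    (hφ : ∀ x, |φ x| ≤ B) (hm : Measurable φ) (hφ' : ∀ x, |φ' x| ≤ B') (hm' : Measurable φ')
    (hle : ∀ x, φ x ≤ φ' x) : av ζ v f φ x ≤ av ζ v f φ' x := by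
  unfold av
  refine div_le_div_of_nonneg_right ?_ (hf.den_pos h0 h1 v x).le
  refine integral_mono (hf.integrable_mul h0 h1 hφ hm v x)
    (hf.integrable_mul h0 h1 hφ' hm' v x) fun g => ?_
  exact mul_le_mul_of_nonneg_right (hle _) (Real.exp_pos _).le

theorem av_add (hf : Lip f) (h0 : 0 ≤ ζ) (h1 : ζ ≤ 1) (v x : ℝ) {φ φ' : ℝ → ℝ} {B B' : ℝ}
    (hφ : ∀ x, |φ x| ≤ B) (hm : Measurable φ) (hφ' : ∀ x, |φ' x| ≤ B') (hm' : Measurable φ') :
    av ζ v f (fun y => φ y + φ' y) x = av ζ v f φ x + av ζ v f φ' x := by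
  unfold av
  rw [← add_div, ← integral_add (hf.integrable_mul h0 h1 hφ hm v x)
    (hf.integrable_mul h0 h1 hφ' hm' v x)]
  congr 1
  refine integral_congr_ae (Eventually.of_forall fun g => ?_)
  ring

theorem av_smul (v x c : ℝ) (φ : ℝ → ℝ) :
    av ζ v f (fun y => c * φ y) x = c * av ζ v f φ x := by
  unfold av
  rw [← mul_div_assoc, ← integral_const_mul]
  congr 1
  refine integral_congr_ae (Eventually.of_forall fun g => ?_)
  ring

theorem av_abs (hf : Lip f) (h0 : 0 ≤ ζ) (h1 : ζ ≤ 1) (v x : ℝ) {φ : ℝ → ℝ} {B : ℝ}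
    (hφ : ∀ x, |φ x| ≤ B) (hm : Measurable φ) : |av ζ v f φ x| ≤ B := by
  have e1 := av_mono hf h0 h1 v x hφ hm (φ' := fun _ => B) (B' := |B|) (fun _ => le_rfl)
    measurable_const (fun y => (abs_le.1 (hφ y)).2)
  have e2 := av_mono hf h0 h1 v x (φ := fun _ => -B) (B := |B|) (fun _ => by rw [abs_neg])
    measurable_const hφ hm (fun y => (abs_le.1 (hφ y)).1)
  rw [av_const hf h0 h1] at e1 e2
  exact abs_le.2 ⟨e2, e1⟩

theorem av_pos (hf : Lip f) (h0 : 0 ≤ ζ) (h1 : ζ ≤ 1) (v x : ℝ) {φ : ℝ → ℝ} {B : ℝ}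
    (hφ : ∀ x, |φ x| ≤ B) (hm : Measurable φ) (hp : ∀ x, 0 < φ x) : 0 < av ζ v f φ x := by
  unfold av
  refine div_pos ?_ (hf.den_pos h0 h1 v x)
  rw [integral_pos_iff_support_of_nonneg (fun g => (mul_pos (hp _) (Real.exp_pos _)).le)
    (hf.integrable_mul h0 h1 hφ hm v x)]
  have : Function.support (fun g => φ (x + Real.sqrt v * g) *
      Real.exp (ζ * f (x + Real.sqrt v * g))) = Set.univ := by
    rw [Set.eq_univ_iff_forall]
    intro g
    rw [Function.mem_support]
    exact (mul_pos (hp _) (Real.exp_pos _)).ne'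
  rw [this]
  simp

/-- Jensen for the square -/
theorem av_sq (hf : Lip f) (h0 : 0 ≤ ζ) (h1 : ζ ≤ 1) (v x : ℝ) {φ : ℝ → ℝ} {B : ℝ}
    (hφ : ∀ x, |φ x| ≤ B) (hm : Measurable φ) :
    av ζ v f φ x ^ 2 ≤ av ζ v f (fun y => φ y ^ 2) x := by
  set m := av ζ v f φ x with hmdef
  have hB : 0 ≤ B := (abs_nonneg _).trans (hφ 0)
  have hsq : ∀ x, |φ x ^ 2| ≤ B ^ 2 := fun y => by
    rw [abs_pow]; exact pow_le_pow_left₀ (abs_nonneg _) (hφ y) 2
  have h2 : av ζ v f (fun y => φ y ^ 2 + (-(2 * m)) * φ y) x ≥ av ζ v f (fun _ => -m ^ 2) x := by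
    refine av_mono hf h0 h1 v x (B := |-m ^ 2|) (B' := B ^ 2 + |-(2 * m)| * B) (fun _ => le_rfl)
      measurable_const (fun y => ?_) (by fun_prop) (fun y => ?_)
    · refine (abs_add_le _ _).trans (add_le_add (hsq y) ?_)
      rw [abs_mul]
      exact mul_le_mul_of_nonneg_left (hφ y) (abs_nonneg _)
    · nlinarith [sq_nonneg (φ y - m)]
  rw [av_const hf h0 h1, av_add hf h0 h1 v x hsq (by fun_prop) (φ' := fun y => -(2 * m) * φ y)
    (B' := |-(2 * m)| * B) (fun y => by
      rw [abs_mul]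
      exact mul_le_mul_of_nonneg_left (hφ y) (abs_nonneg _)) (by fun_prop),
    av_smul, ← hmdef] at h2
  nlinarith

end avlemmas

/-- derivative of a tilted average -/
theorem hasDerivAt_av {f f1 : ℝ → ℝ} (hf : Lip f) (hd : ∀ x, HasDerivAt f (f1 x) x)
    (hb1 : ∀ x, |f1 x| ≤ 1) (hm1 : Measurable f1) {ζ : ℝ} (h0 : 0 ≤ ζ) (h1 : ζ ≤ 1)
    {φ φ' : ℝ → ℝ} {B : ℝ} (hφ : ∀ x, |φ x| ≤ B) (hφ' : ∀ x, |φ' x| ≤ B)
    (hdφ : ∀ x, HasDerivAt φ (φ' x) x) (hm' : Measurable φ') (v x : ℝ) :
    HasDerivAt (av ζ v f φ) (av ζ v f φ' x +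
      ζ * (av ζ v f (fun y => φ y * f1 y) x - av ζ v f φ x * av ζ v f f1 x)) x := by
  have hB : 0 ≤ B := (abs_nonneg _).trans (hφ 0)
  have hcφ : Continuous φ := continuous_iff_continuousAt.2 fun x => (hdφ x).continuousAt
  have hmf := hf.cont.measurable
  have hmφ := hcφ.measurable
  -- numerator
  have hN : HasDerivAt (fun x => ∫ g, φ (x + Real.sqrt v * g) *
      Real.exp (ζ * f (x + Real.sqrt v * g)) ∂gm)
      (∫ g, (fun y => (φ' y + ζ * (φ y * f1 y)) * Real.exp (ζ * f y)) (x + Real.sqrt v * g) ∂gm)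
      x := by
    refine hasDerivAt_gauss (K := (B + B) * Real.exp |f 0|)
      (ψ := fun y => φ y * Real.exp (ζ * f y))
      (ψ' := fun y => (φ' y + ζ * (φ y * f1 y)) * Real.exp (ζ * f y))
      (fun y => ?_) (by fun_prop) ?_ ?_ v x
    · have h2 := (hdφ y).fun_mul (((hd y).const_mul ζ).exp)
      refine h2.congr_deriv ?_
      ring
    · refine hf.gr_exp h0 h1 (B := B + B) (fun y => (hφ y).trans (by linarith))
    · refine hf.gr_exp h0 h1 (B := B + B) (fun y => ?_)
      refine (abs_add_le _ _).trans (add_le_add (hφ' y) ?_)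
      rw [abs_mul, abs_mul, abs_of_nonneg h0]
      calc ζ * (|φ y| * |f1 y|) ≤ 1 * (B * 1) := by
            refine mul_le_mul h1 ?_ (by positivity) (by norm_num)
            exact mul_le_mul (hφ y) (hb1 y) (abs_nonneg _) hB
        _ = B := by ring
  have hD : HasDerivAt (fun x => ∫ g, Real.exp (ζ * f (x + Real.sqrt v * g)) ∂gm)
      (∫ g, (fun y => (ζ * f1 y) * Real.exp (ζ * f y)) (x + Real.sqrt v * g) ∂gm) x := by
    refine hasDerivAt_gauss (K := 1 * Real.exp |f 0|)
      (ψ := fun y => Real.exp (ζ * f y)) (ψ' := fun y => (ζ * f1 y) * Real.exp (ζ * f y))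
      (fun y => ?_) (by fun_prop) ?_ ?_ v x
    · have h2 := ((hd y).const_mul ζ).exp
      refine h2.congr_deriv ?_
      ring
    · have := hf.gr_exp1 h0 h1
      simpa using this
    · refine hf.gr_exp h0 h1 (B := 1) (fun y => ?_)
      rw [abs_mul, abs_of_nonneg h0]
      exact mul_le_one₀ h1 (abs_nonneg _) (hb1 y)
  have hdp := hf.den_pos h0 h1 v x
  have h := hN.div hD hdp.ne'
  refine h.congr_deriv ?_
  have e1 : ∫ g, (fun y => (φ' y + ζ * (φ y * f1 y)) * Real.exp (ζ * f y))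
      (x + Real.sqrt v * g) ∂gm = (∫ g, φ' (x + Real.sqrt v * g) *
        Real.exp (ζ * f (x + Real.sqrt v * g)) ∂gm) + ζ * ∫ g, (φ (x + Real.sqrt v * g) *
        f1 (x + Real.sqrt v * g)) * Real.exp (ζ * f (x + Real.sqrt v * g)) ∂gm := by
    rw [← integral_const_mul, ← integral_add]
    · refine integral_congr_ae (Eventually.of_forall fun g => ?_)
      show (φ' _ + ζ * (φ _ * f1 _)) * _ = _
      ring
    · exact hf.integrable_mul h0 h1 hφ' hm' v x
    · exact (hf.integrable_mul h0 h1 (φ := fun y => φ y * f1 y) (B := B * 1) (fun y => by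
        rw [abs_mul]; exact mul_le_mul (hφ y) (hb1 y) (abs_nonneg _) hB) (by fun_prop)
        v x).const_mul ζ
  have e2 : ∫ g, (fun y => (ζ * f1 y) * Real.exp (ζ * f y)) (x + Real.sqrt v * g) ∂gm =
      ζ * ∫ g, f1 (x + Real.sqrt v * g) * Real.exp (ζ * f (x + Real.sqrt v * g)) ∂gm := by
    rw [← integral_const_mul]
    refine integral_congr_ae (Eventually.of_forall fun g => ?_)
    show (ζ * f1 _) * _ = _
    ring
  rw [e1, e2]
  unfold av
  field_simp
  ring

end

end Crest.Agent.R164.Cv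
end

-- ▼ part R164/CvB
section

/-!
Row 164 (helper491), part B: the class preserved by `gaussOp`.
-/

set_option autoImplicit false

namespace Crest.Agent.R164.Cv

open MeasureTheory Set Filter Topology ProbabilityTheory
open Crest.ProbabilityR.InvariantGlass

noncomputable section

/-- the class of one-site functions -/
structure Cls (C : ℝ) (f : ℝ → ℝ) : Prop where
  d1 : Differentiable ℝ f
  d2 : Differentiable ℝ (deriv f)
  d3 : Differentiable ℝ (deriv (deriv f))
  pos : ∀ x, 0 < deriv (deriv f) x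
  gen : ∀ x, deriv (deriv f) x + deriv f x ^ 2 ≤ 1
  b3 : ∀ x, |deriv (deriv (deriv f)) x| ≤ C
  even : ∀ x, f (-x) = f x

namespace Cls

variable {C : ℝ} {f : ℝ → ℝ}

theorem h1 (hf : Cls C f) (x : ℝ) : HasDerivAt f (deriv f x) x := (hf.d1 x).hasDerivAt
theorem h2 (hf : Cls C f) (x : ℝ) : HasDerivAt (deriv f) (deriv (deriv f) x) x :=
  (hf.d2 x).hasDerivAt
theorem h3 (hf : Cls C f) (x : ℝ) :
    HasDerivAt (deriv (deriv f)) (deriv (deriv (deriv f)) x) x := (hf.d3 x).hasDerivAt

theorem m1 (_hf : Cls C f) : Measurable (deriv f) := measurable_deriv f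
theorem m2 (_hf : Cls C f) : Measurable (deriv (deriv f)) := measurable_deriv _
theorem m3 (_hf : Cls C f) : Measurable (deriv (deriv (deriv f))) := measurable_deriv _

theorem b1' (hf : Cls C f) (x : ℝ) : |deriv f x| < 1 := by
  have h1 := hf.pos x
  have h2 := hf.gen x
  rw [abs_lt]
  constructor <;> nlinarith

theorem b1 (hf : Cls C f) (x : ℝ) : |deriv f x| ≤ 1 := (hf.b1' x).le

theorem b2 (hf : Cls C f) (x : ℝ) : |deriv (deriv f) x| ≤ 1 := by
  rw [abs_of_pos (hf.pos x)]
  nlinarith [hf.gen x, sq_nonneg (deriv f x)]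

theorem lip (hf : Cls C f) : Lip f := by
  intro x y
  have h := Convex.norm_image_sub_le_of_norm_deriv_le (𝕜 := ℝ) (f := f) (C := 1) (s := univ)
    (fun x _ => hf.d1 x) (fun x _ => by rw [Real.norm_eq_abs]; exact hf.b1 x) convex_univ
    (mem_univ y) (mem_univ x)
  rw [Real.norm_eq_abs, Real.norm_eq_abs, one_mul] at h
  exact h

theorem strictMono (hf : Cls C f) : StrictMono (deriv f) :=
  strictMono_of_deriv_pos hf.pos

theorem mono (hf : Cls C f) {C' : ℝ} (h : C ≤ C') : Cls C' f :=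
  ⟨hf.d1, hf.d2, hf.d3, hf.pos, hf.gen, fun x => (hf.b3 x).trans h, hf.even⟩

theorem C_nonneg (hf : Cls C f) : 0 ≤ C := (abs_nonneg _).trans (hf.b3 0)

end Cls

theorem gaussOp_zero_eq {v : ℝ} {f : ℝ → ℝ} :
    gaussOp 0 v f = fun x => ∫ g, f (x + Real.sqrt v * g) ∂gm := by
  funext x
  unfold gaussOp
  rw [if_pos rfl]

theorem gaussOp_pos_eq {ζ v : ℝ} (h : 0 < ζ) {f : ℝ → ℝ} :
    gaussOp ζ v f = fun x => ζ⁻¹ * Real.log (∫ g, Real.exp (ζ * f (x + Real.sqrt v * g)) ∂gm) := by
  funext x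
  unfold gaussOp
  rw [if_neg h.ne']

/-- first derivative of `gaussOp` -/
theorem hasDerivAt_gaussOp {f f1 : ℝ → ℝ} (hf : Lip f) (hd : ∀ x, HasDerivAt f (f1 x) x)
    (hb1 : ∀ x, |f1 x| ≤ 1) (hm1 : Measurable f1) {ζ : ℝ} (h0 : 0 ≤ ζ) (h1 : ζ ≤ 1) (v x : ℝ) :
    HasDerivAt (gaussOp ζ v f) (av ζ v f f1 x) x := by
  have hmf := hf.cont.measurable
  rcases h0.eq_or_lt with h | h
  · subst h
    rw [gaussOp_zero_eq]
    have e : av 0 v f f1 x = ∫ g, f1 (x + Real.sqrt v * g) ∂gm := by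
      unfold av
      simp
    rw [e]
    refine hasDerivAt_gauss (K := |f 0| + 1) hd hm1 (fun y => ?_) (fun y => ?_) v x
    · have h2 := hf.bound y
      have h3 := Real.add_one_le_exp |y|
      have h4 := abs_nonneg (f 0)
      have h5 : 1 ≤ Real.exp |y| := Real.one_le_exp (abs_nonneg y)
      nlinarith
    · have h5 : 1 ≤ Real.exp |y| := Real.one_le_exp (abs_nonneg y)
      have h4 := abs_nonneg (f 0)
      nlinarith [hb1 y]
  · rw [gaussOp_pos_eq h]
    have hD : HasDerivAt (fun x => ∫ g, Real.exp (ζ * f (x + Real.sqrt v * g)) ∂gm)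
        (∫ g, (fun y => (ζ * f1 y) * Real.exp (ζ * f y)) (x + Real.sqrt v * g) ∂gm) x := by
      refine hasDerivAt_gauss (K := 1 * Real.exp |f 0|)
        (ψ := fun y => Real.exp (ζ * f y)) (ψ' := fun y => (ζ * f1 y) * Real.exp (ζ * f y))
        (fun y => ?_) (by fun_prop) ?_ ?_ v x
      · have h2 := ((hd y).const_mul ζ).exp
        refine h2.congr_deriv ?_
        ring
      · have := hf.gr_exp1 h0 h1
        simpa using this
      · refine hf.gr_exp h0 h1 (B := 1) (fun y => ?_)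
        rw [abs_mul, abs_of_nonneg h0]
        exact mul_le_one₀ h1 (abs_nonneg _) (hb1 y)
    have hdp := hf.den_pos h0 h1 v x
    have h2 := (hD.log hdp.ne').const_mul ζ⁻¹
    refine h2.congr_deriv ?_
    have e2 : ∫ g, (fun y => (ζ * f1 y) * Real.exp (ζ * f y)) (x + Real.sqrt v * g) ∂gm =
        ζ * ∫ g, f1 (x + Real.sqrt v * g) * Real.exp (ζ * f (x + Real.sqrt v * g)) ∂gm := by
      rw [← integral_const_mul]
      refine integral_congr_ae (Eventually.of_forall fun g => ?_)
      show (ζ * f1 _) * _ = _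
      ring
    rw [e2]
    unfold av
    field_simp

/-- the derivatives of `gaussOp ζ v f` for `f` in the class -/
theorem deriv_gaussOp {C : ℝ} {f : ℝ → ℝ} (hf : Cls C f) {ζ : ℝ} (h0 : 0 ≤ ζ) (h1 : ζ ≤ 1)
    (v : ℝ) : deriv (gaussOp ζ v f) = av ζ v f (deriv f) := by
  funext x
  exact (hasDerivAt_gaussOp hf.lip hf.h1 hf.b1 hf.m1 h0 h1 v x).deriv

theorem hasDerivAt_deriv_gaussOp {C : ℝ} {f : ℝ → ℝ} (hf : Cls C f) {ζ : ℝ} (h0 : 0 ≤ ζ)
    (h1 : ζ ≤ 1) (v x : ℝ) : HasDerivAt (deriv (gaussOp ζ v f))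
      (av ζ v f (deriv (deriv f)) x +
      ζ * (av ζ v f (fun y => deriv f y ^ 2) x - av ζ v f (deriv f) x ^ 2)) x := by
  rw [deriv_gaussOp hf h0 h1]
  have h := hasDerivAt_av hf.lip hf.h1 hf.b1 hf.m1 h0 h1 (B := 1) hf.b1 hf.b2 hf.h2 hf.m2 v x
  refine h.congr_deriv ?_
  have e : (fun y => deriv f y * deriv f y) = fun y => deriv f y ^ 2 := by
    funext y; ring
  rw [e]
  ring

theorem deriv2_gaussOp {C : ℝ} {f : ℝ → ℝ} (hf : Cls C f) {ζ : ℝ} (h0 : 0 ≤ ζ)
    (h1 : ζ ≤ 1) (v : ℝ) : deriv (deriv (gaussOp ζ v f)) = fun x =>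
      av ζ v f (deriv (deriv f)) x +
      ζ * (av ζ v f (fun y => deriv f y ^ 2) x - av ζ v f (deriv f) x ^ 2) := by
  funext x
  exact (hasDerivAt_deriv_gaussOp hf h0 h1 v x).deriv

theorem sq_le_one_of_abs {a : ℝ} (h : |a| ≤ 1) : a ^ 2 ≤ 1 := by
  have := abs_le.1 h
  nlinarith

theorem Cls.gop {C : ℝ} {f : ℝ → ℝ} (hf : Cls C f) {ζ : ℝ} (h0 : 0 ≤ ζ)
    (h1 : ζ ≤ 1) (v : ℝ) : Cls (C + 8) (gaussOp ζ v f) := by
  have bsq : ∀ x, |deriv f x ^ 2| ≤ 1 := fun x => by
    rw [abs_of_nonneg (sq_nonneg _)]; exact sq_le_one_of_abs (hf.b1 x)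
  have msq : Measurable fun x => deriv f x ^ 2 := hf.m1.pow_const 2
  have hpos : ∀ x, 0 < deriv (deriv (gaussOp ζ v f)) x := fun x => by
    rw [deriv2_gaussOp hf h0 h1]
    have a1 := av_pos hf.lip h0 h1 v x hf.b2 hf.m2 hf.pos
    have a2 := av_sq hf.lip h0 h1 v x hf.b1 hf.m1
    have a3 := mul_nonneg h0 (sub_nonneg.2 a2)
    show 0 < av ζ v f (deriv (deriv f)) x + ζ * (av ζ v f (fun y => deriv f y ^ 2) x -
      av ζ v f (deriv f) x ^ 2)
    linarith
  have hgen : ∀ x, deriv (deriv (gaussOp ζ v f)) x +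
      deriv (gaussOp ζ v f) x ^ 2 ≤ 1 := fun x => by
    rw [deriv2_gaussOp hf h0 h1, deriv_gaussOp hf h0 h1]
    have a2 := av_sq hf.lip h0 h1 v x hf.b1 hf.m1
    have a4 : av ζ v f (fun y => deriv (deriv f) y + deriv f y ^ 2) x ≤
        av ζ v f (fun _ => 1) x := by
      refine av_mono hf.lip h0 h1 v x (B := 1 + 1) (B' := 1) (fun y => ?_) (by
        have := hf.m2; fun_prop) (fun _ => by simp) measurable_const hf.gen
      exact (abs_add_le _ _).trans (add_le_add (hf.b2 y) (bsq y))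
    rw [av_const hf.lip h0 h1, av_add hf.lip h0 h1 v x hf.b2 hf.m2 bsq msq] at a4
    show av ζ v f (deriv (deriv f)) x + ζ * (av ζ v f (fun y => deriv f y ^ 2) x -
      av ζ v f (deriv f) x ^ 2) + av ζ v f (deriv f) x ^ 2 ≤ 1
    have a5 := mul_nonneg (sub_nonneg.2 h1) (sub_nonneg.2 a2)
    nlinarith
  -- third derivative
  have hd3 : ∀ x, HasDerivAt (deriv (deriv (gaussOp ζ v f)))
      ((av ζ v f (deriv (deriv (deriv f))) x + ζ * (av ζ v f (fun y => deriv (deriv f) y *
        deriv f y) x - av ζ v f (deriv (deriv f)) x * av ζ v f (deriv f) x)) +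
      ζ * ((av ζ v f (fun y => 2 * deriv f y * deriv (deriv f) y) x +
        ζ * (av ζ v f (fun y => deriv f y ^ 2 * deriv f y) x - av ζ v f (fun y => deriv f y ^ 2) x *
          av ζ v f (deriv f) x)) - 2 * av ζ v f (deriv f) x *
          deriv (deriv (gaussOp ζ v f)) x)) x := by
    intro x
    rw [deriv2_gaussOp hf h0 h1]
    have b1 := hasDerivAt_av hf.lip hf.h1 hf.b1 hf.m1 h0 h1 (B := C + 1)
      (fun y => (hf.b2 y).trans (by linarith [hf.C_nonneg]))
      (fun y => (hf.b3 y).trans (by linarith)) hf.h3 hf.m3 v x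
    have b2 := hasDerivAt_av hf.lip hf.h1 hf.b1 hf.m1 h0 h1 (B := 2)
      (φ := fun y => deriv f y ^ 2) (φ' := fun y => 2 * deriv f y * deriv (deriv f) y)
      (fun y => (bsq y).trans (by norm_num)) (fun y => by
        rw [abs_mul, abs_mul, abs_two]
        have := hf.b1 y
        have := hf.b2 y
        have := abs_nonneg (deriv f y)
        nlinarith [abs_nonneg (deriv (deriv f) y)])
      (fun y => by
        refine ((hf.h2 y).fun_pow 2).congr_deriv ?_
        norm_num)
      (by have := hf.m1; have := hf.m2; fun_prop) v x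
    have b3 := hasDerivAt_deriv_gaussOp hf h0 h1 v x
    rw [deriv_gaussOp hf h0 h1] at b3
    have b4 := b1.fun_add ((b2.fun_sub (b3.fun_pow 2)).const_mul ζ)
    refine b4.congr_deriv ?_
    norm_num
  refine ⟨fun x => (hasDerivAt_gaussOp hf.lip hf.h1 hf.b1 hf.m1 h0 h1 v x).differentiableAt,
    fun x => (hasDerivAt_deriv_gaussOp hf h0 h1 v x).differentiableAt,
    fun x => (hd3 x).differentiableAt, hpos, hgen, fun x => ?_, fun x => ?_⟩
  · rw [(hd3 x).deriv]
    have c1 := av_abs hf.lip h0 h1 v x hf.b3 hf.m3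
    have c2 := av_abs hf.lip h0 h1 v x (φ := fun y => deriv (deriv f) y * deriv f y) (B := 1)
      (fun y => by rw [abs_mul]; exact mul_le_one₀ (hf.b2 y) (abs_nonneg _) (hf.b1 y))
      (by have := hf.m1; have := hf.m2; fun_prop)
    have c3 := av_abs hf.lip h0 h1 v x hf.b2 hf.m2
    have c4 := av_abs hf.lip h0 h1 v x hf.b1 hf.m1
    have c5 := av_abs hf.lip h0 h1 v x (φ := fun y => 2 * deriv f y * deriv (deriv f) y) (B := 2)
      (fun y => by
        rw [abs_mul, abs_mul, abs_two]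
        have := hf.b1 y
        have := hf.b2 y
        have := abs_nonneg (deriv f y)
        nlinarith [abs_nonneg (deriv (deriv f) y)])
      (by have := hf.m1; have := hf.m2; fun_prop)
    have c6 := av_abs hf.lip h0 h1 v x (φ := fun y => deriv f y ^ 2 * deriv f y) (B := 1)
      (fun y => by rw [abs_mul]; exact mul_le_one₀ (bsq y) (abs_nonneg _) (hf.b1 y))
      (by have := hf.m1; fun_prop)
    have c7 := av_abs hf.lip h0 h1 v x bsq msq
    have c8 : |deriv (deriv (gaussOp ζ v f)) x| ≤ 1 := by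
      rw [abs_of_pos (hpos x)]
      nlinarith [hgen x, sq_nonneg (deriv (gaussOp ζ v f) x)]
    have key : ∀ a b c d e k l m : ℝ, |a| ≤ C → |b| ≤ 1 → |c| ≤ 1 → |d| ≤ 1 → |e| ≤ 2 → |k| ≤ 1 →
        |l| ≤ 1 → |m| ≤ 1 →
        |(a + ζ * (b - c * d)) + ζ * ((e + ζ * (k - l * d)) - 2 * d * m)| ≤ C + 8 := by
      intro a b c d e k l m ha hb hc hd he hk hl hm
      have t1 : |c * d| ≤ 1 := by rw [abs_mul]; exact mul_le_one₀ hc (abs_nonneg _) hd
      have t2 : |l * d| ≤ 1 := by rw [abs_mul]; exact mul_le_one₀ hl (abs_nonneg _) hd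
      have t3 : |d * m| ≤ 1 := by rw [abs_mul]; exact mul_le_one₀ hd (abs_nonneg _) hm
      have t4 : |ζ * (b - c * d)| ≤ 2 := by
        rw [abs_mul, abs_of_nonneg h0]
        have : |b - c * d| ≤ 2 := (abs_sub _ _).trans (by linarith)
        nlinarith [abs_nonneg (b - c * d)]
      have t5 : |ζ * (k - l * d)| ≤ 2 := by
        rw [abs_mul, abs_of_nonneg h0]
        have : |k - l * d| ≤ 2 := (abs_sub _ _).trans (by linarith)
        nlinarith [abs_nonneg (k - l * d)]
      have t6 : |(e + ζ * (k - l * d)) - 2 * d * m| ≤ 6 := by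
        refine (abs_sub _ _).trans ?_
        have := abs_add_le e (ζ * (k - l * d))
        have e2 : |2 * d * m| ≤ 2 := by
          rw [mul_assoc, abs_mul, abs_two]; linarith
        linarith
      have t7 : |ζ * ((e + ζ * (k - l * d)) - 2 * d * m)| ≤ 6 := by
        rw [abs_mul, abs_of_nonneg h0]
        nlinarith [abs_nonneg ((e + ζ * (k - l * d)) - 2 * d * m)]
      have t8 := abs_add_le (a + ζ * (b - c * d)) (ζ * ((e + ζ * (k - l * d)) - 2 * d * m))
      have t9 := abs_add_le a (ζ * (b - c * d))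
      linarith
    exact key _ _ _ _ _ _ _ _ c1 c2 c3 c4 c5 c6 c7 c8
  · have hneg : ∀ F : ℝ → ℝ, ∫ g, F (-g) ∂gm = ∫ g, F g ∂gm := by
      intro F
      have h : gm.map (fun x : ℝ => -x) = gm := by
        rw [gaussianReal_map_neg, neg_zero]
      conv_rhs => rw [← h]
      exact (integral_map_equiv (MeasurableEquiv.neg ℝ) F).symm
    have e2 : ∀ g : ℝ, f (-x + Real.sqrt v * -g) = f (x + Real.sqrt v * g) := fun g => by
      have : -x + Real.sqrt v * -g = -(x + Real.sqrt v * g) := by ring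
      rw [this, hf.even]
    unfold gaussOp
    split_ifs with h
    · rw [← hneg (fun g => f (-x + Real.sqrt v * g))]
      simp only [e2]
    · rw [← hneg (fun g => Real.exp (ζ * f (-x + Real.sqrt v * g)))]
      simp only [e2]

end

end Crest.Agent.R164.Cv
end

-- ▼ part R164/CvC
section

/-!
Row 164 (helper491), part C: log cosh, asymptotics, semigroup, small time expansion.
-/

set_option autoImplicit false

namespace Crest.Agent.R164.Cv

open MeasureTheory Set Filter Topology ProbabilityTheory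
open Crest.ProbabilityR.InvariantGlass

noncomputable section

/-- `log cosh` -/
def lc : ℝ → ℝ := fun z => Real.log (Real.cosh z)

/-- `tanh` -/
def th (x : ℝ) : ℝ := Real.sinh x / Real.cosh x

theorem hasDerivAt_lc (x : ℝ) : HasDerivAt lc (th x) x :=
  (Real.hasDerivAt_cosh x).log (Real.cosh_pos x).ne'

theorem hasDerivAt_th (x : ℝ) : HasDerivAt th (1 - th x ^ 2) x := by
  have h := (Real.hasDerivAt_sinh x).div (Real.hasDerivAt_cosh x) (Real.cosh_pos x).ne'
  refine h.congr_deriv ?_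
  unfold th
  have := (Real.cosh_pos x).ne'
  field_simp

theorem deriv_lc : deriv lc = th := funext fun x => (hasDerivAt_lc x).deriv

theorem deriv_th : deriv th = fun x => 1 - th x ^ 2 := funext fun x => (hasDerivAt_th x).deriv

theorem th_sq_lt (x : ℝ) : th x ^ 2 < 1 := by
  unfold th
  rw [div_pow, div_lt_one (by have := Real.cosh_pos x; positivity)]
  have := Real.cosh_sq' x
  linarith

theorem hasDerivAt_th2 (x : ℝ) :
    HasDerivAt (fun x => 1 - th x ^ 2) (-(2 * th x * (1 - th x ^ 2))) x := by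
  have h := ((hasDerivAt_th x).fun_pow 2).const_sub 1
  refine h.congr_deriv ?_
  norm_num

theorem cls_lc : Cls 2 lc := by
  refine ⟨fun x => (hasDerivAt_lc x).differentiableAt, ?_, ?_, ?_, ?_, ?_, fun x => ?_⟩
  · rw [deriv_lc]; exact fun x => (hasDerivAt_th x).differentiableAt
  · rw [deriv_lc, deriv_th]; exact fun x => (hasDerivAt_th2 x).differentiableAt
  · rw [deriv_lc, deriv_th]; exact fun x => sub_pos.2 (th_sq_lt x)
  · rw [deriv_lc, deriv_th]; exact fun x => by simp
  · rw [deriv_lc, deriv_th]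
    intro x
    rw [(hasDerivAt_th2 x).deriv]
    have h := th_sq_lt x
    have h1 : |th x| ≤ 1 := by
      rw [abs_le]; constructor <;> nlinarith
    have h2 : |1 - th x ^ 2| ≤ 1 := by
      rw [abs_le]; constructor <;> nlinarith [sq_nonneg (th x)]
    rw [abs_neg, abs_mul, abs_mul, abs_two]
    nlinarith [abs_nonneg (th x), abs_nonneg (1 - th x ^ 2)]
  · unfold lc; simp [Real.cosh_neg]

/-! ### asymptotics -/

theorem Cls.antitone_sub {C : ℝ} {f : ℝ → ℝ} (hf : Cls C f) : Antitone (fun x => f x - x) := by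
  intro x y hxy
  have h := hf.lip y x
  rw [abs_of_nonneg (sub_nonneg.2 hxy)] at h
  have := (abs_le.1 h).2
  show f y - y ≤ f x - x
  linarith

/-- asymptotics at infinity -/
def Asy (f : ℝ → ℝ) (c : ℝ) : Prop := Tendsto (fun x => f x - x) atTop (𝓝 c)

theorem asy_lc : Asy lc (-Real.log 2) := by
  have e : ∀ x : ℝ, lc x - x = Real.log ((1 + Real.exp (-(2 * x))) / 2) := fun x => by
    unfold lc
    have h : Real.cosh x = Real.exp x * ((1 + Real.exp (-(2 * x))) / 2) := by
      rw [Real.cosh_eq]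
      have : Real.exp (-x) = Real.exp x * Real.exp (-(2 * x)) := by
        rw [← Real.exp_add]; ring_nf
      rw [this]; ring
    rw [h, Real.log_mul (Real.exp_pos _).ne' (by positivity), Real.log_exp]
    ring
  have h1 : Tendsto (fun x : ℝ => Real.exp (-(2 * x))) atTop (𝓝 0) :=
    Real.tendsto_exp_neg_atTop_nhds_zero.comp (tendsto_id.const_mul_atTop (by norm_num))
  have h2 : Tendsto (fun x : ℝ => (1 + Real.exp (-(2 * x))) / 2) atTop (𝓝 ((1 + 0) / 2)) :=
    (tendsto_const_nhds.add h1).div_const 2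
  have h3 := h2.log (by norm_num)
  unfold Asy
  simp only [e]
  convert h3 using 2
  rw [add_zero, one_div, Real.log_inv]

theorem Asy.lower {C c : ℝ} {f : ℝ → ℝ} (hf : Cls C f) (h : Asy f c) (x : ℝ) :
    |x| + c ≤ f x := by
  have key : ∀ y, c ≤ f y - y := fun y => hf.antitone_sub.le_of_tendsto h y
  rcases abs_cases x with ⟨h1, _⟩ | ⟨h1, _⟩
  · rw [h1]; linarith [key x]
  · have := key (-x)
    rw [hf.even] at this
    rw [h1]; linarith

theorem Lip.integrable {f : ℝ → ℝ} (hf : Lip f) (v x : ℝ) :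
    Integrable (fun g => f (x + Real.sqrt v * g)) gm := by
  refine Gr.integrable (K := |f 0| + 1) (fun y => ?_) hf.cont.measurable v x
  have h2 := hf.bound y
  have h3 := Real.add_one_le_exp |y|
  have h4 := abs_nonneg (f 0)
  have h5 : 1 ≤ Real.exp |y| := Real.one_le_exp (abs_nonneg y)
  nlinarith

theorem integrable_id_gm : Integrable (fun g : ℝ => g) gm := by
  refine Integrable.mono' (integrable_exp_abs 1) (by fun_prop) (Eventually.of_forall fun g => ?_)
  rw [Real.norm_eq_abs, one_mul]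
  have := Real.add_one_le_exp |g|
  linarith

theorem asy_gaussOp {C c : ℝ} {f : ℝ → ℝ} (hf : Cls C f) (h : Asy f c) {ζ v : ℝ} (h0 : 0 ≤ ζ)
    (h1 : ζ ≤ 1) (hv : 0 ≤ v) : Asy (gaussOp ζ v f) (c + ζ * v / 2) := by
  have hcont := hf.lip.cont
  rcases h0.eq_or_lt with hz | hz
  · subst hz
    unfold Asy
    rw [gaussOp_zero_eq]
    have e : ∀ x : ℝ, (∫ g, f (x + Real.sqrt v * g) ∂gm) - x =
        ∫ g, (f (x + Real.sqrt v * g) - x) ∂gm := fun x => by
      rw [integral_sub (hf.lip.integrable v x) (integrable_const _)]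
      simp
    simp only [e]
    have elim : c + 0 * v / 2 = ∫ g, (c + Real.sqrt v * g) ∂gm := by
      rw [integral_add (integrable_const _) (integrable_id_gm.const_mul _), integral_const_mul,
        integral_id_gaussianReal]
      simp
    rw [elim]
    refine tendsto_integral_filter_of_dominated_convergence
      (fun g => |c| + |f (0 + Real.sqrt v * g)| + 3 * Real.sqrt v * |g|) ?_ ?_ ?_ ?_
    · exact Eventually.of_forall fun x => by
        exact (Continuous.aestronglyMeasurable (by fun_prop))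
    · filter_upwards [eventually_ge_atTop 0] with x hx
      refine Eventually.of_forall fun g => ?_
      rw [Real.norm_eq_abs]
      have a1 : Real.sqrt v * g ≤ x + Real.sqrt v * g := by linarith
      have a2 := hf.antitone_sub a1
      have a3 : c ≤ f (x + Real.sqrt v * g) - (x + Real.sqrt v * g) :=
        hf.antitone_sub.le_of_tendsto h _
      have a4 : f (x + Real.sqrt v * g) - (x + Real.sqrt v * g) ≤
        f (Real.sqrt v * g) - Real.sqrt v * g := a2
      rw [zero_add]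
      have a5 := abs_le.1 (le_refl |f (Real.sqrt v * g)|)
      have a6 : |Real.sqrt v * g| = Real.sqrt v * |g| := by
        rw [abs_mul, abs_of_nonneg (Real.sqrt_nonneg v)]
      have a7 := abs_le.1 (le_refl |Real.sqrt v * g|)
      rw [a6] at a7
      have a8 := abs_le.1 (le_refl |c|)
      have a9 : 0 ≤ Real.sqrt v * |g| := by positivity
      rw [abs_le]
      constructor <;> linarith [abs_nonneg c, abs_nonneg (f (Real.sqrt v * g)), a5.1, a5.2,
        a7.1, a7.2, a8.1, a8.2]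
    · refine (((integrable_const _).add (hf.lip.integrable v 0).abs).add ?_)
      exact (integrable_id_gm.abs.const_mul (3 * Real.sqrt v))
    · refine Eventually.of_forall fun g => ?_
      have a1 : Tendsto (fun x : ℝ => x + Real.sqrt v * g) atTop atTop :=
        tendsto_atTop_add_const_right _ _ tendsto_id
      have a2 := (h.comp a1).add_const (Real.sqrt v * g)
      refine a2.congr fun x => ?_
      simp only [Function.comp]
      ring
  · unfold Asy
    rw [gaussOp_pos_eq hz]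
    have e : ∀ x : ℝ, ζ⁻¹ * Real.log (∫ g, Real.exp (ζ * f (x + Real.sqrt v * g)) ∂gm) - x =
        ζ⁻¹ * Real.log (∫ g, Real.exp (ζ * (f (x + Real.sqrt v * g) - x)) ∂gm) := fun x => by
      have e1 : ∀ g : ℝ, Real.exp (ζ * (f (x + Real.sqrt v * g) - x)) =
          Real.exp (-(ζ * x)) * Real.exp (ζ * f (x + Real.sqrt v * g)) := fun g => by
        rw [← Real.exp_add]; ring_nf
      simp only [e1]
      rw [integral_const_mul, Real.log_mul (Real.exp_pos _).ne' (hf.lip.den_pos h0 h1 v x).ne',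
        Real.log_exp]
      field_simp
      ring
    simp only [e]
    have elim : c + ζ * v / 2 = ζ⁻¹ * Real.log (∫ g, Real.exp (ζ * (c + Real.sqrt v * g)) ∂gm) := by
      have e1 : ∀ g : ℝ, Real.exp (ζ * (c + Real.sqrt v * g)) =
          Real.exp (ζ * c) * Real.exp ((ζ * Real.sqrt v) * g) := fun g => by
        rw [← Real.exp_add]; ring_nf
      simp only [e1]
      have e2 : ∫ g, Real.exp ((ζ * Real.sqrt v) * g) ∂gm = Real.exp ((ζ * Real.sqrt v) ^ 2 / 2) := by
        have := mgf_gaussianReal (p := gm) (X := id) (μ := 0) (v := 1) (by simp)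
          (ζ * Real.sqrt v)
        unfold mgf at this
        simpa using this
      rw [integral_const_mul, e2, Real.log_mul (Real.exp_pos _).ne' (Real.exp_pos _).ne',
        Real.log_exp, Real.log_exp, mul_pow, Real.sq_sqrt hv]
      field_simp
    rw [elim]
    have hlim : Tendsto (fun x => ∫ g, Real.exp (ζ * (f (x + Real.sqrt v * g) - x)) ∂gm) atTop
        (𝓝 (∫ g, Real.exp (ζ * (c + Real.sqrt v * g)) ∂gm)) := by
      refine tendsto_integral_filter_of_dominated_convergence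
        (fun g => Real.exp (ζ * f (0 + Real.sqrt v * g))) ?_ ?_ ?_ ?_
      · exact Eventually.of_forall fun x => Continuous.aestronglyMeasurable (by fun_prop)
      · filter_upwards [eventually_ge_atTop 0] with x hx
        refine Eventually.of_forall fun g => ?_
        rw [Real.norm_eq_abs, abs_of_pos (Real.exp_pos _)]
        refine Real.exp_le_exp.2 (mul_le_mul_of_nonneg_left ?_ h0)
        have a1 : Real.sqrt v * g ≤ x + Real.sqrt v * g := by linarith
        have a2 : f (x + Real.sqrt v * g) - (x + Real.sqrt v * g) ≤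
          f (Real.sqrt v * g) - Real.sqrt v * g := hf.antitone_sub a1
        rw [zero_add]
        linarith
      · exact hf.lip.integrable_exp h0 h1 v 0
      · refine Eventually.of_forall fun g => ?_
        have a1 : Tendsto (fun x : ℝ => x + Real.sqrt v * g) atTop atTop :=
          tendsto_atTop_add_const_right _ _ tendsto_id
        have a2 := ((h.comp a1).add_const (Real.sqrt v * g)).const_mul ζ
        refine ((Real.continuous_exp.tendsto _).comp a2).congr fun x => ?_
        simp only [Function.comp]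
        ring_nf
    have hpos : 0 < ∫ g, Real.exp (ζ * (c + Real.sqrt v * g)) ∂gm := by
      refine integral_exp_pos ?_
      have e1 : ∀ g : ℝ, Real.exp (ζ * (c + Real.sqrt v * g)) =
          Real.exp (ζ * c) * Real.exp ((ζ * Real.sqrt v) * g) := fun g => by
        rw [← Real.exp_add]; ring_nf
      simp only [e1]
      exact (integrable_exp_mul_gaussianReal _).const_mul _
    exact (hlim.log hpos.ne').const_mul _

/-! ### convolution and the semigroup property -/

theorem gm_map_sqrt (v : ℝ) (hv : 0 ≤ v) :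
    gm.map (fun g => Real.sqrt v * g) = gaussianReal 0 (Real.toNNReal v) := by
  have h := gaussianReal_map_const_mul (μ := 0) (v := 1) (Real.sqrt v)
  rw [mul_zero, mul_one] at h
  have e : NNReal.mk (Real.sqrt v ^ 2) (sq_nonneg _) = Real.toNNReal v := by
    apply NNReal.eq
    rw [Real.coe_toNNReal v hv]
    exact Real.sq_sqrt hv
  rw [← e]
  exact h

theorem gauss_conv {K : ℝ} {F : ℝ → ℝ} (hF : Gr K F) (hm : Measurable F) {v w : ℝ} (hv : 0 ≤ v)
    (hw : 0 ≤ w) (x : ℝ) :
    ∫ g, (∫ g', F (x + Real.sqrt v * g + Real.sqrt w * g') ∂gm) ∂gm =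
      ∫ g, F (x + Real.sqrt (v + w) * g) ∂gm := by
  have h1 : ∀ (u : ℝ) (hu : 0 ≤ u) (G : ℝ → ℝ), Measurable G →
      ∫ g, G (Real.sqrt u * g) ∂gm = ∫ z, G z ∂gaussianReal 0 (Real.toNNReal u) := by
    intro u hu G hG
    rw [← gm_map_sqrt u hu, integral_map (by fun_prop) hG.aestronglyMeasurable]
  have hF' : Measurable fun z => F (x + z) := hm.comp (by fun_prop)
  rw [h1 (v + w) (add_nonneg hv hw) (fun z => F (x + z)) hF']
  have e : gaussianReal 0 (Real.toNNReal (v + w)) =
      (gaussianReal 0 (Real.toNNReal v)) ∗ (gaussianReal 0 (Real.toNNReal w)) := by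
    rw [gaussianReal_conv_gaussianReal, add_zero, Real.toNNReal_add hv hw]
  have e2 : ((gaussianReal 0 (Real.toNNReal v)) ∗ (gaussianReal 0 (Real.toNNReal w))) =
      (gm.prod gm).map (fun p : ℝ × ℝ => Real.sqrt v * p.1 + Real.sqrt w * p.2) := by
    unfold Measure.conv
    rw [← gm_map_sqrt v hv, ← gm_map_sqrt w hw, Measure.map_prod_map _ _ (by fun_prop)
      (by fun_prop), Measure.map_map (by fun_prop) (by fun_prop)]
    rfl
  rw [e, e2, integral_map (by fun_prop) hF'.aestronglyMeasurable]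
  have hint : Integrable (fun p : ℝ × ℝ => F (x + (Real.sqrt v * p.1 + Real.sqrt w * p.2)))
      (gm.prod gm) := by
    have hb : Integrable (fun p : ℝ × ℝ => (K * Real.exp |x| * Real.exp (Real.sqrt v * |p.1|)) *
        Real.exp (Real.sqrt w * |p.2|)) (gm.prod gm) :=
      Integrable.mul_prod ((integrable_exp_abs (Real.sqrt v)).const_mul _)
        (integrable_exp_abs (Real.sqrt w))
    refine Integrable.mono' hb (hF'.comp (by fun_prop)).aestronglyMeasurable
      (Eventually.of_forall fun p => ?_)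
    rw [Real.norm_eq_abs]
    refine (hF _).trans ?_
    rw [mul_assoc, mul_assoc, ← Real.exp_add, ← Real.exp_add]
    refine mul_le_mul_of_nonneg_left (Real.exp_le_exp.2 ?_) hF.K_nonneg
    refine (abs_add_le _ _).trans ?_
    have := abs_add_le (Real.sqrt v * p.1) (Real.sqrt w * p.2)
    rw [abs_mul, abs_mul, abs_of_nonneg (Real.sqrt_nonneg v),
      abs_of_nonneg (Real.sqrt_nonneg w)] at this
    linarith
  rw [integral_prod _ hint]
  refine integral_congr_ae (Eventually.of_forall fun g => ?_)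
  refine integral_congr_ae (Eventually.of_forall fun g' => ?_)
  show F _ = F _
  rw [add_assoc]

theorem gaussOp_add {C : ℝ} {f : ℝ → ℝ} (hf : Cls C f) {ζ : ℝ} (h0 : 0 ≤ ζ) (h1 : ζ ≤ 1)
    {v w : ℝ} (hv : 0 ≤ v) (hw : 0 ≤ w) :
    gaussOp ζ (v + w) f = gaussOp ζ v (gaussOp ζ w f) := by
  have hmf := hf.lip.cont.measurable
  funext x
  rcases h0.eq_or_lt with hz | hz
  · subst hz
    rw [gaussOp_zero_eq, gaussOp_zero_eq, gaussOp_zero_eq]
    refine (gauss_conv (K := |f 0| + 1) (fun y => ?_) hmf hv hw x).symm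
    have h2 := hf.lip.bound y
    have h3 := Real.add_one_le_exp |y|
    have h4 := abs_nonneg (f 0)
    have h5 : 1 ≤ Real.exp |y| := Real.one_le_exp (abs_nonneg y)
    nlinarith
  · rw [gaussOp_pos_eq hz, gaussOp_pos_eq hz, gaussOp_pos_eq hz]
    show ζ⁻¹ * Real.log (∫ g, Real.exp (ζ * f (x + Real.sqrt (v + w) * g)) ∂gm) =
      ζ⁻¹ * Real.log (∫ g, Real.exp (ζ * (ζ⁻¹ * Real.log (∫ g', Real.exp (ζ * f (x +
        Real.sqrt v * g + Real.sqrt w * g')) ∂gm))) ∂gm)
    rw [← gauss_conv (hf.lip.gr_exp1 h0 h1) (by fun_prop) hv hw x]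
    congr 2
    refine integral_congr_ae (Eventually.of_forall fun g => ?_)
    show _ = Real.exp (ζ * (ζ⁻¹ * Real.log (∫ g', Real.exp (ζ * f (x + Real.sqrt v * g +
      Real.sqrt w * g')) ∂gm)))
    rw [← mul_assoc, mul_inv_cancel₀ hz.ne', one_mul,
      Real.exp_log (hf.lip.den_pos h0 h1 w (x + Real.sqrt v * g))]

theorem gaussOp_v0 (ζ : ℝ) (f : ℝ → ℝ) : gaussOp ζ 0 f = f := by
  funext x
  unfold gaussOp
  split_ifs with h
  · simp
  · simp only [Real.sqrt_zero, zero_mul, add_zero, integral_const]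
    rw [probReal_univ, one_smul, Real.log_exp]
    field_simp

/-! ### monotonicity and sup-norm contraction -/

theorem gaussOp_le_add {C C' : ℝ} {f f' : ℝ → ℝ} (hf : Cls C f) (hf' : Cls C' f') {ζ : ℝ}
    (h0 : 0 ≤ ζ) (h1 : ζ ≤ 1) (v : ℝ) {c : ℝ} (h : ∀ x, f x ≤ f' x + c) (x : ℝ) :
    gaussOp ζ v f x ≤ gaussOp ζ v f' x + c := by
  rcases h0.eq_or_lt with hz | hz
  · subst hz
    rw [gaussOp_zero_eq, gaussOp_zero_eq]
    show (∫ g, f (x + Real.sqrt v * g) ∂gm) ≤ (∫ g, f' (x + Real.sqrt v * g) ∂gm) + c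
    have := integral_mono (hf.lip.integrable v x)
      ((hf'.lip.integrable v x).add (integrable_const c)) (fun g => h (x + Real.sqrt v * g))
    rw [integral_add' (hf'.lip.integrable v x) (integrable_const _)] at this
    simpa using this
  · rw [gaussOp_pos_eq hz, gaussOp_pos_eq hz]
    show ζ⁻¹ * Real.log (∫ g, Real.exp (ζ * f (x + Real.sqrt v * g)) ∂gm) ≤
      ζ⁻¹ * Real.log (∫ g, Real.exp (ζ * f' (x + Real.sqrt v * g)) ∂gm) + c
    have a1 : ∫ g, Real.exp (ζ * f (x + Real.sqrt v * g)) ∂gm ≤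
        Real.exp (ζ * c) * ∫ g, Real.exp (ζ * f' (x + Real.sqrt v * g)) ∂gm := by
      rw [← integral_const_mul]
      refine integral_mono (hf.lip.integrable_exp h0 h1 v x)
        ((hf'.lip.integrable_exp h0 h1 v x).const_mul _) fun g => ?_
      show _ ≤ Real.exp (ζ * c) * _
      rw [← Real.exp_add]
      refine Real.exp_le_exp.2 ?_
      have := mul_le_mul_of_nonneg_left (h (x + Real.sqrt v * g)) h0
      linarith
    have a2 := Real.log_le_log (hf.lip.den_pos h0 h1 v x) a1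
    rw [Real.log_mul (Real.exp_pos _).ne' (hf'.lip.den_pos h0 h1 v x).ne', Real.log_exp] at a2
    have a3 := mul_le_mul_of_nonneg_left a2 (inv_nonneg.2 h0)
    have a4 : ζ⁻¹ * (ζ * c + Real.log (∫ g, Real.exp (ζ * f' (x + Real.sqrt v * g)) ∂gm)) =
        ζ⁻¹ * Real.log (∫ g, Real.exp (ζ * f' (x + Real.sqrt v * g)) ∂gm) + c := by
      field_simp
      ring
    linarith

/-- Jensen: adding a bounded function adds at least its tilted average -/
theorem gaussOp_ge_av {C C' : ℝ} {f f' G : ℝ → ℝ} (hf : Cls C f) (hf' : Cls C' f') {ζ : ℝ}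
    (h0 : 0 ≤ ζ) (h1 : ζ ≤ 1) (v : ℝ) {B c : ℝ} (hG : ∀ x, |G x| ≤ B) (hm : Measurable G)
    (h : ∀ x, f x + G x ≤ f' x + c) (x : ℝ) :
    gaussOp ζ v f x + av ζ v f G x ≤ gaussOp ζ v f' x + c := by
  have hmf := hf.lip.cont.measurable
  rcases h0.eq_or_lt with hz | hz
  · subst hz
    rw [gaussOp_zero_eq, gaussOp_zero_eq]
    have e : av 0 v f G x = ∫ g, G (x + Real.sqrt v * g) ∂gm := by
      unfold av
      simp
    rw [e]
    show (∫ g, f (x + Real.sqrt v * g) ∂gm) + _ ≤ (∫ g, f' (x + Real.sqrt v * g) ∂gm) + c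
    have hGi : Integrable (fun g => G (x + Real.sqrt v * g)) gm := by
      have := hf.lip.integrable_mul (ζ := 0) le_rfl zero_le_one hG hm v x
      simpa using this
    have := integral_mono ((hf.lip.integrable v x).add hGi)
      ((hf'.lip.integrable v x).add (integrable_const c)) (fun g => h (x + Real.sqrt v * g))
    rw [integral_add' (hf'.lip.integrable v x) (integrable_const _),
      integral_add' (hf.lip.integrable v x) hGi] at this
    simpa using this
  · rw [gaussOp_pos_eq hz, gaussOp_pos_eq hz]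
    show ζ⁻¹ * Real.log (∫ g, Real.exp (ζ * f (x + Real.sqrt v * g)) ∂gm) + av ζ v f G x ≤
      ζ⁻¹ * Real.log (∫ g, Real.exp (ζ * f' (x + Real.sqrt v * g)) ∂gm) + c
    set D := ∫ g, Real.exp (ζ * f (x + Real.sqrt v * g)) ∂gm with hD
    have hDp : 0 < D := hf.lip.den_pos h0 h1 v x
    set m := av ζ v f G x with hmdef
    have a1 : Real.exp (ζ * (m - c)) * D ≤ ∫ g, Real.exp (ζ * f' (x + Real.sqrt v * g)) ∂gm := by
      have b1 : ∫ g, Real.exp (ζ * (m - c)) * ((1 - ζ * m) *
          Real.exp (ζ * f (x + Real.sqrt v * g)) +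
          ζ * (G (x + Real.sqrt v * g) * Real.exp (ζ * f (x + Real.sqrt v * g)))) ∂gm ≤
          ∫ g, Real.exp (ζ * f' (x + Real.sqrt v * g)) ∂gm := by
        refine integral_mono ((((hf.lip.integrable_exp h0 h1 v x).const_mul _).add
          ((hf.lip.integrable_mul h0 h1 hG hm v x).const_mul _)).const_mul _)
          (hf'.lip.integrable_exp h0 h1 v x) fun g => ?_
        show Real.exp (ζ * (m - c)) * ((1 - ζ * m) * Real.exp (ζ * f (x + Real.sqrt v * g)) +
          ζ * (G (x + Real.sqrt v * g) * Real.exp (ζ * f (x + Real.sqrt v * g)))) ≤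
          Real.exp (ζ * f' (x + Real.sqrt v * g))
        set y := x + Real.sqrt v * g
        have c1 : (1 - ζ * m) + ζ * G y ≤ Real.exp (ζ * (G y - m)) := by
          have := Real.add_one_le_exp (ζ * (G y - m))
          linarith
        have c2 : Real.exp (ζ * (m - c)) * ((1 - ζ * m) * Real.exp (ζ * f y) +
            ζ * (G y * Real.exp (ζ * f y))) =
            ((1 - ζ * m) + ζ * G y) * (Real.exp (ζ * (m - c)) * Real.exp (ζ * f y)) := by ring
        rw [c2]
        have c3 := mul_le_mul_of_nonneg_right c1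
          (mul_pos (Real.exp_pos (ζ * (m - c))) (Real.exp_pos (ζ * f y))).le
        refine c3.trans ?_
        rw [← Real.exp_add, ← Real.exp_add]
        refine Real.exp_le_exp.2 ?_
        have := mul_le_mul_of_nonneg_left (h y) h0
        linarith
      rw [integral_const_mul, integral_add ((hf.lip.integrable_exp h0 h1 v x).const_mul _)
        ((hf.lip.integrable_mul h0 h1 hG hm v x).const_mul _), integral_const_mul,
        integral_const_mul, ← hD] at b1
      have b2 : ∫ g, G (x + Real.sqrt v * g) * Real.exp (ζ * f (x + Real.sqrt v * g)) ∂gm =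
          m * D := by
        rw [hmdef]; unfold av; rw [← hD]; field_simp
      rw [b2] at b1
      have b3 : Real.exp (ζ * (m - c)) * ((1 - ζ * m) * D + ζ * (m * D)) =
          Real.exp (ζ * (m - c)) * D := by ring
      rw [b3] at b1
      exact b1
    have a2 := Real.log_le_log (by positivity) a1
    rw [Real.log_mul (Real.exp_pos _).ne' hDp.ne', Real.log_exp] at a2
    have a3 := mul_le_mul_of_nonneg_left a2 (inv_nonneg.2 h0)
    have a4 : ζ⁻¹ * (ζ * (m - c) + Real.log D) = ζ⁻¹ * Real.log D + (m - c) := by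
      field_simp
      ring
    linarith

end

end Crest.Agent.R164.Cv
end

-- ▼ part R164/CvD
section

/-!
Row 164 (helper491), part D: small time expansion of `gaussOp` and interpolation.
-/

set_option autoImplicit false

namespace Crest.Agent.R164.Cv

open MeasureTheory Set Filter Topology ProbabilityTheory
open Crest.ProbabilityR.InvariantGlass

noncomputable section

section taylor

variable {C : ℝ} {F : ℝ → ℝ}

theorem Cls.t2 (hF : Cls C F) (x h : ℝ) :
    |deriv (deriv F) (x + h) - deriv (deriv F) x| ≤ C * |h| := by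
  have := Convex.norm_image_sub_le_of_norm_deriv_le (𝕜 := ℝ) (f := deriv (deriv F)) (C := C)
    (s := univ) (fun x _ => hF.d3 x) (fun x _ => by rw [Real.norm_eq_abs]; exact hF.b3 x)
    convex_univ (mem_univ x) (mem_univ (x + h))
  rwa [Real.norm_eq_abs, Real.norm_eq_abs, add_sub_cancel_left] at this

theorem Cls.t1a (hF : Cls C F) (x h : ℝ) : |deriv F (x + h) - deriv F x| ≤ |h| := by
  have := Convex.norm_image_sub_le_of_norm_deriv_le (𝕜 := ℝ) (f := deriv F) (C := 1)
    (s := univ) (fun x _ => hF.d2 x) (fun x _ => by rw [Real.norm_eq_abs]; exact hF.b2 x)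
    convex_univ (mem_univ x) (mem_univ (x + h))
  rwa [Real.norm_eq_abs, Real.norm_eq_abs, add_sub_cancel_left, one_mul] at this

theorem abs_le_of_mem_uIcc {t h : ℝ} (ht : t ∈ uIcc 0 h) : |t| ≤ |h| := by
  rcases le_total 0 h with h0 | h0
  · rw [uIcc_of_le h0] at ht
    rw [abs_of_nonneg ht.1, abs_of_nonneg h0]; exact ht.2
  · rw [uIcc_of_ge h0] at ht
    rw [abs_of_nonpos ht.2, abs_of_nonpos h0]; linarith [ht.1]

theorem Cls.t1 (hF : Cls C F) (x h : ℝ) :
    |deriv F (x + h) - deriv F x - deriv (deriv F) x * h| ≤ C * |h| * |h| := by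
  have hd : ∀ t, HasDerivAt (fun t => deriv F (x + t) - deriv (deriv F) x * t)
      (deriv (deriv F) (x + t) - deriv (deriv F) x) t := fun t => by
    have h1 := (hF.h2 (x + t)).comp_const_add x t
    have h2 := (hasDerivAt_id t).const_mul (deriv (deriv F) x)
    exact (h1.fun_sub h2).congr_deriv (by ring)
  have := Convex.norm_image_sub_le_of_norm_hasDerivWithin_le (𝕜 := ℝ)
    (f := fun t => deriv F (x + t) - deriv (deriv F) x * t) (C := C * |h|)
    (f' := fun t => deriv (deriv F) (x + t) - deriv (deriv F) x)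
    (s := uIcc 0 h) (fun t _ => (hd t).hasDerivWithinAt) (fun t ht => by
      rw [Real.norm_eq_abs]
      exact (hF.t2 x t).trans (mul_le_mul_of_nonneg_left (abs_le_of_mem_uIcc ht) hF.C_nonneg))
    (convex_uIcc 0 h) (left_mem_uIcc) (right_mem_uIcc)
  rw [Real.norm_eq_abs, Real.norm_eq_abs, sub_zero] at this
  simpa [add_zero, sub_right_comm] using this

theorem Cls.t0a (hF : Cls C F) (x h : ℝ) :
    |F (x + h) - F x - deriv F x * h| ≤ |h| * |h| := by
  have hd : ∀ t, HasDerivAt (fun t => F (x + t) - deriv F x * t)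
      (deriv F (x + t) - deriv F x) t := fun t => by
    have h1 := (hF.h1 (x + t)).comp_const_add x t
    have h2 := (hasDerivAt_id t).const_mul (deriv F x)
    exact (h1.fun_sub h2).congr_deriv (by ring)
  have := Convex.norm_image_sub_le_of_norm_hasDerivWithin_le (𝕜 := ℝ)
    (f := fun t => F (x + t) - deriv F x * t) (C := |h|)
    (f' := fun t => deriv F (x + t) - deriv F x)
    (s := uIcc 0 h) (fun t _ => (hd t).hasDerivWithinAt) (fun t ht => by
      rw [Real.norm_eq_abs]
      exact (hF.t1a x t).trans (abs_le_of_mem_uIcc ht))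
    (convex_uIcc 0 h) (left_mem_uIcc) (right_mem_uIcc)
  rw [Real.norm_eq_abs, Real.norm_eq_abs, sub_zero] at this
  simpa [add_zero, sub_right_comm] using this

theorem Cls.t0 (hF : Cls C F) (x h : ℝ) :
    |F (x + h) - F x - (deriv F x * h + deriv (deriv F) x * h ^ 2 / 2)| ≤ C * |h| ^ 3 := by
  have hd : ∀ t, HasDerivAt (fun t => F (x + t) - (deriv F x * t + deriv (deriv F) x * t ^ 2 / 2))
      (deriv F (x + t) - deriv F x - deriv (deriv F) x * t) t := fun t => by
    have h1 := (hF.h1 (x + t)).comp_const_add x t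
    have h2 := (hasDerivAt_id t).const_mul (deriv F x)
    have h3 := (((hasDerivAt_id t).fun_pow 2).const_mul (deriv (deriv F) x)).div_const 2
    exact (h1.fun_sub (h2.fun_add h3)).congr_deriv (by simp; ring)
  have := Convex.norm_image_sub_le_of_norm_hasDerivWithin_le (𝕜 := ℝ)
    (f := fun t => F (x + t) - (deriv F x * t + deriv (deriv F) x * t ^ 2 / 2))
    (C := C * |h| * |h|)
    (f' := fun t => deriv F (x + t) - deriv F x - deriv (deriv F) x * t)
    (s := uIcc 0 h) (fun t _ => (hd t).hasDerivWithinAt) (fun t ht => by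
      rw [Real.norm_eq_abs]
      refine (hF.t1 x t).trans ?_
      have h1 := abs_le_of_mem_uIcc ht
      have h2 := hF.C_nonneg
      have h3 := abs_nonneg t
      exact mul_le_mul (mul_le_mul_of_nonneg_left h1 h2) h1 h3 (by positivity))
    (convex_uIcc 0 h) (left_mem_uIcc) (right_mem_uIcc)
  rw [Real.norm_eq_abs, Real.norm_eq_abs, sub_zero] at this
  have e : (fun t => F (x + t) - (deriv F x * t + deriv (deriv F) x * t ^ 2 / 2)) h -
      (fun t => F (x + t) - (deriv F x * t + deriv (deriv F) x * t ^ 2 / 2)) 0 =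
      F (x + h) - F x - (deriv F x * h + deriv (deriv F) x * h ^ 2 / 2) := by
    simp only [add_zero]
    ring
  rw [e] at this
  refine this.trans (le_of_eq ?_)
  ring

theorem Cls.convexOn (hF : Cls C F) : ConvexOn ℝ univ F :=
  convexOn_univ_of_deriv2_nonneg hF.d1 hF.d2 (fun x => (hF.pos x).le)

theorem Cls.tangent (hF : Cls C F) (x h : ℝ) : deriv F x * h ≤ F (x + h) - F x := by
  rcases lt_trichotomy h 0 with h0 | h0 | h0
  · have h1 := hF.convexOn.slope_le_deriv (mem_univ (x + h)) (mem_univ x) (by linarith) (hF.d1 x)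
    rw [slope_def_field, div_le_iff₀ (by linarith)] at h1
    nlinarith
  · rw [h0]; simp
  · have h1 := hF.convexOn.deriv_le_slope (mem_univ x) (mem_univ (x + h)) (by linarith) (hF.d1 x)
    rw [slope_def_field, le_div_iff₀ (by linarith)] at h1
    nlinarith

end taylor

/-- third exponential moment -/
def M3 : ℝ := ∫ g, |g| ^ 3 * Real.exp |g| ∂gm

theorem integrable_M3 : Integrable (fun g : ℝ => |g| ^ 3 * Real.exp |g|) gm := by
  refine Integrable.mono' ((integrable_exp_abs 2).const_mul 6) (by fun_prop)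
    (Eventually.of_forall fun g => ?_)
  rw [Real.norm_eq_abs, abs_of_nonneg (by positivity)]
  have h1 := Real.pow_div_factorial_le_exp |g| (abs_nonneg g) 3
  have h2 : |g| ^ 3 ≤ 6 * Real.exp |g| := by
    have e : ((Nat.factorial 3 : ℕ) : ℝ) = 6 := by norm_num [Nat.factorial]
    rw [e, div_le_iff₀ (by norm_num)] at h1
    linarith
  calc |g| ^ 3 * Real.exp |g| ≤ 6 * Real.exp |g| * Real.exp |g| :=
        mul_le_mul_of_nonneg_right h2 (Real.exp_pos _).le
    _ = 6 * Real.exp (2 * |g|) := by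
        rw [mul_assoc, ← Real.exp_add]; ring_nf

theorem M3_nonneg : 0 ≤ M3 := integral_nonneg fun g => by positivity

theorem integrable_sq_gm : Integrable (fun g : ℝ => g ^ 2) gm := by
  refine Integrable.mono' ((integrable_exp_abs 1).const_mul 2) (by fun_prop)
    (Eventually.of_forall fun g => ?_)
  rw [Real.norm_eq_abs, abs_of_nonneg (by positivity), one_mul]
  have h1 := Real.pow_div_factorial_le_exp |g| (abs_nonneg g) 2
  have e : ((Nat.factorial 2 : ℕ) : ℝ) = 2 := by norm_num [Nat.factorial]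
  rw [e, div_le_iff₀ (by norm_num), sq_abs] at h1
  linarith

theorem integral_sq_gm : ∫ g, g ^ 2 ∂gm = 1 := by
  have h := variance_id_gaussianReal (μ := 0) (v := 1)
  rw [variance_eq_integral (by fun_prop)] at h
  simpa using h

theorem exp_taylor2 (t : ℝ) : |Real.exp t - (1 + t + t ^ 2 / 2)| ≤ |t| ^ 3 * Real.exp |t| := by
  have h := Complex.norm_exp_sub_sum_le_norm_mul_exp (t : ℂ) 3
  have e : Complex.exp (t : ℂ) - ∑ m ∈ Finset.range 3, (t : ℂ) ^ m / (m.factorial : ℂ) =
      ((Real.exp t - (1 + t + t ^ 2 / 2) : ℝ) : ℂ) := by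
    simp [Finset.sum_range_succ, Nat.factorial]
  rw [e, Complex.norm_real, Complex.norm_real, Real.norm_eq_abs, Real.norm_eq_abs] at h
  exact h

theorem gh_bound {η : ℝ} (h0 : 0 ≤ η) (h1 : η ≤ 1) (g : ℝ) :
    |Real.sqrt η * g| ^ 3 * Real.exp |Real.sqrt η * g| ≤
      (η * Real.sqrt η) * (|g| ^ 3 * Real.exp |g|) := by
  have hs : Real.sqrt η ≤ 1 := Real.sqrt_le_one.2 h1
  have hs0 := Real.sqrt_nonneg η
  rw [abs_mul, abs_of_nonneg hs0, mul_pow]
  have e : Real.sqrt η ^ 3 = η * Real.sqrt η := by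
    rw [pow_succ, Real.sq_sqrt h0]
  rw [e, mul_assoc]
  refine mul_le_mul_of_nonneg_left ?_ (by positivity)
  refine mul_le_mul_of_nonneg_left (Real.exp_le_exp.2 ?_) (by positivity)
  nlinarith [abs_nonneg g]

theorem small_time_zero {C : ℝ} {F : ℝ → ℝ} (hF : Cls C F) {η : ℝ} (h0 : 0 ≤ η) (h1 : η ≤ 1)
    (x : ℝ) :
    |gaussOp 0 η F x - F x - η / 2 * (deriv (deriv F) x + 0 * deriv F x ^ 2)| ≤
      C * M3 * (η * Real.sqrt η) := by
  have hs0 := Real.sqrt_nonneg η
  rw [gaussOp_zero_eq]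
  have hi1 := hF.lip.integrable η x
  have e : (∫ g, F (x + Real.sqrt η * g) ∂gm) - F x - η / 2 * (deriv (deriv F) x +
      0 * deriv F x ^ 2) = ∫ g, (F (x + Real.sqrt η * g) - F x - (deriv F x *
        (Real.sqrt η * g) + deriv (deriv F) x * (Real.sqrt η * g) ^ 2 / 2)) ∂gm := by
    have e1 : ∀ g : ℝ, F (x + Real.sqrt η * g) - F x - (deriv F x *
        (Real.sqrt η * g) + deriv (deriv F) x * (Real.sqrt η * g) ^ 2 / 2) =
        (F (x + Real.sqrt η * g) - F x) - ((deriv F x * Real.sqrt η) * g +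
          (deriv (deriv F) x * η / 2) * g ^ 2) := fun g => by
      have := Real.sq_sqrt h0
      rw [mul_pow, this]; ring
    simp only [e1]
    have i1 : Integrable (fun g => F (x + Real.sqrt η * g) - F x) gm :=
      hi1.sub (integrable_const _)
    have i2 : Integrable (fun g : ℝ => (deriv F x * Real.sqrt η) * g) gm :=
      integrable_id_gm.const_mul _
    have i3 : Integrable (fun g : ℝ => (deriv (deriv F) x * η / 2) * g ^ 2) gm :=
      integrable_sq_gm.const_mul _
    have i4 : Integrable (fun g : ℝ => (deriv F x * Real.sqrt η) * g +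
      (deriv (deriv F) x * η / 2) * g ^ 2) gm := i2.add i3
    rw [integral_sub i1 i4, integral_sub hi1 (integrable_const _), integral_add i2 i3,
      integral_const_mul, integral_const_mul, integral_sq_gm, integral_id_gaussianReal]
    simp
    ring
  show |(∫ g, F (x + Real.sqrt η * g) ∂gm) - F x - η / 2 * (deriv (deriv F) x +
      0 * deriv F x ^ 2)| ≤ _
  rw [e]
  have hb : Integrable (fun g : ℝ => C * ((η * Real.sqrt η) * (|g| ^ 3 * Real.exp |g|))) gm :=
    (integrable_M3.const_mul _).const_mul _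
  have h2 := norm_integral_le_of_norm_le hb (f := fun g => F (x + Real.sqrt η * g) - F x -
    (deriv F x * (Real.sqrt η * g) + deriv (deriv F) x * (Real.sqrt η * g) ^ 2 / 2))
    (Eventually.of_forall fun g => ?_)
  · rw [Real.norm_eq_abs, integral_const_mul, integral_const_mul] at h2
    refine h2.trans (le_of_eq ?_)
    unfold M3
    ring
  · rw [Real.norm_eq_abs]
    refine (hF.t0 x _).trans ?_
    refine mul_le_mul_of_nonneg_left ?_ hF.C_nonneg
    refine le_trans ?_ (gh_bound h0 h1 g)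
    have : 1 ≤ Real.exp |Real.sqrt η * g| := Real.one_le_exp (abs_nonneg _)
    have h3 : 0 ≤ |Real.sqrt η * g| ^ 3 := by positivity
    nlinarith

/-- pointwise expansion of the exponential -/
theorem pt_bound {C : ℝ} {F : ℝ → ℝ} (hF : Cls C F) {ζ : ℝ} (hz : 0 < ζ) (hz1 : ζ ≤ 1)
    (x h : ℝ) : |Real.exp (ζ * (F (x + h) - F x)) - (1 + ζ * (deriv F x * h +
      deriv (deriv F) x * h ^ 2 / 2) + ζ ^ 2 * (deriv F x * h) ^ 2 / 2)| ≤
      (C + 2) * (|h| ^ 3 * Real.exp |h|) := by
  have hC := hF.C_nonneg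
  set q := F (x + h) - F x with hq
  have q1 : |q| ≤ |h| := by
    have := hF.lip (x + h) x
    rwa [add_sub_cancel_left] at this
  have a1 := exp_taylor2 (ζ * q)
  have a2 : |ζ * q| ≤ |h| := by
    rw [abs_mul, abs_of_pos hz]
    nlinarith [abs_nonneg q]
  have a3 : |ζ * q| ^ 3 * Real.exp |ζ * q| ≤ |h| ^ 3 * Real.exp |h| :=
    mul_le_mul (pow_le_pow_left₀ (abs_nonneg _) a2 3) (Real.exp_le_exp.2 a2)
      (Real.exp_pos _).le (by positivity)
  have a4 := hF.t0 x h
  rw [← hq] at a4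
  have a5 : |ζ * (q - (deriv F x * h + deriv (deriv F) x * h ^ 2 / 2))| ≤ C * |h| ^ 3 := by
    rw [abs_mul, abs_of_pos hz]
    nlinarith [abs_nonneg (q - (deriv F x * h + deriv (deriv F) x * h ^ 2 / 2))]
  have a6 := hF.t0a x h
  rw [← hq] at a6
  have a7 : |q + deriv F x * h| ≤ 2 * |h| := by
    refine (abs_add_le _ _).trans ?_
    rw [abs_mul]
    nlinarith [hF.b1 x, abs_nonneg h]
  have a8 : |ζ ^ 2 * (q ^ 2 - (deriv F x * h) ^ 2) / 2| ≤ |h| ^ 3 := by
    have e2 : ζ ^ 2 * (q ^ 2 - (deriv F x * h) ^ 2) / 2 =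
        (ζ ^ 2 / 2) * ((q - deriv F x * h) * (q + deriv F x * h)) := by ring
    rw [e2, abs_mul, abs_mul, abs_of_nonneg (by positivity)]
    have b1 : |q - deriv F x * h| * |q + deriv F x * h| ≤ (|h| * |h|) * (2 * |h|) :=
      mul_le_mul a6 a7 (abs_nonneg _) (by positivity)
    have b2 : ζ ^ 2 / 2 ≤ 1 / 2 := by nlinarith
    have b3 : 0 ≤ |q - deriv F x * h| * |q + deriv F x * h| := by positivity
    nlinarith
  have a9 : 1 ≤ Real.exp |h| := Real.one_le_exp (abs_nonneg _)
  have e3 : Real.exp (ζ * q) - (1 + ζ * (deriv F x * h + deriv (deriv F) x * h ^ 2 / 2) +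
      ζ ^ 2 * (deriv F x * h) ^ 2 / 2) = (Real.exp (ζ * q) - (1 + ζ * q + (ζ * q) ^ 2 / 2)) +
      (ζ * (q - (deriv F x * h + deriv (deriv F) x * h ^ 2 / 2)) +
        ζ ^ 2 * (q ^ 2 - (deriv F x * h) ^ 2) / 2) := by ring
  rw [e3]
  refine (abs_add_le _ _).trans ?_
  have b4 := abs_add_le (ζ * (q - (deriv F x * h + deriv (deriv F) x * h ^ 2 / 2)))
    (ζ ^ 2 * (q ^ 2 - (deriv F x * h) ^ 2) / 2)
  have b5 : 0 ≤ |h| ^ 3 := by positivity
  have b6 : |h| ^ 3 ≤ |h| ^ 3 * Real.exp |h| := by nlinarith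
  have b7 : (C + 1) * |h| ^ 3 ≤ (C + 1) * (|h| ^ 3 * Real.exp |h|) :=
    mul_le_mul_of_nonneg_left b6 (by linarith)
  linarith

theorem small_time_pos {C : ℝ} {F : ℝ → ℝ} (hF : Cls C F) {ζ : ℝ} (hz : 0 < ζ) (hz1 : ζ ≤ 1)
    {η : ℝ} (h0 : 0 ≤ η) (h1 : η ≤ 1) (x : ℝ) :
    |gaussOp ζ η F x - F x - η / 2 * (deriv (deriv F) x + ζ * deriv F x ^ 2)| ≤
      ζ⁻¹ * ((C + 2) * M3 + (1 + (C + 2) * M3) ^ 2) * (η * Real.sqrt η) := by
  have hs0 := Real.sqrt_nonneg η
  have hs1 : Real.sqrt η ≤ 1 := Real.sqrt_le_one.2 h1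
  have hC := hF.C_nonneg
  have hM := M3_nonneg
  set K := (C + 2) * M3 with hK
  have hK0 : 0 ≤ K := by positivity
  set E := ∫ g, Real.exp (ζ * (F (x + Real.sqrt η * g) - F x)) ∂gm with hE
  have hint : Integrable (fun g => Real.exp (ζ * (F (x + Real.sqrt η * g) - F x))) gm := by
    have e1 : ∀ g : ℝ, Real.exp (ζ * (F (x + Real.sqrt η * g) - F x)) =
        Real.exp (-(ζ * F x)) * Real.exp (ζ * F (x + Real.sqrt η * g)) := fun g => by
      rw [← Real.exp_add]; ring_nf
    simp only [e1]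
    exact (hF.lip.integrable_exp hz.le hz1 η x).const_mul _
  have hT : gaussOp ζ η F x - F x = ζ⁻¹ * Real.log E := by
    rw [gaussOp_pos_eq hz]
    show ζ⁻¹ * Real.log (∫ g, Real.exp (ζ * F (x + Real.sqrt η * g)) ∂gm) - F x = _
    have e1 : ∀ g : ℝ, Real.exp (ζ * (F (x + Real.sqrt η * g) - F x)) =
        Real.exp (-(ζ * F x)) * Real.exp (ζ * F (x + Real.sqrt η * g)) := fun g => by
      rw [← Real.exp_add]; ring_nf
    rw [hE]
    simp only [e1]
    rw [integral_const_mul, Real.log_mul (Real.exp_pos _).ne'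
      (hF.lip.den_pos hz.le hz1 η x).ne', Real.log_exp]
    field_simp
    ring
  set a := η / 2 * (deriv (deriv F) x + ζ * deriv F x ^ 2) with ha
  -- second order expansion of `E`
  have hexp : |E - 1 - ζ * a| ≤ K * (η * Real.sqrt η) := by
    have e : E - 1 - ζ * a = ∫ g, (Real.exp (ζ * (F (x + Real.sqrt η * g) - F x)) -
        (1 + ζ * (deriv F x * (Real.sqrt η * g) + deriv (deriv F) x *
          (Real.sqrt η * g) ^ 2 / 2) + ζ ^ 2 * (deriv F x * (Real.sqrt η * g)) ^ 2 / 2)) ∂gm := by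
      have e1 : ∀ g : ℝ, (1 + ζ * (deriv F x * (Real.sqrt η * g) + deriv (deriv F) x *
          (Real.sqrt η * g) ^ 2 / 2) + ζ ^ 2 * (deriv F x * (Real.sqrt η * g)) ^ 2 / 2) =
          1 + ((ζ * deriv F x * Real.sqrt η) * g + (ζ * a) * g ^ 2) := fun g => by
        have := Real.sq_sqrt h0
        rw [mul_pow, mul_pow, mul_pow, this, ha]; ring
      simp only [e1]
      have i2 : Integrable (fun g : ℝ => (ζ * deriv F x * Real.sqrt η) * g) gm :=
        integrable_id_gm.const_mul _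
      have i3 : Integrable (fun g : ℝ => (ζ * a) * g ^ 2) gm := integrable_sq_gm.const_mul _
      have i4 : Integrable (fun g : ℝ => (ζ * deriv F x * Real.sqrt η) * g + (ζ * a) * g ^ 2) gm :=
        i2.add i3
      have i5 : Integrable (fun g : ℝ => 1 + ((ζ * deriv F x * Real.sqrt η) * g +
        (ζ * a) * g ^ 2)) gm := (integrable_const _).add i4
      rw [integral_sub hint i5, integral_add (integrable_const _) i4, integral_add i2 i3,
        integral_const_mul, integral_const_mul, integral_sq_gm, integral_id_gaussianReal, ← hE]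
      simp
      ring
    rw [e]
    have hb : Integrable (fun g : ℝ => (C + 2) * ((η * Real.sqrt η) *
        (|g| ^ 3 * Real.exp |g|))) gm := (integrable_M3.const_mul _).const_mul _
    rw [← Real.norm_eq_abs]
    refine (norm_integral_le_of_norm_le hb (Eventually.of_forall fun g => ?_)).trans
      (le_of_eq ?_)
    · rw [Real.norm_eq_abs]
      set h := Real.sqrt η * g with hh
      refine le_trans ?_ (mul_le_mul_of_nonneg_left (gh_bound h0 h1 g) (by linarith))
      rw [← hh]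
      exact pt_bound hF hz hz1 x h
    · rw [integral_const_mul, integral_const_mul, hK]
      unfold M3
      ring
  -- `E ≥ 1`
  have hE1 : 1 ≤ E := by
    have h2 : ∫ g, (1 + (ζ * deriv F x * Real.sqrt η) * g) ∂gm ≤ E := by
      refine integral_mono ((integrable_const _).add (integrable_id_gm.const_mul _)) hint
        fun g => ?_
      show 1 + (ζ * deriv F x * Real.sqrt η) * g ≤ Real.exp (ζ * (F (x + Real.sqrt η * g) - F x))
      have b1 := Real.add_one_le_exp (ζ * (F (x + Real.sqrt η * g) - F x))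
      have b2 := mul_le_mul_of_nonneg_left (hF.tangent x (Real.sqrt η * g)) hz.le
      linarith
    have i2 : Integrable (fun g : ℝ => (ζ * deriv F x * Real.sqrt η) * g) gm :=
      integrable_id_gm.const_mul _
    rw [integral_add (integrable_const _) i2, integral_const_mul, integral_id_gaussianReal] at h2
    simpa using h2
  have ha0 : 0 ≤ a := by
    have := (hF.pos x).le
    positivity
  have ha1 : a ≤ η := by
    have b1 := hF.gen x
    have b2 := hF.pos x
    have b3 : deriv (deriv F) x + ζ * deriv F x ^ 2 ≤ 1 := by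
      nlinarith [sq_nonneg (deriv F x)]
    rw [ha]
    nlinarith
  have hηs : η * Real.sqrt η ≤ η := by nlinarith
  have hηη : η * η ≤ η * Real.sqrt η := by
    have : η ≤ Real.sqrt η := by
      have := Real.sq_sqrt h0
      nlinarith
    nlinarith
  set y := E - 1 with hy
  have hy0 : 0 ≤ y := by linarith
  have hab := abs_le.1 hexp
  have hy1 : y ≤ (1 + K) * η := by
    have b1 : ζ * a ≤ η := by nlinarith
    have b2 : K * (η * Real.sqrt η) ≤ K * η := mul_le_mul_of_nonneg_left hηs hK0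
    linarith [hab.2]
  have hlog1 : Real.log E ≤ y := by
    have := Real.log_le_sub_one_of_pos (by linarith : 0 < E)
    linarith
  have hlog2 : y - (1 + K) ^ 2 * (η * Real.sqrt η) ≤ Real.log E := by
    have b1 := Real.le_log_one_add_of_nonneg hy0
    have e2 : 1 + y = E := by rw [hy]; ring
    rw [e2] at b1
    have b2 : y - y ^ 2 ≤ 2 * y / (y + 2) := by
      rw [le_div_iff₀ (by linarith)]
      nlinarith [mul_nonneg hy0 hy0, mul_nonneg (mul_nonneg hy0 hy0) hy0]
    have b3 : y ^ 2 ≤ (1 + K) ^ 2 * (η * Real.sqrt η) := by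
      have : y ^ 2 ≤ ((1 + K) * η) ^ 2 := pow_le_pow_left₀ hy0 hy1 2
      calc y ^ 2 ≤ ((1 + K) * η) ^ 2 := this
        _ = (1 + K) ^ 2 * (η * η) := by ring
        _ ≤ _ := mul_le_mul_of_nonneg_left hηη (by positivity)
    linarith
  rw [hT]
  have hfin : |Real.log E - ζ * a| ≤ (K + (1 + K) ^ 2) * (η * Real.sqrt η) := by
    have b1 : 0 ≤ (1 + K) ^ 2 * (η * Real.sqrt η) := by positivity
    rw [abs_le]
    constructor <;> linarith [hab.1, hab.2]
  have e4 : ζ⁻¹ * Real.log E - a = ζ⁻¹ * (Real.log E - ζ * a) := by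
    field_simp
  rw [e4, abs_mul, abs_of_pos (inv_pos.2 hz), mul_assoc]
  exact mul_le_mul_of_nonneg_left hfin (inv_pos.2 hz).le

/-- **small time expansion**, uniform over the class -/
theorem small_time (C : ℝ) (hC : 0 ≤ C) {ζ : ℝ} (h0 : 0 ≤ ζ) (h1 : ζ ≤ 1) :
    ∃ K, 0 ≤ K ∧ ∀ F, Cls C F → ∀ η, 0 ≤ η → η ≤ 1 → ∀ x,
      |gaussOp ζ η F x - F x - η / 2 * (deriv (deriv F) x + ζ * deriv F x ^ 2)| ≤
        K * (η * Real.sqrt η) := by
  have hM := M3_nonneg
  rcases h0.eq_or_lt with hz | hz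
  · subst hz
    exact ⟨C * M3, by positivity, fun F hF η a b x => small_time_zero hF a b x⟩
  · exact ⟨_, by positivity, fun F hF η a b x => small_time_pos hF hz h1 a b x⟩

/-! ### interpolation: uniform convergence controls two derivatives -/

theorem interp1 {C : ℝ} {F G : ℝ → ℝ} (hF : Cls C F) (hG : Cls C G) {ε : ℝ}
    (h : ∀ x, |F x - G x| ≤ ε) {r : ℝ} (hr : 0 < r) (x : ℝ) :
    |deriv F x - deriv G x| ≤ 2 * ε / r + 2 * r := by
  have a1 := abs_le.1 (hF.t0a x r)
  have a2 := abs_le.1 (hG.t0a x r)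
  have a3 := abs_le.1 (h (x + r))
  have a4 := abs_le.1 (h x)
  rw [abs_of_pos hr] at a1 a2
  have key : |(deriv F x - deriv G x) * r| ≤ 2 * ε + 2 * r * r := by
    rw [abs_le]; constructor <;> linarith [a1.1, a1.2, a2.1, a2.2, a3.1, a3.2, a4.1, a4.2]
  rw [abs_mul, abs_of_pos hr] at key
  have : 2 * ε / r + 2 * r = (2 * ε + 2 * r * r) / r := by field_simp
  rw [this, le_div_iff₀ hr]
  exact key

theorem interp2 {C : ℝ} {F G : ℝ → ℝ} (hF : Cls C F) (hG : Cls C G) {ε : ℝ}
    (h : ∀ x, |F x - G x| ≤ ε) {r : ℝ} (hr : 0 < r) (x : ℝ) :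
    |deriv (deriv F) x - deriv (deriv G) x| ≤ 4 * ε / r ^ 2 + 4 * C * r := by
  have a1 := abs_le.1 (hF.t0 x r)
  have a2 := abs_le.1 (hG.t0 x r)
  have b1 := abs_le.1 (hF.t0 x (-r))
  have b2 := abs_le.1 (hG.t0 x (-r))
  have a3 := abs_le.1 (h (x + r))
  have a4 := abs_le.1 (h x)
  have a5 := abs_le.1 (h (x + -r))
  rw [abs_of_pos hr] at a1 a2
  rw [abs_neg, abs_of_pos hr] at b1 b2
  have hr2 : 0 < r ^ 2 := by positivity
  have key : |(deriv (deriv F) x - deriv (deriv G) x) * r ^ 2| ≤ 4 * ε + 4 * C * r ^ 3 := by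
    rw [abs_le]
    constructor <;> nlinarith [a1.1, a1.2, a2.1, a2.2, a3.1, a3.2, a4.1, a4.2, b1.1, b1.2, b2.1,
      b2.2, a5.1, a5.2]
  rw [abs_mul, abs_of_pos hr2] at key
  have : 4 * ε / r ^ 2 + 4 * C * r = (4 * ε + 4 * C * r ^ 3) / r ^ 2 := by field_simp
  rw [this, le_div_iff₀ hr2]
  exact key

/-- uniform closeness gives closeness of two derivatives -/
theorem interp (C : ℝ) (hC : 0 ≤ C) {ρ : ℝ} (hρ : 0 < ρ) :
    ∃ ε, 0 < ε ∧ ∀ F G, Cls C F → Cls C G → (∀ x, |F x - G x| ≤ ε) → ∀ x,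
      |deriv F x - deriv G x| ≤ ρ ∧ |deriv (deriv F) x - deriv (deriv G) x| ≤ ρ := by
  set r := ρ / (8 * (C + 1)) with hr
  have hr0 : 0 < r := by positivity
  have hC1 : 0 < C + 1 := by linarith
  refine ⟨min (ρ * r / 4) (ρ * r ^ 2 / 8), by positivity, fun F G hF hG h x => ⟨?_, ?_⟩⟩
  · refine (interp1 hF hG h hr0 x).trans ?_
    have a1 : 2 * min (ρ * r / 4) (ρ * r ^ 2 / 8) / r ≤ ρ / 2 := by
      rw [div_le_iff₀ hr0]
      have := min_le_left (ρ * r / 4) (ρ * r ^ 2 / 8)
      linarith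
    have a2 : 2 * r ≤ ρ / 4 := by
      rw [hr, mul_div_assoc', div_le_iff₀ (by positivity)]
      nlinarith
    linarith
  · refine (interp2 hF hG h hr0 x).trans ?_
    have a1 : 4 * min (ρ * r / 4) (ρ * r ^ 2 / 8) / r ^ 2 ≤ ρ / 2 := by
      rw [div_le_iff₀ (by positivity)]
      have := min_le_right (ρ * r / 4) (ρ * r ^ 2 / 8)
      linarith
    have a2 : 4 * C * r ≤ ρ / 2 := by
      rw [hr, mul_div_assoc', div_le_iff₀ (by positivity)]
      nlinarith
    linarith

end

end Crest.Agent.R164.Cv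
end

-- ▼ part R164/CvE

/-!
Row 164 (helper491), part E: the `k`-level one-site function and its one-sided derivatives.
-/

set_option autoImplicit false

namespace Crest.Agent.R164.Cv

open MeasureTheory Set Filter Topology ProbabilityTheory
open Crest.ProbabilityR.InvariantGlass

noncomputable section

/-- the `k`-level function -/
def Phi : (k : ℕ) → (Fin k → ℝ) → (Fin k → ℝ) → ℝ → ℝ
  | 0, _, _ => lc
  | (k + 1), ζ, v => gaussOp (ζ 0) (v 0) (Phi k (Fin.tail ζ) (Fin.tail v))

theorem Phi_zero (ζ v : Fin 0 → ℝ) : Phi 0 ζ v = lc := rfl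

theorem Phi_succ (k : ℕ) (ζ v : Fin (k + 1) → ℝ) :
    Phi (k + 1) ζ v = gaussOp (ζ 0) (v 0) (Phi k (Fin.tail ζ) (Fin.tail v)) := rfl

/-- admissible exponents -/
structure Adm {k : ℕ} (ζ : Fin k → ℝ) : Prop where
  nonneg (i) : 0 ≤ ζ i
  le_one (i) : ζ i ≤ 1
  mono : Monotone ζ

theorem Adm.tail {k : ℕ} {ζ : Fin (k + 1) → ℝ} (h : Adm ζ) : Adm (Fin.tail ζ) :=
  ⟨fun _ => h.nonneg _, fun _ => h.le_one _, fun _ _ hij => h.mono (Fin.succ_le_succ_iff.2 hij)⟩

theorem cls_Phi : ∀ (k : ℕ) (ζ v : Fin k → ℝ), Adm ζ → Cls (2 + 8 * k) (Phi k ζ v)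
  | 0, _, _, _ => by rw [Phi_zero]; simpa using cls_lc
  | (k + 1), ζ, v, h => by
      rw [Phi_succ]
      refine ((cls_Phi k _ _ h.tail).gop (h.nonneg 0) (h.le_one 0) (v 0)).mono (le_of_eq ?_)
      push_cast
      ring

theorem asy_Phi : ∀ (k : ℕ) (ζ v : Fin k → ℝ), Adm ζ → (∀ i, 0 ≤ v i) →
    Asy (Phi k ζ v) (-Real.log 2 + (∑ i, ζ i * v i) / 2)
  | 0, _, _, _, _ => by simpa [Phi_zero] using asy_lc
  | (k + 1), ζ, v, h, hv => by
      rw [Phi_succ]
      have := asy_gaussOp (cls_Phi k _ (Fin.tail v) h.tail)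
        (asy_Phi k _ (Fin.tail v) h.tail (fun i => hv _)) (h.nonneg 0) (h.le_one 0) (hv 0)
      convert this using 1
      rw [Fin.sum_univ_succ]
      simp only [Fin.tail]
      ring

theorem Phi_v0 : ∀ (k : ℕ) (ζ : Fin k → ℝ), Phi k ζ (fun _ => 0) = lc
  | 0, _ => rfl
  | (k + 1), ζ => by
      rw [Phi_succ, gaussOp_v0]
      exact Phi_v0 k _

/-- one level: modulus of continuity in the variance -/
theorem gaussOp_modulus (C : ℝ) (hC : 0 ≤ C) {ζ : ℝ} (h0 : 0 ≤ ζ) (h1 : ζ ≤ 1) :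
    ∃ L, 0 ≤ L ∧ ∀ F, Cls C F → ∀ v w, 0 ≤ v → 0 ≤ w → |v - w| ≤ 1 → ∀ x,
      |gaussOp ζ v F x - gaussOp ζ w F x| ≤ L * |v - w| := by
  obtain ⟨K, hK, hst⟩ := small_time C hC h0 h1
  refine ⟨1 + K, by linarith, fun F hF => ?_⟩
  have base : ∀ η, 0 ≤ η → η ≤ 1 → ∀ x, |gaussOp ζ η F x - F x| ≤ (1 + K) * η := by
    intro η a b x
    have h2 := abs_le.1 (hst F hF η a b x)
    have h3 := hF.gen x
    have h4 := hF.pos x
    have h5 : deriv (deriv F) x + ζ * deriv F x ^ 2 ≤ 1 := by nlinarith [sq_nonneg (deriv F x)]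
    have h6 : 0 ≤ deriv (deriv F) x + ζ * deriv F x ^ 2 := by positivity
    have hs1 : Real.sqrt η ≤ 1 := Real.sqrt_le_one.2 b
    have hs0 := Real.sqrt_nonneg η
    have h7 : η * Real.sqrt η ≤ η := by nlinarith
    have h8 : K * (η * Real.sqrt η) ≤ K * η := mul_le_mul_of_nonneg_left h7 hK
    have h9 : η / 2 * (deriv (deriv F) x + ζ * deriv F x ^ 2) ≤ η := by nlinarith
    have h10 : 0 ≤ η / 2 * (deriv (deriv F) x + ζ * deriv F x ^ 2) := by positivity
    rw [abs_le]
    constructor <;> linarith [h2.1, h2.2]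
  have key : ∀ v w, 0 ≤ w → w ≤ v → v - w ≤ 1 → ∀ x,
      |gaussOp ζ v F x - gaussOp ζ w F x| ≤ (1 + K) * (v - w) := by
    intro v w hw hwv h x
    have e : gaussOp ζ v F = gaussOp ζ w (gaussOp ζ (v - w) F) := by
      rw [← gaussOp_add hF h0 h1 hw (sub_nonneg.2 hwv)]
      congr 1; ring
    have hb := base (v - w) (sub_nonneg.2 hwv) h
    rw [e, abs_le]
    have c1 := gaussOp_le_add (hF.gop h0 h1 (v - w)) hF h0 h1 w (c := (1 + K) * (v - w))
      (fun x => by linarith [(abs_le.1 (hb x)).2]) x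
    have c2 := gaussOp_le_add hF (hF.gop h0 h1 (v - w)) h0 h1 w (c := (1 + K) * (v - w))
      (fun x => by linarith [(abs_le.1 (hb x)).1]) x
    constructor <;> linarith
  intro v w hv hw h x
  rcases le_total w v with hwv | hwv
  · rw [abs_of_nonneg (sub_nonneg.2 hwv)] at h ⊢
    exact key v w hw hwv h x
  · rw [abs_sub_comm (gaussOp ζ v F x), abs_sub_comm v w, abs_of_nonneg (sub_nonneg.2 hwv)]
    rw [abs_sub_comm, abs_of_nonneg (sub_nonneg.2 hwv)] at h
    exact key w v hv hwv h x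

/-- continuity in all variances, uniformly in `x` -/
theorem Phi_modulus : ∀ (k : ℕ) (ζ : Fin k → ℝ), Adm ζ → ∃ L, 0 ≤ L ∧ ∀ v w : Fin k → ℝ,
    (∀ i, 0 ≤ v i) → (∀ i, 0 ≤ w i) → (∀ i, |v i - w i| ≤ 1) → ∀ x,
      |Phi k ζ v x - Phi k ζ w x| ≤ L * ∑ i, |v i - w i|
  | 0, ζ, _ => ⟨0, le_rfl, fun v w _ _ _ x => by simp [Phi_zero]⟩
  | (k + 1), ζ, h => by
      obtain ⟨L, hL, IH⟩ := Phi_modulus k (Fin.tail ζ) h.tail
      obtain ⟨L', hL', hm⟩ := gaussOp_modulus (2 + 8 * k) (by positivity) (h.nonneg 0)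
        (h.le_one 0)
      refine ⟨L + L', by linarith, fun v w hv hw hvw x => ?_⟩
      rw [Phi_succ, Phi_succ, Fin.sum_univ_succ]
      have c1 := cls_Phi k (Fin.tail ζ) (Fin.tail v) h.tail
      have c2 := cls_Phi k (Fin.tail ζ) (Fin.tail w) h.tail
      have a1 := hm _ c2 (v 0) (w 0) (hv 0) (hw 0) (hvw 0) x
      have a2 : ∀ x, |Phi k (Fin.tail ζ) (Fin.tail v) x - Phi k (Fin.tail ζ) (Fin.tail w) x| ≤
          L * ∑ i : Fin k, |v i.succ - w i.succ| := fun x =>
        IH (Fin.tail v) (Fin.tail w) (fun i => hv _) (fun i => hw _) (fun i => hvw _) x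
      have a3 : |gaussOp (ζ 0) (v 0) (Phi k (Fin.tail ζ) (Fin.tail v)) x -
          gaussOp (ζ 0) (v 0) (Phi k (Fin.tail ζ) (Fin.tail w)) x| ≤
          L * ∑ i : Fin k, |v i.succ - w i.succ| := by
        have d1 := gaussOp_le_add c1 c2 (h.nonneg 0) (h.le_one 0) (v 0)
          (c := L * ∑ i : Fin k, |v i.succ - w i.succ|)
          (fun x => by linarith [(abs_le.1 (a2 x)).2]) x
        have d2 := gaussOp_le_add c2 c1 (h.nonneg 0) (h.le_one 0) (v 0)
          (c := L * ∑ i : Fin k, |v i.succ - w i.succ|)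
          (fun x => by linarith [(abs_le.1 (a2 x)).1]) x
        rw [abs_le]; constructor <;> linarith
      have a4 := abs_sub_le (gaussOp (ζ 0) (v 0) (Phi k (Fin.tail ζ) (Fin.tail v)) x)
        (gaussOp (ζ 0) (v 0) (Phi k (Fin.tail ζ) (Fin.tail w)) x)
        (gaussOp (ζ 0) (w 0) (Phi k (Fin.tail ζ) (Fin.tail w)) x)
      have a5 : 0 ≤ ∑ i : Fin k, |v i.succ - w i.succ| :=
        Finset.sum_nonneg fun i _ => abs_nonneg _
      have a6 := abs_nonneg (v 0 - w 0)
      nlinarith [mul_nonneg hL a6, mul_nonneg hL' a5]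

/-- lower bound for the left increments in `v i` -/
theorem Phi_lower : ∀ (k : ℕ) (ζ : Fin k → ℝ), Adm ζ → ∃ K, 0 ≤ K ∧ ∀ v : Fin k → ℝ,
    ∀ i : Fin k, ∀ η, 0 ≤ η → η ≤ 1 → η ≤ v i → ∀ x,
      Phi k ζ (Function.update v i (v i - η)) x +
        η / 2 * (deriv (deriv (Phi k ζ (Function.update v i (v i - η)))) x +
          ζ i * deriv (Phi k ζ (Function.update v i (v i - η))) x ^ 2) ≤
        Phi k ζ v x + K * (η * Real.sqrt η)
  | 0, ζ, _ => ⟨0, le_rfl, fun _ i => i.elim0⟩
  | (k + 1), ζ, h => by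
      obtain ⟨K, hK, IH⟩ := Phi_lower k (Fin.tail ζ) h.tail
      obtain ⟨K', hK', hst⟩ := small_time (2 + 8 * (k + 1 : ℕ)) (by positivity) (h.nonneg 0)
        (h.le_one 0)
      refine ⟨K + K', by linarith, fun v i η h0 h1 hv x => ?_⟩
      have hs : 0 ≤ η * Real.sqrt η := by positivity
      refine Fin.cases (fun hv => ?_) (fun j hv => ?_) i hv
      · -- outermost level
        set F := Phi (k + 1) ζ (Function.update v 0 (v 0 - η)) with hF
        have e : Phi (k + 1) ζ v = gaussOp (ζ 0) η F := by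
          rw [hF, Phi_succ, Phi_succ, Fin.tail_update_zero, Function.update_self,
            ← gaussOp_add (cls_Phi k _ _ h.tail) (h.nonneg 0) (h.le_one 0) h0 (sub_nonneg.2 hv)]
          congr 1; ring
        have c := abs_le.1 (hst F (cls_Phi (k + 1) _ _ h) η h0 h1 x)
        rw [e]
        nlinarith [mul_nonneg hK hs, c.1]
      · -- inner level
        have e1 : Fin.tail (Function.update v j.succ (v j.succ - η)) =
            Function.update (Fin.tail v) j (Fin.tail v j - η) := by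
          rw [Fin.tail_update_succ]; rfl
        have e2 : (Function.update v j.succ (v j.succ - η)) 0 = v 0 := by
          rw [Function.update_of_ne (Fin.succ_ne_zero j).symm]
        rw [Phi_succ, Phi_succ, e1, e2]
        set H := Phi k (Fin.tail ζ) (Function.update (Fin.tail v) j (Fin.tail v j - η)) with hH
        have cH : Cls (2 + 8 * k) H := cls_Phi k _ _ h.tail
        have cG := cls_Phi k (Fin.tail ζ) (Fin.tail v) h.tail
        have hz := h.nonneg j.succ
        have hz1 := h.le_one j.succ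
        have hmz : ζ 0 ≤ ζ j.succ := h.mono (Fin.zero_le _)
        have bsq : ∀ x, |deriv H x ^ 2| ≤ 1 := fun x => by
          rw [abs_of_nonneg (sq_nonneg _)]; exact sq_le_one_of_abs (cH.b1 x)
        have msq : Measurable fun x => deriv H x ^ 2 := cH.m1.pow_const 2
        have bz : ∀ x, |ζ j.succ * deriv H x ^ 2| ≤ 1 := fun x => by
          rw [abs_mul, abs_of_nonneg hz]; exact mul_le_one₀ hz1 (abs_nonneg _) (bsq x)
        have key := gaussOp_ge_av cH cG (h.nonneg 0) (h.le_one 0) (v 0)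
          (G := fun x => η / 2 * (deriv (deriv H) x + ζ j.succ * deriv H x ^ 2)) (B := |η / 2| * 2)
          (c := K * (η * Real.sqrt η)) (fun x => by
            rw [abs_mul]
            refine mul_le_mul_of_nonneg_left ?_ (abs_nonneg _)
            refine (abs_add_le _ _).trans ?_
            have := cH.b2 x
            have := bz x
            linarith) (by have := cH.m1; have := cH.m2; fun_prop)
          (fun x => IH (Fin.tail v) j η h0 h1 hv x) x
        rw [av_smul, av_add cH.lip (h.nonneg 0) (h.le_one 0) (v 0) x cH.b2 cH.m2 bz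
          (by fun_prop), av_smul] at key
        have hsq := av_sq cH.lip (h.nonneg 0) (h.le_one 0) (v 0) x cH.b1 cH.m1
        rw [deriv2_gaussOp cH (h.nonneg 0) (h.le_one 0), deriv_gaussOp cH (h.nonneg 0) (h.le_one 0)]
        show gaussOp (ζ 0) (v 0) H x + η / 2 * (av (ζ 0) (v 0) H (deriv (deriv H)) x +
          ζ 0 * (av (ζ 0) (v 0) H (fun y => deriv H y ^ 2) x -
            av (ζ 0) (v 0) H (deriv H) x ^ 2) + ζ j.succ * av (ζ 0) (v 0) H (deriv H) x ^ 2) ≤
          gaussOp (ζ 0) (v 0) (Phi k (Fin.tail ζ) (Fin.tail v)) x + (K + K') * (η * Real.sqrt η)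
        set A := av (ζ 0) (v 0) H (deriv (deriv H)) x
        set B := av (ζ 0) (v 0) H (fun y => deriv H y ^ 2) x
        set D := av (ζ 0) (v 0) H (deriv H) x
        have d1 : A + ζ 0 * (B - D ^ 2) + ζ j.succ * D ^ 2 ≤ A + ζ j.succ * B := by
          nlinarith [mul_nonneg (sub_nonneg.2 hmz) (sub_nonneg.2 hsq)]
        have d2 := mul_le_mul_of_nonneg_left d1 (by linarith : (0 : ℝ) ≤ η / 2)
        nlinarith [mul_nonneg hK' hs]

/-- upper bound for the left increments in `v i` when all outer variances vanish -/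
theorem Phi_upper : ∀ (k : ℕ) (ζ : Fin k → ℝ), Adm ζ → ∃ K, 0 ≤ K ∧ ∀ v : Fin k → ℝ,
    ∀ i : Fin k, (∀ j, j < i → v j = 0) → ∀ η, 0 ≤ η → η ≤ 1 → η ≤ v i → ∀ x,
      Phi k ζ v x ≤ Phi k ζ (Function.update v i (v i - η)) x +
        η / 2 * (deriv (deriv (Phi k ζ (Function.update v i (v i - η)))) x +
          ζ i * deriv (Phi k ζ (Function.update v i (v i - η))) x ^ 2) + K * (η * Real.sqrt η)
  | 0, ζ, _ => ⟨0, le_rfl, fun _ i => i.elim0⟩
  | (k + 1), ζ, h => by
      obtain ⟨K, hK, IH⟩ := Phi_upper k (Fin.tail ζ) h.tail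
      obtain ⟨K', hK', hst⟩ := small_time (2 + 8 * (k + 1 : ℕ)) (by positivity) (h.nonneg 0)
        (h.le_one 0)
      refine ⟨K + K', by linarith, fun v i hz η h0 h1 hv x => ?_⟩
      have hs : 0 ≤ η * Real.sqrt η := by positivity
      refine Fin.cases (fun hz hv => ?_) (fun j hz hv => ?_) i hz hv
      · set F := Phi (k + 1) ζ (Function.update v 0 (v 0 - η)) with hF
        have e : Phi (k + 1) ζ v = gaussOp (ζ 0) η F := by
          rw [hF, Phi_succ, Phi_succ, Fin.tail_update_zero, Function.update_self,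
            ← gaussOp_add (cls_Phi k _ _ h.tail) (h.nonneg 0) (h.le_one 0) h0 (sub_nonneg.2 hv)]
          congr 1; ring
        have c := abs_le.1 (hst F (cls_Phi (k + 1) _ _ h) η h0 h1 x)
        rw [e]
        nlinarith [mul_nonneg hK hs, c.2]
      · have e1 : Fin.tail (Function.update v j.succ (v j.succ - η)) =
            Function.update (Fin.tail v) j (Fin.tail v j - η) := by
          rw [Fin.tail_update_succ]; rfl
        have e2 : (Function.update v j.succ (v j.succ - η)) 0 = v 0 := by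
          rw [Function.update_of_ne (Fin.succ_ne_zero j).symm]
        have e3 : v 0 = 0 := hz 0 (Fin.succ_pos j)
        rw [Phi_succ, Phi_succ, e1, e2, e3, gaussOp_v0, gaussOp_v0]
        have := IH (Fin.tail v) j (fun l hl => hz l.succ (Fin.succ_lt_succ_iff.2 hl)) η h0 h1 hv x
        have h3 : ζ j.succ = Fin.tail ζ j := rfl
        rw [h3]
        nlinarith [mul_nonneg hK' hs]

end

end Crest.Agent.R164.Cv
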