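import Crest.Agent.R141.HierA

/-!
# Row 164, L side, module E-DIFF part a (helper562): comparison of tilted laws

Abstract inequalities for the hierarchical functional `A` and the tilted laws `tl`.
-/

set_option autoImplicit false

namespace Crest.Agent.R164.ED

open Finset Crest.Agent.R141

noncomputable section

variable {Ω : Type*} [Fintype Ω] {P : Ω → ℝ} {𝓕 : Filt Ω} {x : ℕ → ℝ}

/-- averaged functional -/
def aE (P : Ω → ℝ) (𝓕 : Filt Ω) (x : ℕ → ℝ) (U : Ω → ℝ) : ℝ := eE P (A P 𝓕 x U 0)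

theorem eE_tl_zero (hP : IsProb P) (hx : ∀ k, 0 < x k) (U : Ω → ℝ) {f : Ω → ℝ}
    (hf : RMeas (𝓕.F 0) f) : eE (tl P 𝓕 x U) f = eE P f := by
  rw [eE_tl (𝓕 := 𝓕) hP hx U hf]
  congr 1
  funext w
  rw [S_self]; simp

/-- Jensen, lower bound -/
theorem aE_ge (hP : IsProb P) (hx : ∀ k, 0 < x k) (X Y : Ω → ℝ) :
    aE P 𝓕 x Y + eE (tl P 𝓕 x Y) (fun w => X w - Y w) ≤ aE P 𝓕 x X := by
  have hQ := tl_isProb (𝓕 := 𝓕) hP hx Y
  have h1 : ∀ ω, A P 𝓕 x X 0 ω = A P 𝓕 x Y 0 ω + A (tl P 𝓕 x Y) 𝓕 x (fun w => X w - Y w) 0 ω := by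
    intro ω
    have := A_cocycle (𝓕 := 𝓕) hP hx Y (fun w => X w - Y w) 0 ω
    rw [← this]
    congr 1
    funext w
    ring
  have h2 : eE (tl P 𝓕 x Y) (fun w => X w - Y w) =
      eE P (cE (tl P 𝓕 x Y) (𝓕.F 0) (fun w => X w - Y w)) := by
    rw [← eE_tl_zero (𝓕 := 𝓕) hP hx Y (cE_meas (tl P 𝓕 x Y) (𝓕.F 0) _), eE_cE hQ]
  unfold aE
  rw [h2, ← eE_add]
  apply eE_mono hP
  intro ω
  rw [h1 ω]
  have := cE_le_A (𝓕 := 𝓕) hQ hx (fun w => X w - Y w) 0 ω
  linarith

/-- Jensen, upper bound -/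
theorem aE_le (hP : IsProb P) (hx : ∀ k, 0 < x k) (X Y : Ω → ℝ) :
    aE P 𝓕 x X ≤ aE P 𝓕 x Y + eE (tl P 𝓕 x X) (fun w => X w - Y w) := by
  have h := aE_ge (𝓕 := 𝓕) hP hx Y X
  have h2 : eE (tl P 𝓕 x X) (fun w => Y w - X w) =
      -eE (tl P 𝓕 x X) (fun w => X w - Y w) := by
    have := eE_smul (tl P 𝓕 x X) (-1) (fun w => X w - Y w)
    rw [← neg_one_mul, ← this]
    congr 1
    funext w
    ring
  rw [h2] at h
  linarith

theorem aE_abs_sub_le (hP : IsProb P) (hx : ∀ k, 0 < x k) {X Y : Ω → ℝ} {a : ℝ}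
    (h : ∀ w, |X w - Y w| ≤ a) : |aE P 𝓕 x X - aE P 𝓕 x Y| ≤ a := by
  have hQ := tl_isProb (𝓕 := 𝓕) hP hx Y
  have hQ' := tl_isProb (𝓕 := 𝓕) hP hx X
  have h1 := aE_ge (𝓕 := 𝓕) hP hx X Y
  have h2 := aE_le (𝓕 := 𝓕) hP hx X Y
  have h3 : -a ≤ eE (tl P 𝓕 x Y) (fun w => X w - Y w) := by
    have := eE_mono hQ (f := fun _ => -a) (g := fun w => X w - Y w)
      (fun w => (abs_le.1 (h w)).1)
    rwa [eE_const hQ] at this
  have h4 : eE (tl P 𝓕 x X) (fun w => X w - Y w) ≤ a := by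
    have := eE_mono hQ' (g := fun _ => a) (f := fun w => X w - Y w)
      (fun w => (abs_le.1 (h w)).2)
    rwa [eE_const hQ'] at this
  rw [abs_le]
  constructor <;> linarith

/-- density bound from below bound of the log-weight -/
theorem tl_le_exp (hP : IsProb P) (hx : IsExpo x) {Y : Ω → ℝ} {a : ℝ} (h : ∀ ω, -a ≤ Y ω)
    (ω : Ω) : tl P 𝓕 x Y ω ≤ Real.exp (Y ω + a) * P ω := by
  unfold tl S
  rw [mul_comm]
  refine mul_le_mul_of_nonneg_right (Real.exp_le_exp.2 ?_) (hP.pos ω).le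
  have hA : ∀ l, -a ≤ A P 𝓕 x Y l ω := fun l => le_A_of_le hP hx.pos h l ω
  have h1 := abel_upper hx (Nat.zero_le 𝓕.L) (u := fun l => A P 𝓕 x Y l ω) (a := a)
    (fun l _ _ => hA l) (hA _)
  rw [A_of_ge Y le_rfl] at h1
  have h2 := hx.le_one 𝓕.L
  have h3 := h ω
  have h4 : x 𝓕.L * (Y ω + a) ≤ 1 * (Y ω + a) := mul_le_mul_of_nonneg_right h2 (by linarith)
  rw [one_mul] at h4
  exact h1.trans h4

/-- the density of a smaller log-weight -/
theorem tl_ge_of_le (hP : IsProb P) (hx : IsExpo x) {X M : Ω → ℝ} (h : ∀ ω, M ω ≤ X ω) (ω : Ω) :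
    Real.exp (-(X ω - M ω)) * tl P 𝓕 x X ω ≤ tl P 𝓕 x M ω := by
  have hQ := tl_isProb (𝓕 := 𝓕) hP hx.pos X
  have e : (fun w => X w + (M w - X w)) = M := by funext w; ring
  have h1 := tl_add (𝓕 := 𝓕) hP hx.pos X (fun w => M w - X w)
  rw [e] at h1
  rw [h1]
  set V : Ω → ℝ := fun w => M w - X w with hV
  have hV0 : ∀ w, V w ≤ 0 := fun w => by simp only [hV]; linarith [h w]
  have hA : ∀ l, A (tl P 𝓕 x X) 𝓕 x V l ω ≤ 0 := fun l => A_le_of_le hQ hx.pos hV0 l ω
  have h2 := abel_lower hx (Nat.zero_le 𝓕.L) (u := fun l => A (tl P 𝓕 x X) 𝓕 x V l ω) (a := 0)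
    (fun l _ _ => hA l) (fun _ => hA _)
  rw [A_of_ge V le_rfl] at h2
  have h3 := hx.le_one 𝓕.L
  have h4 := hV0 ω
  have h5 : V ω ≤ S (tl P 𝓕 x X) 𝓕 x V 0 𝓕.L ω := by
    unfold S
    nlinarith
  have h6 : tl (tl P 𝓕 x X) 𝓕 x V ω = Real.exp (S (tl P 𝓕 x X) 𝓕 x V 0 𝓕.L ω) * tl P 𝓕 x X ω := by
    conv_lhs => unfold tl
    rw [mul_comm]
    rfl
  rw [h6]
  refine mul_le_mul_of_nonneg_right (Real.exp_le_exp.2 ?_) (hQ.pos ω).le
  simp only [hV] at h5
  linarith

/-- `ℓ¹` distance of two weights -/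
def dTV (P Q : Ω → ℝ) : ℝ := ∑ ω, |P ω - Q ω|

theorem dTV_nonneg (P Q : Ω → ℝ) : 0 ≤ dTV P Q := Finset.sum_nonneg fun _ _ => abs_nonneg _

theorem dTV_comm (P Q : Ω → ℝ) : dTV P Q = dTV Q P := by
  unfold dTV
  exact Finset.sum_congr rfl fun ω _ => abs_sub_comm _ _

theorem dTV_triangle (P Q R : Ω → ℝ) : dTV P R ≤ dTV P Q + dTV Q R := by
  unfold dTV
  rw [← Finset.sum_add_distrib]
  exact Finset.sum_le_sum fun ω _ => abs_sub_le _ _ _

theorem dTV_eq_pos {P Q : Ω → ℝ} (hP : IsProb P) (hQ : IsProb Q) :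
    dTV P Q = 2 * ∑ ω, max (P ω - Q ω) 0 := by
  have h1 : ∑ ω, (P ω - Q ω) = 0 := by rw [Finset.sum_sub_distrib, hP.sum, hQ.sum, sub_self]
  have h2 : ∀ ω, |P ω - Q ω| = 2 * max (P ω - Q ω) 0 - (P ω - Q ω) := by
    intro ω
    rcases le_total 0 (P ω - Q ω) with h | h
    · rw [abs_of_nonneg h, max_eq_left h]; ring
    · rw [abs_of_nonpos h, max_eq_right h]; ring
  unfold dTV
  simp only [h2, Finset.sum_sub_distrib, ← Finset.mul_sum]
  rw [← Finset.sum_sub_distrib, h1, sub_zero]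

theorem one_sub_exp_neg_le {t : ℝ} : 1 - Real.exp (-t) ≤ min 1 t := by
  apply le_min
  · have := Real.exp_pos (-t); linarith
  · have := Real.add_one_le_exp (-t); linarith

theorem dTV_tl_of_le (hP : IsProb P) (hx : IsExpo x) {X M : Ω → ℝ} (h : ∀ ω, M ω ≤ X ω) :
    dTV (tl P 𝓕 x X) (tl P 𝓕 x M) ≤ 2 * eE (tl P 𝓕 x X) (fun w => min 1 (X w - M w)) := by
  have hQ := tl_isProb (𝓕 := 𝓕) hP hx.pos X
  have hR := tl_isProb (𝓕 := 𝓕) hP hx.pos M
  rw [dTV_eq_pos hQ hR]
  refine mul_le_mul_of_nonneg_left ?_ (by norm_num)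
  unfold eE
  refine Finset.sum_le_sum fun ω _ => ?_
  have h1 := tl_ge_of_le (𝓕 := 𝓕) hP hx h ω
  have h2 := one_sub_exp_neg_le (t := X ω - M ω)
  have h3 := (hQ.pos ω).le
  have h4 : 0 ≤ min 1 (X ω - M ω) := le_min zero_le_one (by linarith [h ω])
  refine max_le ?_ (mul_nonneg h3 h4)
  calc tl P 𝓕 x X ω - tl P 𝓕 x M ω ≤
      tl P 𝓕 x X ω - Real.exp (-(X ω - M ω)) * tl P 𝓕 x X ω := by linarith
    _ = tl P 𝓕 x X ω * (1 - Real.exp (-(X ω - M ω))) := by ring
    _ ≤ tl P 𝓕 x X ω * min 1 (X ω - M ω) := mul_le_mul_of_nonneg_left h2 h3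

/-- **(AL2)** distance of two tilted laws -/
theorem dTV_tl (hP : IsProb P) (hx : IsExpo x) (X Y : Ω → ℝ) :
    dTV (tl P 𝓕 x X) (tl P 𝓕 x Y) ≤
      2 * eE (tl P 𝓕 x X) (fun w => min 1 (max (X w - Y w) 0)) +
      2 * eE (tl P 𝓕 x Y) (fun w => min 1 (max (Y w - X w) 0)) := by
  have h1 := dTV_tl_of_le (𝓕 := 𝓕) hP hx (X := X) (M := fun w => min (X w) (Y w))
    (fun w => min_le_left _ _)
  have h2 := dTV_tl_of_le (𝓕 := 𝓕) hP hx (X := Y) (M := fun w => min (X w) (Y w))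
    (fun w => min_le_right _ _)
  have h3 := dTV_triangle (tl P 𝓕 x X) (tl P 𝓕 x (fun w => min (X w) (Y w))) (tl P 𝓕 x Y)
  rw [dTV_comm (tl P 𝓕 x Y)] at h2
  have e1 : (fun w => min 1 (X w - min (X w) (Y w))) = fun w => min 1 (max (X w - Y w) 0) := by
    funext w
    congr 1
    rcases le_total (X w) (Y w) with h | h
    · rw [min_eq_left h, max_eq_right (by linarith), sub_self]
    · rw [min_eq_right h, max_eq_left (by linarith)]
  have e2 : (fun w => min 1 (Y w - min (X w) (Y w))) = fun w => min 1 (max (Y w - X w) 0) := by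
    funext w
    congr 1
    rcases le_total (X w) (Y w) with h | h
    · rw [min_eq_left h, max_eq_left (by linarith)]
    · rw [min_eq_right h, max_eq_right (by linarith), sub_self]
  rw [e1] at h1
  rw [e2] at h2
  linarith

/-- bounded observables -/
theorem abs_eE_sub_le {P Q : Ω → ℝ} {O : Ω → ℝ} {c : ℝ} (hO : ∀ w, |O w| ≤ c) :
    |eE P O - eE Q O| ≤ c * dTV P Q := by
  unfold eE dTV
  rw [← Finset.sum_sub_distrib, Finset.mul_sum]
  refine (Finset.abs_sum_le_sum_abs _ _).trans (Finset.sum_le_sum fun ω _ => ?_)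
  rw [← sub_mul, abs_mul, mul_comm]
  exact mul_le_mul_of_nonneg_right (hO ω) (abs_nonneg _)

/-- square integrable observables -/
theorem abs_eE_sub_le_sq {P Q : Ω → ℝ} (hP : IsProb P) (hQ : IsProb Q) (O : Ω → ℝ) :
    |eE P O - eE Q O| ≤ Real.sqrt (dTV P Q) *
      Real.sqrt (eE P (fun w => O w ^ 2) + eE Q (fun w => O w ^ 2)) := by
  have h0 : |eE P O - eE Q O| ≤ ∑ ω, |P ω - Q ω| * |O ω| := by
    unfold eE
    rw [← Finset.sum_sub_distrib]
    refine (Finset.abs_sum_le_sum_abs _ _).trans (Finset.sum_le_sum fun ω _ => ?_)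
    rw [← sub_mul, abs_mul]
  have h1 : (∑ ω, |P ω - Q ω| * |O ω|) ^ 2 ≤
      (∑ ω, |P ω - Q ω|) * ∑ ω, |P ω - Q ω| * O ω ^ 2 := by
    have := Finset.sum_mul_sq_le_sq_mul_sq Finset.univ (fun ω => Real.sqrt |P ω - Q ω|)
      (fun ω => Real.sqrt |P ω - Q ω| * |O ω|)
    have e1 : ∀ ω, Real.sqrt |P ω - Q ω| * (Real.sqrt |P ω - Q ω| * |O ω|) =
        |P ω - Q ω| * |O ω| := by
      intro ω
      rw [← mul_assoc, Real.mul_self_sqrt (abs_nonneg _)]
    have e2 : ∀ ω, Real.sqrt |P ω - Q ω| ^ 2 = |P ω - Q ω| := fun ω =>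
      Real.sq_sqrt (abs_nonneg _)
    have e3 : ∀ ω, (Real.sqrt |P ω - Q ω| * |O ω|) ^ 2 = |P ω - Q ω| * O ω ^ 2 := by
      intro ω
      rw [mul_pow, e2, sq_abs]
    simp only [e1, e2, e3] at this
    exact this
  have h2 : ∑ ω, |P ω - Q ω| * O ω ^ 2 ≤
      eE P (fun w => O w ^ 2) + eE Q (fun w => O w ^ 2) := by
    unfold eE
    rw [← Finset.sum_add_distrib]
    refine Finset.sum_le_sum fun ω _ => ?_
    rw [← add_mul]
    refine mul_le_mul_of_nonneg_right ?_ (sq_nonneg _)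
    rw [abs_le]
    have := hP.pos ω
    have := hQ.pos ω
    constructor <;> linarith
  have h3 : 0 ≤ ∑ ω, |P ω - Q ω| * |O ω| :=
    Finset.sum_nonneg fun _ _ => mul_nonneg (abs_nonneg _) (abs_nonneg _)
  refine h0.trans ?_
  rw [← Real.sqrt_mul (dTV_nonneg P Q)]
  apply Real.le_sqrt_of_sq_le
  refine h1.trans ?_
  exact mul_le_mul_of_nonneg_left h2 (dTV_nonneg P Q)

/-! ### the smooth truncation -/

/-- positive part -/
def pp (s : ℝ) : ℝ := max s 0


theorem pp_sq_expand (s t : ℝ) : 0 ≤ pp t ^ 2 - pp s ^ 2 - 2 * pp s * (t - s) ∧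
    pp t ^ 2 - pp s ^ 2 - 2 * pp s * (t - s) ≤ (t - s) ^ 2 := by
  unfold pp
  rcases le_total s 0 with hs | hs <;> rcases le_total t 0 with ht | ht
  · rw [max_eq_right hs, max_eq_right ht]
    constructor
    · norm_num
    · have := sq_nonneg (t - s); simpa using this
  · rw [max_eq_right hs, max_eq_left ht]
    constructor
    · have := sq_nonneg t; nlinarith
    · nlinarith
  · rw [max_eq_left hs, max_eq_right ht]
    constructor <;> nlinarith
  · rw [max_eq_left hs, max_eq_left ht]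
    have h : t ^ 2 - s ^ 2 - 2 * s * (t - s) = (t - s) ^ 2 := by ring
    rw [h]
    exact ⟨sq_nonneg _, le_rfl⟩

/-- `q(s) = 0` for `s ≤ 0`, `s²/4` on `[0,2]`, `s - 1` for `s ≥ 2` -/
def qq (s : ℝ) : ℝ := (pp s ^ 2 - pp (s - 2) ^ 2) / 4

/-- derivative of `q` -/
def dqq (s : ℝ) : ℝ := (pp s - pp (s - 2)) / 2

theorem dqq_mem (s : ℝ) : 0 ≤ dqq s ∧ dqq s ≤ 1 := by
  unfold dqq pp
  rcases le_total s 0 with h | h
  · rw [max_eq_right h, max_eq_right (by linarith)]; norm_num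
  · rw [max_eq_left h]
    rcases le_total (s - 2) 0 with h' | h'
    · rw [max_eq_right h']; constructor <;> linarith
    · rw [max_eq_left h']; constructor <;> linarith

theorem qq_of_nonpos {s : ℝ} (h : s ≤ 0) : qq s = 0 := by
  unfold qq pp; rw [max_eq_right h, max_eq_right (by linarith)]; norm_num

theorem dqq_of_nonpos {s : ℝ} (h : s ≤ 0) : dqq s = 0 := by
  unfold dqq pp; rw [max_eq_right h, max_eq_right (by linarith)]; norm_num

theorem qq_nonneg (s : ℝ) : 0 ≤ qq s := by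
  unfold qq pp
  rcases le_total s 0 with h | h
  · rw [max_eq_right h, max_eq_right (by linarith)]; norm_num
  · rw [max_eq_left h]
    rcases le_total (s - 2) 0 with h' | h'
    · rw [max_eq_right h']
      have := sq_nonneg s
      linarith [this]
    · rw [max_eq_left h']; nlinarith

theorem qq_le_pp (s : ℝ) : qq s ≤ pp s := by
  unfold qq pp
  rcases le_total s 0 with h | h
  · rw [max_eq_right h, max_eq_right (by linarith)]; norm_num
  · rw [max_eq_left h]
    rcases le_total (s - 2) 0 with h' | h'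
    · rw [max_eq_right h']; nlinarith
    · rw [max_eq_left h']; nlinarith

theorem le_qq (s : ℝ) : s - 1 ≤ qq s := by
  unfold qq pp
  rcases le_total s 0 with h | h
  · rw [max_eq_right h, max_eq_right (by linarith)]; linarith
  · rw [max_eq_left h]
    rcases le_total (s - 2) 0 with h' | h'
    · rw [max_eq_right h']; nlinarith [sq_nonneg (s - 2)]
    · rw [max_eq_left h']; nlinarith

theorem qq_expand (s t : ℝ) : |qq t - qq s - dqq s * (t - s)| ≤ (t - s) ^ 2 / 4 := by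
  have h1 := pp_sq_expand s t
  have h2 := pp_sq_expand (s - 2) (t - 2)
  have e : t - 2 - (s - 2) = t - s := by ring
  rw [e] at h2
  unfold qq dqq
  rw [abs_le]
  constructor <;> linarith [h1.1, h1.2, h2.1, h2.2]

/-- smooth truncation at level `K` -/
def psi (K w : ℝ) : ℝ := w - qq (w - K) + qq (-w - K)

/-- its derivative -/
def dpsi (K w : ℝ) : ℝ := 1 - dqq (w - K) - dqq (-w - K)

variable {K : ℝ}

theorem psi_of_abs_le {w : ℝ} (h : |w| ≤ K) : psi K w = w := by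
  have := abs_le.1 h
  unfold psi
  rw [qq_of_nonpos (by linarith), qq_of_nonpos (by linarith)]; ring

theorem dpsi_of_abs_le {w : ℝ} (h : |w| ≤ K) : dpsi K w = 1 := by
  have := abs_le.1 h
  unfold dpsi
  rw [dqq_of_nonpos (by linarith), dqq_of_nonpos (by linarith)]; ring

theorem dpsi_mem (hK : 0 ≤ K) (w : ℝ) : 0 ≤ dpsi K w ∧ dpsi K w ≤ 1 := by
  unfold dpsi
  have h1 := dqq_mem (w - K)
  have h2 := dqq_mem (-w - K)
  rcases le_total w 0 with h | h
  · rw [dqq_of_nonpos (s := w - K) (by linarith)]; constructor <;> linarith [h2.1, h2.2]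
  · rw [dqq_of_nonpos (s := -w - K) (by linarith)]; constructor <;> linarith [h1.1, h1.2]

theorem abs_psi_le (hK : 0 ≤ K) (w : ℝ) : |psi K w| ≤ K + 1 := by
  unfold psi
  have h1 := le_qq (w - K)
  have h2 := le_qq (-w - K)
  have h3 := qq_le_pp (w - K)
  have h4 := qq_le_pp (-w - K)
  rcases le_total w 0 with h | h
  · rw [qq_of_nonpos (s := w - K) (by linarith)]
    have h5 : pp (-w - K) ≤ -w := by
      unfold pp; exact max_le (by linarith) (by linarith)
    rw [abs_le]; constructor <;> linarith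
  · rw [qq_of_nonpos (s := -w - K) (by linarith)]
    have h5 : pp (w - K) ≤ w := by
      unfold pp; exact max_le (by linarith) (by linarith)
    rw [abs_le]; constructor <;> linarith

/-- truncation error from above: `w - psi w ≤ |w| 1[w > K]` -/
theorem psi_upper (hK : 0 ≤ K) (w : ℝ) : w - psi K w ≤ if K < w then |w| else 0 := by
  unfold psi
  have h4 := qq_nonneg (-w - K)
  split_ifs with h
  · have h3 := qq_le_pp (w - K)
    have h5 : pp (w - K) ≤ w := by
      unfold pp; exact max_le (by linarith) (by linarith)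
    rw [abs_of_nonneg (by linarith)]
    linarith
  · rw [qq_of_nonpos (s := w - K) (by linarith)]
    linarith

theorem psi_lower (hK : 0 ≤ K) (w : ℝ) : psi K w - w ≤ if w < -K then |w| else 0 := by
  unfold psi
  have h4 := qq_nonneg (w - K)
  split_ifs with h
  · have h3 := qq_le_pp (-w - K)
    have h5 : pp (-w - K) ≤ -w := by
      unfold pp; exact max_le (by linarith) (by linarith)
    rw [abs_of_nonpos (by linarith)]
    linarith
  · rw [qq_of_nonpos (s := -w - K) (by linarith)]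
    linarith

theorem psi_le_of_lt (hK : 0 ≤ K) {w : ℝ} (h : w < -K) : psi K w ≤ -K := by
  unfold psi
  rw [qq_of_nonpos (s := w - K) (by linarith)]
  have h3 := qq_le_pp (-w - K)
  have h5 : pp (-w - K) = -w - K := by unfold pp; exact max_eq_left (by linarith)
  rw [h5] at h3
  linarith

theorem psi_expand (w v : ℝ) : |psi K v - psi K w - dpsi K w * (v - w)| ≤ (v - w) ^ 2 / 2 := by
  have h1 := qq_expand (w - K) (v - K)
  have h2 := qq_expand (-w - K) (-v - K)
  have e1 : v - K - (w - K) = v - w := by ring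
  have e2 : -v - K - (-w - K) = -(v - w) := by ring
  rw [e1] at h1
  rw [e2, neg_sq] at h2
  unfold psi dpsi
  rw [abs_le] at *
  constructor <;> linarith [h1.1, h1.2, h2.1, h2.2]

theorem hasDerivAt_psi (w : ℝ) : HasDerivAt (psi K) (dpsi K w) w := by
  rw [hasDerivAt_iff_isLittleO]
  rw [Asymptotics.isLittleO_iff]
  intro c hc
  have : ∀ᶠ v in nhds w, |v - w| < c := by
    have := Metric.ball_mem_nhds w hc
    filter_upwards [this] with v hv
    rwa [Metric.mem_ball, Real.dist_eq] at hv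
  filter_upwards [this] with v hv
  have h := psi_expand (K := K) w v
  rw [Real.norm_eq_abs, Real.norm_eq_abs, smul_eq_mul, mul_comm (v - w)]
  refine h.trans ?_
  have h2 : (v - w) ^ 2 = |v - w| * |v - w| := by rw [← sq, sq_abs]
  rw [h2]
  nlinarith [abs_nonneg (v - w)]

theorem psi_lipschitz (hK : 0 ≤ K) (w v : ℝ) : |psi K v - psi K w| ≤ |v - w| := by
  have := Convex.norm_image_sub_le_of_norm_hasDerivWithin_le (s := Set.univ)
    (f := psi K) (f' := dpsi K) (C := 1)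
    (fun x _ => (hasDerivAt_psi x).hasDerivWithinAt)
    (fun x _ => by
      rw [Real.norm_eq_abs, abs_of_nonneg (dpsi_mem hK x).1]; exact (dpsi_mem hK x).2)
    convex_univ (Set.mem_univ w) (Set.mem_univ v)
  simpa using this

theorem psi_monotone (hK : 0 ≤ K) : Monotone (psi K) := by
  apply monotone_of_deriv_nonneg (fun x => (hasDerivAt_psi x).differentiableAt)
  intro x
  rw [(hasDerivAt_psi x).deriv]
  exact (dpsi_mem hK x).1

theorem one_sub_dpsi_le (hK : 0 ≤ K) (w : ℝ) : |1 - dpsi K w| ≤ if K < |w| then 1 else 0 := by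
  split_ifs with h
  · have := dpsi_mem hK w
    rw [abs_le]; constructor <;> linarith [this.1, this.2]
  · rw [dpsi_of_abs_le (not_lt.1 h)]; simp

/-! ### (AL1) -/

/-- **(AL1)** lower bound of the functional by the truncated one. -/
theorem aE_ge_trunc (hP : IsProb P) (hx : IsExpo x) (hK : 0 ≤ K) (X W : Ω → ℝ) :
    aE P 𝓕 x (fun w => psi K (W w)) - Real.exp (2 * (K + 1)) * eE P (fun w => |X w - W w|) -
      Real.exp 1 * eE P (fun w => if W w < -K then |W w| else 0) ≤ aE P 𝓕 x X := by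
  set Y : Ω → ℝ := fun w => psi K (W w) with hY
  have hQ := tl_isProb (𝓕 := 𝓕) hP hx.pos Y
  have h0 := aE_ge (𝓕 := 𝓕) hP hx.pos X Y
  have hYb : ∀ w, |Y w| ≤ K + 1 := fun w => abs_psi_le hK _
  have h1 : eE (tl P 𝓕 x Y) (fun w => |X w - W w|) ≤
      Real.exp (2 * (K + 1)) * eE P (fun w => |X w - W w|) :=
    eE_tl_le hP hx hYb (fun w => abs_nonneg _)
  have h2 : eE (tl P 𝓕 x Y) (fun w => if W w < -K then |W w| else 0) ≤
      Real.exp 1 * eE P (fun w => if W w < -K then |W w| else 0) := by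
    unfold eE
    rw [Finset.mul_sum]
    refine Finset.sum_le_sum fun ω _ => ?_
    show tl P 𝓕 x Y ω * (if W ω < -K then |W ω| else 0) ≤
      Real.exp 1 * (P ω * (if W ω < -K then |W ω| else 0))
    split_ifs with h
    · have h3 := tl_le_exp (𝓕 := 𝓕) hP hx (Y := Y) (a := K + 1)
        (fun w => (abs_le.1 (hYb w)).1) ω
      have h4 : Real.exp (Y ω + (K + 1)) ≤ Real.exp 1 := by
        apply Real.exp_le_exp.2
        have := psi_le_of_lt hK h
        simp only [hY]; linarith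
      rw [← mul_assoc]
      refine mul_le_mul_of_nonneg_right ?_ (abs_nonneg _)
      exact h3.trans (mul_le_mul_of_nonneg_right h4 (hP.pos ω).le)
    · simp
  have h3 : -(eE (tl P 𝓕 x Y) (fun w => |X w - W w|) +
      eE (tl P 𝓕 x Y) (fun w => if W w < -K then |W w| else 0)) ≤
      eE (tl P 𝓕 x Y) (fun w => X w - Y w) := by
    rw [← eE_add, ← neg_one_mul, ← eE_smul]
    apply eE_mono hQ
    intro w
    have h4 := psi_lower hK (W w)
    have h5 := neg_abs_le (X w - W w)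
    simp only [hY]
    linarith
  linarith

end

end Crest.Agent.R164.ED
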