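import Crest.Agent.R164.RotRel

/-!
Row 164: the pair-averaged left-rotation relation, integrated form.

`rel_le`: `Rel a` is bounded by the disorder average of the concentration and purity errors.
`rel_spin`: the same with purity of the spins (the Frobenius norm of the covariance matrix is
invariant under `x = U s`).
-/

set_option autoImplicit false

namespace Crest.Agent.R164.RotRel

open Finset MeasureTheory Crest.Agent.R141 Crest.Agent.R164.Resp Crest.Agent.R164.Rot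

noncomputable section

variable {Ω : Type*} [Fintype Ω] {P : Ω → ℝ} {𝓕 : Filt Ω} {x : ℕ → ℝ} {N : ℕ}

/-- coordinates of `U s` as functions of `ω`. -/
def XU (s : Ω → Fin N → ℝ) (U : Fin N → Fin N → ℝ) (i : Fin N) (w : Ω) : ℝ := xc (s w) i U



theorem Dl_smul (Q : Ω → ℝ) (F : ℕ → Setoid Ω) (l : ℕ) (c : ℝ) (g : Ω → ℝ) (w : Ω) :
    Dl Q F l (fun a => c * g a) w = c * Dl Q F l g w := by
  unfold Dl; rw [cE_smul, cE_smul]; ring

theorem Yf_smul_right (Q : Ω → ℝ) (F : ℕ → Setoid Ω) (x : ℕ → ℝ) (L t : ℕ) (f : Ω → ℝ) (c : ℝ)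
    (g : Ω → ℝ) (w : Ω) : Yf Q F x L t f (fun a => c * g a) w = c * Yf Q F x L t f g w := by
  unfold Yf
  rw [Finset.mul_sum]
  refine Finset.sum_congr rfl fun l _ => ?_
  have : (fun a => Dl Q F l f a * Dl Q F l (fun a => c * g a) a) =
      fun a => c * (Dl Q F l f a * Dl Q F l g a) := by
    funext a; rw [Dl_smul]; ring
  rw [this, cE_smul]; ring

theorem score_smul (Q : Ω → ℝ) (𝓕 : Filt Ω) (x : ℕ → ℝ) (t : ℕ) (c : ℝ) (g : Ω → ℝ) (w : Ω) :
    score Q 𝓕 x t (fun a => c * g a) w = c * score Q 𝓕 x t g w := by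
  unfold score
  rw [Finset.mul_sum]
  refine Finset.sum_congr rfl fun l _ => ?_
  rw [Dl_smul]; ring

theorem integrable_cont {ν : Measure (Fin N → Fin N → ℝ)} [IsProbabilityMeasure ν]
    (hν : ∀ᵐ U ∂ν, U ∈ OK N) {f : (Fin N → Fin N → ℝ) → ℝ} (hf : Continuous f) :
    Integrable f ν := by
  obtain ⟨C, hC0, hC⟩ := exists_bound (Ω := Unit) (fun U _ => f U) (fun _ => hf)
  refine Integrable.mono' (integrable_const C) hf.aestronglyMeasurable ?_
  filter_upwards [hν] with U hU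
  rw [Real.norm_eq_abs]
  exact hC U hU ()

/-! ### Continuity in the matrix -/

section cont

variable (hP : IsProb P) (hx : IsExpo x) (lam : Fin N → ℝ) (s : Ω → Fin N → ℝ) (H0 : Ω → ℝ)
include hP hx



omit [Fintype Ω] hP hx in
theorem cont_XU (s : Ω → Fin N → ℝ) (i : Fin N) (w : Ω) : Continuous fun U => XU s U i w :=
  continuous_xc (s w) i





end cont

/-- the integrand of `Rot.sd_pair` -/
def Gij (Q : Ω → ℝ) (𝓕 : Filt Ω) (x : ℕ → ℝ) (X : Fin N → Ω → ℝ) (c : ℝ) (t : ℕ) (i j : Fin N) :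
    ℝ :=
  eE Q (fun w => (cE Q (𝓕.F t) (X i) w) ^ 2) - eE Q (fun w => (cE Q (𝓕.F t) (X j) w) ^ 2) -
    c * (eE Q (fun w => Yf Q 𝓕.F x 𝓕.L t (X i) (fun a => X i a * X j a) w *
        cE Q (𝓕.F t) (X j) w) +
      eE Q (fun w => Yf Q 𝓕.F x 𝓕.L t (X j) (fun a => X i a * X j a) w * cE Q (𝓕.F t) (X i) w) +
      eE Q (fun w => (cE Q (𝓕.F t) (X i) w * cE Q (𝓕.F t) (X j) w) *
        score Q 𝓕 x 0 (fun a => X i a * X j a) w))


theorem Tpw_eq {Q : Ω → ℝ} (X : Fin N → Ω → ℝ) {Bk Bl : Finset (Fin N)} (hBk : 0 < Bk.card)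
    (hBl : 0 < Bl.card) (c : ℝ) (t : ℕ) :
    Tpw X Q 𝓕 x Bk Bl c t = av Bk Bl (fun i j => Gij Q 𝓕 x X c t i j) := by
  have hk : (Bk.card : ℝ) ≠ 0 := by exact_mod_cast hBk.ne'
  have hl : (Bl.card : ℝ) ≠ 0 := by exact_mod_cast hBl.ne'
  unfold Gij
  rw [av_sub, av_sub, av_smul]
  unfold Tpw
  congr 1
  congr 1
  · unfold av rr
    rw [eE_smul, eE_sum]
    simp only [Finset.sum_const, nsmul_eq_mul]
    rw [← Finset.mul_sum]
    field_simp
  · unfold av rr
    rw [eE_smul, eE_sum]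
    simp only [Finset.sum_const, nsmul_eq_mul]
    field_simp


/-! ### Orthogonality -/

/-- columns of an orthogonal matrix are orthonormal -/
theorem OK_col {U : Fin N → Fin N → ℝ} (hU : U ∈ OK N) (a b : Fin N) :
    ∑ i, U i a * U i b = if a = b then 1 else 0 := by
  have h : (Matrix.of U).transpose * (Matrix.of U) = 1 :=
    (Matrix.mem_orthogonalGroup_iff' (Fin N) ℝ).mp hU
  have h2 := congrFun (congrFun h a) b
  rw [Matrix.mul_apply, Matrix.one_apply] at h2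
  simpa [Matrix.transpose_apply] using h2

/-- an orthogonal matrix preserves the Euclidean norm -/
theorem OK_norm {U : Fin N → Fin N → ℝ} (hU : U ∈ OK N) (v : Fin N → ℝ) :
    ∑ i, (∑ p, U i p * v p) ^ 2 = ∑ p, v p ^ 2 := by
  have h1 : ∀ i, (∑ p, U i p * v p) ^ 2 = ∑ p, ∑ q, (U i p * U i q) * (v p * v q) := by
    intro i
    rw [sq, Finset.sum_mul_sum]
    refine Finset.sum_congr rfl fun p _ => Finset.sum_congr rfl fun q _ => by ring
  simp only [h1]
  rw [Finset.sum_comm]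
  refine Finset.sum_congr rfl fun p _ => ?_
  rw [Finset.sum_comm]
  have h2 : ∀ q, ∑ i, U i p * U i q * (v p * v q) = (if p = q then 1 else 0) * (v p * v q) := by
    intro q
    rw [← Finset.sum_mul, OK_col hU]
  simp only [h2]
  simp [sq]

omit [Fintype Ω] in
theorem sum_XU_sq {U : Fin N → Fin N → ℝ} (hU : U ∈ OK N) (s : Ω → Fin N → ℝ) (w : Ω) :
    ∑ i, XU s U i w ^ 2 = ∑ i, s w i ^ 2 := by
  have : ∀ i, XU s U i w = ∑ p, U i p * s w p := by
    intro i
    unfold XU xc Matrix.mulVec dotProduct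
    rfl
  simp only [this]
  exact OK_norm hU (s w)

omit [Fintype Ω] in
theorem block_XU_sq {U : Fin N → Fin N → ℝ} (hU : U ∈ OK N) (s : Ω → Fin N → ℝ)
    (hs : ∀ w, ∑ i, s w i ^ 2 ≤ N) {B : Finset (Fin N)} {K : ℝ} (hK : (N : ℝ) ≤ K * B.card)
    (w : Ω) : ∑ i ∈ B, XU s U i w ^ 2 ≤ K * B.card := by
  refine le_trans ?_ hK
  refine le_trans ?_ (hs w)
  rw [← sum_XU_sq hU s w]
  exact Finset.sum_le_sum_of_subset_of_nonneg (Finset.subset_univ _) fun _ _ _ => sq_nonneg _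

/-- Frobenius norm of the covariance matrix of `x = U s`. -/
theorem frob {Q : Ω → ℝ} {U : Fin N → Fin N → ℝ} (hU : U ∈ OK N) (r : Setoid Ω)
    (f g : Fin N → Ω → ℝ) (hg : ∀ i w, g i w = ∑ p, U i p * f p w) (w : Ω) :
    ∑ i, ∑ j, covR Q r (g i) (g j) w ^ 2 = ∑ i, ∑ j, covR Q r (f i) (f j) w ^ 2 := by
  have h1 : ∀ i j, covR Q r (g i) (g j) w = ∑ p, U i p * ∑ q, U j q * covR Q r (f p) (f q) w := by
    intro i j
    have e1 : cE Q r (fun a => g i a * g j a) w = ∑ p, ∑ q, U i p * U j q *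
        cE Q r (fun a => f p a * f q a) w := by
      have : (fun a => g i a * g j a) = fun a => ∑ p, ∑ q, U i p * U j q * (f p a * f q a) := by
        funext a
        rw [hg, hg, Finset.sum_mul_sum]
        refine Finset.sum_congr rfl fun p _ => Finset.sum_congr rfl fun q _ => by ring
      rw [this, cE_sum]
      refine Finset.sum_congr rfl fun p _ => ?_
      rw [cE_sum]
      refine Finset.sum_congr rfl fun q _ => ?_
      rw [cE_smul]
    have e2 : ∀ i, cE Q r (g i) w = ∑ p, U i p * cE Q r (f p) w := by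
      intro i
      have : g i = fun a => ∑ p, U i p * f p a := funext fun a => hg i a
      rw [this, cE_sum]
      refine Finset.sum_congr rfl fun p _ => ?_
      rw [cE_smul]
    unfold covR
    rw [e1, e2, e2, Finset.sum_mul_sum, ← Finset.sum_sub_distrib]
    refine Finset.sum_congr rfl fun p _ => ?_
    rw [← Finset.sum_sub_distrib, Finset.mul_sum]
    refine Finset.sum_congr rfl fun q _ => ?_
    ring
  simp only [h1]
  rw [Finset.sum_comm]
  have h2 : ∀ j, ∑ i, (∑ p, U i p * ∑ q, U j q * covR Q r (f p) (f q) w) ^ 2 =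
      ∑ p, (∑ q, U j q * covR Q r (f p) (f q) w) ^ 2 := fun j =>
    OK_norm hU (fun p => ∑ q, U j q * covR Q r (f p) (f q) w)
  simp only [h2]
  rw [Finset.sum_comm]
  refine Finset.sum_congr rfl fun p _ => ?_
  exact OK_norm hU (fun q => covR Q r (f p) (f q) w)

/-- averaged squared covariance of a family (`= avc2` of `GSpin` for the enriched system) -/
def avcS (Q : Ω → ℝ) (𝓕 : Filt Ω) (f : Fin N → Ω → ℝ) (k m : ℕ) : ℝ :=
  ((N : ℝ) ^ 2)⁻¹ * ∑ i, ∑ j, eE Q (fun w => (covR Q (𝓕.F k)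
    (cE Q (𝓕.F m) (f i)) (cE Q (𝓕.F m) (f j)) w) ^ 2)


theorem av_cov_le {Q : Ω → ℝ} (hQ : IsProb Q) {U : Fin N → Fin N → ℝ} (hU : U ∈ OK N)
    (s : Ω → Fin N → ℝ) {Bk Bl : Finset (Fin N)} {K : ℝ} (hN : 0 < N) (hK0 : 0 ≤ K)
    (hBk : (N : ℝ) ≤ K * Bk.card) (hBl : (N : ℝ) ≤ K * Bl.card) (k m : ℕ) :
    av Bk Bl (fun i j => eE Q (fun w => covR Q (𝓕.F k) (cE Q (𝓕.F m) (XU s U i))
      (cE Q (𝓕.F m) (XU s U j)) w ^ 2)) ≤ K ^ 2 * avcS Q 𝓕 (fun i w => s w i) k m := by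
  have hN' : (0:ℝ) < N := by exact_mod_cast hN
  have hk0 : (0:ℝ) < Bk.card := by
    rcases Nat.eq_zero_or_pos Bk.card with h | h
    · rw [h] at hBk; simp at hBk; linarith
    · exact_mod_cast h
  have hl0 : (0:ℝ) < Bl.card := by
    rcases Nat.eq_zero_or_pos Bl.card with h | h
    · rw [h] at hBl; simp at hBl; linarith
    · exact_mod_cast h
  set T := ∑ i, ∑ j, eE Q (fun w => (covR Q (𝓕.F k)
    (cE Q (𝓕.F m) (fun w => s w i)) (cE Q (𝓕.F m) (fun w => s w j)) w) ^ 2) with hT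
  have hT0 : 0 ≤ T := Finset.sum_nonneg fun _ _ => Finset.sum_nonneg fun _ _ =>
    eE_nonneg hQ fun _ => sq_nonneg _
  have hg : ∀ i w, cE Q (𝓕.F m) (XU s U i) w = ∑ p, U i p * cE Q (𝓕.F m) (fun w => s w p) w := by
    intro i w
    have : XU s U i = fun a => ∑ p, U i p * s a p := by
      funext a; unfold XU xc Matrix.mulVec dotProduct; rfl
    rw [this, cE_sum]
    refine Finset.sum_congr rfl fun p _ => ?_
    rw [cE_smul]
  have h1 : ∑ i, ∑ j, eE Q (fun w => covR Q (𝓕.F k) (cE Q (𝓕.F m) (XU s U i))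
      (cE Q (𝓕.F m) (XU s U j)) w ^ 2) = T := by
    have e : ∀ (F : Fin N → Fin N → Ω → ℝ), ∑ i, ∑ j, eE Q (F i j) =
        eE Q (fun w => ∑ i, ∑ j, F i j w) := by
      intro F
      rw [eE_sum]
      refine Finset.sum_congr rfl fun i _ => ?_
      rw [eE_sum]
    rw [hT, e, e]
    congr 1
    funext w
    exact frob hU (𝓕.F k) (fun p => cE Q (𝓕.F m) (fun w => s w p))
      (fun i => cE Q (𝓕.F m) (XU s U i)) hg w
  have h2 : ∑ i ∈ Bk, ∑ j ∈ Bl, eE Q (fun w => covR Q (𝓕.F k) (cE Q (𝓕.F m) (XU s U i))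
      (cE Q (𝓕.F m) (XU s U j)) w ^ 2) ≤ T := by
    rw [← h1]
    refine (Finset.sum_le_sum_of_subset_of_nonneg (Finset.subset_univ Bk) fun _ _ _ =>
      Finset.sum_nonneg fun _ _ => eE_nonneg hQ fun _ => sq_nonneg _).trans ?_
    refine Finset.sum_le_sum fun i _ => ?_
    exact Finset.sum_le_sum_of_subset_of_nonneg (Finset.subset_univ Bl) fun _ _ _ =>
      eE_nonneg hQ fun _ => sq_nonneg _
  unfold av
  refine (mul_le_mul_of_nonneg_left h2 (by positivity)).trans ?_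
  unfold avcS
  rw [← hT, ← mul_assoc]
  refine mul_le_mul_of_nonneg_right ?_ hT0
  rw [← div_eq_mul_inv, le_div_iff₀ (by positivity), inv_mul_le_iff₀ (by positivity)]
  have := mul_le_mul hBk hBl hN'.le (by positivity)
  nlinarith

/-- purity error in terms of spins -/
theorem eP_le {Q : Ω → ℝ} (hQ : IsProb Q) {U : Fin N → Fin N → ℝ} (hU : U ∈ OK N)
    (s : Ω → Fin N → ℝ) {Bk Bl : Finset (Fin N)} {K : ℝ} (hN : 0 < N) (hK0 : 0 ≤ K)
    (hBk : (N : ℝ) ≤ K * Bk.card) (hBl : (N : ℝ) ≤ K * Bl.card) {τ : ℕ → ℕ} {n : ℕ}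
    (hτL : τ n = 𝓕.L) (a : ℕ) :
    eP (XU s U) Q 𝓕 Bk Bl τ n a ≤ K ^ 2 * ∑ b ∈ range (n + 1),
      (avcS Q 𝓕 (fun i w => s w i) (τ b) (τ a) + avcS Q 𝓕 (fun i w => s w i) (τ b) (τ n)) := by
  unfold eP
  rw [Finset.mul_sum]
  refine Finset.sum_le_sum fun b _ => ?_
  rw [mul_add]
  refine add_le_add (av_cov_le hQ hU s hN hK0 hBk hBl (τ b) (τ a)) ?_
  have h := av_cov_le (𝓕 := 𝓕) hQ hU s hN hK0 hBk hBl (τ b) (τ n)
  refine le_trans (le_of_eq ?_) h
  have e : ∀ i, cE Q (𝓕.F (τ n)) (XU s U i) = XU s U i := by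
    intro i
    funext w
    exact cE_of_meas hQ (rmeas_of_ge (by rw [hτL]) _) w
  simp only [e]

/-! ### The integrated relation -/

section main

variable {D : Type*} [Fintype D]

/-- disorder average of a function of `(d, U)`. -/
def dav (q : D → ℝ) (ν : Measure (Fin N → Fin N → ℝ)) (f : D → (Fin N → Fin N → ℝ) → ℝ) : ℝ :=
  ∑ d, q d * ∫ U, f d U ∂ν

theorem dav_add {q : D → ℝ} {ν : Measure (Fin N → Fin N → ℝ)}
    {f g : D → (Fin N → Fin N → ℝ) → ℝ} (hf : ∀ d, Integrable (f d) ν)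
    (hg : ∀ d, Integrable (g d) ν) :
    dav q ν (fun d U => f d U + g d U) = dav q ν f + dav q ν g := by
  unfold dav
  rw [← Finset.sum_add_distrib]
  refine Finset.sum_congr rfl fun d _ => ?_
  rw [integral_add (hf d) (hg d), mul_add]

theorem dav_smul {q : D → ℝ} {ν : Measure (Fin N → Fin N → ℝ)} (c : ℝ)
    (f : D → (Fin N → Fin N → ℝ) → ℝ) : dav q ν (fun d U => c * f d U) = c * dav q ν f := by
  unfold dav
  rw [Finset.mul_sum]
  refine Finset.sum_congr rfl fun d _ => ?_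
  rw [integral_const_mul]; ring

theorem dav_const {q : D → ℝ} (hq : ∑ d, q d = 1) {ν : Measure (Fin N → Fin N → ℝ)}
    [IsProbabilityMeasure ν] (c : ℝ) : dav q ν (fun _ _ => c) = c := by
  unfold dav
  simp only [integral_const, probReal_univ, one_smul]
  rw [← Finset.sum_mul, hq, one_mul]

theorem dav_mono {q : D → ℝ} (hq0 : ∀ d, 0 ≤ q d) {ν : Measure (Fin N → Fin N → ℝ)}
    {f g : D → (Fin N → Fin N → ℝ) → ℝ} (hf : ∀ d, Integrable (f d) ν)
    (hg : ∀ d, Integrable (g d) ν) (h : ∀ d, ∀ᵐ U ∂ν, f d U ≤ g d U) :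
    dav q ν f ≤ dav q ν g := by
  unfold dav
  refine Finset.sum_le_sum fun d _ => mul_le_mul_of_nonneg_left ?_ (hq0 d)
  exact integral_mono_ae (hf d) (hg d) (h d)



end main

end

end Crest.Agent.R164.RotRel
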