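import Crest.Agent.R164.HaarCpl2
import Crest.Agent.R164.CavG1
import Crest.Agent.R164.EDb
import Crest.Agent.R164.GXch

-- ▼ part R164/EDd
section

/-!
Row 164 (helper60): Gaussian estimates for the coupling `O(N) → O(N+1)` (requested by helper562).

`G` is a standard Gaussian vector of `ℝ^(N+1)`, `u = G/|G|`.
-/

set_option autoImplicit false

namespace Crest.Agent.R164.ED

open MeasureTheory ProbabilityTheory Finset
open Crest.Agent.R164.Haar

noncomputable section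

variable {N : ℕ}

/-! ### One-dimensional moments -/

theorem ig (k : ℕ) : Integrable (fun x : ℝ => x ^ k) (gaussianReal 0 1) :=
  integrable_pow_of_integrable_exp_mul (X := fun x => x) (t := 1) one_ne_zero
    (integrable_exp_mul_gaussianReal 1) (integrable_exp_mul_gaussianReal (-1)) k

theorem gm1 : ∫ x : ℝ, x ^ 1 ∂(gaussianReal 0 1) = 0 := by
  simp only [pow_one]
  exact integral_id_gaussianReal

theorem gm2 : ∫ x : ℝ, x ^ 2 ∂(gaussianReal 0 1) = 1 := CavG.integral_sq_gaussian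

theorem int2 (j k : ℕ) : ∫ ζ : Fin 2 → ℝ, ζ 0 ^ j * ζ 1 ^ k ∂(gam (Fin 2)) =
    (∫ x : ℝ, x ^ j ∂(gaussianReal 0 1)) * ∫ x : ℝ, x ^ k ∂(gaussianReal 0 1) := by
  have h := integral_fintype_prod_eq_prod (μ := fun _ : Fin 2 => gaussianReal 0 1)
    (f := fun (i : Fin 2) (x : ℝ) => if i = 0 then x ^ j else x ^ k)
  simp only [Fin.prod_univ_two, if_true, Fin.isValue, one_ne_zero, if_false] at h
  exact h

theorem intg2 (j k : ℕ) :
    Integrable (fun ζ : Fin 2 → ℝ => ζ 0 ^ j * ζ 1 ^ k) (gam (Fin 2)) := by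
  have h := Integrable.fintype_prod (μ := fun _ : Fin 2 => gaussianReal 0 1)
    (f := fun (i : Fin 2) (x : ℝ) => if i = 0 then x ^ j else x ^ k) (by
      intro i
      by_cases hi : i = 0
      · simp only [hi, if_true]; exact ig j
      · simp only [hi, if_false]; exact ig k)
  simp only [Fin.prod_univ_two, if_true, Fin.isValue, one_ne_zero, if_false] at h
  exact h

theorem gm4 : ∫ x : ℝ, x ^ 4 ∂(gaussianReal 0 1) = 3 := by
  have h := CavG.integral_one (fun _ : Fin 2 => (1 : ℝ)) (F := fun x : ℝ => x ^ 4)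
    (measurable_id.pow_const 4)
  have h1 : ∀ ζ : Fin 2 → ℝ, (∑ i, 1 * ζ i) ^ 4 =
      ∑ m ∈ range 5, ((Nat.choose 4 m : ℕ) : ℝ) * (ζ 0 ^ m * ζ 1 ^ (4 - m)) := by
    intro ζ
    rw [Fin.sum_univ_two, one_mul, one_mul, add_pow]
    exact Finset.sum_congr rfl fun m _ => by ring
  have h2 : ∀ g : ℝ, (Real.sqrt (∑ _i : Fin 2, (1 : ℝ) ^ 2) * g) ^ 4 = 4 * g ^ 4 := by
    intro g
    have h3 : (∑ _i : Fin 2, (1 : ℝ) ^ 2) = 2 := by
      rw [Fin.sum_univ_two]; norm_num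
    rw [h3, mul_pow]
    have h4 : Real.sqrt 2 ^ 4 = 4 := by
      have : Real.sqrt 2 ^ 4 = (Real.sqrt 2 ^ 2) ^ 2 := by ring
      rw [this, Real.sq_sqrt (by norm_num)]; norm_num
    rw [h4]
  simp only [h1, h2] at h
  rw [integral_const_mul] at h
  have e : ∫ ζ : Fin 2 → ℝ, (∑ m ∈ range 5, ((Nat.choose 4 m : ℕ) : ℝ) *
      (ζ 0 ^ m * ζ 1 ^ (4 - m))) ∂(gam (Fin 2)) =
      2 * (∫ x : ℝ, x ^ 4 ∂(gaussianReal 0 1)) + 6 := by
    rw [integral_finsetSum _ fun m _ => (intg2 m (4 - m)).const_mul _]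
    simp only [integral_const_mul, int2]
    simp only [Finset.sum_range_succ, Finset.sum_range_zero, Nat.sub_zero, Nat.reduceSub, gm1, gm2,
      pow_zero, integral_const, probReal_univ, smul_eq_mul, mul_one]
    norm_num [Nat.choose]
    ring
  have e' : ∫ ζ : Fin 2 → ℝ, (∑ m ∈ range 5, ((Nat.choose 4 m : ℕ) : ℝ) *
      (ζ 0 ^ m * ζ 1 ^ (4 - m))) ∂(gam (Fin 2)) = 4 * ∫ x : ℝ, x ^ 4 ∂(gaussianReal 0 1) := h
  rw [e] at e'
  linarith

/-- `E exp (- s g²)` -/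
theorem int_expsq {s : ℝ} (hs : -(1 / 2) < s) :
    ∫ x : ℝ, Real.exp (-s * x ^ 2) ∂(gaussianReal 0 1) = Real.sqrt (1 / (1 + 2 * s)) := by
  rw [integral_gaussianReal_eq_integral_smul (by norm_num : (1 : NNReal) ≠ 0)]
  have h1 : ∀ x : ℝ, gaussianPDFReal 0 1 x • Real.exp (-s * x ^ 2) =
      (Real.sqrt (2 * Real.pi))⁻¹ * Real.exp (-(s + 1 / 2) * x ^ 2) := by
    intro x
    unfold gaussianPDFReal
    rw [smul_eq_mul, mul_assoc, ← Real.exp_add]
    simp only [NNReal.coe_one, mul_one, sub_zero]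
    congr 2
    ring
  simp only [h1]
  rw [integral_const_mul, integral_gaussian, ← Real.sqrt_inv, ← Real.sqrt_mul (by positivity)]
  congr 1
  have h2 : s + 1 / 2 ≠ 0 := by linarith
  have h3 : 1 + 2 * s = 2 * (s + 1 / 2) := by ring
  have := Real.pi_ne_zero
  rw [h3]
  field_simp

theorem intg_expsq {s : ℝ} (hs : -(1 / 2) < s) :
    Integrable (fun x : ℝ => Real.exp (-s * x ^ 2)) (gaussianReal 0 1) := by
  by_contra h
  have h1 := int_expsq hs
  rw [integral_undef h] at h1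
  have h2 : 0 < Real.sqrt (1 / (1 + 2 * s)) := Real.sqrt_pos.2 (by
    have : 0 < 1 + 2 * s := by linarith
    positivity)
  linarith

theorem int_expS {s : ℝ} (hs : -(1 / 2) < s) (n : ℕ) :
    ∫ G : Fin n → ℝ, Real.exp (-s * ∑ i, G i ^ 2) ∂(gam (Fin n)) =
      Real.sqrt (1 / (1 + 2 * s)) ^ n := by
  have h := integral_fintype_prod_eq_prod (μ := fun _ : Fin n => gaussianReal 0 1)
    (f := fun (_ : Fin n) (x : ℝ) => Real.exp (-s * x ^ 2))
  simp only [← Real.exp_sum, ← Finset.mul_sum, int_expsq hs, Finset.prod_const, Finset.card_univ,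
    Fintype.card_fin] at h
  exact h

theorem intg_expS {s : ℝ} (hs : -(1 / 2) < s) (n : ℕ) :
    Integrable (fun G : Fin n → ℝ => Real.exp (-s * ∑ i, G i ^ 2)) (gam (Fin n)) := by
  have h := Integrable.fintype_prod (μ := fun _ : Fin n => gaussianReal 0 1)
    (f := fun (_ : Fin n) (x : ℝ) => Real.exp (-s * x ^ 2)) (fun _ => intg_expsq hs)
  simp only [← Real.exp_sum, ← Finset.mul_sum] at h
  exact h

/-! ### Definitions -/

/-- `N^{-1/2} Σ_{i<N} G_i y_i` -/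
def zc (G : Fin (N + 1) → ℝ) (y : Fin N → ℝ) : ℝ := (Real.sqrt N)⁻¹ * ∑ i, G i.castSucc * y i

/-- `|G|/√N` -/
def nu (G : Fin (N + 1) → ℝ) : ℝ := nrm G / Real.sqrt N

/-- the good event -/
def Gd (N : ℕ) : Set (Fin (N + 1) → ℝ) :=
  {G | ((N : ℝ) + 1) / 2 ≤ nrm G ^ 2 ∧ nrm G ^ 2 ≤ 2 * ((N : ℝ) + 1)}

theorem measurableSet_Gd : MeasurableSet (Gd N) := by
  have h : Measurable (fun G : Fin (N + 1) → ℝ => nrm G ^ 2) := measurable_nrm.pow_const 2
  exact (measurableSet_le measurable_const h).inter (measurableSet_le h measurable_const)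

/-! ### (G1) -/

/-- exponential bound for the bad event -/
theorem gam_Gd_compl_exp :
    ((gam (Fin (N + 1))) (Gd N)ᶜ).toReal ≤ 2 * Real.exp (-(9 / 100) * ((N : ℝ) + 1)) := by
  set n : ℝ := (N : ℝ) + 1 with hn
  have hn0 : 0 < n := by positivity
  set f : (Fin (N + 1) → ℝ) → ℝ := fun G =>
    Real.exp (n / 4) * Real.exp (-(1 / 2) * ∑ i, G i ^ 2) +
      Real.exp (-(n / 2)) * Real.exp (-(-(1 / 4)) * ∑ i, G i ^ 2) with hf
  have i1 := intg_expS (s := 1 / 2) (by norm_num) (N + 1)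
  have i2 := intg_expS (s := -(1 / 4)) (by norm_num) (N + 1)
  have hfi : Integrable f (gam (Fin (N + 1))) := (i1.const_mul _).add (i2.const_mul _)
  have h1 : ((gam (Fin (N + 1))) (Gd N)ᶜ).toReal = ∫ G, (Gd N)ᶜ.indicator 1 G
      ∂(gam (Fin (N + 1))) := by
    rw [integral_indicator_one measurableSet_Gd.compl]; rfl
  have h2 : ∫ G, (Gd N)ᶜ.indicator 1 G ∂(gam (Fin (N + 1))) ≤ ∫ G, f G ∂(gam (Fin (N + 1))) := by
    refine integral_mono ((integrable_indicator_iff measurableSet_Gd.compl).2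
      (integrable_const (1 : ℝ)).integrableOn) hfi fun G => ?_
    by_cases hG : G ∈ (Gd N)ᶜ
    · rw [Set.indicator_of_mem hG]
      have hG' : ¬ (n / 2 ≤ nrm G ^ 2 ∧ nrm G ^ 2 ≤ 2 * n) := hG
      rw [not_and_or, not_le, not_le] at hG'
      simp only [hf, Pi.one_apply]
      rw [← nrm_sq, ← Real.exp_add, ← Real.exp_add]
      rcases hG' with h | h
      · have : (1 : ℝ) ≤ Real.exp (n / 4 + -(1 / 2) * nrm G ^ 2) := by
          rw [Real.one_le_exp_iff]; linarith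
        have h' := Real.exp_pos (-(n / 2) + -(-(1 / 4)) * nrm G ^ 2)
        linarith
      · have : (1 : ℝ) ≤ Real.exp (-(n / 2) + -(-(1 / 4)) * nrm G ^ 2) := by
          rw [Real.one_le_exp_iff]; linarith
        have h' := Real.exp_pos (n / 4 + -(1 / 2) * nrm G ^ 2)
        linarith
    · rw [Set.indicator_of_notMem hG]
      simp only [hf]
      positivity
  have h3 : ∫ G, f G ∂(gam (Fin (N + 1))) = Real.exp (n / 4) * Real.sqrt (1 / 2) ^ (N + 1) +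
      Real.exp (-(n / 2)) * Real.sqrt 2 ^ (N + 1) := by
    simp only [hf]
    rw [integral_add (i1.const_mul _) (i2.const_mul _), integral_const_mul, integral_const_mul,
      int_expS (by norm_num), int_expS (by norm_num)]
    norm_num
  have hlog : (0.6931471803 : ℝ) < Real.log 2 := Real.log_two_gt_d9
  have hlog2 : Real.log 2 < 0.6931471808 := Real.log_two_lt_d9
  have e1 : Real.sqrt 2 ^ (N + 1) = Real.exp (n * (Real.log 2 / 2)) := by
    rw [Real.sqrt_eq_rpow, Real.rpow_def_of_pos (by norm_num), ← Real.exp_nat_mul]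
    congr 1
    push_cast
    ring
  have e2 : Real.sqrt (1 / 2) ^ (N + 1) = Real.exp (-(n * (Real.log 2 / 2))) := by
    have : Real.sqrt (1 / 2) = (Real.sqrt 2)⁻¹ := by rw [one_div, Real.sqrt_inv]
    rw [this, inv_pow, e1, Real.exp_neg]
  have h4 : Real.exp (n / 4) * Real.sqrt (1 / 2) ^ (N + 1) ≤ Real.exp (-(9 / 100) * n) := by
    rw [e2, ← Real.exp_add]
    apply Real.exp_le_exp.2
    nlinarith
  have h5 : Real.exp (-(n / 2)) * Real.sqrt 2 ^ (N + 1) ≤ Real.exp (-(9 / 100) * n) := by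
    rw [e1, ← Real.exp_add]
    apply Real.exp_le_exp.2
    nlinarith
  rw [h1]
  linarith [h2.trans (le_of_eq h3)]

/-- **(G1)** -/
theorem gam_Gd_compl :
    ((gam (Fin (N + 1))) (Gd N)ᶜ).toReal ≤ 500 / ((N : ℝ) + 1) ^ 2 := by
  set n : ℝ := (N : ℝ) + 1 with hn
  have hn0 : 0 < n := by positivity
  refine gam_Gd_compl_exp.trans ?_
  have h1 : 1 + 9 / 100 * n + (9 / 100 * n) ^ 2 / 2 ≤ Real.exp (9 / 100 * n) :=
    Real.quadratic_le_exp_of_nonneg (by positivity)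
  have h2 : -(9 / 100) * n = -(9 / 100 * n) := by ring
  rw [h2, Real.exp_neg, ← div_eq_mul_inv, div_le_div_iff₀ (Real.exp_pos _) (by positivity)]
  nlinarith

/-! ### (G2) -/

theorem nrm_nonneg (G : Fin (N + 1) → ℝ) : 0 ≤ nrm G := Real.sqrt_nonneg _

theorem nrm_pos {G : Fin (N + 1) → ℝ} (hG : G ∈ Gd N) : 0 < nrm G := by
  have h1 : (0:ℝ) < nrm G ^ 2 := lt_of_lt_of_le (by positivity) hG.1
  rcases (nrm_nonneg G).eq_or_lt with h | h
  · rw [← h] at h1; norm_num at h1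
  · exact h

theorem nrm_ne {G : Fin (N + 1) → ℝ} (hG : G ∈ Gd N) : nrm G ≠ 0 := (nrm_pos hG).ne'

theorem nu_sq (G : Fin (N + 1) → ℝ) : nu G ^ 2 = nrm G ^ 2 / N := by
  unfold nu
  rw [div_pow, Real.sq_sqrt (Nat.cast_nonneg _)]

theorem nu_nonneg (G : Fin (N + 1) → ℝ) : 0 ≤ nu G :=
  div_nonneg (nrm_nonneg G) (Real.sqrt_nonneg _)

/-- **(G2)** -/
theorem nu_mem (hN : 1 ≤ N) {G : Fin (N + 1) → ℝ} (hG : G ∈ Gd N) : 1 / 2 ≤ nu G ∧ nu G ≤ 2 := by
  have hN' : (1:ℝ) ≤ N := by exact_mod_cast hN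
  have h0 := nu_nonneg G
  have h1 : (1 / 2 : ℝ) ≤ nu G ^ 2 := by
    rw [nu_sq, le_div_iff₀ (by linarith)]
    linarith [hG.1]
  have h2 : nu G ^ 2 ≤ 4 := by
    rw [nu_sq, div_le_iff₀ (by linarith)]
    linarith [hG.2]
  constructor <;> nlinarith

theorem nu_pos (hN : 1 ≤ N) {G : Fin (N + 1) → ℝ} (hG : G ∈ Gd N) : 0 < nu G := by
  linarith [(nu_mem hN hG).1]

theorem un_eq (G : Fin (N + 1) → ℝ) (i : Fin (N + 1)) : un G i = G i / nrm G := rfl

theorem gz_eq (hN : 1 ≤ N) (G : Fin (N + 1) → ℝ) (x : Fin N → ℝ) : gz G x = zc G x / nu G := by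
  have hN' : (0:ℝ) < N := by exact_mod_cast hN
  have hs : Real.sqrt N ≠ 0 := (Real.sqrt_pos.2 hN').ne'
  unfold gz zc nu
  have h1 : ∀ i : Fin N, un G i.castSucc * x i = (nrm G)⁻¹ * (G i.castSucc * x i) := by
    intro i; rw [un_eq]; ring
  simp only [h1]
  rw [← Finset.mul_sum, div_div_eq_mul_div]
  rw [mul_right_comm, inv_mul_cancel₀ hs, one_mul]
  ring

theorem gk_eq (hN : 1 ≤ N) (G : Fin (N + 1) → ℝ) (e x : Fin N → ℝ) :
    gk G e x = zc G (fun i => e i * x i) / nu G := by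
  rw [← gz_eq hN]
  unfold gk gz
  exact Finset.sum_congr rfl fun i _ => by ring

/-! ### (G3) -/

/-- coefficients of `zc` -/
def uy (y : Fin N → ℝ) : Fin (N + 1) → ℝ := Fin.lastCases 0 fun i => (Real.sqrt N)⁻¹ * y i

theorem zc_eq_sum (G : Fin (N + 1) → ℝ) (y : Fin N → ℝ) : zc G y = ∑ i, uy y i * G i := by
  rw [Fin.sum_univ_castSucc]
  simp only [uy, Fin.lastCases_castSucc, Fin.lastCases_last, zero_mul, add_zero]
  unfold zc
  rw [Finset.mul_sum]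
  exact Finset.sum_congr rfl fun i _ => by ring

theorem sum_uy_sq (y : Fin N → ℝ) : ∑ i, uy y i ^ 2 = (N : ℝ)⁻¹ * ∑ i, y i ^ 2 := by
  rw [Fin.sum_univ_castSucc]
  simp only [uy, Fin.lastCases_castSucc, Fin.lastCases_last]
  rw [Finset.mul_sum]
  have h : ((Real.sqrt N)⁻¹ : ℝ) ^ 2 = (N : ℝ)⁻¹ := by
    rw [inv_pow, Real.sq_sqrt (Nat.cast_nonneg _)]
  simp only [mul_pow, h]
  ring

theorem memLp_eval {p : ENNReal} (hp : p ≠ ⊤) (n : ℕ) (i : Fin n) :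
    MemLp (fun G : Fin n → ℝ => G i) p (gam (Fin n)) := by
  have h := memLp_id_gaussianReal' (μ := 0) (v := 1) p hp
  exact h.comp_measurePreserving (measurePreserving_eval (fun _ : Fin n => gaussianReal 0 1) i)

theorem memLp_zc {p : ENNReal} (hp : p ≠ ⊤) (y : Fin N → ℝ) :
    MemLp (fun G : Fin (N + 1) → ℝ => zc G y) p (gam (Fin (N + 1))) := by
  simp only [zc_eq_sum]
  exact memLp_finsetSum _ fun i _ => (memLp_eval hp (N + 1) i).const_mul _

theorem intg_zc_sq (y : Fin N → ℝ) :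
    Integrable (fun G : Fin (N + 1) → ℝ => zc G y ^ 2) (gam (Fin (N + 1))) :=
  (memLp_zc (by norm_num) y).integrable_sq

theorem intg_zc_4 (y : Fin N → ℝ) :
    Integrable (fun G : Fin (N + 1) → ℝ => zc G y ^ 4) (gam (Fin (N + 1))) := by
  have h := (memLp_zc (p := 4) (by norm_num) y).integrable_norm_pow (by norm_num)
  refine h.congr (Filter.Eventually.of_forall fun G => ?_)
  show ‖zc G y‖ ^ 4 = _
  rw [Real.norm_eq_abs]
  exact Even.pow_abs (by decide) _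

theorem int_zc_pow (y : Fin N → ℝ) (k : ℕ) :
    ∫ G : Fin (N + 1) → ℝ, zc G y ^ k ∂(gam (Fin (N + 1))) =
      Real.sqrt ((N : ℝ)⁻¹ * ∑ i, y i ^ 2) ^ k * ∫ x : ℝ, x ^ k ∂(gaussianReal 0 1) := by
  have h := CavG.integral_one (uy y) (F := fun x : ℝ => x ^ k) (measurable_id.pow_const k)
  simp only [sum_uy_sq, ← zc_eq_sum, mul_pow, integral_const_mul] at h
  exact h

theorem wm_nonneg (y : Fin N → ℝ) : 0 ≤ (N : ℝ)⁻¹ * ∑ i, y i ^ 2 :=
  mul_nonneg (by positivity) (Finset.sum_nonneg fun i _ => sq_nonneg _)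

/-- **(G3)** second moment -/
theorem int_zc_sq (y : Fin N → ℝ) :
    ∫ G : Fin (N + 1) → ℝ, zc G y ^ 2 ∂(gam (Fin (N + 1))) = (N : ℝ)⁻¹ * ∑ i, y i ^ 2 := by
  rw [int_zc_pow, gm2, mul_one, Real.sq_sqrt (wm_nonneg y)]

/-- **(G3)** fourth moment -/
theorem int_zc_4 (y : Fin N → ℝ) :
    ∫ G : Fin (N + 1) → ℝ, zc G y ^ 4 ∂(gam (Fin (N + 1))) =
      3 * ((N : ℝ)⁻¹ * ∑ i, y i ^ 2) ^ 2 := by
  rw [int_zc_pow, gm4]
  have : Real.sqrt ((N : ℝ)⁻¹ * ∑ i, y i ^ 2) ^ 4 =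
      (Real.sqrt ((N : ℝ)⁻¹ * ∑ i, y i ^ 2) ^ 2) ^ 2 := by ring
  rw [this, Real.sq_sqrt (wm_nonneg y)]
  ring

/-! ### (G4) -/

theorem memLp_chi (a : ℝ) : MemLp (fun x : ℝ => a * (x ^ 2 - 1)) 2 (gaussianReal 0 1) := by
  have hm : Measurable (fun x : ℝ => a * (x ^ 2 - 1)) := by fun_prop
  rw [memLp_two_iff_integrable_sq hm.aestronglyMeasurable]
  have h : (fun x : ℝ => (a * (x ^ 2 - 1)) ^ 2) = fun x => a ^ 2 * x ^ 4 - 2 * a ^ 2 * x ^ 2 + a ^ 2 := by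
    funext x; ring
  rw [h]
  exact (((ig 4).const_mul _).sub ((ig 2).const_mul _)).add (integrable_const _)

theorem int_chi (a : ℝ) : ∫ x : ℝ, a * (x ^ 2 - 1) ∂(gaussianReal 0 1) = 0 := by
  rw [integral_const_mul, integral_sub (ig 2) (integrable_const _), gm2]
  simp

theorem int_chi_sq (a : ℝ) : ∫ x : ℝ, (a * (x ^ 2 - 1)) ^ 2 ∂(gaussianReal 0 1) = 2 * a ^ 2 := by
  have h : (fun x : ℝ => (a * (x ^ 2 - 1)) ^ 2) = fun x => a ^ 2 * x ^ 4 - 2 * a ^ 2 * x ^ 2 + a ^ 2 := by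
    funext x; ring
  have i1 : Integrable (fun x : ℝ => a ^ 2 * x ^ 4 - 2 * a ^ 2 * x ^ 2) (gaussianReal 0 1) :=
    ((ig 4).const_mul _).sub ((ig 2).const_mul _)
  rw [h, integral_add i1 (integrable_const _), integral_sub ((ig 4).const_mul _)
    ((ig 2).const_mul _), integral_const_mul, integral_const_mul, gm4, gm2]
  simp
  ring

theorem memLp_chis (n : ℕ) (a : Fin n → ℝ) :
    MemLp (fun G : Fin n → ℝ => ∑ i, a i * (G i ^ 2 - 1)) 2 (gam (Fin n)) :=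
  memLp_finsetSum _ fun i _ => (memLp_chi (a i)).comp_measurePreserving
    (measurePreserving_eval (fun _ : Fin n => gaussianReal 0 1) i)

theorem int_chis (n : ℕ) (a : Fin n → ℝ) :
    ∫ G : Fin n → ℝ, (∑ i, a i * (G i ^ 2 - 1)) ∂(gam (Fin n)) = 0 := by
  rw [integral_finsetSum]
  · refine Finset.sum_eq_zero fun i _ => ?_
    have h := CavG.integral_eval_gm (κ := Fin n) i (F := fun x : ℝ => a i * (x ^ 2 - 1))
      (by fun_prop)
    exact h.trans (int_chi (a i))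
  · intro i _
    exact ((memLp_chi (a i)).comp_measurePreserving
      (measurePreserving_eval (fun _ : Fin n => gaussianReal 0 1) i)).integrable (by norm_num)

/-- second moment of a weighted chi-square -/
theorem int_chis_sq (n : ℕ) (a : Fin n → ℝ) :
    ∫ G : Fin n → ℝ, (∑ i, a i * (G i ^ 2 - 1)) ^ 2 ∂(gam (Fin n)) = 2 * ∑ i, a i ^ 2 := by
  have h := variance_sum_pi (μ := fun _ : Fin n => gaussianReal 0 1)
    (X := fun i x => a i * (x ^ 2 - 1)) (fun i => memLp_chi (a i))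
  have e : (∑ i : Fin n, fun ω : Fin n → ℝ => a i * (ω i ^ 2 - 1)) =
      fun G : Fin n → ℝ => ∑ i, a i * (G i ^ 2 - 1) := by
    funext G; rw [Finset.sum_apply]
  rw [e, variance_of_integral_eq_zero (memLp_chis n a).aestronglyMeasurable.aemeasurable
    (int_chis n a)] at h
  rw [h, Finset.mul_sum]
  refine Finset.sum_congr rfl fun i _ => ?_
  rw [variance_of_integral_eq_zero (memLp_chi (a i)).aestronglyMeasurable.aemeasurable
    (int_chi (a i))]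
  exact int_chi_sq (a i)

theorem intg_chis_sq (n : ℕ) (a : Fin n → ℝ) :
    Integrable (fun G : Fin n → ℝ => (∑ i, a i * (G i ^ 2 - 1)) ^ 2) (gam (Fin n)) :=
  (memLp_chis n a).integrable_sq

/-- `Σ_{i<N} e_i u_i²` -/
def mu_ (e : Fin N → ℝ) (G : Fin (N + 1) → ℝ) : ℝ := ∑ i : Fin N, e i * un G i.castSucc ^ 2

/-- the size of the error of the coupling -/
def kp (e : Fin N → ℝ) (m1 : ℝ) (G : Fin (N + 1) → ℝ) : ℝ :=
  |1 / nu G - 1| + |1 / (nu G) ^ 2 - 1| + |rr G - 1| + |un G (Fin.last N)| + |mu_ e G - m1|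

theorem kp_nonneg (e : Fin N → ℝ) (m1 : ℝ) (G : Fin (N + 1) → ℝ) : 0 ≤ kp e m1 G := by
  unfold kp; positivity

theorem measurable_nu : Measurable (nu (N := N)) := by
  unfold nu
  exact measurable_nrm.div_const _

theorem measurable_mu (e : Fin N → ℝ) : Measurable (mu_ e) := by
  unfold mu_
  exact Finset.measurable_sum _ fun i _ => ((measurable_un _).pow_const 2).const_mul _

theorem measurable_kp (e : Fin N → ℝ) (m1 : ℝ) : Measurable (kp e m1) := by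
  have h1 := measurable_nu (N := N)
  have h2 := measurable_mu e
  have h3 := measurable_un (N := N) (Fin.last N)
  have h4 : Measurable (fun G : Fin (N + 1) → ℝ => |un G (Fin.last N)|) := h3.abs
  have h5 : Measurable (rr (N := N)) := by
    unfold rr
    exact (measurable_const.add h4).inv
  unfold kp
  exact (((((measurable_const.div h1).sub_const 1).abs.add
    ((measurable_const.div (h1.pow_const 2)).sub_const 1).abs).add
    (h5.sub_const 1).abs).add h4).add (h2.sub_const m1).abs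

/-- coefficients -/
def ae (e : Fin N → ℝ) : Fin (N + 1) → ℝ := Fin.lastCases 0 e

theorem sum_ae (e : Fin N → ℝ) (G : Fin (N + 1) → ℝ) :
    ∑ i, ae e i * (G i ^ 2 - 1) = ∑ i : Fin N, e i * (G i.castSucc ^ 2 - 1) := by
  rw [Fin.sum_univ_castSucc]
  simp [ae]

theorem sum_ae_sq (e : Fin N → ℝ) : ∑ i, ae e i ^ 2 = ∑ i : Fin N, e i ^ 2 := by
  rw [Fin.sum_univ_castSucc]
  simp [ae]

/-- the dominating function of `kp²` -/
def kd (Λ : ℝ) (e : Fin N → ℝ) (m1 : ℝ) (G : Fin (N + 1) → ℝ) : ℝ :=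
  96 / ((N : ℝ) + 1) ^ 2 * ((∑ i, (1 : ℝ) * (G i ^ 2 - 1)) ^ 2 + 1) +
    24 / ((N : ℝ) + 1) * G (Fin.last N) ^ 2 +
    48 / ((N : ℝ) + 1) ^ 2 * ((∑ i, ae e i * (G i ^ 2 - 1)) ^ 2 +
      2 * Λ ^ 2 * ((∑ i, (1 : ℝ) * (G i ^ 2 - 1)) ^ 2 + 1)) +
    6 * ((N : ℝ)⁻¹ * ∑ i, e i - m1) ^ 2

theorem alg5 (T eb X Λ : ℝ) (h4 : eb ^ 2 ≤ Λ ^ 2) :
    (T - eb * (X + 1)) ^ 2 ≤ 2 * (T ^ 2 + 2 * Λ ^ 2 * (X ^ 2 + 1)) := by
  have h6 : (T - eb * (X + 1)) ^ 2 ≤ 2 * T ^ 2 + 2 * (eb ^ 2 * (X + 1) ^ 2) := by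
    nlinarith [sq_nonneg (T + eb * (X + 1))]
  have h7 : eb ^ 2 * (X + 1) ^ 2 ≤ Λ ^ 2 * (2 * (X ^ 2 + 1)) := by
    refine mul_le_mul h4 ?_ (sq_nonneg _) (sq_nonneg _)
    nlinarith [sq_nonneg (X - 1)]
  linarith

theorem alg3 (a b c : ℝ) : (2 * a + 2 * b + c) ^ 2 ≤ 12 * a ^ 2 + 12 * b ^ 2 + 3 * c ^ 2 := by
  nlinarith [sq_nonneg (2 * a - 2 * b), sq_nonneg (2 * a - c), sq_nonneg (2 * b - c)]

theorem kp_sq_le (hN : 1 ≤ N) {Λ : ℝ} {e : Fin N → ℝ} (he : ∀ i, |e i| ≤ Λ) (m1 : ℝ)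
    {G : Fin (N + 1) → ℝ} (hG : G ∈ Gd N) : kp e m1 G ^ 2 ≤ kd Λ e m1 G := by
  have hN' : (1:ℝ) ≤ N := by exact_mod_cast hN
  have hΛ0 : 0 ≤ Λ := (abs_nonneg _).trans (he ⟨0, by omega⟩)
  set n : ℝ := (N : ℝ) + 1 with hn
  set S : ℝ := nrm G ^ 2 with hS
  have hn0 : 0 < n := by positivity
  have hS1 : n / 2 ≤ S := hG.1
  have hS0 : 0 < S := by linarith
  set X : ℝ := ∑ i, (1 : ℝ) * (G i ^ 2 - 1) with hX
  have hXS : X = S - n := by
    rw [hX, hS, nrm_sq]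
    simp only [one_mul, Finset.sum_sub_distrib, Finset.sum_const, Finset.card_univ,
      Fintype.card_fin, nsmul_eq_mul, mul_one]
    push_cast
    rfl
  set T : ℝ := ∑ i, ae e i * (G i ^ 2 - 1) with hT
  set eb : ℝ := (N : ℝ)⁻¹ * ∑ i, e i with heb
  have hSN : S - N = X + 1 := by rw [hXS, hn]; ring
  -- inverse of S
  have hSinv : 1 / S ≤ 2 / n := by
    rw [div_le_div_iff₀ hS0 hn0]; linarith
  have hSinv0 : 0 ≤ 1 / S := by positivity
  -- p2
  have hnu2 : 1 / nu G ^ 2 - 1 = -(X + 1) / S := by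
    rw [nu_sq, ← hS, ← hSN]
    field_simp
    ring
  have hp2 : |1 / nu G ^ 2 - 1| ^ 2 ≤ 8 / n ^ 2 * (X ^ 2 + 1) := by
    rw [hnu2, sq_abs, div_eq_mul_one_div, mul_pow]
    have h1 : (1 / S) ^ 2 ≤ (2 / n) ^ 2 := pow_le_pow_left₀ hSinv0 hSinv 2
    have h2 : (-(X + 1)) ^ 2 ≤ 2 * (X ^ 2 + 1) := by nlinarith [sq_nonneg (X - 1)]
    calc (-(X + 1)) ^ 2 * (1 / S) ^ 2 ≤ (2 * (X ^ 2 + 1)) * (2 / n) ^ 2 :=
          mul_le_mul h2 h1 (sq_nonneg _) (by positivity)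
      _ = _ := by field_simp; ring
  -- p1 ≤ p2
  have hnu0 := nu_pos hN hG
  have hp1 : |1 / nu G - 1| ≤ |1 / nu G ^ 2 - 1| := by
    have h1 : 1 / nu G ^ 2 - 1 = (1 / nu G - 1) * (1 / nu G + 1) := by
      field_simp; ring
    rw [h1, abs_mul]
    refine le_mul_of_one_le_right (abs_nonneg _) ?_
    rw [abs_of_pos (by positivity)]
    have : 0 < 1 / nu G := by positivity
    linarith
  -- p4
  have hp4 : |un G (Fin.last N)| ^ 2 ≤ 2 / n * G (Fin.last N) ^ 2 := by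
    rw [sq_abs, un_eq, div_pow, ← hS, div_eq_mul_one_div, mul_comm]
    exact mul_le_mul_of_nonneg_right hSinv (sq_nonneg _)
  have hp3 : |rr G - 1| ≤ |un G (Fin.last N)| := by
    set t := |un G (Fin.last N)| with ht
    have ht0 : 0 ≤ t := abs_nonneg _
    have h1 : rr G - 1 = -(t / (1 + t)) := by
      unfold rr
      rw [← ht]
      field_simp
      ring
    rw [h1, abs_neg, abs_of_nonneg (by positivity), div_le_iff₀ (by positivity)]
    nlinarith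
  -- p5
  have heb1 : |eb| ≤ Λ := by
    rw [heb, abs_mul, abs_of_nonneg (by positivity), inv_mul_le_iff₀ (by linarith)]
    refine (Finset.abs_sum_le_sum_abs _ _).trans ?_
    calc ∑ i, |e i| ≤ ∑ _i : Fin N, Λ := Finset.sum_le_sum fun i _ => he i
      _ = N * Λ := by simp
  have hmu : mu_ e G - eb = (T - eb * (X + 1)) * (1 / S) := by
    have h1 : mu_ e G = (∑ i : Fin N, e i * G i.castSucc ^ 2) / S := by
      unfold mu_
      rw [Finset.sum_div]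
      refine Finset.sum_congr rfl fun i _ => ?_
      rw [un_eq, div_pow, hS, mul_div_assoc]
    have h2 : T = (∑ i : Fin N, e i * G i.castSucc ^ 2) - N * eb := by
      rw [hT, sum_ae, heb, ← mul_assoc, mul_inv_cancel₀ (by linarith), one_mul,
        ← Finset.sum_sub_distrib]
      exact Finset.sum_congr rfl fun i _ => by ring
    rw [h1, h2, ← hSN]
    field_simp
    ring
  have hp5 : |mu_ e G - m1| ^ 2 ≤ 2 * (8 / n ^ 2 * (T ^ 2 + 2 * Λ ^ 2 * (X ^ 2 + 1))) +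
      2 * (eb - m1) ^ 2 := by
    rw [sq_abs]
    have h1 : (mu_ e G - m1) ^ 2 ≤ 2 * (mu_ e G - eb) ^ 2 + 2 * (eb - m1) ^ 2 := by
      nlinarith [sq_nonneg ((mu_ e G - eb) - (eb - m1))]
    have h2 : (mu_ e G - eb) ^ 2 ≤ 8 / n ^ 2 * (T ^ 2 + 2 * Λ ^ 2 * (X ^ 2 + 1)) := by
      rw [hmu, mul_pow]
      have h3 : (1 / S) ^ 2 ≤ (2 / n) ^ 2 := pow_le_pow_left₀ hSinv0 hSinv 2
      have h4 : eb ^ 2 ≤ Λ ^ 2 := by
        rw [← sq_abs eb]; exact pow_le_pow_left₀ (abs_nonneg _) heb1 2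
      have h5 := alg5 T eb X Λ h4
      calc (T - eb * (X + 1)) ^ 2 * (1 / S) ^ 2 ≤
            (2 * (T ^ 2 + 2 * Λ ^ 2 * (X ^ 2 + 1))) * (2 / n) ^ 2 :=
            mul_le_mul h5 h3 (sq_nonneg _) (by positivity)
        _ = _ := by field_simp; ring
    linarith
  -- assembly
  have hk : kp e m1 G ≤ 2 * |1 / nu G ^ 2 - 1| + 2 * |un G (Fin.last N)| + |mu_ e G - m1| := by
    unfold kp; linarith
  have hk2 : kp e m1 G ^ 2 ≤
      (2 * |1 / nu G ^ 2 - 1| + 2 * |un G (Fin.last N)| + |mu_ e G - m1|) ^ 2 :=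
    pow_le_pow_left₀ (kp_nonneg _ _ _) hk 2
  have hk3 := alg3 |1 / nu G ^ 2 - 1| |un G (Fin.last N)| |mu_ e G - m1|
  unfold kd
  rw [← hn, ← hX, ← hT, ← heb]
  have e1 : 96 / n ^ 2 * (X ^ 2 + 1) = 12 * (8 / n ^ 2 * (X ^ 2 + 1)) := by ring
  have e2 : 24 / n * G (Fin.last N) ^ 2 = 12 * (2 / n * G (Fin.last N) ^ 2) := by ring
  have e3 : 48 / n ^ 2 * (T ^ 2 + 2 * Λ ^ 2 * (X ^ 2 + 1)) + 6 * (eb - m1) ^ 2 =
      3 * (2 * (8 / n ^ 2 * (T ^ 2 + 2 * Λ ^ 2 * (X ^ 2 + 1))) + 2 * (eb - m1) ^ 2) := by ring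
  rw [e1, e2, add_assoc, e3]
  linarith

theorem intg_last_sq :
    Integrable (fun G : Fin (N + 1) → ℝ => G (Fin.last N) ^ 2) (gam (Fin (N + 1))) :=
  (memLp_eval (by norm_num) (N + 1) (Fin.last N)).integrable_sq

theorem int_last_sq :
    ∫ G : Fin (N + 1) → ℝ, G (Fin.last N) ^ 2 ∂(gam (Fin (N + 1))) = 1 := by
  have h := CavG.integral_eval_gm (κ := Fin (N + 1)) (Fin.last N) (F := fun x : ℝ => x ^ 2)
    (by fun_prop)
  exact h.trans gm2

theorem intg_kd (Λ : ℝ) (e : Fin N → ℝ) (m1 : ℝ) :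
    Integrable (kd Λ e m1) (gam (Fin (N + 1))) := by
  unfold kd
  have i1 := intg_chis_sq (N + 1) (fun _ => (1 : ℝ))
  have i2 := intg_chis_sq (N + 1) (ae e)
  have i3 := i1.add (integrable_const (1 : ℝ))
  exact (((i3.const_mul _).add (intg_last_sq.const_mul _)).add
    ((i2.add (i3.const_mul _)).const_mul _)).add (integrable_const _)

theorem int_kd_le (hN : 1 ≤ N) {Λ : ℝ} {e : Fin N → ℝ} (he : ∀ i, |e i| ≤ Λ) (m1 : ℝ) :
    ∫ G, kd Λ e m1 G ∂(gam (Fin (N + 1))) ≤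
      384 * ((1 + Λ ^ 2) / N + ((N : ℝ)⁻¹ * ∑ i, e i - m1) ^ 2) := by
  have hN' : (1:ℝ) ≤ N := by exact_mod_cast hN
  have i1 := intg_chis_sq (N + 1) (fun _ => (1 : ℝ))
  have i2 := intg_chis_sq (N + 1) (ae e)
  have i3 : Integrable (fun G : Fin (N + 1) → ℝ => (∑ i, (1 : ℝ) * (G i ^ 2 - 1)) ^ 2 + 1)
      (gam (Fin (N + 1))) := i1.add (integrable_const (1 : ℝ))
  have j3 : ∫ G : Fin (N + 1) → ℝ, ((∑ i, (1 : ℝ) * (G i ^ 2 - 1)) ^ 2 + 1)
      ∂(gam (Fin (N + 1))) = 2 * ((N : ℝ) + 1) + 1 := by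
    rw [integral_add i1 (integrable_const _), int_chis_sq]
    simp
  have i4 : Integrable (fun G : Fin (N + 1) → ℝ => (∑ i, ae e i * (G i ^ 2 - 1)) ^ 2 +
      2 * Λ ^ 2 * ((∑ i, (1 : ℝ) * (G i ^ 2 - 1)) ^ 2 + 1)) (gam (Fin (N + 1))) :=
    i2.add (i3.const_mul _)
  have j4 : ∫ G : Fin (N + 1) → ℝ, ((∑ i, ae e i * (G i ^ 2 - 1)) ^ 2 +
      2 * Λ ^ 2 * ((∑ i, (1 : ℝ) * (G i ^ 2 - 1)) ^ 2 + 1)) ∂(gam (Fin (N + 1))) =
      2 * ∑ i, e i ^ 2 + 2 * Λ ^ 2 * (2 * ((N : ℝ) + 1) + 1) := by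
    rw [integral_add i2 (i3.const_mul _), int_chis_sq, integral_const_mul, j3, sum_ae_sq]
  set n : ℝ := (N : ℝ) + 1 with hn
  have hn0 : 0 < n := by positivity
  set eb : ℝ := (N : ℝ)⁻¹ * ∑ i, e i with heb
  have i5 : Integrable (fun G : Fin (N + 1) → ℝ =>
      96 / n ^ 2 * ((∑ i, (1 : ℝ) * (G i ^ 2 - 1)) ^ 2 + 1) + 24 / n * G (Fin.last N) ^ 2)
      (gam (Fin (N + 1))) := (i3.const_mul _).add (intg_last_sq.const_mul _)
  have i6 : Integrable (fun G : Fin (N + 1) → ℝ =>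
      96 / n ^ 2 * ((∑ i, (1 : ℝ) * (G i ^ 2 - 1)) ^ 2 + 1) + 24 / n * G (Fin.last N) ^ 2 +
      48 / n ^ 2 * ((∑ i, ae e i * (G i ^ 2 - 1)) ^ 2 +
      2 * Λ ^ 2 * ((∑ i, (1 : ℝ) * (G i ^ 2 - 1)) ^ 2 + 1)))
      (gam (Fin (N + 1))) := i5.add (i4.const_mul _)
  have e1 : ∫ G, kd Λ e m1 G ∂(gam (Fin (N + 1))) =
      96 / n ^ 2 * (2 * n + 1) + 24 / n + 48 / n ^ 2 * (2 * ∑ i, e i ^ 2 +
        2 * Λ ^ 2 * (2 * n + 1)) + 6 * (eb - m1) ^ 2 := by
    unfold kd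
    rw [integral_add i6 (integrable_const _), integral_add i5 (i4.const_mul _),
      integral_add (i3.const_mul _) (intg_last_sq.const_mul _), integral_const_mul,
      integral_const_mul, integral_const_mul, j3, j4, int_last_sq]
    simp
    rw [heb]
  rw [e1]
  have h1 : ∑ i, e i ^ 2 ≤ N * Λ ^ 2 := by
    calc ∑ i, e i ^ 2 ≤ ∑ _i : Fin N, Λ ^ 2 := Finset.sum_le_sum fun i _ => by
          rw [← sq_abs]; exact pow_le_pow_left₀ (abs_nonneg _) (he i) 2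
      _ = N * Λ ^ 2 := by simp
  have h2 : (2 * n + 1) ≤ 3 * n := by linarith
  have h3 : 96 / n ^ 2 * (2 * n + 1) ≤ 288 / n := by
    calc _ ≤ 96 / n ^ 2 * (3 * n) := mul_le_mul_of_nonneg_left h2 (by positivity)
      _ = _ := by field_simp; norm_num
  have h4 : 48 / n ^ 2 * (2 * ∑ i, e i ^ 2 + 2 * Λ ^ 2 * (2 * n + 1)) ≤ 384 * Λ ^ 2 / n := by
    have h5 : 2 * ∑ i, e i ^ 2 + 2 * Λ ^ 2 * (2 * n + 1) ≤ 8 * Λ ^ 2 * n := by
      have h6 : (N:ℝ) * Λ ^ 2 ≤ n * Λ ^ 2 := mul_le_mul_of_nonneg_right (by linarith) (sq_nonneg _)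
      have h7 : 2 * Λ ^ 2 * (2 * n + 1) ≤ 2 * Λ ^ 2 * (3 * n) :=
        mul_le_mul_of_nonneg_left h2 (by positivity)
      nlinarith
    calc _ ≤ 48 / n ^ 2 * (8 * Λ ^ 2 * n) := mul_le_mul_of_nonneg_left h5 (by positivity)
      _ = _ := by field_simp; ring
  have h8 : (312 + 384 * Λ ^ 2) / n ≤ 384 * ((1 + Λ ^ 2) / N) := by
    rw [div_le_iff₀ hn0]
    have h9 : 384 * ((1 + Λ ^ 2) / N) * n = 384 * (1 + Λ ^ 2) * (n / N) := by ring
    rw [h9]
    have h10 : 1 ≤ n / N := by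
      rw [one_le_div (by linarith)]; linarith
    have h11 : 384 * (1 + Λ ^ 2) * 1 ≤ 384 * (1 + Λ ^ 2) * (n / N) :=
      mul_le_mul_of_nonneg_left h10 (by positivity)
    linarith
  have h12 : (312 + 384 * Λ ^ 2) / n = 288 / n + 24 / n + 384 * Λ ^ 2 / n := by
    field_simp; ring
  have h13 := sq_nonneg (eb - m1)
  rw [mul_add]
  linarith

/-- **(G4)** integrability -/
theorem intgOn_kp_sq (hN : 1 ≤ N) {Λ : ℝ} {e : Fin N → ℝ} (he : ∀ i, |e i| ≤ Λ) (m1 : ℝ) :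
    IntegrableOn (fun G => kp e m1 G ^ 2) (Gd N) (gam (Fin (N + 1))) := by
  refine Integrable.mono' (intg_kd Λ e m1).integrableOn
    ((measurable_kp e m1).pow_const 2).aestronglyMeasurable ?_
  rw [ae_restrict_iff' measurableSet_Gd]
  refine Filter.Eventually.of_forall fun G hG => ?_
  rw [Real.norm_eq_abs, abs_of_nonneg (sq_nonneg _)]
  exact kp_sq_le hN he m1 hG

theorem kd_nonneg (Λ : ℝ) (e : Fin N → ℝ) (m1 : ℝ) (G : Fin (N + 1) → ℝ) : 0 ≤ kd Λ e m1 G := by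
  unfold kd
  positivity

/-- **(G4)** -/
theorem int_kp_sq (hN : 1 ≤ N) {Λ : ℝ} {e : Fin N → ℝ} (he : ∀ i, |e i| ≤ Λ) (m1 : ℝ) :
    ∫ G in Gd N, kp e m1 G ^ 2 ∂(gam (Fin (N + 1))) ≤
      384 * ((1 + Λ ^ 2) / N + ((N : ℝ)⁻¹ * ∑ i, e i - m1) ^ 2) := by
  refine le_trans ?_ (int_kd_le hN he m1)
  refine (setIntegral_mono_on (intgOn_kp_sq hN he m1) (intg_kd Λ e m1).integrableOn
    measurableSet_Gd fun G hG => kp_sq_le hN he m1 hG).trans ?_
  exact setIntegral_le_integral (intg_kd Λ e m1) (Filter.Eventually.of_forall fun G =>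
    kd_nonneg Λ e m1 G)

/-! ### (G5) -/

theorem inv_nu_sq_le (hN : 1 ≤ N) {G : Fin (N + 1) → ℝ} (hG : G ∈ Gd N) :
    1 / nu G ^ 2 ≤ 2 := by
  have hN' : (1:ℝ) ≤ N := by exact_mod_cast hN
  have h0 := nu_pos hN hG
  rw [div_le_iff₀ (by positivity), nu_sq, mul_div_assoc', le_div_iff₀ (by linarith)]
  linarith [hG.1]

theorem sum_un_eq (hN : 1 ≤ N) (G : Fin (N + 1) → ℝ) (c : Fin N → ℝ) :
    ∑ i, c i * un G i.castSucc = zc G c / nu G := by
  rw [← gz_eq hN]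
  unfold gz
  exact Finset.sum_congr rfl fun i _ => mul_comm _ _

theorem sum_un_sq_le (hN : 1 ≤ N) {G : Fin (N + 1) → ℝ} (hG : G ∈ Gd N) (c : Fin N → ℝ) :
    (∑ i, c i * un G i.castSucc) ^ 2 ≤ 2 * zc G c ^ 2 := by
  rw [sum_un_eq hN, div_pow, div_eq_mul_one_div, mul_comm]
  exact mul_le_mul_of_nonneg_right (inv_nu_sq_le hN hG) (sq_nonneg _)

theorem measurable_sum_un (c : Fin N → ℝ) :
    Measurable (fun G : Fin (N + 1) → ℝ => ∑ i, c i * un G i.castSucc) :=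
  Finset.measurable_sum _ fun i _ => (measurable_un _).const_mul _

theorem intgOn_sum_un_sq (hN : 1 ≤ N) (c : Fin N → ℝ) :
    IntegrableOn (fun G : Fin (N + 1) → ℝ => (∑ i, c i * un G i.castSucc) ^ 2) (Gd N)
      (gam (Fin (N + 1))) := by
  refine Integrable.mono' ((intg_zc_sq c).const_mul 2).integrableOn
    ((measurable_sum_un c).pow_const 2).aestronglyMeasurable ?_
  rw [ae_restrict_iff' measurableSet_Gd]
  refine Filter.Eventually.of_forall fun G hG => ?_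
  rw [Real.norm_eq_abs, abs_of_nonneg (sq_nonneg _)]
  exact sum_un_sq_le hN hG c

/-- **(G5)** (`Λ`-free, constant `2`) -/
theorem int_sum_un_sq (hN : 1 ≤ N) (c : Fin N → ℝ) :
    ∫ G in Gd N, (∑ i, c i * un G i.castSucc) ^ 2 ∂(gam (Fin (N + 1))) ≤
      2 * ((N : ℝ)⁻¹ * ∑ i, c i ^ 2) := by
  rw [← int_zc_sq c, ← integral_const_mul]
  refine (setIntegral_mono_on (intgOn_sum_un_sq hN c) ((intg_zc_sq c).const_mul 2).integrableOn
    measurableSet_Gd fun G hG => sum_un_sq_le hN hG c).trans ?_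
  exact setIntegral_le_integral ((intg_zc_sq c).const_mul 2) (Filter.Eventually.of_forall fun G =>
    by positivity)

/-! ### (G6) -/

/-- Cauchy–Schwarz -/
theorem cs {X : Type*} [MeasurableSpace X] {m : Measure X} {f g : X → ℝ}
    (hf : Integrable (fun x => f x ^ 2) m) (hg : Integrable (fun x => g x ^ 2) m)
    (hfg : Integrable (fun x => f x * g x) m) :
    ∫ x, f x * g x ∂m ≤ Real.sqrt ((∫ x, f x ^ 2 ∂m) * ∫ x, g x ^ 2 ∂m) := by
  apply Real.le_sqrt_of_sq_le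
  have h : ∀ t : ℝ, 0 ≤ (∫ x, f x ^ 2 ∂m) * (t * t) + (2 * ∫ x, f x * g x ∂m) * t +
      ∫ x, g x ^ 2 ∂m := by
    intro t
    have h1 : 0 ≤ ∫ x, (t * f x + g x) ^ 2 ∂m := integral_nonneg fun x => sq_nonneg _
    have h2 : ∫ x, (t * f x + g x) ^ 2 ∂m = (∫ x, f x ^ 2 ∂m) * (t * t) +
        (2 * ∫ x, f x * g x ∂m) * t + ∫ x, g x ^ 2 ∂m := by
      have h3 : (fun x => (t * f x + g x) ^ 2) = fun x =>
          (t * t) * f x ^ 2 + (2 * t) * (f x * g x) + g x ^ 2 := by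
        funext x; ring
      have i1 : Integrable (fun x => (t * t) * f x ^ 2 + (2 * t) * (f x * g x)) m :=
        (hf.const_mul _).add (hfg.const_mul _)
      rw [h3, integral_add i1 hg, integral_add (hf.const_mul _) (hfg.const_mul _),
        integral_const_mul, integral_const_mul]
      ring
    rwa [h2] at h1
  have h4 := discrim_le_zero h
  unfold discrim at h4
  nlinarith

/-- `1 + z0² + z1²` -/
def qf (e x : Fin N → ℝ) (G : Fin (N + 1) → ℝ) : ℝ :=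
  1 + zc G x ^ 2 + zc G (fun i => e i * x i) ^ 2

theorem qf_sq_le (e x : Fin N → ℝ) (G : Fin (N + 1) → ℝ) :
    qf e x G ^ 2 ≤ 3 * (1 + zc G x ^ 4 + zc G (fun i => e i * x i) ^ 4) := by
  unfold qf
  set a := zc G x ^ 2 with ha
  set b := zc G (fun i => e i * x i) ^ 2 with hb
  have e1 : zc G x ^ 4 = a ^ 2 := by rw [ha]; ring
  have e2 : zc G (fun i => e i * x i) ^ 4 = b ^ 2 := by rw [hb]; ring
  rw [e1, e2]
  nlinarith [sq_nonneg (1 - a), sq_nonneg (1 - b), sq_nonneg (a - b)]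

theorem measurable_zc (y : Fin N → ℝ) : Measurable (fun G : Fin (N + 1) → ℝ => zc G y) := by
  unfold zc
  fun_prop

theorem measurable_qf (e x : Fin N → ℝ) : Measurable (qf e x) := by
  unfold qf
  exact (measurable_const.add ((measurable_zc x).pow_const 2)).add ((measurable_zc _).pow_const 2)

theorem intg_qd (e x : Fin N → ℝ) : Integrable (fun G : Fin (N + 1) → ℝ =>
    3 * (1 + zc G x ^ 4 + zc G (fun i => e i * x i) ^ 4)) (gam (Fin (N + 1))) :=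
  (((integrable_const _).add (intg_zc_4 x)).add (intg_zc_4 _)).const_mul _

theorem intg_qf_sq (e x : Fin N → ℝ) :
    Integrable (fun G => qf e x G ^ 2) (gam (Fin (N + 1))) := by
  refine Integrable.mono' (intg_qd e x) ((measurable_qf e x).pow_const 2).aestronglyMeasurable
    (Filter.Eventually.of_forall fun G => ?_)
  rw [Real.norm_eq_abs, abs_of_nonneg (sq_nonneg _)]
  exact qf_sq_le e x G

theorem int_qf_sq (hN : 1 ≤ N) {Λ : ℝ} {e : Fin N → ℝ} (he : ∀ i, |e i| ≤ Λ)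
    {x : Fin N → ℝ} (hx : ∑ i, x i ^ 2 ≤ N) :
    ∫ G, qf e x G ^ 2 ∂(gam (Fin (N + 1))) ≤ 12 * (1 + Λ) ^ 4 := by
  have hN' : (1:ℝ) ≤ N := by exact_mod_cast hN
  have hΛ0 : 0 ≤ Λ := (abs_nonneg _).trans (he ⟨0, by omega⟩)
  refine (integral_mono (intg_qf_sq e x) (intg_qd e x) fun G => qf_sq_le e x G).trans ?_
  have i1 : Integrable (fun G : Fin (N + 1) → ℝ => 1 + zc G x ^ 4) (gam (Fin (N + 1))) :=
    (integrable_const _).add (intg_zc_4 x)
  rw [integral_const_mul, integral_add i1 (intg_zc_4 _),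
    integral_add (integrable_const _) (intg_zc_4 x), int_zc_4, int_zc_4]
  simp only [integral_const, probReal_univ, smul_eq_mul, mul_one]
  have h1 : (N : ℝ)⁻¹ * ∑ i, x i ^ 2 ≤ 1 := by
    rw [inv_mul_le_iff₀ (by linarith)]; linarith
  have h2 : (N : ℝ)⁻¹ * ∑ i, (e i * x i) ^ 2 ≤ Λ ^ 2 := by
    rw [inv_mul_le_iff₀ (by linarith)]
    calc ∑ i, (e i * x i) ^ 2 ≤ ∑ i, Λ ^ 2 * x i ^ 2 := by
          refine Finset.sum_le_sum fun i _ => ?_
          rw [mul_pow]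
          refine mul_le_mul_of_nonneg_right ?_ (sq_nonneg _)
          rw [← sq_abs]; exact pow_le_pow_left₀ (abs_nonneg _) (he i) 2
      _ = Λ ^ 2 * ∑ i, x i ^ 2 := by rw [Finset.mul_sum]
      _ ≤ Λ ^ 2 * N := mul_le_mul_of_nonneg_left hx (sq_nonneg _)
      _ = _ := mul_comm _ _
  have h3 : ((N : ℝ)⁻¹ * ∑ i, x i ^ 2) ^ 2 ≤ 1 := by
    have := pow_le_pow_left₀ (wm_nonneg x) h1 2
    simpa using this
  have h4 : ((N : ℝ)⁻¹ * ∑ i, (e i * x i) ^ 2) ^ 2 ≤ Λ ^ 4 := by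
    have := pow_le_pow_left₀ (wm_nonneg fun i => e i * x i) h2 2
    calc _ ≤ (Λ ^ 2) ^ 2 := this
      _ = _ := by ring
  have h5 : 1 + Λ ^ 4 ≤ (1 + Λ) ^ 4 := by
    nlinarith [pow_nonneg hΛ0 2, pow_nonneg hΛ0 3]
  have h6 := pow_nonneg hΛ0 4
  linarith

/-- **(G6)** integrability -/
theorem intgOn_kp_qf (hN : 1 ≤ N) {Λ : ℝ} {e : Fin N → ℝ} (he : ∀ i, |e i| ≤ Λ) (m1 : ℝ)
    (e' x : Fin N → ℝ) :
    IntegrableOn (fun G => kp e m1 G * qf e' x G) (Gd N) (gam (Fin (N + 1))) := by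
  have i1 := intgOn_kp_sq hN he m1
  have i2 := (intg_qf_sq e' x).integrableOn (s := Gd N)
  refine Integrable.mono' (i1.add i2) ((measurable_kp e m1).mul (measurable_qf e' x)).aestronglyMeasurable
    (Filter.Eventually.of_forall fun G => ?_)
  rw [Real.norm_eq_abs, abs_mul]
  show |kp e m1 G| * |qf e' x G| ≤ kp e m1 G ^ 2 + qf e' x G ^ 2
  have h1 := sq_abs (kp e m1 G)
  have h2 := sq_abs (qf e' x G)
  nlinarith [sq_nonneg (|kp e m1 G| - |qf e' x G|), abs_nonneg (kp e m1 G), abs_nonneg (qf e' x G)]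

/-- **(G6)** -/
theorem int_kp_qf (hN : 1 ≤ N) {Λ : ℝ} {e : Fin N → ℝ} (he : ∀ i, |e i| ≤ Λ) (m1 : ℝ)
    {x : Fin N → ℝ} (hx : ∑ i, x i ^ 2 ≤ N) :
    ∫ G in Gd N, kp e m1 G * (1 + zc G x ^ 2 + zc G (fun i => e i * x i) ^ 2)
      ∂(gam (Fin (N + 1))) ≤
      68 * (1 + Λ) ^ 2 * Real.sqrt ((1 + Λ ^ 2) / N + ((N : ℝ)⁻¹ * ∑ i, e i - m1) ^ 2) := by
  have hN' : (1:ℝ) ≤ N := by exact_mod_cast hN
  have hΛ0 : 0 ≤ Λ := (abs_nonneg _).trans (he ⟨0, by omega⟩)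
  have h1 := cs (m := (gam (Fin (N + 1))).restrict (Gd N)) (f := kp e m1) (g := qf e x)
    (intgOn_kp_sq hN he m1) (intg_qf_sq e x).integrableOn (intgOn_kp_qf hN he m1 e x)
  have h2 := int_kp_sq hN he m1
  have h3 : ∫ G in Gd N, qf e x G ^ 2 ∂(gam (Fin (N + 1))) ≤ 12 * (1 + Λ) ^ 4 :=
    (setIntegral_le_integral (intg_qf_sq e x) (Filter.Eventually.of_forall fun G =>
      sq_nonneg _)).trans (int_qf_sq hN he hx)
  set R := (1 + Λ ^ 2) / N + ((N : ℝ)⁻¹ * ∑ i, e i - m1) ^ 2 with hR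
  have hR0 : 0 ≤ R := by positivity
  refine h1.trans ?_
  have h4 : (∫ G in Gd N, kp e m1 G ^ 2 ∂(gam (Fin (N + 1)))) *
      ∫ G in Gd N, qf e x G ^ 2 ∂(gam (Fin (N + 1))) ≤ (68 * (1 + Λ) ^ 2) ^ 2 * R := by
    calc _ ≤ (384 * R) * (12 * (1 + Λ) ^ 4) :=
          mul_le_mul h2 h3 (integral_nonneg fun G => sq_nonneg _) (by positivity)
      _ ≤ _ := by
          have : 0 ≤ (1 + Λ) ^ 4 * R := by positivity
          nlinarith
  refine (Real.sqrt_le_sqrt h4).trans ?_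
  rw [Real.sqrt_mul (by positivity), Real.sqrt_sq (by positivity)]


end

end Crest.Agent.R164.ED
end

-- ▼ part R164/EDc

/-!
# Row 164, L side, module E-DIFF part c (helper562): the exact increment versus the ideal weight
-/

set_option autoImplicit false

namespace Crest.Agent.R164.ED

open Finset Crest.Agent.R141 Crest.Agent.R164 Crest.Agent.R164.PF Crest.Agent.R164.Haar
open Crest.ProbabilityR.InvariantGlass

noncomputable section

/-- exponents of the ideal weight -/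
def wx (m1 lamL z0 z1 y : ℝ) (v : Bool → ℝ) (b : Bool) : ℝ :=
  (sv b - z0) * z1 + 1 / 2 * m1 * (sv b - z0) ^ 2 + 1 / 2 * lamL * z0 ^ 2 + v b + sv b * y

/-- the ideal weight -/
def wid (m1 lamL z0 z1 y : ℝ) (v : Bool → ℝ) : ℝ :=
  Real.log ((Real.exp (wx m1 lamL z0 z1 y v true) + Real.exp (wx m1 lamL z0 z1 y v false)) / 2)

variable {p : Par} {N n : ℕ}

/-- the glued spin vector -/
theorem spinVec_snoc_castSucc (σ : Fin N → Bool) (b : Bool) :
    (fun j : Fin N => spinVec (Fin.snoc (α := fun _ => Bool) σ b : Fin (N + 1) → Bool)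
      j.castSucc) = spinVec σ := by
  funext j
  unfold spinVec
  rw [Fin.snoc_castSucc]

theorem spinVec_snoc_last (σ : Fin N → Bool) (b : Bool) :
    spinVec (Fin.snoc (α := fun _ => Bool) σ b : Fin (N + 1) → Bool) (Fin.last N) = sv b := by
  unfold spinVec sv
  rw [Fin.snoc_last]

/-- `Σ_g Σ_i lam_{i,g} ζ_{i,g} u_i` -/
def FF (lam : Fin (N + 1) → Fin p.nc → ℝ) (G : Fin (N + 1) → ℝ)
    (s : SY.SS p n (univ : Finset (Fin N → Bool))) : ℝ :=
  ∑ g, ∑ i : Fin N, lam i.castSucc g * (SY.zf s.2.2 g i * un G i.castSucc)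

/-- the small field of the new row -/
def L2 (lam : Fin (N + 1) → Fin p.nc → ℝ) (l : LS p n) : ℝ :=
  ∑ g, lam (Fin.last N) g * zl l.2 g

/-- the main field of the new site -/
def yb (b : Fin p.nc → ℝ) (l : LS p n) : ℝ := ∑ g, b g * zl l.1 g

/-- Hamiltonian of the `N`-system -/
abbrev HN (eig : Fin (N + 1) → ℝ) (W0 : (Fin N → Bool) → ℝ) (a lam : Fin (N + 1) → Fin p.nc → ℝ)
    (V : Mat (Fin N)) : SY.SS p n (univ : Finset (Fin N → Bool)) → ℝ :=
  GX.Hs (fun i => eig i.castSucc) 1 W0 (fun i => a i.castSucc) (fun i => lam i.castSucc) V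

/-- Hamiltonian of the `(N+1)`-system -/
abbrev HN1 (eig : Fin (N + 1) → ℝ) (W1 : (Fin (N + 1) → Bool) → ℝ)
    (a lam : Fin (N + 1) → Fin p.nc → ℝ)
    (U : Mat (Fin (N + 1))) : SY.SS p n (univ : Finset (Fin (N + 1) → Bool)) → ℝ :=
  GX.Hs eig 1 W1 a lam U

variable (eig : Fin (N + 1) → ℝ) (W0 : (Fin N → Bool) → ℝ) (W1 : (Fin (N + 1) → Bool) → ℝ)
  (a lam : Fin (N + 1) → Fin p.nc → ℝ)

/-- `U s` for the coupled matrix -/
theorem xU_castSucc {G : Fin (N + 1) → ℝ} (hG : nrm G ≠ 0) (V : Mat (Fin N))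
    (σ : Fin N → Bool) (b : Bool) (i : Fin N) :
    SY.xU (Matrix.of (cplS V G)) (Fin.snoc (α := fun _ => Bool) σ b) i.castSucc =
      SY.xU (Matrix.of V) σ i + un G i.castSucc *
        (sv b - rr G * gz G (SY.xU (Matrix.of V) σ)) := by
  have h := cplS_mulVec_castSucc hG V (spinVec (Fin.snoc (α := fun _ => Bool) σ b)) i
  rw [spinVec_snoc_castSucc, spinVec_snoc_last] at h
  exact h

theorem xU_last {G : Fin (N + 1) → ℝ} (hG : nrm G ≠ 0) (V : Mat (Fin N))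
    (σ : Fin N → Bool) (b : Bool) :
    SY.xU (Matrix.of (cplS V G)) (Fin.snoc (α := fun _ => Bool) σ b) (Fin.last N) =
      sg (un G) * gz G (SY.xU (Matrix.of V) σ) + un G (Fin.last N) * sv b := by
  have h := cplS_mulVec_last hG V (spinVec (Fin.snoc (α := fun _ => Bool) σ b))
  rw [spinVec_snoc_castSucc, spinVec_snoc_last] at h
  exact h

/-- energy of the coupled matrix -/
theorem qd_cplS {G : Fin (N + 1) → ℝ} (hG : nrm G ≠ 0) (V : Mat (Fin N))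
    (σ : Fin N → Bool) (b : Bool) :
    Mag.qd eig (Matrix.of (cplS V G)) (Fin.snoc (α := fun _ => Bool) σ b) =
      Mag.qd (fun i : Fin N => eig i.castSucc) (Matrix.of V) σ +
      ((sv b - rr G * gz G (SY.xU (Matrix.of V) σ)) *
        gk G (fun i => eig i.castSucc) (SY.xU (Matrix.of V) σ) +
      (1 / 2) * (sv b - rr G * gz G (SY.xU (Matrix.of V) σ)) ^ 2 *
        mu_ (fun i => eig i.castSucc) G +
      (1 / 2) * eig (Fin.last N) * (sg (un G) * gz G (SY.xU (Matrix.of V) σ) +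
        un G (Fin.last N) * sv b) ^ 2) := by
  have h := cplS_energy hG V eig (spinVec (Fin.snoc (α := fun _ => Bool) σ b))
  rw [spinVec_snoc_castSucc, spinVec_snoc_last] at h
  exact h

/-- the exact increment, unbundled -/
theorem xw_core {G : Fin (N + 1) → ℝ} (hG : nrm G ≠ 0) (V : Mat (Fin N))
    (s : SY.SS p n (univ : Finset (Fin N → Bool))) (l : LS p n) (b : Bool) :
    HN1 eig W1 a lam (cplS V G) (glS s l b) - HN eig W0 a lam V s =
      (sv b - rr G * gz G (SY.xU (Matrix.of V) s.1.1)) *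
        gk G (fun i => eig i.castSucc) (SY.xU (Matrix.of V) s.1.1) +
      (1 / 2) * (sv b - rr G * gz G (SY.xU (Matrix.of V) s.1.1)) ^ 2 *
        mu_ (fun i => eig i.castSucc) G +
      (1 / 2) * eig (Fin.last N) * (sg (un G) * gz G (SY.xU (Matrix.of V) s.1.1) +
        un G (Fin.last N) * sv b) ^ 2 +
      (W1 (Fin.snoc (α := fun _ => Bool) s.1.1 b) - W0 s.1.1) +
      sv b * yb (a (Fin.last N)) l +
      FF lam G s * (sv b - rr G * gz G (SY.xU (Matrix.of V) s.1.1)) +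
      L2 lam l * (sg (un G) * gz G (SY.xU (Matrix.of V) s.1.1) +
        un G (Fin.last N) * sv b) := by
  have s1 : (glS s l b).1.1 = Fin.snoc (α := fun _ => Bool) s.1.1 b := rfl
  show SY.HS (SY.h0q eig (Matrix.of (cplS V G)) 1 W1) a lam (SY.xU (Matrix.of (cplS V G)))
    (glS s l b) - SY.HS (SY.h0q (fun i : Fin N => eig i.castSucc) (Matrix.of V) 1 W0)
      (fun i => a i.castSucc) (fun i => lam i.castSucc) (SY.xU (Matrix.of V)) s = _
  unfold SY.HS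
  rw [s1]
  unfold SY.h0q
  rw [qd_cplS eig hG V s.1.1 b]
  have e1 : ∀ g : Fin p.nc, ∑ i : Fin (N + 1), a i g * (SY.zf (glS s l b).2.1 g i *
      sv ((Fin.snoc (α := fun _ => Bool) s.1.1 b : Fin (N + 1) → Bool) i)) =
      (∑ i : Fin N, a i.castSucc g * (SY.zf s.2.1 g i * sv (s.1.1 i))) +
        sv b * (a (Fin.last N) g * zl l.1 g) := by
    intro g
    rw [Fin.sum_univ_castSucc]
    simp only [Fin.snoc_castSucc, Fin.snoc_last, zf_gl_last, zf_gl_castSucc]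
    ring
  have e2 : ∀ g : Fin p.nc, ∑ i : Fin (N + 1), lam i g * (SY.zf (glS s l b).2.2 g i *
      SY.xU (Matrix.of (cplS V G)) (Fin.snoc (α := fun _ => Bool) s.1.1 b) i) =
      (∑ i : Fin N, lam i.castSucc g * (SY.zf s.2.2 g i * SY.xU (Matrix.of V) s.1.1 i)) +
      (∑ i : Fin N, lam i.castSucc g * (SY.zf s.2.2 g i * un G i.castSucc)) *
        (sv b - rr G * gz G (SY.xU (Matrix.of V) s.1.1)) +
      lam (Fin.last N) g * zl l.2 g * (sg (un G) * gz G (SY.xU (Matrix.of V) s.1.1) +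
        un G (Fin.last N) * sv b) := by
    intro g
    rw [Fin.sum_univ_castSucc]
    simp only [zf_gl2_last, zf_gl2_castSucc, xU_castSucc hG, xU_last hG]
    rw [Finset.sum_mul, ← Finset.sum_add_distrib]
    congr 1
    · refine Finset.sum_congr rfl fun i _ => ?_
      ring
    · ring
  rw [Finset.sum_congr rfl fun g _ => e1 g, Finset.sum_congr rfl fun g _ => e2 g]
  simp only [Finset.sum_add_distrib, ← Finset.sum_mul, ← Finset.mul_sum]
  unfold FF L2 yb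
  ring

/-- **the exact increment** -/
theorem xw_formula {G : Fin (N + 1) → ℝ} (hG : nrm G ≠ 0) (V : Mat (Fin N))
    (u : (OU p N n × LS p n) × Bool) :
    xw (HN eig W0 a lam V) (HN1 eig W1 a lam (cplS V G)) u =
      (sv u.2 - rr G * gz G (SY.xU (Matrix.of V) u.1.1.1.1.1)) *
        gk G (fun i => eig i.castSucc) (SY.xU (Matrix.of V) u.1.1.1.1.1) +
      (1 / 2) * (sv u.2 - rr G * gz G (SY.xU (Matrix.of V) u.1.1.1.1.1)) ^ 2 *
        mu_ (fun i => eig i.castSucc) G +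
      (1 / 2) * eig (Fin.last N) * (sg (un G) * gz G (SY.xU (Matrix.of V) u.1.1.1.1.1) +
        un G (Fin.last N) * sv u.2) ^ 2 +
      (W1 (Fin.snoc (α := fun _ => Bool) u.1.1.1.1.1 u.2) - W0 u.1.1.1.1.1) +
      sv u.2 * yb (a (Fin.last N)) u.1.2 +
      FF lam G u.1.1.1 * (sv u.2 - rr G * gz G (SY.xU (Matrix.of V) u.1.1.1.1.1)) +
      L2 lam u.1.2 * (sg (un G) * gz G (SY.xU (Matrix.of V) u.1.1.1.1.1) +
        un G (Fin.last N) * sv u.2) :=
  xw_core eig W0 W1 a lam hG V u.1.1.1 u.1.2 u.2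

/-! ### the pathwise bound -/

theorem abs_le_half (t : ℝ) : |t| ≤ (1 + t ^ 2) / 2 := by
  have h := sq_nonneg (|t| - 1)
  have h2 := sq_abs t
  nlinarith

set_option maxHeartbeats 1000000 in
theorem alg_main {e z0 z1 n1 r mu m1 lam q s L k : ℝ} (he : e ^ 2 = 1) (hs : s ^ 2 = 1)
    (hn0 : 0 ≤ n1) (hn2 : n1 ^ 2 ≤ 2) (hr0 : 0 ≤ r) (hr1 : r ≤ 1)
    (hq : |q| ≤ 1) (hm : |m1| ≤ L) (hl : |lam| ≤ L)
    (hk : k = |n1 - 1| + |n1 ^ 2 - 1| + |r - 1| + |q| + |mu - m1|) :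
    |((e - r * (z0 * n1)) * (z1 * n1) + 1 / 2 * (e - r * (z0 * n1)) ^ 2 * mu +
      1 / 2 * lam * (s * (z0 * n1) + q * e) ^ 2) -
      ((e - z0) * z1 + 1 / 2 * m1 * (e - z0) ^ 2 + 1 / 2 * lam * z0 ^ 2)| ≤
      10 * (1 + L) * (k * (1 + z0 ^ 2 + z1 ^ 2)) := by
  have hL0 : 0 ≤ L := (abs_nonneg _).trans hm
  have k1 : |n1 - 1| ≤ k := by rw [hk]; linarith [abs_nonneg (n1^2-1), abs_nonneg (r-1), abs_nonneg q, abs_nonneg (mu-m1)]
  have k2 : |n1 ^ 2 - 1| ≤ k := by rw [hk]; linarith [abs_nonneg (n1-1), abs_nonneg (r-1), abs_nonneg q, abs_nonneg (mu-m1)]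
  have k3 : |r - 1| ≤ k := by rw [hk]; linarith [abs_nonneg (n1-1), abs_nonneg (n1^2-1), abs_nonneg q, abs_nonneg (mu-m1)]
  have k4 : |q| ≤ k := by rw [hk]; linarith [abs_nonneg (n1-1), abs_nonneg (n1^2-1), abs_nonneg (r-1), abs_nonneg (mu-m1)]
  have k5 : |mu - m1| ≤ k := by rw [hk]; linarith [abs_nonneg (n1-1), abs_nonneg (n1^2-1), abs_nonneg (r-1), abs_nonneg q]
  have hk0 : 0 ≤ k := (abs_nonneg _).trans k1
  have hn1 : n1 ≤ 2 := by
    by_contra hc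
    have hc := not_le.1 hc
    have : (2:ℝ) * 2 < n1 * n1 := mul_lt_mul'' hc hc (by norm_num) (by norm_num)
    linarith [sq n1]
  have hea : |e| = 1 := by
    have : |e| ^ 2 = 1 := by rw [sq_abs]; exact he
    exact (pow_eq_one_iff_of_nonneg (abs_nonneg e) two_ne_zero).1 this
  have hsa : |s| = 1 := by
    have : |s| ^ 2 = 1 := by rw [sq_abs]; exact hs
    exact (pow_eq_one_iff_of_nonneg (abs_nonneg s) two_ne_zero).1 this
  set Q : ℝ := 1 + z0 ^ 2 + z1 ^ 2 with hQ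
  have hQ1 : 1 ≤ Q := by rw [hQ]; linarith [sq_nonneg z0, sq_nonneg z1]
  have z0Q : |z0| ≤ Q / 2 := (abs_le_half z0).trans (by rw [hQ]; linarith [sq_nonneg z1])
  have z1Q : |z1| ≤ Q / 2 := (abs_le_half z1).trans (by rw [hQ]; linarith [sq_nonneg z0])
  have z2Q : z0 ^ 2 ≤ Q := by rw [hQ]; linarith [sq_nonneg z1]
  have z01 : |z0 * z1| ≤ Q / 2 := by
    rw [abs_mul]
    have := sq_abs z0
    have := sq_abs z1
    nlinarith [sq_nonneg (|z0| - |z1|)]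
  -- decomposition
  have hdec : ((e - r * (z0 * n1)) * (z1 * n1) + 1 / 2 * (e - r * (z0 * n1)) ^ 2 * mu +
      1 / 2 * lam * (s * (z0 * n1) + q * e) ^ 2) -
      ((e - z0) * z1 + 1 / 2 * m1 * (e - z0) ^ 2 + 1 / 2 * lam * z0 ^ 2) =
      e * ((n1 - 1) * z1) - ((r - 1) * n1 ^ 2 + (n1 ^ 2 - 1)) * (z0 * z1) +
      1 / 2 * (e - r * (z0 * n1)) ^ 2 * (mu - m1) +
      m1 * (1 / 2 * (-2 * e * z0 * ((r - 1) * n1 + (n1 - 1)) +
        z0 ^ 2 * ((r - 1) * (r + 1) * n1 ^ 2 + (n1 ^ 2 - 1)))) +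
      lam * (1 / 2 * (z0 ^ 2 * (n1 ^ 2 - 1) + 2 * (s * z0 * n1 * e * q) + q ^ 2) ) +
      1 / 2 * lam * (s ^ 2 - 1) * z0 ^ 2 * n1 ^ 2 + 1 / 2 * lam * q ^ 2 * (e ^ 2 - 1) := by
    ring
  rw [hdec, hs, he]
  clear hdec
  have t1 : |e * ((n1 - 1) * z1)| ≤ k * Q / 2 := by
    rw [abs_mul, hea, one_mul, abs_mul]
    calc |n1 - 1| * |z1| ≤ k * (Q / 2) := mul_le_mul k1 z1Q (abs_nonneg _) hk0
      _ = _ := by ring
  have t2 : |((r - 1) * n1 ^ 2 + (n1 ^ 2 - 1)) * (z0 * z1)| ≤ 3 * k * Q / 2 := by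
    rw [abs_mul]
    have h1 : |(r - 1) * n1 ^ 2 + (n1 ^ 2 - 1)| ≤ 3 * k := by
      refine (abs_add_le _ _).trans ?_
      rw [abs_mul, abs_of_nonneg (sq_nonneg n1)]
      have : |r - 1| * n1 ^ 2 ≤ k * 2 := mul_le_mul k3 hn2 (sq_nonneg _) hk0
      linarith
    calc _ ≤ 3 * k * (Q / 2) := mul_le_mul h1 z01 (abs_nonneg _) (by positivity)
      _ = _ := by ring
  have t3 : |1 / 2 * (e - r * (z0 * n1)) ^ 2 * (mu - m1)| ≤ 2 * k * Q := by
    rw [abs_mul, abs_of_nonneg (by positivity)]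
    have h1 : 1 / 2 * (e - r * (z0 * n1)) ^ 2 ≤ 2 * Q := by
      have h2 : (e - r * (z0 * n1)) ^ 2 ≤ 2 * e ^ 2 + 2 * (r * (z0 * n1)) ^ 2 := by
        nlinarith [sq_nonneg (e + r * (z0 * n1))]
      have h3 : (r * (z0 * n1)) ^ 2 ≤ 2 * z0 ^ 2 := by
        have e3 : (r * (z0 * n1)) ^ 2 = (r ^ 2 * n1 ^ 2) * z0 ^ 2 := by ring
        rw [e3]
        refine mul_le_mul_of_nonneg_right ?_ (sq_nonneg _)
        have h4 : r ^ 2 ≤ 1 := pow_le_one₀ hr0 hr1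
        have h5 : r ^ 2 * n1 ^ 2 ≤ 1 * 2 := mul_le_mul h4 hn2 (sq_nonneg _) zero_le_one
        linarith
      rw [he] at h2
      linarith [sq_nonneg z1, sq_nonneg z0]
    calc _ ≤ 2 * Q * k := mul_le_mul h1 k5 (abs_nonneg _) (by positivity)
      _ = _ := by ring
  have t4 : |m1 * (1 / 2 * (-2 * e * z0 * ((r - 1) * n1 + (n1 - 1)) +
        z0 ^ 2 * ((r - 1) * (r + 1) * n1 ^ 2 + (n1 ^ 2 - 1))))| ≤ L * (4 * k * Q) := by
    rw [abs_mul]
    refine mul_le_mul hm ?_ (abs_nonneg _) hL0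
    have h1 : |(r - 1) * n1 + (n1 - 1)| ≤ 3 * k := by
      refine (abs_add_le _ _).trans ?_
      rw [abs_mul, abs_of_nonneg hn0]
      have : |r - 1| * n1 ≤ k * 2 := mul_le_mul k3 hn1 hn0 hk0
      linarith
    have h2 : |(r - 1) * (r + 1) * n1 ^ 2 + (n1 ^ 2 - 1)| ≤ 5 * k := by
      refine (abs_add_le _ _).trans ?_
      rw [abs_mul, abs_mul, abs_of_nonneg (sq_nonneg n1), abs_of_nonneg (by linarith : 0 ≤ r + 1)]
      have h3 : |r - 1| * (r + 1) ≤ k * 2 := mul_le_mul k3 (by linarith) (by linarith) hk0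
      have h4 : |r - 1| * (r + 1) * n1 ^ 2 ≤ k * 2 * 2 :=
        mul_le_mul h3 hn2 (sq_nonneg _) (by positivity)
      linarith
    rw [abs_mul, abs_of_nonneg (by norm_num : (0:ℝ) ≤ 1 / 2)]
    have h5 : |-2 * e * z0 * ((r - 1) * n1 + (n1 - 1)) +
        z0 ^ 2 * ((r - 1) * (r + 1) * n1 ^ 2 + (n1 ^ 2 - 1))| ≤ 3 * k * Q + 5 * k * Q := by
      refine (abs_add_le _ _).trans (add_le_add ?_ ?_)
      · rw [abs_mul]
        have h6 : |-2 * e * z0| = 2 * |z0| := by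
          rw [abs_mul, abs_mul, hea]; norm_num
        rw [h6]
        calc 2 * |z0| * |(r - 1) * n1 + (n1 - 1)| ≤ Q * (3 * k) :=
              mul_le_mul (by linarith) h1 (abs_nonneg _) (by linarith)
          _ = _ := by ring
      · rw [abs_mul, abs_of_nonneg (sq_nonneg z0)]
        calc z0 ^ 2 * _ ≤ Q * (5 * k) := mul_le_mul z2Q h2 (abs_nonneg _) (by linarith)
          _ = _ := by ring
    linarith
  have t5 : |lam * (1 / 2 * (z0 ^ 2 * (n1 ^ 2 - 1) + 2 * (s * z0 * n1 * e * q) + q ^ 2))| ≤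
      L * (2 * k * Q) := by
    rw [abs_mul]
    refine mul_le_mul hl ?_ (abs_nonneg _) hL0
    rw [abs_mul, abs_of_nonneg (by norm_num : (0:ℝ) ≤ 1 / 2)]
    have h1 : |z0 ^ 2 * (n1 ^ 2 - 1)| ≤ k * Q := by
      rw [abs_mul, abs_of_nonneg (sq_nonneg z0), mul_comm]
      exact mul_le_mul k2 z2Q (sq_nonneg _) hk0
    have h2 : |2 * (s * z0 * n1 * e * q)| ≤ 2 * (k * Q) := by
      rw [abs_mul, abs_mul, abs_mul, abs_mul, abs_mul, hsa, hea, abs_of_nonneg hn0,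
        abs_of_nonneg (by norm_num : (0:ℝ) ≤ 2)]
      have h3 : |z0| * n1 ≤ Q / 2 * 2 := mul_le_mul z0Q hn1 hn0 (by linarith)
      have h4 : |z0| * n1 * |q| ≤ Q / 2 * 2 * k := mul_le_mul h3 k4 (abs_nonneg _) (by linarith)
      linarith
    have h3 : |q ^ 2| ≤ k * Q := by
      rw [abs_pow]
      have h4 : |q| ^ 2 ≤ |q| := by nlinarith [abs_nonneg q]
      have h5 : k ≤ k * Q := le_mul_of_one_le_right hk0 hQ1
      linarith
    have h4 := abs_add_le (z0 ^ 2 * (n1 ^ 2 - 1) + 2 * (s * z0 * n1 * e * q)) (q ^ 2)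
    have h5 := abs_add_le (z0 ^ 2 * (n1 ^ 2 - 1)) (2 * (s * z0 * n1 * e * q))
    linarith
  have hkQ : 0 ≤ k * Q := by positivity
  have a1 := abs_sub (e * ((n1 - 1) * z1)) (((r - 1) * n1 ^ 2 + (n1 ^ 2 - 1)) * (z0 * z1))
  simp only [sub_self, mul_zero, zero_mul, add_zero]
  set T1 := e * ((n1 - 1) * z1)
  set T2 := ((r - 1) * n1 ^ 2 + (n1 ^ 2 - 1)) * (z0 * z1)
  set T3 := 1 / 2 * (e - r * (z0 * n1)) ^ 2 * (mu - m1)
  set T4 := m1 * (1 / 2 * (-2 * e * z0 * ((r - 1) * n1 + (n1 - 1)) +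
        z0 ^ 2 * ((r - 1) * (r + 1) * n1 ^ 2 + (n1 ^ 2 - 1))))
  set T5 := lam * (1 / 2 * (z0 ^ 2 * (n1 ^ 2 - 1) + 2 * (s * z0 * n1 * e * q) + q ^ 2))
  have a2 := abs_add_le (T1 - T2 + T3 + T4) T5
  have a3 := abs_add_le (T1 - T2 + T3) T4
  have a4 := abs_add_le (T1 - T2) T3
  have hLk : 0 ≤ L * (k * Q) := by positivity
  have e9 : 10 * (1 + L) * (k * Q) = 10 * (k * Q) + 10 * (L * (k * Q)) := by ring
  rw [e9]
  have e10 : L * (4 * k * Q) = 4 * (L * (k * Q)) := by ring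
  have e11 : L * (2 * k * Q) = 2 * (L * (k * Q)) := by ring
  rw [e10] at t4
  rw [e11] at t5
  clear_value T1 T2 T3 T4 T5 Q
  linarith

/-- Gaussian forms of a configuration: `z0`, `z1` -/
def Z0 (V : Mat (Fin N)) (G : Fin (N + 1) → ℝ) (σ : Fin N → Bool) : ℝ :=
  zc G (SY.xU (Matrix.of V) σ)

/-- Gaussian forms of a configuration: `z0`, `z1` -/
def Z1 (V : Mat (Fin N)) (G : Fin (N + 1) → ℝ) (σ : Fin N → Bool) : ℝ :=
  zc G (fun i => eig i.castSucc * SY.xU (Matrix.of V) σ i)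

/-- the ideal exponents as a function on the space of the step -/
def WX (m1 : ℝ) (b : Fin p.nc → ℝ) (bb : ℝ) (v : (Fin N → Bool) → Bool → ℝ) (V : Mat (Fin N))
    (G : Fin (N + 1) → ℝ) (u : (OU p N n × LS p n) × Bool) : ℝ :=
  wx m1 (eig (Fin.last N)) (Z0 V G u.1.1.1.1.1) (Z1 eig V G u.1.1.1.1.1) (bb + yb b u.1.2)
    (v u.1.1.1.1.1) u.2

theorem redB_WX (m1 : ℝ) (b : Fin p.nc → ℝ) (bb : ℝ) (v : (Fin N → Bool) → Bool → ℝ)
    (V : Mat (Fin N)) (G : Fin (N + 1) → ℝ) (w : OU p N n × LS p n) :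
    redB (WX eig m1 b bb v V G) w = wid m1 (eig (Fin.last N)) (Z0 V G w.1.1.1.1)
      (Z1 eig V G w.1.1.1.1) (bb + yb b w.2) (v w.1.1.1.1) := rfl

/-- the true increment of the potential -/
def vT (σ : Fin N → Bool) (b : Bool) : ℝ := W1 (Fin.snoc (α := fun _ => Bool) σ b) - W0 σ

/-- the size of the error of the small fields -/
def eF (V : Mat (Fin N)) (G : Fin (N + 1) → ℝ) (w : OU p N n × LS p n) : ℝ :=
  2 * (1 + |Z0 V G w.1.1.1.1|) * (|FF lam G w.1.1| + |L2 lam w.2|)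

/-- **the pathwise bound** -/
theorem xw_sub_le (hN : 1 ≤ N) {Λ m1 : ℝ} (he : ∀ i, |eig i| ≤ Λ) (hm : |m1| ≤ Λ)
    {G : Fin (N + 1) → ℝ} (hG : G ∈ Gd N) (V : Mat (Fin N)) (u : (OU p N n × LS p n) × Bool) :
    |xw (HN eig W0 a lam V) (HN1 eig W1 a lam (cplS V G)) u -
      WX eig m1 (a (Fin.last N)) 0 (vT W0 W1) V G u| ≤
      10 * (1 + Λ) * (kp (fun i : Fin N => eig i.castSucc) m1 G *
        qf (fun i => eig i.castSucc) (SY.xU (Matrix.of V) u.1.1.1.1.1) G) +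
      eF lam V G u.1 := by
  have hn := nrm_ne hG
  rw [xw_formula eig W0 W1 a lam hn V u]
  have hnu := nu_pos hN hG
  have hnm := nu_mem hN hG
  have hr := rr_mem G hn
  have hu1 : un G (Fin.last N) ^ 2 ≤ 1 := by
    rw [← sum_un hn]
    exact Finset.single_le_sum (f := fun i => un G i ^ 2) (fun i _ => sq_nonneg _)
      (Finset.mem_univ _)
  have hq : |un G (Fin.last N)| ≤ 1 := by
    rw [← sq_abs] at hu1
    exact (sq_le_one_iff₀ (abs_nonneg _)).1 hu1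
  set x := SY.xU (Matrix.of V) u.1.1.1.1.1 with hx
  set e := sv u.2 with hedef
  have he2 : e ^ 2 = 1 := by rw [hedef]; cases u.2 <;> norm_num [sv]
  have hea : |e| = 1 := sv_abs _
  have hs2 : sg (un G) ^ 2 = 1 := by rw [sq]; exact sg_mul_self _
  have hsa : |sg (un G)| = 1 := by
    have : |sg (un G)| ^ 2 = 1 := by rw [sq_abs]; exact hs2
    exact (pow_eq_one_iff_of_nonneg (abs_nonneg _) two_ne_zero).1 this
  set n1 : ℝ := 1 / nu G with hn1
  have hn10 : 0 ≤ n1 := by rw [hn1]; positivity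
  have hn12 : n1 ^ 2 ≤ 2 := by
    rw [hn1, one_div, inv_pow, ← one_div]; exact inv_nu_sq_le hN hG
  have hn1le : n1 ≤ 2 := by
    rw [hn1, div_le_iff₀ hnu]; linarith [hnm.1]
  have hgz : gz G x = zc G x * n1 := by rw [gz_eq hN, hn1]; ring
  have hgk : gk G (fun i => eig i.castSucc) x = zc G (fun i => eig i.castSucc * x i) * n1 := by
    rw [gk_eq hN, hn1]; ring
  rw [hgz, hgk]
  have hk : kp (fun i : Fin N => eig i.castSucc) m1 G =
      |n1 - 1| + |n1 ^ 2 - 1| + |rr G - 1| + |un G (Fin.last N)| +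
        |mu_ (fun i : Fin N => eig i.castSucc) G - m1| := by
    unfold kp
    rw [hn1, div_pow, one_pow]
  have h1 := alg_main (e := e) (z0 := zc G x) (z1 := zc G (fun i => eig i.castSucc * x i))
    (n1 := n1) (r := rr G) (mu := mu_ (fun i : Fin N => eig i.castSucc) G) (m1 := m1)
    (lam := eig (Fin.last N)) (q := un G (Fin.last N)) (s := sg (un G)) (L := Λ)
    (k := kp (fun i : Fin N => eig i.castSucc) m1 G) he2 hs2 hn10 hn12 (by linarith [hr.1]) hr.2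
    hq hm (he _) hk
  have hzf : |e - rr G * (zc G x * n1)| ≤ 2 * (1 + |zc G x|) := by
    refine (abs_sub _ _).trans ?_
    rw [hea, abs_mul, abs_mul, abs_of_nonneg (by linarith [hr.1] : 0 ≤ rr G), abs_of_nonneg hn10]
    have h2 : |zc G x| * n1 ≤ |zc G x| * 2 := mul_le_mul_of_nonneg_left hn1le (abs_nonneg _)
    have h3 : rr G * (|zc G x| * n1) ≤ 1 * (|zc G x| * 2) :=
      mul_le_mul hr.2 h2 (by positivity) zero_le_one
    linarith
  have hzl : |sg (un G) * (zc G x * n1) + un G (Fin.last N) * e| ≤ 2 * (1 + |zc G x|) := by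
    refine (abs_add_le _ _).trans ?_
    rw [abs_mul, abs_mul, abs_mul, hsa, hea, abs_of_nonneg hn10]
    have h2 : |zc G x| * n1 ≤ |zc G x| * 2 := mul_le_mul_of_nonneg_left hn1le (abs_nonneg _)
    linarith
  have hF : |FF lam G u.1.1.1 * (e - rr G * (zc G x * n1))| ≤
      |FF lam G u.1.1.1| * (2 * (1 + |zc G x|)) := by
    rw [abs_mul]; exact mul_le_mul_of_nonneg_left hzf (abs_nonneg _)
  have hL : |L2 lam u.1.2 * (sg (un G) * (zc G x * n1) + un G (Fin.last N) * e)| ≤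
      |L2 lam u.1.2| * (2 * (1 + |zc G x|)) := by
    rw [abs_mul]; exact mul_le_mul_of_nonneg_left hzl (abs_nonneg _)
  have hW : WX eig m1 (a (Fin.last N)) 0 (vT W0 W1) V G u =
      (e - zc G x) * zc G (fun i => eig i.castSucc * x i) + 1 / 2 * m1 * (e - zc G x) ^ 2 +
        1 / 2 * eig (Fin.last N) * zc G x ^ 2 +
        (W1 (Fin.snoc (α := fun _ => Bool) u.1.1.1.1.1 u.2) - W0 u.1.1.1.1.1) +
        e * yb (a (Fin.last N)) u.1.2 := by
    unfold WX wx Z0 Z1 vT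
    rw [zero_add]
  have hE : eF lam V G u.1 = 2 * (1 + |zc G x|) * (|FF lam G u.1.1.1| + |L2 lam u.1.2|) := rfl
  have hQ : qf (fun i => eig i.castSucc) x G =
      1 + zc G x ^ 2 + zc G (fun i => eig i.castSucc * x i) ^ 2 := rfl
  rw [hW, hE, hQ]
  set A1 := (e - rr G * (zc G x * n1)) * (zc G (fun i => eig i.castSucc * x i) * n1) with hA1
  set A2 := (e - rr G * (zc G x * n1)) ^ 2 with hA2
  set A3 := (sg (un G) * (zc G x * n1) + un G (Fin.last N) * e) ^ 2 with hA3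
  have e5 : A1 + 1 / 2 * A2 * mu_ (fun i : Fin N => eig i.castSucc) G +
      1 / 2 * eig (Fin.last N) * A3 +
      (W1 (Fin.snoc (α := fun _ => Bool) u.1.1.1.1.1 u.2) - W0 u.1.1.1.1.1) +
      e * yb (a (Fin.last N)) u.1.2 +
      FF lam G u.1.1.1 * (e - rr G * (zc G x * n1)) +
      L2 lam u.1.2 * (sg (un G) * (zc G x * n1) + un G (Fin.last N) * e) -
      ((e - zc G x) * zc G (fun i => eig i.castSucc * x i) + 1 / 2 * m1 * (e - zc G x) ^ 2 +
        1 / 2 * eig (Fin.last N) * zc G x ^ 2 +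
        (W1 (Fin.snoc (α := fun _ => Bool) u.1.1.1.1.1 u.2) - W0 u.1.1.1.1.1) +
        e * yb (a (Fin.last N)) u.1.2) =
      ((A1 + 1 / 2 * A2 * mu_ (fun i : Fin N => eig i.castSucc) G +
      1 / 2 * eig (Fin.last N) * A3) -
      ((e - zc G x) * zc G (fun i => eig i.castSucc * x i) + 1 / 2 * m1 * (e - zc G x) ^ 2 +
        1 / 2 * eig (Fin.last N) * zc G x ^ 2)) +
      FF lam G u.1.1.1 * (e - rr G * (zc G x * n1)) +
      L2 lam u.1.2 * (sg (un G) * (zc G x * n1) + un G (Fin.last N) * e) := by ring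
  rw [e5]
  refine (abs_add_le _ _).trans ?_
  refine (add_le_add (abs_add_le _ _) le_rfl).trans ?_
  have e6 : 2 * (1 + |zc G x|) * (|FF lam G u.1.1.1| + |L2 lam u.1.2|) =
      |FF lam G u.1.1.1| * (2 * (1 + |zc G x|)) + |L2 lam u.1.2| * (2 * (1 + |zc G x|)) := by ring
  rw [e6]
  linarith

end

end Crest.Agent.R164.ED
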