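import Crest.Agent.R164.LabMom
import Crest.Agent.R164.Sys164

/-!
# Row 164, L side, E-DIFF (helper309): crude bounds for the finite system

`SY.base p n A hA` with the Hamiltonian `SY.HS h0 a lam x`: bounds of the enriched free energy and
of the second moments of the fields, linear in the number of sites, uniform in `n`, `d`, `A`, `x`.
-/

set_option autoImplicit false

namespace Crest.Agent.R164.ED

open Finset Crest.Agent.R141 Crest.Agent.R164

noncomputable section

/-! ### uniform weights on products -/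

section uniform

variable {α β γ : Type*} [Fintype α] [Fintype β] [Fintype γ]

theorem eE_uQ_prod2 (f : α × β → ℝ) :
    eE (uQ (α × β)) f = eE (uQ α) (fun a => eE (uQ β) (fun b => f (a, b))) := by
  simp only [eE_uQ]
  rw [Fintype.card_prod, Fintype.sum_prod_type, ← Finset.mul_sum]
  push_cast
  rw [mul_inv]
  ring

theorem eE_uQ_fst [Nonempty β] (f : α → ℝ) :
    eE (uQ (α × β)) (fun u => f u.1) = eE (uQ α) f := by
  rw [eE_uQ_prod2]
  congr 1
  funext a
  exact eE_const (uQ_isProb (Λ := β)) (f a)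

theorem eE_uQ_mul (f : α → ℝ) (g : β → ℝ) :
    eE (uQ (α × β)) (fun u => f u.1 * g u.2) = eE (uQ α) f * eE (uQ β) g := by
  rw [eE_uQ_prod2]
  simp only [eE_smul]
  rw [mul_comm, ← eE_smul]
  congr 1
  funext a
  ring


end uniform

variable {p : Par} {N n : ℕ} {A : Finset (Fin N → Bool)} (hA : A.Nonempty)


theorem prior_base : G.prior (SY.base p n A hA) = uQ (G.Om (SY.base p n A hA)) := by
  funext ω
  show (Fintype.card (SY.SS p n A) : ℝ)⁻¹ * (Fintype.card (G.Lab p N) : ℝ)⁻¹ =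
    (Fintype.card (SY.SS p n A × G.Lab p N) : ℝ)⁻¹
  rw [Fintype.card_prod (SY.SS p n A) (G.Lab p N), Nat.cast_mul, mul_inv]

/-- expectation of a function of the base configuration under the prior -/
theorem eE_prior_base (f : SY.SS p n A → ℝ) :
    eE (G.prior (SY.base p n A hA)) (fun w => f w.1) = eE (uQ (SY.SS p n A)) f := by
  rw [prior_base hA]
  exact eE_uQ_fst (α := SY.SS p n A) (β := G.Lab p N) f

/-- product functions under the prior -/
theorem eE_prior_three (F : {σ : Fin N → Bool // σ ∈ A} → SY.FC p N n → ℝ)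
    (F' : {σ : Fin N → Bool // σ ∈ A} → SY.FC p N n → ℝ) :
    eE (G.prior (SY.base p n A hA)) (fun w => F w.1.1 w.1.2.1 * F' w.1.1 w.1.2.2) =
      eE (uQ {σ : Fin N → Bool // σ ∈ A}) (fun s =>
        eE (uQ (SY.FC p N n)) (F s) * eE (uQ (SY.FC p N n)) (F' s)) := by
  rw [eE_prior_base hA (fun s => F s.1 s.2.1 * F' s.1 s.2.2)]
  rw [eE_uQ_prod2]
  congr 1
  funext s
  exact eE_uQ_mul (F s) (F' s)

/-! ### coins -/





/-- exponentials of sums of functions of the fields -/
theorem eE_FC_exp (φ : Fin p.nc → Fin N → ℝ → ℝ) :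
    eE (uQ (SY.FC p N n)) (fun c => Real.exp (∑ g, ∑ i, φ g i (SY.zf c g i))) =
      ∏ g, ∏ i, eE (uQ (Fin n → Bool)) (fun m => Real.exp (φ g i (CSys.zc n m))) := by
  have e : (fun c : SY.FC p N n => Real.exp (∑ g, ∑ i, φ g i (SY.zf c g i))) =
      fun c => ∏ g, (fun (g : Fin p.nc) (m : Fin N → Fin n → Bool) =>
        ∏ i, Real.exp (φ g i (CSys.zc n (m i)))) g (c g) := by
    funext c
    rw [Real.exp_sum]
    refine Finset.prod_congr rfl fun g _ => ?_
    rw [Real.exp_sum]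
    rfl
  rw [e]
  refine (eE_uQ_prod (κ := Fin p.nc) (M := Fin N → Fin n → Bool)
    (fun (g : Fin p.nc) (m : Fin N → Fin n → Bool) =>
      ∏ i, Real.exp (φ g i (CSys.zc n (m i))))).trans ?_
  refine Finset.prod_congr rfl fun g _ => ?_
  exact eE_uQ_prod (κ := Fin N) (M := Fin n → Bool)
    (fun i (m : Fin n → Bool) => Real.exp (φ g i (CSys.zc n m)))

theorem eE_FC_exp_le (φ : Fin p.nc → Fin N → ℝ → ℝ) (r : Fin p.nc → Fin N → ℝ)
    (h : ∀ g i, eE (uQ (Fin n → Bool)) (fun m => Real.exp (φ g i (CSys.zc n m))) ≤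
      Real.exp (r g i)) :
    eE (uQ (SY.FC p N n)) (fun c => Real.exp (∑ g, ∑ i, φ g i (SY.zf c g i))) ≤
      Real.exp (∑ g, ∑ i, r g i) := by
  rw [eE_FC_exp, Real.exp_sum]
  refine Finset.prod_le_prod (fun g _ => Finset.prod_nonneg fun i _ =>
    eE_nonneg uQ_isProb fun _ => (Real.exp_pos _).le) fun g _ => ?_
  rw [Real.exp_sum]
  exact Finset.prod_le_prod (fun i _ => eE_nonneg uQ_isProb fun _ => (Real.exp_pos _).le)
    fun i _ => h g i

theorem eE_FC_lin (s : Fin p.nc → Fin N → ℝ) :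
    eE (uQ (SY.FC p N n)) (fun c => Real.exp (∑ g, ∑ i, s g i * SY.zf c g i)) ≤
      Real.exp (∑ g, ∑ i, s g i ^ 2 / 2) :=
  eE_FC_exp_le (fun g i z => s g i * z) _ fun g i => eE_exp_zc (s g i)



/-! ### the weight of the enrichment -/

/-- bound of the log-weight of the enrichment per site -/
def wC (p : Par) : ℝ := p.nb * Real.log 2 + p.nc * p.T * p.τ



theorem abs_cfac_le (B : G.Base p N) (o : Option (Crd p N)) (k : Stp p) (ω : G.Om B) :
    |G.cfac B o k ω| ≤ p.τ := by
  have hτ := p.hτ0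
  unfold G.cfac
  cases o with
  | none => simpa using hτ.le
  | some c =>
    simp only
    have h1 := G.cv_abs B c ω
    rw [abs_mul, abs_of_pos hτ, abs_mul]
    have h2 : |(if ω.2.2 k.1 k.2 = true then (1 : ℝ) else 0)| ≤ 1 := by
      split_ifs <;> simp
    calc p.τ * (|(if ω.2.2 k.1 k.2 = true then (1 : ℝ) else 0)| * |G.cv B c ω|)
        ≤ p.τ * (1 * 1) := by
          apply mul_le_mul_of_nonneg_left _ hτ.le
          exact mul_le_mul h2 h1 (abs_nonneg _) (by norm_num)
      _ = p.τ := by ring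


/-! ### the Hamiltonian under the prior -/

variable {h0 : (Fin N → Bool) → ℝ} {a lam : Fin N → Fin p.nc → ℝ}
  {x : (Fin N → Bool) → Fin N → ℝ} {b : ℝ}






/-! ### (M1), (M2) -/

/-- constant of (M1) -/
def C1 (p : Par) (b : ℝ) : ℝ := b + wC p + (4 + 2 * Real.log 2) * p.nc

/-- constant of (M2) -/
def C2 (p : Par) (b : ℝ) : ℝ := 8 * (2 * b + 2 * wC p + (4 + 2 * Real.log 2) * p.nc)











/-! ### the application: quadratic part of strength `t`, `x = U σ` -/


theorem abs_h0q_le {eig : Fin N → ℝ} {Λ t BV : ℝ} {V : (Fin N → Bool) → ℝ}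
    (hΛ : ∀ i, |eig i| ≤ Λ) (ht : |t| ≤ 1) (hV : ∀ σ, |V σ| ≤ BV * N) {U : Fin N → Fin N → ℝ}
    (hU : Matrix.of U ∈ Matrix.orthogonalGroup (Fin N) ℝ) (σ : Fin N → Bool) :
    |SY.h0q eig (Matrix.of U) t V σ| ≤ (Λ / 2 + BV) * N := by
  unfold SY.h0q
  have h1 : |t * Mag.qd eig (Matrix.of U) σ| ≤ Λ / 2 * N := by
    rw [abs_mul]
    have := Mag.abs_qd_le hΛ hU σ
    calc |t| * |Mag.qd eig (Matrix.of U) σ| ≤ 1 * (Λ / 2 * N) :=
          mul_le_mul ht this (abs_nonneg _) one_pos.le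
      _ = _ := one_mul _
  refine (abs_add_le _ _).trans ?_
  have := hV σ
  linarith



end

end Crest.Agent.R164.ED
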