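import Crest.Agent.R164.EDc
import Crest.Agent.R164.SysMom
import Crest.Agent.R164.EDlaw
import Crest.Agent.R164.GSpin

/-!
# Row 164, L side, module E-DIFF part e (helper562): averages over `(V, G)`
-/

set_option autoImplicit false

namespace Crest.Agent.R164.ED

open MeasureTheory ProbabilityTheory Filter
open Finset Crest.Agent.R141 Crest.Agent.R164 Crest.Agent.R164.PF Crest.Agent.R164.Haar
open Crest.ProbabilityR.InvariantGlass

noncomputable section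

/-! ### generic bounds for integrals over a product -/

theorem prod_bound {X Y : Type*} [MeasurableSpace X] [MeasurableSpace Y] {μ : Measure X}
    {κ : Measure Y} [IsProbabilityMeasure μ] [SFinite κ] {F : X × Y → ℝ} (hm : Measurable F)
    (h0 : ∀ q, 0 ≤ F q) {C : ℝ} (hC : 0 ≤ C)
    (h : ∀ᵐ x ∂μ, Integrable (fun y => F (x, y)) κ ∧ ∫ y, F (x, y) ∂κ ≤ C) :
    Integrable F (μ.prod κ) ∧ ∫ q, F q ∂(μ.prod κ) ≤ C := by
  have h1 : ∫⁻ q, ENNReal.ofReal (F q) ∂(μ.prod κ) ≤ ENNReal.ofReal C := by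
    rw [lintegral_prod _ (hm.ennreal_ofReal.aemeasurable)]
    calc _ ≤ ∫⁻ _x, ENNReal.ofReal C ∂μ := by
          refine lintegral_mono_ae ?_
          filter_upwards [h] with x hx
          rw [← ofReal_integral_eq_lintegral_ofReal hx.1 (Eventually.of_forall fun y => h0 _)]
          exact ENNReal.ofReal_le_ofReal hx.2
      _ = _ := by simp
  have hi : Integrable F (μ.prod κ) := by
    refine ⟨hm.aestronglyMeasurable, ?_⟩
    rw [hasFiniteIntegral_iff_ofReal (Eventually.of_forall h0)]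
    exact h1.trans_lt ENNReal.ofReal_lt_top
  refine ⟨hi, ?_⟩
  rw [integral_eq_lintegral_of_nonneg_ae (Eventually.of_forall h0) hm.aestronglyMeasurable]
  exact ENNReal.toReal_le_of_le_ofReal hC h1

variable {p : Par} {N n : ℕ}

/-- law of `(V, G)` -/
abbrev rho (μ : Measure (Mat (Fin N))) : Measure (Mat (Fin N) × (Fin (N + 1) → ℝ)) :=
  μ.prod (gam (Fin (N + 1)))

theorem meas_stP {Θ : Type*} [MeasurableSpace Θ]
    {H : Θ → SY.SS p n (univ : Finset (Fin N → Bool)) → ℝ} (hH : ∀ s, Measurable fun θ => H θ s)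
    (d : DD p N) (w : OU p N n × LS p n) : Measurable fun θ => stP p N n (H θ) d w := by
  unfold stP pP
  exact (G.meas_PP (BU p N n) hH d w.1).mul_const _

theorem meas_Ed {Θ : Type*} [MeasurableSpace Θ] {f : Θ → DD p N → ℝ}
    (hf : ∀ d, Measurable fun θ => f θ d) : Measurable fun θ => Ed p N (f θ) := by
  unfold Ed
  exact Finset.measurable_sum _ fun d _ => (hf d).const_mul _

theorem Ed_nonneg {f : DD p N → ℝ} (hf : ∀ d, 0 ≤ f d) : 0 ≤ Ed p N f :=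
  Finset.sum_nonneg fun d _ => mul_nonneg (dw_nonneg p N d) (hf d)

/-- averages under the `N`-system of a function of `(V, G)` -/
theorem avg_stP (hN : 0 < N) {μ : Measure (Mat (Fin N))} [IsProbabilityMeasure μ]
    {H : Mat (Fin N) → SY.SS p n (univ : Finset (Fin N → Bool)) → ℝ}
    (hH : ∀ s, Measurable fun V => H V s)
    {g : Mat (Fin N) × (Fin (N + 1) → ℝ) → OU p N n × LS p n → ℝ}
    (hg : ∀ w, Measurable fun q => g q w) (g0 : ∀ q w, 0 ≤ g q w)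
    {c : Mat (Fin N) → OU p N n × LS p n → ℝ} {C : ℝ} (hC : 0 ≤ C)
    (h : ∀ᵐ V ∂μ, (∀ w, Integrable (fun G => g (V, G) w) (gam (Fin (N + 1))) ∧
      ∫ G, g (V, G) w ∂(gam (Fin (N + 1))) ≤ c V w) ∧
      ∀ d, eE (stP p N n (H V) d) (c V) ≤ C) :
    Integrable (fun q => Ed p N (fun d => eE (stP p N n (H q.1) d) (g q))) (rho μ) ∧
      ∫ q, Ed p N (fun d => eE (stP p N n (H q.1) d) (g q)) ∂(rho μ) ≤ C := by
  have hm : Measurable (fun q : Mat (Fin N) × (Fin (N + 1) → ℝ) =>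
      Ed p N (fun d => eE (stP p N n (H q.1) d) (g q))) :=
    meas_Ed fun d => G.meas_eE (fun w => (meas_stP hH d w).comp measurable_fst) hg
  refine prod_bound hm (fun q => Ed_nonneg fun d => eE_nonneg (stP_isProb _ _) (g0 q)) hC ?_
  filter_upwards [h] with V hV
  have hi : ∀ d, Integrable (fun G => eE (stP p N n (H V) d) (g (V, G))) (gam (Fin (N + 1))) := by
    intro d
    unfold eE
    exact integrable_finsetSum _ fun w _ => (hV.1 w).1.const_mul _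
  refine ⟨?_, ?_⟩
  · show Integrable (fun G => Ed p N (fun d => eE (stP p N n (H V) d) (g (V, G)))) _
    unfold Ed
    exact integrable_finsetSum _ fun d _ => (hi d).const_mul _
  · show ∫ G, Ed p N (fun d => eE (stP p N n (H V) d) (g (V, G))) ∂_ ≤ C
    have e1 : ∫ G, Ed p N (fun d => eE (stP p N n (H V) d) (g (V, G))) ∂(gam (Fin (N + 1))) =
        Ed p N (fun d => ∫ G, eE (stP p N n (H V) d) (g (V, G)) ∂(gam (Fin (N + 1)))) := by
      unfold Ed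
      rw [integral_finsetSum _ fun d _ => (hi d).const_mul _]
      exact Finset.sum_congr rfl fun d _ => integral_const_mul _ _
    rw [e1, ← Ed_const p hN C]
    refine Ed_mono p N fun d => ?_
    refine le_trans ?_ (hV.2 d)
    have e2 : ∫ G, eE (stP p N n (H V) d) (g (V, G)) ∂(gam (Fin (N + 1))) =
        eE (stP p N n (H V) d) (fun w => ∫ G, g (V, G) w ∂(gam (Fin (N + 1)))) := by
      unfold eE
      rw [integral_finsetSum _ fun w _ => (hV.1 w).1.const_mul _]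
      exact Finset.sum_congr rfl fun w _ => integral_const_mul _ _
    rw [e2]
    exact eE_mono (stP_isProb _ _) fun w => (hV.1 w).2

/-! ### elementary bounds -/

theorem redB_le {Ω : Type*} {U U' : Ω × Bool → ℝ} {w : Ω} {c : ℝ}
    (h : ∀ b, U (w, b) ≤ U' (w, b) + c) : redB U w ≤ redB U' w + c := by
  rw [← Real.exp_le_exp, Real.exp_add, exp_redB, exp_redB]
  have h1 := Real.exp_le_exp.2 (h true)
  have h2 := Real.exp_le_exp.2 (h false)
  rw [Real.exp_add] at h1 h2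
  nlinarith

theorem abs_redB_sub_le {Ω : Type*} {U U' : Ω × Bool → ℝ} {w : Ω} {c : ℝ}
    (h : ∀ b, |U (w, b) - U' (w, b)| ≤ c) : |redB U w - redB U' w| ≤ c := by
  have h1 : redB U w ≤ redB U' w + c := redB_le fun b => by linarith [(abs_le.1 (h b)).2]
  have h2 : redB U' w ≤ redB U w + c := redB_le fun b => by linarith [(abs_le.1 (h b)).1]
  rw [abs_le]; constructor <;> linarith

theorem redB_zero {Ω : Type*} (w : Ω) : redB (fun _ : Ω × Bool => (0 : ℝ)) w = 0 := by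
  unfold redB
  norm_num

theorem abs_redB_le {Ω : Type*} {U : Ω × Bool → ℝ} {w : Ω} {c : ℝ}
    (h : ∀ b, |U (w, b)| ≤ c) : |redB U w| ≤ c := by
  have := abs_redB_sub_le (U := U) (U' := fun _ => 0) (w := w) (c := c)
    (fun b => by simpa using h b)
  rwa [redB_zero, sub_zero] at this

variable (eig : Fin (N + 1) → ℝ) (W0 : (Fin N → Bool) → ℝ) (W1 : (Fin (N + 1) → Bool) → ℝ)
  (a lam : Fin (N + 1) → Fin p.nc → ℝ)

/-- the first `N` eigenvalues -/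
abbrev e0 : Fin N → ℝ := fun i => eig i.castSucc

theorem qf_ge_one (e x : Fin N → ℝ) (G : Fin (N + 1) → ℝ) : 1 ≤ qf e x G := by
  unfold qf; linarith [sq_nonneg (zc G x), sq_nonneg (zc G fun i => e i * x i)]

theorem abs_WX_le {Λ m1 B : ℝ} (he : ∀ i, |eig i| ≤ Λ) (hm : |m1| ≤ Λ) (b : Fin p.nc → ℝ)
    (bb : ℝ) {v : (Fin N → Bool) → Bool → ℝ} (hv : ∀ σ c, |v σ c| ≤ B) (V : Mat (Fin N))
    (G : Fin (N + 1) → ℝ) (u : (OU p N n × LS p n) × Bool) :
    |WX eig m1 b bb v V G u| ≤ (1 + 2 * Λ) * qf (e0 eig) (SY.xU (Matrix.of V) u.1.1.1.1.1) G +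
      B + |bb + yb b u.1.2| := by
  have hΛ0 : 0 ≤ Λ := (abs_nonneg _).trans hm
  unfold WX wx Z0 Z1 qf e0
  set z0 := zc G (SY.xU (Matrix.of V) u.1.1.1.1.1)
  set z1 := zc G (fun i => eig i.castSucc * SY.xU (Matrix.of V) u.1.1.1.1.1 i)
  have hs : |sv u.2| = 1 := sv_abs _
  have h1 : |(sv u.2 - z0) * z1| ≤ 1 + z0 ^ 2 + z1 ^ 2 := by
    rw [sub_mul]
    refine (abs_sub _ _).trans ?_
    rw [abs_mul, hs, one_mul, abs_mul]
    have h2 := abs_le_half z1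
    have h3 := sq_abs z0
    have h4 := sq_abs z1
    nlinarith [sq_nonneg (|z0| - |z1|)]
  have h2 : |1 / 2 * m1 * (sv u.2 - z0) ^ 2| ≤ Λ * (1 + z0 ^ 2 + z1 ^ 2) := by
    rw [abs_mul, abs_mul, abs_of_nonneg (by norm_num : (0:ℝ) ≤ 1 / 2),
      abs_of_nonneg (sq_nonneg (sv u.2 - z0))]
    have h5 : (sv u.2 - z0) ^ 2 ≤ 2 * (1 + z0 ^ 2) := by
      have h6 : sv u.2 ^ 2 = 1 := by rw [← sq_abs, hs]; norm_num
      nlinarith [sq_nonneg (sv u.2 + z0)]
    have h7 : |m1| * (sv u.2 - z0) ^ 2 ≤ Λ * (2 * (1 + z0 ^ 2)) :=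
      mul_le_mul hm h5 (sq_nonneg _) hΛ0
    nlinarith [sq_nonneg z1, mul_nonneg hΛ0 (sq_nonneg z1)]
  have h3 : |1 / 2 * eig (Fin.last N) * z0 ^ 2| ≤ Λ * (1 + z0 ^ 2 + z1 ^ 2) := by
    rw [abs_mul, abs_mul, abs_of_nonneg (by norm_num : (0:ℝ) ≤ 1 / 2),
      abs_of_nonneg (sq_nonneg z0)]
    have h7 : |eig (Fin.last N)| * z0 ^ 2 ≤ Λ * z0 ^ 2 :=
      mul_le_mul_of_nonneg_right (he _) (sq_nonneg _)
    nlinarith [mul_nonneg hΛ0 (sq_nonneg z1), mul_nonneg hΛ0 (sq_nonneg z0)]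
  have h4 : |sv u.2 * (bb + yb b u.1.2)| = |bb + yb b u.1.2| := by rw [abs_mul, hs, one_mul]
  have h5 := abs_add_le ((sv u.2 - z0) * z1 + 1 / 2 * m1 * (sv u.2 - z0) ^ 2 +
    1 / 2 * eig (Fin.last N) * z0 ^ 2 + v u.1.1.1.1.1 u.2) (sv u.2 * (bb + yb b u.1.2))
  have h6 := abs_add_le ((sv u.2 - z0) * z1 + 1 / 2 * m1 * (sv u.2 - z0) ^ 2 +
    1 / 2 * eig (Fin.last N) * z0 ^ 2) (v u.1.1.1.1.1 u.2)
  have h7 := abs_add_le ((sv u.2 - z0) * z1 + 1 / 2 * m1 * (sv u.2 - z0) ^ 2)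
    (1 / 2 * eig (Fin.last N) * z0 ^ 2)
  have h8 := abs_add_le ((sv u.2 - z0) * z1) (1 / 2 * m1 * (sv u.2 - z0) ^ 2)
  have h9 := hv u.1.1.1.1.1 u.2
  nlinarith

/-! ### moments of the new labels -/




/-! ### the small fields of the `N`-system -/

/-- `φ_i = Σ_g lam_{i,g} ζ_{i,g}` -/
def phi (s : SY.SS p n (univ : Finset (Fin N → Bool))) (i : Fin N) : ℝ :=
  ∑ g, lam i.castSucc g * SY.zf s.2.2 g i

theorem FF_eq (G : Fin (N + 1) → ℝ) (s : SY.SS p n (univ : Finset (Fin N → Bool))) :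
    FF lam G s = ∑ i, phi lam s i * un G i.castSucc := by
  unfold FF phi
  rw [Finset.sum_comm]
  refine Finset.sum_congr rfl fun i _ => ?_
  rw [Finset.sum_mul]
  exact Finset.sum_congr rfl fun g _ => by ring

/-- the Gaussian average of the error of the small fields -/
theorem eF_le {lx : ℝ} (hlx : 0 < lx) (V : Mat (Fin N)) (G : Fin (N + 1) → ℝ)
    (w : OU p N n × LS p n) : eF lam V G w ≤
      4 * lx * (1 + Z0 V G w.1.1.1.1 ^ 2) + (FF lam G w.1.1 ^ 2 + L2 lam w.2 ^ 2) / lx := by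
  unfold eF
  set z := Z0 V G w.1.1.1.1
  set F := FF lam G w.1.1
  set L := L2 lam w.2
  have h1 : ∀ t : ℝ, 2 * (1 + |z|) * |t| ≤ lx * (1 + |z|) ^ 2 + t ^ 2 / lx := by
    intro t
    have h2 : 0 ≤ (lx * (1 + |z|) - |t|) ^ 2 / lx := by positivity
    have h3 : (lx * (1 + |z|) - |t|) ^ 2 / lx =
        lx * (1 + |z|) ^ 2 + t ^ 2 / lx - 2 * (1 + |z|) * |t| := by
      rw [← sq_abs t]; field_simp; ring
    linarith
  have h4 : (1 + |z|) ^ 2 ≤ 2 * (1 + z ^ 2) := by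
    have := sq_abs z
    nlinarith [sq_nonneg (1 - |z|)]
  have h5 := h1 F
  have h6 := h1 L
  have h7 : lx * (1 + |z|) ^ 2 ≤ lx * (2 * (1 + z ^ 2)) := mul_le_mul_of_nonneg_left h4 hlx.le
  have e1 : 2 * (1 + |z|) * (|F| + |L|) = 2 * (1 + |z|) * |F| + 2 * (1 + |z|) * |L| := by ring
  rw [e1, add_div]
  linarith

/-! ### orthogonal matrices -/

theorem sum_xU_sq' {M : ℕ} {U : Mat (Fin M)}
    (hU : Matrix.of U ∈ Matrix.orthogonalGroup (Fin M) ℝ) (σ : Fin M → Bool) :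
    ∑ i, SY.xU (Matrix.of U) σ i ^ 2 = M := by
  unfold SY.xU
  rw [sum_mulVec_sq hU]
  have h : ∀ i, spinVec σ i ^ 2 = 1 := by
    intro i; unfold spinVec; split_ifs <;> norm_num
  simp [h]

theorem measurable_xU (σ : Fin N → Bool) (i : Fin N) :
    Measurable fun V : Mat (Fin N) => SY.xU (Matrix.of V) σ i := by
  unfold SY.xU Matrix.mulVec dotProduct
  refine Finset.measurable_sum _ fun j _ => ?_
  exact ((measurable_pi_apply j).comp (measurable_pi_apply i)).mul_const _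

theorem measurable_zc2 {f : Mat (Fin N) → Fin N → ℝ} (hf : ∀ i, Measurable fun V => f V i) :
    Measurable fun q : Mat (Fin N) × (Fin (N + 1) → ℝ) => zc q.2 (f q.1) := by
  unfold zc
  refine (Finset.measurable_sum _ fun i _ => ?_).const_mul _
  exact ((measurable_pi_apply i.castSucc).comp measurable_snd).mul ((hf i).comp measurable_fst)

/-- the first error function -/
def gR (Λ m1 lx : ℝ) (q : Mat (Fin N) × (Fin (N + 1) → ℝ)) (w : OU p N n × LS p n) : ℝ :=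
  (Gd N).indicator (fun G => 10 * (1 + Λ) * (kp (e0 eig) m1 G *
    qf (e0 eig) (SY.xU (Matrix.of q.1) w.1.1.1.1) G) +
    (4 * lx * (1 + zc G (SY.xU (Matrix.of q.1) w.1.1.1.1) ^ 2) +
      ((∑ i, phi lam w.1.1 i * un G i.castSucc) ^ 2 + L2 lam w.2 ^ 2) / lx)) q.2

theorem gR_nonneg {Λ lx : ℝ} (hΛ : 0 ≤ Λ) (hlx : 0 < lx) (m1 : ℝ)
    (q : Mat (Fin N) × (Fin (N + 1) → ℝ)) (w : OU p N n × LS p n) :
    0 ≤ gR eig lam Λ m1 lx q w := by
  unfold gR
  refine Set.indicator_nonneg (fun G _ => ?_) _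
  have h1 := kp_nonneg (e0 eig) m1 G
  have h2 := qf_ge_one (e0 eig) (SY.xU (Matrix.of q.1) w.1.1.1.1) G
  have h3 : 0 ≤ kp (e0 eig) m1 G * qf (e0 eig) (SY.xU (Matrix.of q.1) w.1.1.1.1) G :=
    mul_nonneg h1 (by linarith)
  positivity

theorem measurable_gR (Λ m1 lx : ℝ) (w : OU p N n × LS p n) :
    Measurable fun q : Mat (Fin N) × (Fin (N + 1) → ℝ) => gR eig lam Λ m1 lx q w := by
  have hz : Measurable fun q : Mat (Fin N) × (Fin (N + 1) → ℝ) =>
      zc q.2 (SY.xU (Matrix.of q.1) w.1.1.1.1) :=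
    measurable_zc2 (f := fun V => SY.xU (Matrix.of V) w.1.1.1.1) fun i => measurable_xU _ i
  have hz1 : Measurable fun q : Mat (Fin N) × (Fin (N + 1) → ℝ) =>
      zc q.2 (fun i => e0 eig i * SY.xU (Matrix.of q.1) w.1.1.1.1 i) :=
    measurable_zc2 (f := fun V i => e0 eig i * SY.xU (Matrix.of V) w.1.1.1.1 i)
      fun i => (measurable_xU _ i).const_mul _
  have hq : Measurable fun q : Mat (Fin N) × (Fin (N + 1) → ℝ) =>
      qf (e0 eig) (SY.xU (Matrix.of q.1) w.1.1.1.1) q.2 := by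
    unfold qf
    exact (measurable_const.add (hz.pow_const 2)).add (hz1.pow_const 2)
  have hk : Measurable fun q : Mat (Fin N) × (Fin (N + 1) → ℝ) => kp (e0 eig) m1 q.2 :=
    (measurable_kp (e0 eig) m1).comp measurable_snd
  have hu : Measurable fun q : Mat (Fin N) × (Fin (N + 1) → ℝ) =>
      ∑ i, phi lam w.1.1 i * un q.2 i.castSucc :=
    (measurable_sum_un (phi lam w.1.1)).comp measurable_snd
  have e1 : (fun q : Mat (Fin N) × (Fin (N + 1) → ℝ) => gR eig lam Λ m1 lx q w) =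
      (Prod.snd ⁻¹' (Gd N)).indicator (fun q => 10 * (1 + Λ) * (kp (e0 eig) m1 q.2 *
    qf (e0 eig) (SY.xU (Matrix.of q.1) w.1.1.1.1) q.2) +
    (4 * lx * (1 + zc q.2 (SY.xU (Matrix.of q.1) w.1.1.1.1) ^ 2) +
      ((∑ i, phi lam w.1.1 i * un q.2 i.castSucc) ^ 2 + L2 lam w.2 ^ 2) / lx)) := by
    funext q
    unfold gR
    by_cases h : q.2 ∈ Gd N
    · rw [Set.indicator_of_mem h, Set.indicator_of_mem (show q ∈ Prod.snd ⁻¹' (Gd N) from h)]
    · rw [Set.indicator_of_notMem h,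
        Set.indicator_of_notMem (show q ∉ Prod.snd ⁻¹' (Gd N) from h)]
  rw [e1]
  refine Measurable.indicator ?_ (measurable_snd measurableSet_Gd)
  exact ((hk.mul hq).const_mul _).add (((measurable_const.add (hz.pow_const 2)).const_mul _).add
    (((hu.pow_const 2).add measurable_const).div_const _))

/-- the rate of the coupling -/
def kapN (Λ m1 : ℝ) : ℝ :=
  Real.sqrt ((1 + Λ ^ 2) / N + ((N : ℝ)⁻¹ * ∑ i, e0 eig i - m1) ^ 2)

theorem gR_core (hN : 1 ≤ N) {Λ m1 lx : ℝ} {e : Fin N → ℝ} (he : ∀ i, |e i| ≤ Λ) (hΛ0 : 0 ≤ Λ)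
    (hlx : 0 < lx) {x : Fin N → ℝ} (hx2 : ∑ i, x i ^ 2 = (N : ℝ)) (φ : Fin N → ℝ) (L : ℝ) :
    Integrable (fun G => (Gd N).indicator (fun G => 10 * (1 + Λ) * (kp e m1 G * qf e x G) +
      (4 * lx * (1 + zc G x ^ 2) + ((∑ i, φ i * un G i.castSucc) ^ 2 + L ^ 2) / lx)) G)
      (gam (Fin (N + 1))) ∧
    ∫ G, (Gd N).indicator (fun G => 10 * (1 + Λ) * (kp e m1 G * qf e x G) +
      (4 * lx * (1 + zc G x ^ 2) + ((∑ i, φ i * un G i.castSucc) ^ 2 + L ^ 2) / lx)) G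
        ∂(gam (Fin (N + 1))) ≤
        680 * (1 + Λ) ^ 3 * Real.sqrt ((1 + Λ ^ 2) / N + ((N : ℝ)⁻¹ * ∑ i, e i - m1) ^ 2) +
          8 * lx + (2 * ((N : ℝ)⁻¹ * ∑ i, φ i ^ 2) + L ^ 2) / lx := by
  have i1 : IntegrableOn (fun G => kp e m1 G * qf e x G) (Gd N)
    (gam (Fin (N + 1))) := intgOn_kp_qf hN he m1 _ _
  have i2 : IntegrableOn (fun G : Fin (N + 1) → ℝ => (1:ℝ)) (Gd N) (gam (Fin (N + 1))) :=
    (integrable_const _).integrableOn
  have i3 : IntegrableOn (fun G : Fin (N + 1) → ℝ => zc G x ^ 2) (Gd N) (gam (Fin (N + 1))) :=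
    (intg_zc_sq x).integrableOn
  have i4 := intgOn_sum_un_sq (N := N) hN φ
  have i4' : IntegrableOn (fun G : Fin (N + 1) → ℝ => L ^ 2) (Gd N) (gam (Fin (N + 1))) :=
    (integrable_const _).integrableOn
  have i5 : IntegrableOn (fun G : Fin (N + 1) → ℝ => 10 * (1 + Λ) * (kp e m1 G *
    qf e x G)) (Gd N) (gam (Fin (N + 1))) := i1.const_mul _
  have i6 : IntegrableOn (fun G : Fin (N + 1) → ℝ => 4 * lx * (1 + zc G x ^ 2)) (Gd N)
    (gam (Fin (N + 1))) := (i2.add i3).const_mul _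
  have i7 : IntegrableOn (fun G : Fin (N + 1) → ℝ =>
      ((∑ i, φ i * un G i.castSucc) ^ 2 + L ^ 2) / lx) (Gd N)
    (gam (Fin (N + 1))) := (i4.add i4').div_const _
  have i67 : IntegrableOn (fun G : Fin (N + 1) → ℝ => 4 * lx * (1 + zc G x ^ 2) +
      ((∑ i, φ i * un G i.castSucc) ^ 2 + L ^ 2) / lx) (Gd N) (gam (Fin (N + 1))) := i6.add i7
  have i8 : IntegrableOn (fun G : Fin (N + 1) → ℝ => 10 * (1 + Λ) * (kp e m1 G * qf e x G) +
      (4 * lx * (1 + zc G x ^ 2) + ((∑ i, φ i * un G i.castSucc) ^ 2 + L ^ 2) / lx)) (Gd N)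
      (gam (Fin (N + 1))) := i5.add i67
  refine ⟨(integrable_indicator_iff measurableSet_Gd).2 i8, ?_⟩
  rw [integral_indicator measurableSet_Gd, integral_add i5 i67, integral_add i6 i7]
  have hGd1 : ∀ c : ℝ, 0 ≤ c → ∫ _G in Gd N, c ∂(gam (Fin (N + 1))) ≤ c := by
    intro c hc
    rw [setIntegral_const, smul_eq_mul]
    exact mul_le_of_le_one_left hc measureReal_le_one
  have b1 : ∫ G in Gd N, 10 * (1 + Λ) * (kp e m1 G * qf e x G)
      ∂(gam (Fin (N + 1))) ≤ 680 * (1 + Λ) ^ 3 *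
        Real.sqrt ((1 + Λ ^ 2) / N + ((N : ℝ)⁻¹ * ∑ i, e i - m1) ^ 2) := by
    rw [integral_const_mul]
    have h1 := int_kp_qf hN he m1 hx2.le
    have h2 : 10 * (1 + Λ) * (∫ G in Gd N, kp e m1 G * qf e x G
        ∂(gam (Fin (N + 1)))) ≤ 10 * (1 + Λ) * (68 * (1 + Λ) ^ 2 *
          Real.sqrt ((1 + Λ ^ 2) / N + ((N : ℝ)⁻¹ * ∑ i, e i - m1) ^ 2)) :=
      mul_le_mul_of_nonneg_left h1 (by positivity)
    refine h2.trans (le_of_eq ?_)
    ring
  have b2 : ∫ G in Gd N, 4 * lx * (1 + zc G x ^ 2) ∂(gam (Fin (N + 1))) ≤ 8 * lx := by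
    rw [integral_const_mul, integral_add i2 i3]
    have h1 : ∫ G in Gd N, zc G x ^ 2 ∂(gam (Fin (N + 1))) ≤ 1 := by
      refine (setIntegral_le_integral (intg_zc_sq x)
        (Eventually.of_forall fun G => sq_nonneg _)).trans ?_
      rw [int_zc_sq, hx2]
      have : (0:ℝ) < N := by exact_mod_cast hN
      rw [inv_mul_cancel₀ this.ne']
    have h2 := hGd1 1 zero_le_one
    nlinarith
  have b3 : ∫ G in Gd N, ((∑ i, φ i * un G i.castSucc) ^ 2 + L ^ 2) / lx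
        ∂(gam (Fin (N + 1))) ≤
      (2 * ((N : ℝ)⁻¹ * ∑ i, φ i ^ 2) + L ^ 2) / lx := by
    rw [integral_div, integral_add i4 i4']
    have h1 := int_sum_un_sq (N := N) hN φ
    have h2 := hGd1 (L ^ 2) (sq_nonneg _)
    exact div_le_div_of_nonneg_right (add_le_add h1 h2) hlx.le
  linarith

theorem gR_int (hN : 1 ≤ N) {Λ m1 lx : ℝ} (he : ∀ i, |eig i| ≤ Λ) (hlx : 0 < lx)
    {V : Mat (Fin N)} (hV : Matrix.of V ∈ Matrix.orthogonalGroup (Fin N) ℝ)
    (w : OU p N n × LS p n) :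
    Integrable (fun G => gR eig lam Λ m1 lx (V, G) w) (gam (Fin (N + 1))) ∧
      ∫ G, gR eig lam Λ m1 lx (V, G) w ∂(gam (Fin (N + 1))) ≤
        680 * (1 + Λ) ^ 3 * kapN eig Λ m1 + 8 * lx +
          (2 * ((N : ℝ)⁻¹ * ∑ i, phi lam w.1.1 i ^ 2) + L2 lam w.2 ^ 2) / lx :=
  gR_core hN (fun i => he _) ((abs_nonneg _).trans (he (Fin.last N))) hlx
    (sum_xU_sq' hV w.1.1.1.1) (phi lam w.1.1) (L2 lam w.2)

theorem meas_HS {M : ℕ} {A : Finset (Fin M → Bool)} (eig : Fin M → ℝ) (t : ℝ)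
    (W : (Fin M → Bool) → ℝ) (a lam : Fin M → Fin p.nc → ℝ) (s : SY.SS p n A) :
    Measurable fun U : Mat (Fin M) => (GX.Hs eig t W a lam U : SY.SS p n A → ℝ) s := by
  have hx : ∀ i, Measurable fun U : Mat (Fin M) => SY.xU (Matrix.of U) s.1.1 i :=
    fun i => measurable_xU _ i
  unfold GX.Hs SY.HS SY.h0q Mag.qd
  refine ((Measurable.add ?_ measurable_const).add measurable_const).add ?_
  · exact (Measurable.const_mul (Finset.measurable_sum _ fun i _ =>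
      ((hx i).pow_const 2).const_mul _) _).const_mul _
  · exact Finset.measurable_sum _ fun g _ => Finset.measurable_sum _ fun i _ =>
      ((hx i).const_mul _).const_mul _

theorem meas_HN (s : SY.SS p n (univ : Finset (Fin N → Bool))) :
    Measurable fun V : Mat (Fin N) => HN eig W0 a lam V s := meas_HS _ _ _ _ _ s

theorem eE_stP_fst (H0 : SY.SS p n (univ : Finset (Fin N → Bool)) → ℝ) (d : DD p N)
    (f : OU p N n → ℝ) : eE (stP p N n H0 d) (fun w => f w.1) = eE (G.PP (BU p N n) H0 d) f :=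
  eE_prod_fst lsP_isProb f

theorem eE_stP_snd (H0 : SY.SS p n (univ : Finset (Fin N → Bool)) → ℝ) (d : DD p N)
    (f : LS p n → ℝ) : eE (stP p N n H0 d) (fun w => f w.2) = eE (lsP p n) f :=
  eE_prod_snd (G.PP_isProb _ _ _) f

/-- standing data of the estimates (constants do not depend on `p`) -/
structure EDat (μ : Measure (Mat (Fin N))) (n : ℕ) (eig : Fin (N + 1) → ℝ)
    (W0 : (Fin N → Bool) → ℝ) (a lam : Fin (N + 1) → Fin p.nc → ℝ) (Λ m1 S Cφ : ℝ) : Prop where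
  hN : 1 ≤ N
  he : ∀ i, |eig i| ≤ Λ
  hm : |m1| ≤ Λ
  hS : 0 < S
  hC : 0 ≤ Cφ
  ort : ∀ᵐ V ∂μ, Matrix.of V ∈ Matrix.orthogonalGroup (Fin N) ℝ
  /-- second moment of the small fields -/
  hφ : ∀ V : Mat (Fin N), Matrix.of V ∈ Matrix.orthogonalGroup (Fin N) ℝ → ∀ d : DD p N,
    eE (G.PP (BU p N n) (HN eig W0 a lam V) d) (fun w => ∑ i, phi lam w.1 i ^ 2) ≤ Cφ * S * N
  hL : eE (lsP p n) (fun l => L2 lam l ^ 2) ≤ S

variable {eig W0 a lam} {μ : Measure (Mat (Fin N))} [IsProbabilityMeasure μ] {Λ m1 S Cφ : ℝ}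

/-- **(E1)** average of the error of the coupling under `P_N` -/
theorem EDat.avg_gR (D : EDat μ n eig W0 a lam Λ m1 S Cφ) :
    Integrable (fun q => Ed p N (fun d => eE (stP p N n (HN eig W0 a lam q.1) d)
      (gR eig lam Λ m1 (Real.sqrt S) q))) (rho μ) ∧
    ∫ q, Ed p N (fun d => eE (stP p N n (HN eig W0 a lam q.1) d)
      (gR eig lam Λ m1 (Real.sqrt S) q)) ∂(rho μ) ≤
      680 * (1 + Λ) ^ 3 * kapN eig Λ m1 + (9 + 2 * Cφ) * Real.sqrt S := by
  have hΛ0 : 0 ≤ Λ := (abs_nonneg _).trans D.hm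
  have hsS : 0 < Real.sqrt S := Real.sqrt_pos.2 D.hS
  have hsS2 : Real.sqrt S * Real.sqrt S = S := Real.mul_self_sqrt D.hS.le
  have hN' : (0:ℝ) < N := by exact_mod_cast D.hN
  have hC := D.hC
  refine avg_stP D.hN (meas_HN eig W0 a lam) (fun w => measurable_gR eig lam Λ m1 _ w)
    (fun q w => gR_nonneg eig lam hΛ0 hsS m1 q w)
    (c := fun _ w => 680 * (1 + Λ) ^ 3 * kapN eig Λ m1 + 8 * Real.sqrt S +
      (2 * ((N : ℝ)⁻¹ * ∑ i, phi lam w.1.1 i ^ 2) + L2 lam w.2 ^ 2) / Real.sqrt S)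
    (by unfold kapN; positivity) ?_
  filter_upwards [D.ort] with V hV
  refine ⟨fun w => gR_int eig lam D.hN D.he hsS hV w, fun d => ?_⟩
  have hP : IsProb (stP p N n (HN eig W0 a lam V) d) := stP_isProb _ d
  have e1 : eE (stP p N n (HN eig W0 a lam V) d) (fun w => 680 * (1 + Λ) ^ 3 * kapN eig Λ m1 +
      8 * Real.sqrt S + (2 * ((N : ℝ)⁻¹ * ∑ i, phi lam w.1.1 i ^ 2) + L2 lam w.2 ^ 2) /
        Real.sqrt S) = 680 * (1 + Λ) ^ 3 * kapN eig Λ m1 + 8 * Real.sqrt S +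
      (2 * (N : ℝ)⁻¹ / Real.sqrt S * eE (G.PP (BU p N n) (HN eig W0 a lam V) d)
        (fun w => ∑ i, phi lam w.1 i ^ 2) +
        (Real.sqrt S)⁻¹ * eE (lsP p n) (fun l => L2 lam l ^ 2)) := by
    rw [← eE_stP_fst (HN eig W0 a lam V) d (fun w => ∑ i, phi lam w.1 i ^ 2),
      ← eE_stP_snd (HN eig W0 a lam V) d (fun l => L2 lam l ^ 2), ← eE_smul, ← eE_smul,
      ← eE_add]
    have h1 := eE_const hP (680 * (1 + Λ) ^ 3 * kapN eig Λ m1 + 8 * Real.sqrt S)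
    conv_rhs => rw [← h1]
    rw [← eE_add]
    congr 1
    funext w
    ring
  rw [e1]
  have h1 := D.hφ V hV d
  have h2 := D.hL
  have h3 : 2 * (N : ℝ)⁻¹ / Real.sqrt S * eE (G.PP (BU p N n) (HN eig W0 a lam V) d)
        (fun w => ∑ i, phi lam w.1 i ^ 2) ≤ 2 * Cφ * Real.sqrt S := by
    calc _ ≤ 2 * (N : ℝ)⁻¹ / Real.sqrt S * (Cφ * S * N) :=
          mul_le_mul_of_nonneg_left h1 (by positivity)
      _ = 2 * Cφ * (S / Real.sqrt S) := by field_simp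
      _ = _ := by rw [Real.div_sqrt]
  have h4 : (Real.sqrt S)⁻¹ * eE (lsP p n) (fun l => L2 lam l ^ 2) ≤ Real.sqrt S := by
    calc _ ≤ (Real.sqrt S)⁻¹ * S := mul_le_mul_of_nonneg_left h2 (by positivity)
      _ = S / Real.sqrt S := by ring
      _ = _ := Real.div_sqrt
  linarith

/-- dominating function of the square of the ideal weight -/
def gQ (eig : Fin (N + 1) → ℝ) (Λ B bb : ℝ) (b : Fin p.nc → ℝ)
    (q : Mat (Fin N) × (Fin (N + 1) → ℝ)) (w : OU p N n × LS p n) : ℝ :=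
  3 * ((1 + 2 * Λ) ^ 2 * qf (e0 eig) (SY.xU (Matrix.of q.1) w.1.1.1.1) q.2 ^ 2 + B ^ 2 +
    2 * bb ^ 2 + 2 * yb b w.2 ^ 2)

theorem sq_redB_WX_le (he : ∀ i, |eig i| ≤ Λ) (hm : |m1| ≤ Λ) {B bb : ℝ} (b : Fin p.nc → ℝ)
    {v : (Fin N → Bool) → Bool → ℝ} (hv : ∀ σ c, |v σ c| ≤ B)
    (q : Mat (Fin N) × (Fin (N + 1) → ℝ)) (w : OU p N n × LS p n) :
    redB (WX eig m1 b bb v q.1 q.2) w ^ 2 ≤ gQ eig Λ B bb b q w := by
  have hΛ0 : 0 ≤ Λ := (abs_nonneg _).trans hm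
  have hB0 : 0 ≤ B := (abs_nonneg _).trans (hv (fun _ => true) true)
  have h1 : |redB (WX eig m1 b bb v q.1 q.2) w| ≤ (1 + 2 * Λ) *
      qf (e0 eig) (SY.xU (Matrix.of q.1) w.1.1.1.1) q.2 + B + |bb + yb b w.2| :=
    abs_redB_le fun c => abs_WX_le eig he hm b bb hv q.1 q.2 (w, c)
  have h2 := qf_ge_one (e0 eig) (SY.xU (Matrix.of q.1) w.1.1.1.1) q.2
  unfold gQ
  set Q := qf (e0 eig) (SY.xU (Matrix.of q.1) w.1.1.1.1) q.2
  have h3 : redB (WX eig m1 b bb v q.1 q.2) w ^ 2 ≤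
      ((1 + 2 * Λ) * Q + B + |bb + yb b w.2|) ^ 2 := by
    rw [← sq_abs (redB (WX eig m1 b bb v q.1 q.2) w)]
    exact pow_le_pow_left₀ (abs_nonneg _) h1 2
  have h4 := sq_abs (bb + yb b w.2)
  set t := |bb + yb b w.2|
  have h5 : ((1 + 2 * Λ) * Q + B + t) ^ 2 ≤ 3 * (((1 + 2 * Λ) * Q) ^ 2 + B ^ 2 + t ^ 2) := by
    nlinarith [sq_nonneg ((1 + 2 * Λ) * Q - B), sq_nonneg ((1 + 2 * Λ) * Q - t),
      sq_nonneg (B - t)]
  have h6 : t ^ 2 ≤ 2 * bb ^ 2 + 2 * yb b w.2 ^ 2 := by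
    rw [h4]; nlinarith [sq_nonneg (bb - yb b w.2)]
  have h7 : ((1 + 2 * Λ) * Q) ^ 2 = (1 + 2 * Λ) ^ 2 * Q ^ 2 := by ring
  rw [h7] at h5
  linarith

theorem measurable_qf2 (eig : Fin (N + 1) → ℝ) (σ : Fin N → Bool) :
    Measurable fun q : Mat (Fin N) × (Fin (N + 1) → ℝ) =>
      qf (e0 eig) (SY.xU (Matrix.of q.1) σ) q.2 := by
  have hz : Measurable fun q : Mat (Fin N) × (Fin (N + 1) → ℝ) =>
      zc q.2 (SY.xU (Matrix.of q.1) σ) :=
    measurable_zc2 (f := fun V => SY.xU (Matrix.of V) σ) fun i => measurable_xU _ i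
  have hz1 : Measurable fun q : Mat (Fin N) × (Fin (N + 1) → ℝ) =>
      zc q.2 (fun i => e0 eig i * SY.xU (Matrix.of q.1) σ i) :=
    measurable_zc2 (f := fun V i => e0 eig i * SY.xU (Matrix.of V) σ i)
      fun i => (measurable_xU _ i).const_mul _
  unfold qf
  exact (measurable_const.add (hz.pow_const 2)).add (hz1.pow_const 2)

theorem qf_sq_int (hN : 1 ≤ N) (he : ∀ i, |eig i| ≤ Λ) {x : Fin N → ℝ}
    (hx2 : ∑ i, x i ^ 2 = (N : ℝ)) (α β : ℝ) (hα : 0 ≤ α) :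
    Integrable (fun G => 3 * (α * qf (e0 eig) x G ^ 2 + β)) (gam (Fin (N + 1))) ∧
      ∫ G, 3 * (α * qf (e0 eig) x G ^ 2 + β) ∂(gam (Fin (N + 1))) ≤
        3 * (α * (12 * (1 + Λ) ^ 4) + β) := by
  have i1 := (intg_qf_sq (e0 eig) x).const_mul α
  have i2 : Integrable (fun _ : Fin (N + 1) → ℝ => β) (gam (Fin (N + 1))) := integrable_const _
  refine ⟨(i1.add i2).const_mul _, ?_⟩
  rw [integral_const_mul, integral_add i1 i2, integral_const_mul, integral_const]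
  simp only [probReal_univ, smul_eq_mul, one_mul]
  have := int_qf_sq hN (e := e0 eig) (fun i => he _) hx2.le
  have := mul_le_mul_of_nonneg_left this hα
  linarith

/-- constant of `(E2)` -/
def Cw (Λ B bb A2 : ℝ) : ℝ := 3 * ((1 + 2 * Λ) ^ 2 * (12 * (1 + Λ) ^ 4) + (B ^ 2 + 2 * bb ^ 2 + 2 * A2))

/-- **(E2)** average of the square of the ideal weight under `P_N` -/
theorem EDat.avg_gQ (D : EDat μ n eig W0 a lam Λ m1 S Cφ) {B bb A2 : ℝ} {b : Fin p.nc → ℝ}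
    (hy : eE (lsP p n) (fun l => yb b l ^ 2) ≤ A2) (hA2 : 0 ≤ A2) :
    Integrable (fun q => Ed p N (fun d => eE (stP p N n (HN eig W0 a lam q.1) d)
      (gQ eig Λ B bb b q))) (rho μ) ∧
    ∫ q, Ed p N (fun d => eE (stP p N n (HN eig W0 a lam q.1) d)
      (gQ eig Λ B bb b q)) ∂(rho μ) ≤ Cw Λ B bb A2 := by
  have hΛ0 : 0 ≤ Λ := (abs_nonneg _).trans D.hm
  refine avg_stP D.hN (meas_HN eig W0 a lam) (fun w => ?_) (fun q w => ?_)
    (c := fun _ w => 3 * ((1 + 2 * Λ) ^ 2 * (12 * (1 + Λ) ^ 4) + (B ^ 2 + 2 * bb ^ 2 +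
      2 * yb b w.2 ^ 2))) (by unfold Cw; positivity) ?_
  · unfold gQ
    exact (((((measurable_qf2 eig w.1.1.1.1).pow_const 2).const_mul _).add_const _).add_const
      _).add_const _ |>.const_mul _
  · unfold gQ
    positivity
  · filter_upwards [D.ort] with V hV
    refine ⟨fun w => ?_, fun d => ?_⟩
    · have h := qf_sq_int (Λ := Λ) D.hN D.he (sum_xU_sq' hV w.1.1.1.1) ((1 + 2 * Λ) ^ 2)
        (B ^ 2 + 2 * bb ^ 2 + 2 * yb b w.2 ^ 2) (sq_nonneg _)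
      have e1 : (fun G => gQ eig Λ B bb b (V, G) w) = fun G => 3 * ((1 + 2 * Λ) ^ 2 *
          qf (e0 eig) (SY.xU (Matrix.of V) w.1.1.1.1) G ^ 2 +
            (B ^ 2 + 2 * bb ^ 2 + 2 * yb b w.2 ^ 2)) := by
        funext G
        show 3 * _ = _
        ring
      rw [e1]
      exact h
    · have hP : IsProb (stP p N n (HN eig W0 a lam V) d) := stP_isProb _ d
      have e1 : eE (stP p N n (HN eig W0 a lam V) d) (fun w => 3 * ((1 + 2 * Λ) ^ 2 *
          (12 * (1 + Λ) ^ 4) + (B ^ 2 + 2 * bb ^ 2 + 2 * yb b w.2 ^ 2))) =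
          3 * ((1 + 2 * Λ) ^ 2 * (12 * (1 + Λ) ^ 4) + (B ^ 2 + 2 * bb ^ 2)) +
            6 * eE (lsP p n) (fun l => yb b l ^ 2) := by
        rw [← eE_stP_snd (HN eig W0 a lam V) d (fun l => yb b l ^ 2), ← eE_smul]
        have h1 := eE_const hP (3 * ((1 + 2 * Λ) ^ 2 * (12 * (1 + Λ) ^ 4) +
          (B ^ 2 + 2 * bb ^ 2)))
        conv_rhs => rw [← h1]
        rw [← eE_add]
        congr 1
        funext w
        ring
      rw [e1]
      unfold Cw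
      linarith

end

end Crest.Agent.R164.ED
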