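import Crest.Agent.R164.EDa
import Crest.Agent.R164.PFil
import Crest.Agent.R141.Sys

/-!
# Row 164, L side, module E-DIFF part f (helper60): pointwise comparison of reduced log-weights

`redB` (two-point log-average), its tilt derivative `mB`, small perturbations `sh`, and the
resulting comparison of the truncated functionals and of the tilted laws.
-/

set_option autoImplicit false

namespace Crest.Agent.R164.ED

open Finset Crest.Agent.R141 Crest.Agent.R164.PF

noncomputable section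

/-! ### scalar facts -/

/-- second order Taylor bound from a `1`-Lipschitz derivative -/
theorem taylor_two {φ m : ℝ → ℝ} (hd : ∀ y, HasDerivAt φ (m y) y)
    (hL : ∀ y z, |m y - m z| ≤ |y - z|) (s t : ℝ) :
    |φ t - φ s - m s * (t - s)| ≤ (t - s) ^ 2 / 2 := by
  have hF : ∀ u : ℝ, HasDerivAt (fun u => φ (s + u * (t - s)) - φ s - u * (m s * (t - s)))
      ((m (s + u * (t - s)) - m s) * (t - s)) u := by
    intro u
    have h1 : HasDerivAt (fun u : ℝ => s + u * (t - s)) (t - s) u := by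
      have := ((hasDerivAt_id u).mul_const (t - s)).const_add s
      simpa using this
    have h2 := (hd (s + u * (t - s))).comp u h1
    have h3 := (h2.sub_const (φ s)).sub ((hasDerivAt_id u).mul_const (m s * (t - s)))
    refine h3.congr_deriv ?_
    ring
  have hB : ∀ u : ℝ, HasDerivAt (fun u => u ^ 2 * ((t - s) ^ 2 / 2)) (u * (t - s) ^ 2) u := by
    intro u
    have := (hasDerivAt_pow 2 u).mul_const ((t - s) ^ 2 / 2)
    refine this.congr_deriv ?_
    simp; ring
  have key := image_norm_le_of_norm_deriv_right_le_deriv_boundary' (a := (0 : ℝ)) (b := 1)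
    (f := fun u => φ (s + u * (t - s)) - φ s - u * (m s * (t - s)))
    (f' := fun u => (m (s + u * (t - s)) - m s) * (t - s))
    (B := fun u => u ^ 2 * ((t - s) ^ 2 / 2)) (B' := fun u => u * (t - s) ^ 2)
    (fun u _ => (hF u).continuousAt.continuousWithinAt)
    (fun u _ => (hF u).hasDerivWithinAt) (by simp)
    (fun u _ => (hB u).continuousAt.continuousWithinAt)
    (fun u _ => (hB u).hasDerivWithinAt)
    (by
      intro u hu
      rw [Real.norm_eq_abs, abs_mul]
      have h1 := hL (s + u * (t - s)) s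
      have e1 : s + u * (t - s) - s = u * (t - s) := by ring
      rw [e1, abs_mul, abs_of_nonneg hu.1] at h1
      calc |m (s + u * (t - s)) - m s| * |t - s| ≤ (u * |t - s|) * |t - s| :=
            mul_le_mul_of_nonneg_right h1 (abs_nonneg _)
        _ = u * (t - s) ^ 2 := by rw [mul_assoc, ← sq, sq_abs])
  have := key (Set.right_mem_Icc.2 zero_le_one)
  simp only [Real.norm_eq_abs, one_mul, one_pow] at this
  have e2 : s + (t - s) = t := by ring
  rw [e2] at this
  exact this

/-- `tanh (s/2)` -/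
def th2 (s : ℝ) : ℝ := (Real.exp s - 1) / (Real.exp s + 1)

theorem hasDerivAt_th2 (s : ℝ) :
    HasDerivAt th2 (2 * Real.exp s / (Real.exp s + 1) ^ 2) s := by
  have hp : Real.exp s + 1 ≠ 0 := by positivity
  have h1 := (Real.hasDerivAt_exp s).sub_const 1
  have h2 := (Real.hasDerivAt_exp s).add_const 1
  have h3 := h1.div h2 hp
  refine h3.congr_deriv ?_
  congr 1
  ring

theorem th2_lip (s t : ℝ) : |th2 s - th2 t| ≤ |s - t| / 2 := by
  have := Convex.norm_image_sub_le_of_norm_hasDerivWithin_le (s := Set.univ)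
    (f := th2) (f' := fun s => 2 * Real.exp s / (Real.exp s + 1) ^ 2) (C := 1 / 2)
    (fun x _ => (hasDerivAt_th2 x).hasDerivWithinAt)
    (fun x _ => by
      have hp := Real.exp_pos x
      rw [Real.norm_eq_abs, abs_of_nonneg (by positivity), div_le_iff₀ (by positivity)]
      nlinarith [sq_nonneg (Real.exp x - 1)])
    convex_univ (Set.mem_univ t) (Set.mem_univ s)
  simp only [Real.norm_eq_abs] at this
  linarith

/-- two-point log average -/
def lg2 (a b : ℝ) : ℝ := Real.log ((Real.exp a + Real.exp b) / 2)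

/-- two-point magnetisation -/
def mg2 (a b : ℝ) : ℝ := (Real.exp a - Real.exp b) / (Real.exp a + Real.exp b)

theorem mg2_eq (a b : ℝ) : mg2 a b = th2 (a - b) := by
  unfold mg2 th2
  have hb := Real.exp_pos b
  rw [Real.exp_sub, div_eq_div_iff (by positivity) (by positivity)]
  field_simp

theorem abs_mg2_le (a b : ℝ) : |mg2 a b| ≤ 1 := by
  unfold mg2
  have ha := Real.exp_pos a
  have hb := Real.exp_pos b
  rw [abs_div, abs_of_pos (add_pos ha hb), div_le_one (by positivity), abs_le]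
  constructor <;> linarith

theorem mg2_lip (a b a' b' : ℝ) : |mg2 a b - mg2 a' b'| ≤ max |a - a'| |b - b'| := by
  rw [mg2_eq, mg2_eq]
  refine (th2_lip _ _).trans ?_
  have e : a - b - (a' - b') = (a - a') - (b - b') := by ring
  rw [e]
  have h1 := abs_sub (a - a') (b - b')
  have h2 := le_max_left |a - a'| |b - b'|
  have h3 := le_max_right |a - a'| |b - b'|
  linarith

theorem lg2_mono {a b a' b' : ℝ} (h1 : a ≤ a') (h2 : b ≤ b') : lg2 a b ≤ lg2 a' b' := by
  unfold lg2
  apply Real.log_le_log (by positivity)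
  have := Real.exp_le_exp.2 h1
  have := Real.exp_le_exp.2 h2
  linarith

theorem lg2_add (a b c : ℝ) : lg2 (a + c) (b + c) = lg2 a b + c := by
  unfold lg2
  rw [Real.exp_add, Real.exp_add, ← add_mul, mul_div_right_comm,
    Real.log_mul (by positivity) (by positivity), Real.log_exp]

theorem lg2_lip (a b a' b' : ℝ) : |lg2 a b - lg2 a' b'| ≤ max |a - a'| |b - b'| := by
  set c := max |a - a'| |b - b'| with hc
  have h2 : |a - a'| ≤ c := le_max_left |a - a'| |b - b'|
  have h3 : |b - b'| ≤ c := le_max_right |a - a'| |b - b'|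
  have h4 := abs_le.1 h2
  have h5 := abs_le.1 h3
  have h6 : lg2 a b ≤ lg2 (a' + c) (b' + c) := lg2_mono (by linarith) (by linarith)
  have h7 : lg2 a' b' ≤ lg2 (a + c) (b + c) := lg2_mono (by linarith) (by linarith)
  rw [lg2_add] at h6 h7
  rw [abs_le]
  constructor <;> linarith

theorem hasDerivAt_lg2 (a b y : ℝ) :
    HasDerivAt (fun y => lg2 (a + y) (b - y)) (mg2 (a + y) (b - y)) y := by
  have h1 : HasDerivAt (fun y : ℝ => a + y) 1 y := (hasDerivAt_id y).const_add a
  have h2 : HasDerivAt (fun y : ℝ => b - y) (-1) y := (hasDerivAt_id y).const_sub b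
  have h3 := (h1.exp.add h2.exp).div_const 2
  have hp : (Real.exp (a + y) + Real.exp (b - y)) / 2 ≠ 0 := by positivity
  have h4 := h3.log hp
  refine h4.congr_deriv ?_
  unfold mg2
  have hq : Real.exp (a + y) + Real.exp (b - y) ≠ 0 := by positivity
  simp only [Pi.add_apply]
  field_simp
  ring

theorem lg2_expand (a b y : ℝ) : |lg2 (a + y) (b - y) - lg2 a b - y * mg2 a b| ≤ y ^ 2 / 2 := by
  have := taylor_two (φ := fun y => lg2 (a + y) (b - y)) (m := fun y => mg2 (a + y) (b - y))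
    (hasDerivAt_lg2 a b)
    (fun y z => by
      refine (mg2_lip _ _ _ _).trans ?_
      have e1 : a + y - (a + z) = y - z := by ring
      have e2 : b - y - (b - z) = -(y - z) := by ring
      rw [e1, e2, abs_neg, max_self]) 0 y
  simp only [add_zero, sub_zero] at this
  rwa [mul_comm y]

/-! ### pointwise comparison -/

variable {Ω : Type*} {P : Ω → ℝ} {𝓕 : Filt Ω} {x : ℕ → ℝ}

/-- magnetisation of the last sign -/
def mB (U : Ω × Bool → ℝ) (w : Ω) : ℝ :=
  (Real.exp (U (w, true)) - Real.exp (U (w, false))) /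
    (Real.exp (U (w, true)) + Real.exp (U (w, false)))

/-- perturbation by a field `t * h` acting on the last sign -/
def sh (U : Ω × Bool → ℝ) (h : Ω → ℝ) (t : ℝ) (u : Ω × Bool) : ℝ := U u + sv u.2 * (t * h u.1)

/-- maximal difference over the last sign -/
def dm (U U' : Ω × Bool → ℝ) (w : Ω) : ℝ :=
  max |U (w, true) - U' (w, true)| |U (w, false) - U' (w, false)|

theorem redB_eq (U : Ω × Bool → ℝ) (w : Ω) : redB U w = lg2 (U (w, true)) (U (w, false)) := rfl

theorem mB_eq (U : Ω × Bool → ℝ) (w : Ω) : mB U w = mg2 (U (w, true)) (U (w, false)) := rfl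

theorem sh_true (U : Ω × Bool → ℝ) (h : Ω → ℝ) (t : ℝ) (w : Ω) :
    sh U h t (w, true) = U (w, true) + t * h w := by simp [sh, sv]

theorem sh_false (U : Ω × Bool → ℝ) (h : Ω → ℝ) (t : ℝ) (w : Ω) :
    sh U h t (w, false) = U (w, false) - t * h w := by simp [sh, sv]; ring

theorem sh_zero (U : Ω × Bool → ℝ) (h : Ω → ℝ) : sh U h 0 = U := by
  funext u; simp [sh]

theorem dm_nonneg (U U' : Ω × Bool → ℝ) (w : Ω) : 0 ≤ dm U U' w :=
  (abs_nonneg _).trans (le_max_left _ _)


/-- **(P1)** -/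
theorem redB_sub_le (U U' : Ω × Bool → ℝ) (w : Ω) : |redB U w - redB U' w| ≤ dm U U' w :=
  lg2_lip _ _ _ _

/-- **(P1)** -/
theorem mB_sub_le (U U' : Ω × Bool → ℝ) (w : Ω) : |mB U w - mB U' w| ≤ dm U U' w :=
  mg2_lip _ _ _ _

/-- **(P1)** -/
theorem abs_mB_le (U : Ω × Bool → ℝ) (w : Ω) : |mB U w| ≤ 1 := abs_mg2_le _ _

/-- **(P2)** -/
theorem redB_sh_expand (U : Ω × Bool → ℝ) (h : Ω → ℝ) (t : ℝ) (w : Ω) :
    |redB (sh U h t) w - redB U w - t * h w * mB U w| ≤ (t * h w) ^ 2 / 2 := by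
  rw [redB_eq, redB_eq, mB_eq, sh_true, sh_false]
  exact lg2_expand _ _ _

/-- **(P2)** -/
theorem redB_sh_sub_le (U : Ω × Bool → ℝ) (h : Ω → ℝ) (t : ℝ) (w : Ω) :
    |redB (sh U h t) w - redB U w| ≤ |t * h w| := by
  rw [redB_eq, redB_eq, sh_true, sh_false]
  refine (lg2_lip _ _ _ _).trans ?_
  have e1 : U (w, true) + t * h w - U (w, true) = t * h w := by ring
  have e2 : U (w, false) - t * h w - U (w, false) = -(t * h w) := by ring
  rw [e1, e2, abs_neg, max_self]

variable {K : ℝ}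

/-- first order expansion of the truncated reduced weight -/
theorem psi_redB_expand (hK : 0 ≤ K) (U : Ω × Bool → ℝ) (h : Ω → ℝ) (t : ℝ) (w : Ω) :
    |psi K (redB (sh U h t) w) - psi K (redB U w) - t * (dpsi K (redB U w) * mB U w * h w)| ≤
      t ^ 2 * h w ^ 2 := by
  set v := redB (sh U h t) w with hv
  set u := redB U w with hu
  have h1 := psi_expand (K := K) u v
  have h2 := redB_sh_expand U h t w
  have h3 := redB_sh_sub_le U h t w
  rw [← hv, ← hu] at h2 h3
  have hd := dpsi_mem hK u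
  have h4 : (v - u) ^ 2 ≤ t ^ 2 * h w ^ 2 := by
    rw [← mul_pow, ← sq_abs (v - u), ← sq_abs (t * h w)]
    exact pow_le_pow_left₀ (abs_nonneg _) h3 2
  have h5 : |dpsi K u * (v - u - t * h w * mB U w)| ≤ (t ^ 2 * h w ^ 2) / 2 := by
    rw [abs_mul, abs_of_nonneg hd.1]
    calc dpsi K u * |v - u - t * h w * mB U w| ≤ 1 * |v - u - t * h w * mB U w| :=
          mul_le_mul_of_nonneg_right hd.2 (abs_nonneg _)
      _ ≤ (t ^ 2 * h w ^ 2) / 2 := by rw [one_mul, ← mul_pow]; exact h2
  have e : psi K v - psi K u - t * (dpsi K u * mB U w * h w) =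
      (psi K v - psi K u - dpsi K u * (v - u)) + dpsi K u * (v - u - t * h w * mB U w) := by ring
  rw [e]
  refine (abs_add_le _ _).trans ?_
  linarith

variable [Fintype Ω]

/-! ### moments -/

theorem eE_abs_le_sqrt (hP : IsProb P) {f : Ω → ℝ} {M : ℝ} (h : eE P (fun w => f w ^ 2) ≤ M) :
    eE P (fun w => |f w|) ≤ Real.sqrt M := by
  apply Real.le_sqrt_of_sq_le
  refine le_trans ?_ h
  have h1 : (eE P (fun w => |f w|)) ^ 2 ≤ eE P (fun w => |f w| ^ 2) := by
    have h2 := Finset.sum_mul_sq_le_sq_mul_sq Finset.univ (fun ω => Real.sqrt (P ω))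
      (fun ω => Real.sqrt (P ω) * |f ω|)
    have e1 : ∀ ω, Real.sqrt (P ω) * (Real.sqrt (P ω) * |f ω|) = P ω * |f ω| := by
      intro ω
      rw [← mul_assoc, Real.mul_self_sqrt (hP.pos ω).le]
    have e2 : ∀ ω, Real.sqrt (P ω) ^ 2 = P ω := fun ω => Real.sq_sqrt (hP.pos ω).le
    simp only [e1, mul_pow, e2, hP.sum, one_mul] at h2
    exact h2
  simpa only [sq_abs] using h1

/-- Cauchy-Schwarz -/
theorem eE_mul_le_sqrt (hP : IsProb P) {f g : Ω → ℝ} {A M : ℝ} (hA : eE P (fun w => f w ^ 2) ≤ A)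
    (hM : eE P (fun w => g w ^ 2) ≤ M) (hA0 : 0 ≤ A) :
    eE P (fun w => |f w| * |g w|) ≤ Real.sqrt A * Real.sqrt M := by
  rw [← Real.sqrt_mul hA0]
  apply Real.le_sqrt_of_sq_le
  have h2 := Finset.sum_mul_sq_le_sq_mul_sq Finset.univ (fun ω => Real.sqrt (P ω) * |f ω|)
    (fun ω => Real.sqrt (P ω) * |g ω|)
  have e1 : ∀ ω, Real.sqrt (P ω) * |f ω| * (Real.sqrt (P ω) * |g ω|) = P ω * (|f ω| * |g ω|) := by
    intro ω
    rw [mul_mul_mul_comm, Real.mul_self_sqrt (hP.pos ω).le]
  have e2 : ∀ ω, Real.sqrt (P ω) ^ 2 = P ω := fun ω => Real.sq_sqrt (hP.pos ω).le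
  simp only [e1, mul_pow, e2, sq_abs] at h2
  have hM0 : 0 ≤ eE P (fun w => g w ^ 2) := eE_nonneg hP fun _ => sq_nonneg _
  exact h2.trans (mul_le_mul hA hM hM0 hA0)

theorem abs_eE_le_eE_abs (hP : IsProb P) (f : Ω → ℝ) : |eE P f| ≤ eE P (fun w => |f w|) := by
  unfold eE
  refine (Finset.abs_sum_le_sum_abs _ _).trans (Finset.sum_le_sum fun ω _ => ?_)
  rw [abs_mul, abs_of_pos (hP.pos ω)]

/-! ### (AL3) -/

theorem sqrt_sqrt_mul_sqrt_le {M : ℝ} (hM : 1 ≤ M) :
    Real.sqrt (Real.sqrt M) * Real.sqrt M ≤ M := by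
  have h1 : Real.sqrt (Real.sqrt M) ≤ Real.sqrt M := by
    apply Real.sqrt_le_sqrt
    rw [Real.sqrt_le_left (by linarith)]
    nlinarith
  calc Real.sqrt (Real.sqrt M) * Real.sqrt M ≤ Real.sqrt M * Real.sqrt M :=
        mul_le_mul_of_nonneg_right h1 (Real.sqrt_nonneg _)
    _ = M := Real.mul_self_sqrt (by linarith)

/-- **(AL3)** -/
theorem aE_sh_expand (hP : IsProb P) (hx : IsExpo x) (hK : 0 ≤ K) (U : Ω × Bool → ℝ)
    (h : Ω → ℝ) {M t : ℝ} (hM1 : 1 ≤ M) (ht : |t| ≤ 1)
    (hM : ∀ s : ℝ, |s| ≤ 1 →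
      eE (tl P 𝓕 x (fun w => psi K (redB (sh U h s) w))) (fun w => h w ^ 2) ≤ M) :
    |aE P 𝓕 x (fun w => psi K (redB (sh U h t) w)) - aE P 𝓕 x (fun w => psi K (redB U w)) -
      t * eE (tl P 𝓕 x (fun w => psi K (redB U w)))
        (fun w => dpsi K (redB U w) * mB U w * h w)| ≤ 6 * M * (|t| * Real.sqrt |t|) := by
  set Yt : Ω → ℝ := fun w => psi K (redB (sh U h t) w) with hYt
  set Y0 : Ω → ℝ := fun w => psi K (redB U w) with hY0
  set O : Ω → ℝ := fun w => dpsi K (redB U w) * mB U w * h w with hO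
  have hQt := tl_isProb (𝓕 := 𝓕) hP hx.pos Yt
  have hQ0 := tl_isProb (𝓕 := 𝓕) hP hx.pos Y0
  have hMt : eE (tl P 𝓕 x Yt) (fun w => h w ^ 2) ≤ M := hM t ht
  have hM0 : eE (tl P 𝓕 x Y0) (fun w => h w ^ 2) ≤ M := by
    have := hM 0 (by norm_num)
    rwa [sh_zero] at this
  have hOb : ∀ w, |O w| ≤ |h w| := by
    intro w
    simp only [hO]
    rw [abs_mul, abs_mul, abs_of_nonneg (dpsi_mem hK _).1]
    have h1 := (dpsi_mem hK (redB U w)).2
    have h0 := (dpsi_mem hK (redB U w)).1
    have h2 := abs_mB_le U w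
    have h3 : dpsi K (redB U w) * |mB U w| ≤ 1 := by
      calc _ ≤ 1 * 1 := mul_le_mul h1 h2 (abs_nonneg _) zero_le_one
        _ = 1 := one_mul 1
    calc _ ≤ 1 * |h w| := mul_le_mul_of_nonneg_right h3 (abs_nonneg _)
      _ = |h w| := one_mul _
  have hexp : ∀ w, |Yt w - Y0 w - t * O w| ≤ t ^ 2 * h w ^ 2 := fun w =>
    psi_redB_expand hK U h t w
  have hdiff : ∀ w, |Yt w - Y0 w| ≤ |t| * |h w| := by
    intro w
    refine (psi_lipschitz hK _ _).trans ?_
    rw [← abs_mul]
    exact redB_sh_sub_le U h t w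
  -- errors of second order
  have hE : ∀ (Q : Ω → ℝ), IsProb Q → eE Q (fun w => h w ^ 2) ≤ M →
      |eE Q (fun w => Yt w - Y0 w) - t * eE Q O| ≤ t ^ 2 * M := by
    intro Q hQ hQM
    rw [← eE_smul, ← eE_sub]
    refine (abs_eE_le_eE_abs hQ _).trans ?_
    refine (eE_mono hQ hexp).trans ?_
    rw [eE_smul]
    exact mul_le_mul_of_nonneg_left hQM (sq_nonneg _)
  have hE0 := abs_le.1 (hE _ hQ0 hM0)
  have hEt := abs_le.1 (hE _ hQt hMt)
  have hlow := aE_ge (𝓕 := 𝓕) hP hx.pos Yt Y0
  have hupp := aE_le (𝓕 := 𝓕) hP hx.pos Yt Y0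
  -- change of law
  have hTV : dTV (tl P 𝓕 x Yt) (tl P 𝓕 x Y0) ≤ 4 * (|t| * Real.sqrt M) := by
    refine (dTV_tl hP hx Yt Y0).trans ?_
    have h1 : eE (tl P 𝓕 x Yt) (fun w => min 1 (max (Yt w - Y0 w) 0)) ≤
        |t| * Real.sqrt M := by
      refine (eE_mono hQt (g := fun w => |t| * |h w|) fun w => ?_).trans ?_
      · refine (min_le_right _ _).trans (max_le ?_ (by positivity))
        exact (le_abs_self _).trans (hdiff w)
      · rw [eE_smul]
        exact mul_le_mul_of_nonneg_left (eE_abs_le_sqrt hQt hMt) (abs_nonneg _)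
    have h2 : eE (tl P 𝓕 x Y0) (fun w => min 1 (max (Y0 w - Yt w) 0)) ≤
        |t| * Real.sqrt M := by
      refine (eE_mono hQ0 (g := fun w => |t| * |h w|) fun w => ?_).trans ?_
      · refine (min_le_right _ _).trans (max_le ?_ (by positivity))
        refine (le_abs_self _).trans ?_
        rw [abs_sub_comm]
        exact hdiff w
      · rw [eE_smul]
        exact mul_le_mul_of_nonneg_left (eE_abs_le_sqrt hQ0 hM0) (abs_nonneg _)
    linarith
  have hch : |eE (tl P 𝓕 x Yt) O - eE (tl P 𝓕 x Y0) O| ≤ 4 * M * Real.sqrt |t| := by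
    refine (abs_eE_sub_le_sq hQt hQ0 O).trans ?_
    have h1 : ∀ Q : Ω → ℝ, IsProb Q → eE Q (fun w => h w ^ 2) ≤ M →
        eE Q (fun w => O w ^ 2) ≤ M := by
      intro Q hQ hQM
      refine (eE_mono hQ (g := fun w => h w ^ 2) fun w => ?_).trans hQM
      rw [← sq_abs (O w), ← sq_abs (h w)]
      exact pow_le_pow_left₀ (abs_nonneg _) (hOb w) 2
    have h2 : Real.sqrt (eE (tl P 𝓕 x Yt) (fun w => O w ^ 2) +
        eE (tl P 𝓕 x Y0) (fun w => O w ^ 2)) ≤ 2 * Real.sqrt M := by
      have h3 := h1 _ hQt hMt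
      have h4 := h1 _ hQ0 hM0
      rw [show 2 * Real.sqrt M = Real.sqrt (4 * M) by
        rw [Real.sqrt_mul (by norm_num), show (4 : ℝ) = 2 ^ 2 by norm_num,
          Real.sqrt_sq (by norm_num)]]
      apply Real.sqrt_le_sqrt
      linarith
    have h5 : Real.sqrt (dTV (tl P 𝓕 x Yt) (tl P 𝓕 x Y0)) ≤
        2 * (Real.sqrt |t| * Real.sqrt (Real.sqrt M)) := by
      refine (Real.sqrt_le_sqrt hTV).trans ?_
      rw [Real.sqrt_mul (by norm_num), Real.sqrt_mul (abs_nonneg _),
        show (4 : ℝ) = 2 ^ 2 by norm_num, Real.sqrt_sq (by norm_num)]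
    calc _ ≤ (2 * (Real.sqrt |t| * Real.sqrt (Real.sqrt M))) * (2 * Real.sqrt M) :=
          mul_le_mul h5 h2 (Real.sqrt_nonneg _) (by positivity)
      _ = 4 * (Real.sqrt (Real.sqrt M) * Real.sqrt M) * Real.sqrt |t| := by ring
      _ ≤ 4 * M * Real.sqrt |t| := by
          refine mul_le_mul_of_nonneg_right ?_ (Real.sqrt_nonneg _)
          exact mul_le_mul_of_nonneg_left (sqrt_sqrt_mul_sqrt_le hM1) (by norm_num)
  -- powers of t
  have ht2 : t ^ 2 ≤ |t| * Real.sqrt |t| := by
    rw [← sq_abs, sq]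
    refine mul_le_mul_of_nonneg_left ?_ (abs_nonneg _)
    apply Real.le_sqrt_of_sq_le
    nlinarith [abs_nonneg t]
  have ht2M : t ^ 2 * M ≤ M * (|t| * Real.sqrt |t|) := by nlinarith
  have htO : |t * eE (tl P 𝓕 x Yt) O - t * eE (tl P 𝓕 x Y0) O| ≤
      4 * M * (|t| * Real.sqrt |t|) := by
    rw [← mul_sub, abs_mul]
    calc _ ≤ |t| * (4 * M * Real.sqrt |t|) := mul_le_mul_of_nonneg_left hch (abs_nonneg _)
      _ = _ := by ring
  have htO' := abs_le.1 htO
  have hpos : 0 ≤ M * (|t| * Real.sqrt |t|) := by positivity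
  rw [abs_le]
  constructor
  · nlinarith [hE0.1, hE0.2]
  · nlinarith [hEt.1, hEt.2]

/-! ### (AL2') -/

theorem min_one_add_le {a b : ℝ} (ha : 0 ≤ a) (hb : 0 ≤ b) : min 1 (a + b) ≤ min 1 a + min 1 b := by
  rcases le_total 1 a with h | h
  · rw [min_eq_left h]
    have := le_min zero_le_one hb
    exact (min_le_left _ _).trans (by linarith)
  · rw [min_eq_right h]
    rcases le_total 1 b with h' | h'
    · rw [min_eq_left h']
      exact (min_le_left _ _).trans (by linarith)
    · rw [min_eq_right h']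
      exact min_le_right _ _

/-- under the truncated law the far negative part is cheap -/
theorem eE_tl_neg_le (hP : IsProb P) (hx : IsExpo x) (hK : 0 ≤ K) (W : Ω → ℝ) :
    eE (tl P 𝓕 x (fun w => psi K (W w))) (fun w => if W w < -K then |W w| else 0) ≤
      Real.exp 1 * eE P (fun w => if W w < -K then |W w| else 0) := by
  set Y : Ω → ℝ := fun w => psi K (W w) with hY
  have hYb : ∀ w, |Y w| ≤ K + 1 := fun w => abs_psi_le hK _
  unfold eE
  rw [Finset.mul_sum]
  refine Finset.sum_le_sum fun ω _ => ?_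
  show tl P 𝓕 x Y ω * (if W ω < -K then |W ω| else 0) ≤
    Real.exp 1 * (P ω * (if W ω < -K then |W ω| else 0))
  split_ifs with h
  · have h3 := tl_le_exp (𝓕 := 𝓕) hP hx (Y := Y) (a := K + 1)
      (fun w => (abs_le.1 (hYb w)).1) ω
    have h4 : Real.exp (Y ω + (K + 1)) ≤ Real.exp 1 := by
      apply Real.exp_le_exp.2
      have := psi_le_of_lt hK h
      simp only [hY]; linarith
    rw [← mul_assoc]
    refine mul_le_mul_of_nonneg_right ?_ (abs_nonneg _)
    exact h3.trans (mul_le_mul_of_nonneg_right h4 (hP.pos ω).le)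
  · simp

/-- distance of the untruncated and the truncated tilted law -/
theorem dTV_redB_psi (hP : IsProb P) (hx : IsExpo x) (hK : 0 ≤ K) (U U' : Ω × Bool → ℝ) :
    dTV (tl P 𝓕 x (redB U)) (tl P 𝓕 x (fun w => psi K (redB U' w))) ≤
      2 * (eE (tl P 𝓕 x (redB U)) (fun w => min 1 (dm U U' w)) +
        eE (tl P 𝓕 x (redB U)) (fun w => if K < |redB U' w| then 1 else 0)) +
      2 * (Real.exp (2 * (K + 1)) * eE P (dm U U') +
        Real.exp 1 * eE P (fun w => if redB U' w < -K then |redB U' w| else 0)) := by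
  have hQX := tl_isProb (𝓕 := 𝓕) hP hx.pos (redB U)
  have hQY := tl_isProb (𝓕 := 𝓕) hP hx.pos (fun w => psi K (redB U' w))
  refine (dTV_tl hP hx _ _).trans ?_
  refine add_le_add (mul_le_mul_of_nonneg_left ?_ (by norm_num))
    (mul_le_mul_of_nonneg_left ?_ (by norm_num))
  · rw [← eE_add]
    refine eE_mono hQX fun w => ?_
    have h1 := redB_sub_le U U' w
    have h2 := psi_upper hK (redB U' w)
    have h3 : (if K < redB U' w then |redB U' w| else 0) ≥ 0 := by
      split_ifs
      · exact abs_nonneg _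
      · exact le_rfl
    have h4 : max (redB U w - psi K (redB U' w)) 0 ≤
        dm U U' w + (if K < redB U' w then |redB U' w| else 0) := by
      apply max_le
      · have := le_abs_self (redB U w - redB U' w)
        linarith
      · have := dm_nonneg U U' w
        linarith
    refine (min_le_min_left 1 h4).trans ?_
    refine (min_one_add_le (dm_nonneg U U' w) h3).trans ?_
    refine add_le_add le_rfl ?_
    by_cases h : K < redB U' w
    · rw [if_pos h, if_pos (h.trans_le (le_abs_self _))]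
      exact min_le_left _ _
    · rw [if_neg h]
      refine (min_le_right _ _).trans ?_
      split_ifs
      · exact zero_le_one
      · exact le_rfl
  · have h5 : eE (tl P 𝓕 x (fun w => psi K (redB U' w))) (dm U U') ≤
        Real.exp (2 * (K + 1)) * eE P (dm U U') :=
      eE_tl_le hP hx (fun w => abs_psi_le hK _) (fun w => dm_nonneg _ _ w)
    have h6 := eE_tl_neg_le (𝓕 := 𝓕) hP hx hK (redB U')
    refine le_trans ?_ (add_le_add h5 h6)
    rw [← eE_add]
    refine eE_mono hQY fun w => ?_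
    have h1 := redB_sub_le U U' w
    have h2 := psi_lower hK (redB U' w)
    have h3 : (if redB U' w < -K then |redB U' w| else 0) ≥ 0 := by
      split_ifs
      · exact abs_nonneg _
      · exact le_rfl
    refine (min_le_right _ _).trans (max_le ?_ ?_)
    · have := neg_abs_le (redB U w - redB U' w)
      linarith
    · have := dm_nonneg U U' w
      linarith

/-- **(AL2')** -/
theorem eE_mag_compare (hP : IsProb P) (hx : IsExpo x) (hK : 0 ≤ K) (U U' : Ω × Bool → ℝ)
    (h : Ω → ℝ) {M : ℝ} (hM1 : 1 ≤ M)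
    (hMX : eE (tl P 𝓕 x (redB U)) (fun w => h w ^ 2) ≤ M)
    (hMY : eE (tl P 𝓕 x (fun w => psi K (redB U' w))) (fun w => h w ^ 2) ≤ M) :
    |eE (tl P 𝓕 x (redB U)) (fun w => mB U w * h w) -
      eE (tl P 𝓕 x (fun w => psi K (redB U' w)))
        (fun w => dpsi K (redB U' w) * mB U' w * h w)| ≤
      8 * Real.sqrt M *
        (Real.sqrt (eE (tl P 𝓕 x (redB U)) (fun w => min 1 (dm U U' w))) +
          Real.sqrt (eE (tl P 𝓕 x (redB U)) (fun w => if K < |redB U' w| then 1 else 0)) +
          Real.exp (K + 1) * Real.sqrt (eE P (dm U U')) +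
          Real.sqrt (eE P (fun w => if redB U' w < -K then |redB U' w| else 0))) := by
  set PX := tl P 𝓕 x (redB U) with hPX
  set PY := tl P 𝓕 x (fun w => psi K (redB U' w)) with hPY
  set q1 := eE PX (fun w => min 1 (dm U U' w)) with hq1
  set q2 := eE PX (fun w => if K < |redB U' w| then 1 else 0) with hq2
  set q3 := eE P (dm U U') with hq3
  set q4 := eE P (fun w => if redB U' w < -K then |redB U' w| else 0) with hq4
  have hQX : IsProb PX := tl_isProb (𝓕 := 𝓕) hP hx.pos (redB U)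
  have hQY : IsProb PY := tl_isProb (𝓕 := 𝓕) hP hx.pos (fun w => psi K (redB U' w))
  have hq10 : 0 ≤ q1 := eE_nonneg hQX fun w => le_min zero_le_one (dm_nonneg _ _ w)
  have hq20 : 0 ≤ q2 := eE_nonneg hQX fun w => by split_ifs <;> norm_num
  have hq30 : 0 ≤ q3 := eE_nonneg hP fun w => dm_nonneg _ _ w
  have hq40 : 0 ≤ q4 := eE_nonneg hP fun w => by
    split_ifs
    · exact abs_nonneg _
    · exact le_rfl
  set O : Ω → ℝ := fun w => dpsi K (redB U' w) * mB U' w * h w with hO
  have hOb : ∀ w, |O w| ≤ |h w| := by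
    intro w
    simp only [hO]
    rw [abs_mul, abs_mul, abs_of_nonneg (dpsi_mem hK _).1]
    have h1 := (dpsi_mem hK (redB U' w)).2
    have h2 := abs_mB_le U' w
    have h3 : dpsi K (redB U' w) * |mB U' w| ≤ 1 := by
      calc _ ≤ 1 * 1 := mul_le_mul h1 h2 (abs_nonneg _) zero_le_one
        _ = 1 := one_mul 1
    calc _ ≤ 1 * |h w| := mul_le_mul_of_nonneg_right h3 (abs_nonneg _)
      _ = |h w| := one_mul _
  -- first step: same law
  have hA : |eE PX (fun w => mB U w * h w) - eE PX O| ≤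
      2 * (Real.sqrt q1 * Real.sqrt M) + Real.sqrt q2 * Real.sqrt M := by
    rw [← eE_sub]
    refine (abs_eE_le_eE_abs hQX _).trans ?_
    have h1 : ∀ w, |mB U w * h w - O w| ≤
        2 * (|min 1 (dm U U' w)| * |h w|) + |1 - dpsi K (redB U' w)| * |h w| := by
      intro w
      have e : mB U w * h w - O w =
          (mB U w - mB U' w) * h w + (1 - dpsi K (redB U' w)) * mB U' w * h w := by
        simp only [hO]; ring
      rw [e]
      refine (abs_add_le _ _).trans (add_le_add ?_ ?_)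
      · rw [abs_mul, ← mul_assoc]
        refine mul_le_mul_of_nonneg_right ?_ (abs_nonneg _)
        rw [abs_of_nonneg (le_min zero_le_one (dm_nonneg U U' w))]
        have h2 := mB_sub_le U U' w
        have h3 := abs_sub (mB U w) (mB U' w)
        have h4 := abs_mB_le U w
        have h5 := abs_mB_le U' w
        rcases le_total 1 (dm U U' w) with h6 | h6
        · rw [min_eq_left h6]; linarith
        · rw [min_eq_right h6]
          have := dm_nonneg U U' w
          linarith
      · rw [abs_mul, abs_mul]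
        refine mul_le_mul_of_nonneg_right ?_ (abs_nonneg _)
        calc _ ≤ |1 - dpsi K (redB U' w)| * 1 :=
              mul_le_mul_of_nonneg_left (abs_mB_le U' w) (abs_nonneg _)
          _ = _ := mul_one _
    refine (eE_mono hQX h1).trans ?_
    rw [eE_add, eE_smul]
    refine add_le_add (mul_le_mul_of_nonneg_left ?_ (by norm_num)) ?_
    · refine eE_mul_le_sqrt hQX ?_ hMX hq10
      refine eE_mono hQX fun w => ?_
      have h2 := le_min zero_le_one (dm_nonneg U U' w)
      have h3 : min 1 (dm U U' w) ≤ 1 := min_le_left _ _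
      nlinarith
    · refine eE_mul_le_sqrt (f := fun w => 1 - dpsi K (redB U' w)) hQX ?_ hMX hq20
      refine eE_mono hQX fun w => ?_
      have h2 := one_sub_dpsi_le hK (redB U' w)
      have h3 : (0:ℝ) ≤ if K < |redB U' w| then 1 else 0 := by split_ifs <;> norm_num
      have h4 : (if K < |redB U' w| then (1:ℝ) else 0) ≤ 1 := by split_ifs <;> norm_num
      rw [← sq_abs]
      nlinarith [abs_nonneg (1 - dpsi K (redB U' w))]
  -- second step: change of law
  have hTV : dTV PX PY ≤ 2 * (q1 + q2) + 2 * (Real.exp (2 * (K + 1)) * q3 + Real.exp 1 * q4) :=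
    dTV_redB_psi hP hx hK U U'
  have hB : |eE PX O - eE PY O| ≤ Real.sqrt M *
      (2 * Real.sqrt q1 + 2 * Real.sqrt q2 + 2 * (Real.exp (K + 1) * Real.sqrt q3) +
        4 * Real.sqrt q4) := by
    refine (abs_eE_sub_le_sq hQX hQY O).trans ?_
    have h1 : ∀ Q : Ω → ℝ, IsProb Q → eE Q (fun w => h w ^ 2) ≤ M →
        eE Q (fun w => O w ^ 2) ≤ M := by
      intro Q hQ hQM
      refine (eE_mono hQ (g := fun w => h w ^ 2) fun w => ?_).trans hQM
      rw [← sq_abs (O w), ← sq_abs (h w)]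
      exact pow_le_pow_left₀ (abs_nonneg _) (hOb w) 2
    have h2 : Real.sqrt (eE PX (fun w => O w ^ 2) + eE PY (fun w => O w ^ 2)) ≤
        Real.sqrt 2 * Real.sqrt M := by
      have h3 := h1 _ hQX hMX
      have h4 := h1 _ hQY hMY
      rw [← Real.sqrt_mul (by norm_num)]
      apply Real.sqrt_le_sqrt
      linarith
    have h3 : Real.sqrt (dTV PX PY) ≤ Real.sqrt 2 * (Real.sqrt q1 + Real.sqrt q2 +
        Real.exp (K + 1) * Real.sqrt q3 + 2 * Real.sqrt q4) := by
      rw [Real.sqrt_le_left (by positivity)]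
      rw [mul_pow, Real.sq_sqrt (by norm_num : (0:ℝ) ≤ 2)]
      have s1 := Real.sq_sqrt hq10
      have s2 := Real.sq_sqrt hq20
      have s3 := Real.sq_sqrt hq30
      have s4 := Real.sq_sqrt hq40
      have n1 := Real.sqrt_nonneg q1
      have n2 := Real.sqrt_nonneg q2
      have n3 := Real.sqrt_nonneg q3
      have n4 := Real.sqrt_nonneg q4
      have e1 : Real.exp (2 * (K + 1)) = Real.exp (K + 1) ^ 2 := by
        rw [← Real.exp_nat_mul]; norm_num
      have e2 : Real.exp 1 ≤ 4 := by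
        have := Real.exp_one_lt_d9
        linarith
      have n5 : 0 ≤ Real.exp (K + 1) * Real.sqrt q3 := by positivity
      have h4 : q1 + q2 + Real.exp (2 * (K + 1)) * q3 + Real.exp 1 * q4 ≤
          (Real.sqrt q1 + Real.sqrt q2 + Real.exp (K + 1) * Real.sqrt q3 +
            2 * Real.sqrt q4) ^ 2 := by
        have h5 : Real.exp (2 * (K + 1)) * q3 = (Real.exp (K + 1) * Real.sqrt q3) ^ 2 := by
          rw [e1, mul_pow, s3]
        have h6 : Real.exp 1 * q4 ≤ (2 * Real.sqrt q4) ^ 2 := by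
          rw [mul_pow, s4]; nlinarith
        rw [h5]
        have h7 := mul_nonneg n1 n2
        have h8 := mul_nonneg n1 n5
        have h9 := mul_nonneg n1 n4
        have h10 := mul_nonneg n2 n5
        have h11 := mul_nonneg n2 n4
        have h12 := mul_nonneg n5 n4
        nlinarith
      linarith
    have n1 := Real.sqrt_nonneg q1
    have n2 := Real.sqrt_nonneg q2
    have n3 := Real.sqrt_nonneg q3
    have n4 := Real.sqrt_nonneg q4
    calc _ ≤ (Real.sqrt 2 * (Real.sqrt q1 + Real.sqrt q2 +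
          Real.exp (K + 1) * Real.sqrt q3 + 2 * Real.sqrt q4)) * (Real.sqrt 2 * Real.sqrt M) :=
          mul_le_mul h3 h2 (Real.sqrt_nonneg _) (by positivity)
      _ = (Real.sqrt 2 * Real.sqrt 2) * (Real.sqrt M * (Real.sqrt q1 + Real.sqrt q2 +
          Real.exp (K + 1) * Real.sqrt q3 + 2 * Real.sqrt q4)) := by ring
      _ = _ := by rw [Real.mul_self_sqrt (by norm_num)]; ring
  have htri : |eE PX (fun w => mB U w * h w) - eE PY O| ≤
      |eE PX (fun w => mB U w * h w) - eE PX O| + |eE PX O - eE PY O| := abs_sub_le _ _ _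
  refine htri.trans ((add_le_add hA hB).trans ?_)
  have n1 := Real.sqrt_nonneg q1
  have n2 := Real.sqrt_nonneg q2
  have n3 := Real.sqrt_nonneg q3
  have n4 := Real.sqrt_nonneg q4
  have nM := Real.sqrt_nonneg M
  have p1 := mul_nonneg nM n1
  have p2 := mul_nonneg nM n2
  have p3 : 0 ≤ Real.sqrt M * (Real.exp (K + 1) * Real.sqrt q3) := by positivity
  have p4 := mul_nonneg nM n4
  nlinarith


end

end Crest.Agent.R164.ED
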