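import Crest.Agent.R164.LGDef
import Crest.Agent.R164.LIbp

/-!
Row 164, L side (helper494): (GL4) = `LG.IBPM`, in the exact form of `LGDef`.
-/

set_option autoImplicit false
set_option linter.unusedSectionVars false

namespace Crest.Agent.R164.LG

open Finset MeasureTheory Filter Topology Crest.Agent.R141 Crest.Agent.R164 Crest.Agent.R164.Haar
open Crest.Agent.R164.LD (Prm HL EPh EO PL TO RJ MO)

noncomputable section

variable (X : Glob)

/-- counts of the labels in a good configuration. -/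
theorem cnt_ge {d0 : ℝ} (hd : Small X d0) {N : ℕ} {L : Fin N → X.LB}
    (hL : LabAvg.Good X.al d0 L) (x : X.LB) : d0 * N ≤ (LabAvg.cnt L x : ℝ) := by
  have h1 := (abs_le.1 (hL x)).1
  have h2 := hd.2 x
  have hN : (0 : ℝ) ≤ N := Nat.cast_nonneg N
  have h3 := mul_le_mul_of_nonneg_left h2 hN
  linarith

/-- size of the groups in a good configuration -/
theorem rJ_ge {d0 : ℝ} (hd : Small X d0) {N : ℕ} {L : Fin N → X.LB}
    (hL : LabAvg.Good X.al d0 L) (j : Fin X.J) : d0 * N ≤ Mag.rJ (Glob.lab L) j := by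
  refine (cnt_ge X hd hL (0, j)).trans ?_
  unfold Mag.rJ LabAvg.cnt
  have : (Finset.univ.filter fun i => L i = ((0 : Fin (X.K + 1)), j)).card ≤
      (Finset.univ.filter fun i => Glob.lab L i = j).card := by
    refine Finset.card_le_card fun i hi => ?_
    rw [Finset.mem_filter] at hi ⊢
    refine ⟨hi.1, ?_⟩
    unfold Glob.lab
    rw [hi.2]
  exact_mod_cast this

/-- size of the blocks in a good configuration -/
theorem rK_ge {d0 : ℝ} (hd : Small X d0) {N : ℕ} {L : Fin N → X.LB}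
    (hL : LabAvg.Good X.al d0 L) (k : Fin (X.K + 1)) (j : Fin X.J) :
    d0 * N ≤ ((Finset.univ.filter fun i => Glob.kap L i = k).card : ℝ) := by
  refine (cnt_ge X hd hL (k, j)).trans ?_
  unfold LabAvg.cnt
  have : (Finset.univ.filter fun i => L i = (k, j)).card ≤
      (Finset.univ.filter fun i => Glob.kap L i = k).card := by
    refine Finset.card_le_card fun i hi => ?_
    rw [Finset.mem_filter] at hi ⊢
    refine ⟨hi.1, ?_⟩
    unfold Glob.kap
    rw [hi.2]
  exact_mod_cast this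

theorem abs_am_le {p : Par} {E A S : ℝ} {θ : Prm p X.K X.J} (h : Bd X E A S θ) (j : Fin X.J)
    (g : Fin p.nc) : |θ.am j g| ≤ |A| := by
  have h1 := h.am j
  have h2 : θ.am j g ^ 2 ≤ ∑ g, θ.am j g ^ 2 :=
    Finset.single_le_sum (f := fun g => θ.am j g ^ 2) (fun _ _ => sq_nonneg _) (Finset.mem_univ g)
  exact sq_le_sq.1 (h2.trans h1)


/-- **(GL4)** -/
theorem ibpm (E A S d0 : ℝ) (hd : Small X d0) (p : Par) {ε : ℝ} (hε : 0 < ε) :
    ∃ n0 : ℕ, ∀ N : ℕ, 0 < N → ∀ n : ℕ, n0 ≤ n → ∀ Kp : ℝ,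
    ∀ θ : Prm p X.K X.J, Bd X E A S θ → ∀ L : Fin N → X.LB, LabAvg.Good X.al d0 L →
    ∀ (j : Fin X.J) (g : Fin p.nc),
    |Eo X n Kp θ L (fun _ _ ω => TO n (Glob.lab L) j g ω) -
      θ.am j g * (1 - ((p.nc : ℝ) + 1)⁻¹ * ∑ g' ∈ Ico (g : ℕ) p.nc,
        Eo X n Kp θ L (fun U d ω => RJ n (Pl X n Kp θ L U d) (Glob.lab L) j (p.mt g') ω))| ≤
      ε := by
  refine ⟨max 1 (Nat.ceil (max ((8 * |A|) ^ 2) ((52 * A ^ 2 / ε) ^ 2))), ?_⟩
  intro N hN' n hn Kp θ hθ L hL j g
  have hNr : (0 : ℝ) < N := by exact_mod_cast hN'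
  have hn1 : 0 < n := lt_of_lt_of_le one_pos ((le_max_left _ _).trans hn)
  have hn2 : max ((8 * |A|) ^ 2) ((52 * A ^ 2 / ε) ^ 2) ≤ (n : ℝ) :=
    (Nat.le_ceil _).trans (by exact_mod_cast (le_max_right _ _).trans hn)
  have h8 : 8 * |A| ≤ Real.sqrt n := Real.le_sqrt_of_sq_le ((le_max_left _ _).trans hn2)
  have h52 : 52 * A ^ 2 / ε ≤ Real.sqrt n := Real.le_sqrt_of_sq_le ((le_max_right _ _).trans hn2)
  have hr : 0 < Mag.rJ (Glob.lab L) j :=
    lt_of_lt_of_le (mul_pos hd.1 hNr) (rJ_ge X hd hL j)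
  have ha := abs_am_le X hθ j g
  have := X.hnu N
  have h := LD.EO_TO (mu := X.nu N) (n := n) X.val X.c X.t Kp θ (Glob.kap L) (Glob.lab L) hN' hn1
    j g hr (by linarith)
  refine h.trans ?_
  have hsn : 0 < Real.sqrt n := Real.sqrt_pos.mpr (by exact_mod_cast hn1)
  rw [div_le_iff₀ hsn]
  rw [div_le_iff₀ hε] at h52
  have h3 : θ.am j g ^ 2 ≤ A ^ 2 := sq_le_sq.2 ha
  nlinarith

/-! ### Concentration and comparison of the group observables from the structure error -/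

section conc

variable {p : Par} {N : ℕ}









end conc

end

end Crest.Agent.R164.LG
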