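import Crest.Agent.R164.GaussTilt
import Crest.Agent.R164.CavG1
import Crest.Agent.R164.GaussNest
import Crest.Agent.R164.CavGDef

-- ▼ part R164/ExactG1
section

/-!
Row 164, exact value of the nested Gaussian functional, part 1: one step of the recursion
(helper716).
-/

set_option autoImplicit false

namespace Crest.Agent.R164.EG

open MeasureTheory ProbabilityTheory ENNReal
open Crest.Agent.R164.GTilt (γ lintegral_add_gauss lintegral_gaussianReal)

noncomputable section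

theorem pdf_QI (A B g : ℝ) (w : NNReal) {s : ℝ} (hs : 0 < s) (hsd : s = 1 - 2 * A)
    (hw : (w : ℝ) = s⁻¹) :
    gaussianPDFReal 0 1 g * Real.exp (A * g ^ 2 + B * g) =
      (Real.sqrt s)⁻¹ * Real.exp (B ^ 2 / (2 * s)) * gaussianPDFReal (B / s) w g := by
  have hs0 : s ≠ 0 := hs.ne'
  unfold gaussianPDFReal
  simp only [NNReal.coe_one, mul_one, hw, sub_zero]
  have h3 : Real.sqrt (2 * Real.pi * s⁻¹) = Real.sqrt (2 * Real.pi) * (Real.sqrt s)⁻¹ := by
    rw [Real.sqrt_mul (by positivity), Real.sqrt_inv]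
  rw [h3, mul_inv, inv_inv]
  have h4 : Real.sqrt s ≠ 0 := (Real.sqrt_pos.mpr hs).ne'
  have h5 : (Real.sqrt s)⁻¹ * Real.exp (B ^ 2 / (2 * s)) *
      ((Real.sqrt (2 * Real.pi))⁻¹ * Real.sqrt s * Real.exp (-(g - B / s) ^ 2 / (2 * s⁻¹))) =
      ((Real.sqrt s)⁻¹ * Real.sqrt s) * (Real.sqrt (2 * Real.pi))⁻¹ *
      (Real.exp (B ^ 2 / (2 * s)) * Real.exp (-(g - B / s) ^ 2 / (2 * s⁻¹))) := by ring
  rw [h5, inv_mul_cancel₀ h4, one_mul, ← Real.exp_add, mul_assoc, ← Real.exp_add]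
  congr 2
  have hA : A = (1 - s) / 2 := by linarith
  rw [hA]
  field_simp
  ring

/-- Gaussian change of variables with a quadratic weight. -/
theorem QI (A B : ℝ) (hA : 0 < 1 - 2 * A) (h : ℝ → ℝ≥0∞) (hm : Measurable h) :
    ∫⁻ g, ENNReal.ofReal (Real.exp (A * g ^ 2 + B * g)) * h g ∂γ =
      ENNReal.ofReal ((Real.sqrt (1 - 2 * A))⁻¹ * Real.exp (B ^ 2 / (2 * (1 - 2 * A)))) *
        ∫⁻ x, h (B / (1 - 2 * A) + (Real.sqrt (1 - 2 * A))⁻¹ * x) ∂γ := by
  set s := 1 - 2 * A with hsdef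
  have hsi : 0 ≤ s⁻¹ := by positivity
  obtain ⟨w, hw⟩ : ∃ w : NNReal, (w : ℝ) = s⁻¹ := ⟨Real.toNNReal s⁻¹, Real.coe_toNNReal _ hsi⟩
  have hmap : γ.map (fun x => (Real.sqrt s)⁻¹ * x + B / s) = gaussianReal (B / s) w := by
    have e : (fun x : ℝ => (Real.sqrt s)⁻¹ * x + B / s) = (· + B / s) ∘ ((Real.sqrt s)⁻¹ * ·) := rfl
    rw [e, ← Measure.map_map (by fun_prop) (by fun_prop), gaussianReal_map_const_mul,
      gaussianReal_map_add_const]
    simp only [mul_zero, zero_add, mul_one]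
    congr 1
    ext
    rw [hw]
    show ((Real.sqrt s)⁻¹) ^ 2 = s⁻¹
    rw [inv_pow, Real.sq_sqrt hA.le]
  have hwne : w ≠ 0 := by
    intro h
    rw [h] at hw
    simp only [NNReal.coe_zero] at hw
    exact (inv_ne_zero hA.ne') hw.symm
  have hR : ∫⁻ x, h (B / s + (Real.sqrt s)⁻¹ * x) ∂γ = ∫⁻ z, h z ∂(gaussianReal (B / s) w) := by
    rw [← hmap, lintegral_map hm (by fun_prop)]
    refine lintegral_congr fun x => ?_
    congr 1
    ring
  have hEm : Measurable (fun g : ℝ => ENNReal.ofReal (Real.exp (A * g ^ 2 + B * g))) := by fun_prop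
  have hL := lintegral_gaussianReal 0 one_ne_zero (hEm.mul hm)
  simp only [Pi.mul_apply] at hL
  have hC := lintegral_const_mul (ENNReal.ofReal ((Real.sqrt s)⁻¹ *
    Real.exp (B ^ 2 / (2 * s)))) ((measurable_gaussianPDF (B / s) w).mul hm) (μ := volume)
  simp only [Pi.mul_apply] at hC
  rw [hR, hL, lintegral_gaussianReal (B / s) hwne hm, ← hC]
  refine lintegral_congr fun z => ?_
  have hgoal : gaussianPDF 0 1 z * ENNReal.ofReal (Real.exp (A * z ^ 2 + B * z)) =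
      ENNReal.ofReal ((Real.sqrt s)⁻¹ * Real.exp (B ^ 2 / (2 * s))) * gaussianPDF (B / s) w z := by
    unfold gaussianPDF
    rw [← ENNReal.ofReal_mul (gaussianPDFReal_nonneg _ _ _), ← ENNReal.ofReal_mul (by positivity)]
    congr 1
    exact pdf_QI A B z w hA hsdef hw
  rw [← mul_assoc, hgoal, mul_assoc]

/-- total mass version -/
theorem QI_one (A B C : ℝ) (hA : 0 < 1 - 2 * A) :
    ∫⁻ g, ENNReal.ofReal (Real.exp (A * g ^ 2 + B * g + C)) ∂γ =
      ENNReal.ofReal ((Real.sqrt (1 - 2 * A))⁻¹ * Real.exp (B ^ 2 / (2 * (1 - 2 * A)) + C)) := by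
  have h := QI A B hA (fun _ => ENNReal.ofReal (Real.exp C)) measurable_const
  simp only [lintegral_const, measure_univ, mul_one] at h
  have h1 : ∀ g : ℝ, ENNReal.ofReal (Real.exp (A * g ^ 2 + B * g + C)) =
      ENNReal.ofReal (Real.exp (A * g ^ 2 + B * g)) * ENNReal.ofReal (Real.exp C) := by
    intro g
    rw [← ENNReal.ofReal_mul (Real.exp_pos _).le, ← Real.exp_add]
  simp only [h1]
  rw [h, ← ENNReal.ofReal_mul (by positivity), mul_assoc, ← Real.exp_add]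

/-- the quadratic part of the recursion -/
def Qf (s θ x z : ℝ) : ℝ := -(θ * x ^ 2 + 2 * x * z - s * z ^ 2) / (2 * (1 + θ * s))

/-- integrating the first coordinate. -/
theorem Qf_eta {a s σ θ : ℝ} (ha : 0 < a) (hs : s ≤ σ) (h1 : 0 < 1 + θ * s)
    (h2 : 0 < 1 + θ * σ) (u z : ℝ) :
    ∫⁻ g, ENNReal.ofReal (Real.exp (a * Qf s θ (u + Real.sqrt ((σ - s) / a) * g) z)) ∂γ =
      ENNReal.ofReal (Real.sqrt ((1 + θ * s) / (1 + θ * σ)) * Real.exp (a * Qf σ θ u z)) := by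
  have n1 : 1 + θ * s ≠ 0 := h1.ne'
  have n2 : 1 + θ * σ ≠ 0 := h2.ne'
  set q := Real.sqrt ((σ - s) / a) with hq
  have hq2 : q ^ 2 = (σ - s) / a := Real.sq_sqrt (div_nonneg (by linarith) ha.le)
  have hq3 : a * q ^ 2 = σ - s := by rw [hq2]; field_simp
  have hA : 1 - 2 * (-(a * θ * q ^ 2) / (2 * (1 + θ * s))) = (1 + θ * σ) / (1 + θ * s) := by
    have : a * θ * q ^ 2 = θ * (σ - s) := by rw [← hq3]; ring
    rw [this]
    field_simp
    ring
  have hpos : 0 < 1 - 2 * (-(a * θ * q ^ 2) / (2 * (1 + θ * s))) := by rw [hA]; positivity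
  have h := QI_one (-(a * θ * q ^ 2) / (2 * (1 + θ * s))) (-(a * q * (θ * u + z)) / (1 + θ * s))
    (a * Qf s θ u z) hpos
  have e1 : ∀ g : ℝ, a * Qf s θ (u + q * g) z = -(a * θ * q ^ 2) / (2 * (1 + θ * s)) * g ^ 2 +
      -(a * q * (θ * u + z)) / (1 + θ * s) * g + a * Qf s θ u z := by
    intro g
    unfold Qf
    field_simp
    ring
  simp only [e1]
  rw [h, hA]
  congr 1
  have e2 : (Real.sqrt ((1 + θ * σ) / (1 + θ * s)))⁻¹ = Real.sqrt ((1 + θ * s) / (1 + θ * σ)) := by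
    rw [← Real.sqrt_inv, inv_div]
  rw [e2]
  congr 2
  have e3 : (-(a * q * (θ * u + z)) / (1 + θ * s)) ^ 2 =
      a * (σ - s) * (θ * u + z) ^ 2 / (1 + θ * s) ^ 2 := by
    rw [div_pow, ← hq3]; ring
  rw [e3]
  unfold Qf
  have key : (σ - s) * (θ * u + z) ^ 2 - (θ * u ^ 2 + 2 * u * z - s * z ^ 2) * (1 + θ * σ) =
    -(θ * u ^ 2 + 2 * u * z - σ * z ^ 2) * (1 + θ * s) := by ring
  generalize 1 + θ * s = P at *
  generalize 1 + θ * σ = P' at *
  have e4 : a * (σ - s) * (θ * u + z) ^ 2 / P ^ 2 / (2 * (P' / P)) +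
      a * (-(θ * u ^ 2 + 2 * u * z - s * z ^ 2) / (2 * P)) =
      a * ((σ - s) * (θ * u + z) ^ 2 - (θ * u ^ 2 + 2 * u * z - s * z ^ 2) * P') /
        (2 * P' * P) := by
    field_simp
    ring
  rw [e4, key]
  field_simp

/-- One step of the recursion, in standard coordinates. -/
theorem step_core {a s s' ρ θ : ℝ} (ha : 0 < a) (hs' : 0 ≤ s') (hρ : 0 ≤ ρ)
    (hss : s ≤ s' / (1 + s' * ρ)) (h1 : 0 < 1 + θ * s) (h2 : 0 < 1 + (θ + ρ) * s') (x z : ℝ)
    (h : ℝ → ℝ≥0∞) (hm : Measurable h) :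
    ∫⁻ g₁, ∫⁻ g₂, ENNReal.ofReal (Real.exp (a * Qf s θ
        (x + s' / (1 + s' * ρ) * (Real.sqrt (ρ * (1 + s' * ρ) / a) * g₁) +
          Real.sqrt ((s' / (1 + s' * ρ) - s) / a) * g₂)
        (z + ρ * x + Real.sqrt (ρ * (1 + s' * ρ) / a) * g₁))) *
        h (z + ρ * x + Real.sqrt (ρ * (1 + s' * ρ) / a) * g₁) ∂γ ∂γ =
      ENNReal.ofReal (Real.sqrt ((1 + θ * s) / (1 + (θ + ρ) * s')) *
        Real.exp (a * Qf s' (θ + ρ) x z)) * ∫⁻ g, h (z + Real.sqrt (ρ / a) * g) ∂γ := by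
  have hE : 0 < 1 + s' * ρ := by positivity
  have nE : 1 + s' * ρ ≠ 0 := hE.ne'
  set E := 1 + s' * ρ with hEd
  set σ := s' / E with hσ
  have hσE : σ * E = s' := by rw [hσ]; field_simp
  set q := Real.sqrt (ρ * E / a) with hq
  have hq2 : q ^ 2 = ρ * E / a := Real.sq_sqrt (by positivity)
  have hq3 : a * q ^ 2 = ρ * E := by rw [hq2]; field_simp
  have hσ1 : (1 + θ * σ) * E = 1 + (θ + ρ) * s' := by
    have : (1 + θ * σ) * E = E + θ * (σ * E) := by ring
    rw [this, hσE, hEd]; ring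
  have h3 : 0 < 1 + θ * σ := by
    have : 0 < (1 + θ * σ) * E := by rw [hσ1]; exact h2
    exact (pos_iff_pos_of_mul_pos this).2 hE
  have n3 := h3.ne'
  have n2 := h2.ne'
  have n1 := h1.ne'
  -- inner integral
  have hin : ∀ g₁ : ℝ, ∫⁻ g₂, ENNReal.ofReal (Real.exp (a * Qf s θ
        (x + σ * (q * g₁) + Real.sqrt ((σ - s) / a) * g₂) (z + ρ * x + q * g₁))) *
        h (z + ρ * x + q * g₁) ∂γ =
      ENNReal.ofReal (Real.sqrt ((1 + θ * s) / (1 + θ * σ)) * Real.exp (a * Qf σ θ x (z + ρ * x))) *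
      (ENNReal.ofReal (Real.exp (-(s' * ρ) / 2 * g₁ ^ 2 + -(a * x * q) * g₁)) *
        h (z + ρ * x + q * g₁)) := by
    intro g₁
    have hmF : Measurable fun g₂ : ℝ => ENNReal.ofReal (Real.exp (a * Qf s θ
        (x + σ * (q * g₁) + Real.sqrt ((σ - s) / a) * g₂) (z + ρ * x + q * g₁))) := by
      unfold Qf; fun_prop
    rw [lintegral_mul_const _ hmF, Qf_eta ha hss h1 h3,
      ← mul_assoc (ENNReal.ofReal _) (ENNReal.ofReal _)]
    congr 1
    rw [← ENNReal.ofReal_mul (by positivity), mul_assoc, ← Real.exp_add]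
    congr 3
    have e1 : Qf σ θ (x + σ * (q * g₁)) (z + ρ * x + q * g₁) =
        Qf σ θ x (z + ρ * x) - x * (q * g₁) - σ / 2 * (q * g₁) ^ 2 := by
      unfold Qf
      field_simp
      ring
    rw [e1]
    have e2 : a * (σ / 2 * (q * g₁) ^ 2) = s' * ρ / 2 * g₁ ^ 2 := by
      have : a * (σ / 2 * (q * g₁) ^ 2) = (a * q ^ 2) * σ / 2 * g₁ ^ 2 := by ring
      rw [this, hq3]
      have : ρ * E * σ = s' * ρ := by rw [← hσE]; ring
      rw [this]
    have e3 : a * (Qf σ θ x (z + ρ * x) - x * (q * g₁) - σ / 2 * (q * g₁) ^ 2) =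
      a * Qf σ θ x (z + ρ * x) - a * (x * (q * g₁)) - a * (σ / 2 * (q * g₁) ^ 2) := by ring
    rw [e3, e2]
    ring
  simp only [hin]
  have hmh : Measurable fun g₁ : ℝ => h (z + ρ * x + q * g₁) := hm.comp (by fun_prop)
  have hmE : Measurable fun g₁ : ℝ => ENNReal.ofReal (Real.exp (-(s' * ρ) / 2 * g₁ ^ 2 +
    -(a * x * q) * g₁)) := by fun_prop
  have hcm := lintegral_const_mul (ENNReal.ofReal (Real.sqrt ((1 + θ * s) / (1 + θ * σ)) *
    Real.exp (a * Qf σ θ x (z + ρ * x)))) (hmE.mul hmh) (μ := γ)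
  simp only [Pi.mul_apply] at hcm
  rw [hcm]
  have hA : 1 - 2 * (-(s' * ρ) / 2) = E := by rw [hEd]; ring
  have hQ := QI (-(s' * ρ) / 2) (-(a * x * q)) (by rw [hA]; exact hE)
    (fun g₁ => h (z + ρ * x + q * g₁)) hmh
  rw [hQ, hA, ← mul_assoc]
  congr 1
  · rw [← ENNReal.ofReal_mul (by positivity)]
    congr 1
    have e4 : Real.sqrt ((1 + θ * s) / (1 + (θ + ρ) * s')) =
        Real.sqrt ((1 + θ * s) / (1 + θ * σ)) * (Real.sqrt E)⁻¹ := by
      rw [← hσ1, ← Real.sqrt_inv, ← Real.sqrt_mul (by positivity)]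
      congr 1
      field_simp
    have e5 : (-(a * x * q)) ^ 2 / (2 * E) = a * (x ^ 2 * ρ / 2) := by
      have : (-(a * x * q)) ^ 2 = a * x ^ 2 * (a * q ^ 2) := by ring
      rw [this, hq3]
      field_simp
    have e6 : Qf σ θ x (z + ρ * x) + x ^ 2 * ρ / 2 = Qf s' (θ + ρ) x z := by
      have key : -(θ * x ^ 2 + 2 * x * (z + ρ * x) - σ * (z + ρ * x) ^ 2) * E +
          x ^ 2 * ρ * ((1 + θ * σ) * E) = -((θ + ρ) * x ^ 2 + 2 * x * z - s' * z ^ 2) := by
        rw [hσ1]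
        have : -(θ * x ^ 2 + 2 * x * (z + ρ * x) - σ * (z + ρ * x) ^ 2) * E =
          -(θ * x ^ 2 + 2 * x * (z + ρ * x)) * E + (σ * E) * (z + ρ * x) ^ 2 := by ring
        rw [this, hσE, hEd]; ring
      unfold Qf
      rw [← key, ← hσ1]
      generalize 1 + θ * σ = P at *
      field_simp
    rw [e4, e5, ← e6, mul_add, Real.exp_add]
    ring
  · refine lintegral_congr fun g => ?_
    congr 1
    have e7 : q * (-(a * x * q) / E + (Real.sqrt E)⁻¹ * g) = -(ρ * x) + Real.sqrt (ρ / a) * g := by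
      have e8 : q * (-(a * x * q) / E) = -(ρ * x) := by
        have : q * (-(a * x * q) / E) = -((a * q ^ 2) * x) / E := by ring
        rw [this, hq3]; field_simp
      have e9 : q * (Real.sqrt E)⁻¹ = Real.sqrt (ρ / a) := by
        rw [hq, ← Real.sqrt_inv, ← Real.sqrt_mul (by positivity)]
        congr 1
        field_simp
      rw [mul_add, e8, ← mul_assoc, e9]
    rw [e7]
    ring

end

end Crest.Agent.R164.EG
end

-- ▼ part R164/ExactG2

/-!
Row 164, exact value of the nested Gaussian functional, part 2: one step of the recursion for an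
arbitrary finite family of independent Gaussians (helper716).
-/

set_option autoImplicit false

namespace Crest.Agent.R164.EG

open MeasureTheory ProbabilityTheory ENNReal Crest.ProbabilityR.InvariantGlass
open Crest.Agent.R164.GTilt (γ lintegral_add_gauss lintegral_gaussianReal lintegral_pi_succ Lip)
open Crest.Agent.R164.CavG (gm lin law_lin measurable_lin gstep th gval)

noncomputable section

variable {ι : Type*} [Fintype ι]

/-- linear functional -/
def dot (c z : ι → ℝ) : ℝ := ∑ i, c i * z i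

theorem lintegral_gm3 (F : (Fin 3 → ℝ) → ℝ≥0∞) (hF : Measurable F) :
    ∫⁻ z, F z ∂(gm (Fin 3)) = ∫⁻ a, ∫⁻ b, ∫⁻ c, F ![a, b, c] ∂γ ∂γ ∂γ := by
  unfold gm
  rw [lintegral_pi_succ 2 F hF]
  refine lintegral_congr fun a => ?_
  rw [lintegral_pi_succ 1 (fun z => F (Fin.cons a z)) (hF.comp (by fun_prop))]
  refine lintegral_congr fun b => ?_
  rw [lintegral_pi_succ 0 (fun z => F (Fin.cons a (Fin.cons b z))) (hF.comp (by fun_prop))]
  refine lintegral_congr fun c => ?_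
  have hm : Measurable fun z' : Fin 0 → ℝ => F (Fin.cons a (Fin.cons b (Fin.cons c z'))) :=
    hF.comp (by fun_prop)
  rw [Measure.pi_of_empty]
  exact lintegral_dirac' _ hm

theorem meas_Qf (s θ : ℝ) : Measurable fun p : ℝ × ℝ => Qf s θ p.1 p.2 := by
  unfold Qf; fun_prop

/-- the function of the recursion -/
def Fr (c s θ r : ℝ) (f : ℝ → ℝ) (c0 c1 cy z : ι → ℝ) : ℝ :=
  c + Qf s θ (dot c0 z) (dot c1 z - r * dot c0 z) + f (dot c1 z - r * dot c0 z + dot cy z)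

theorem dot_add (c z g : ι → ℝ) (v : ι → ℝ) :
    dot c (fun k => z k + Real.sqrt (v k) * g k) =
      dot c z + ∑ k, (c k * Real.sqrt (v k)) * g k := by
  unfold dot
  rw [← Finset.sum_add_distrib]
  exact Finset.sum_congr rfl fun k _ => by ring

/-- the law of the three increments -/
theorem three_law {a s s' r ρ vy : ℝ} (ha : 0 < a) (hs' : 0 ≤ s') (hρ : 0 ≤ ρ) (hvy : 0 ≤ vy)
    (hss : s ≤ s' / (1 + s' * ρ)) (v c0 c1 cy : ι → ℝ) (hv : ∀ k, 0 ≤ v k)
    (g00 : ∑ k, v k * (c0 k * c0 k) = (s' - s) / a)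
    (g01 : ∑ k, v k * (c0 k * c1 k) = (s' * (r + ρ) - s * r) / a)
    (g11 : ∑ k, v k * (c1 k * c1 k) =
      ((s' * (r + ρ) ^ 2 + (r + ρ)) - (s * r ^ 2 + r)) / a)
    (g0y : ∑ k, v k * (c0 k * cy k) = 0) (g1y : ∑ k, v k * (c1 k * cy k) = 0)
    (gyy : ∑ k, v k * (cy k * cy k) = vy) (H : (Fin 3 → ℝ) → ℝ≥0∞) (hH : Measurable H) :
    ∫⁻ g, H ![∑ k, (c0 k * Real.sqrt (v k)) * g k,
        ∑ k, (c1 k * Real.sqrt (v k)) * g k - r * ∑ k, (c0 k * Real.sqrt (v k)) * g k,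
        ∑ k, (cy k * Real.sqrt (v k)) * g k] ∂(gm ι) =
      ∫⁻ g₁, ∫⁻ g₂, ∫⁻ g₃, H ![s' / (1 + s' * ρ) * (Real.sqrt (ρ * (1 + s' * ρ) / a) * g₁) +
          Real.sqrt ((s' / (1 + s' * ρ) - s) / a) * g₂,
        Real.sqrt (ρ * (1 + s' * ρ) / a) * g₁, Real.sqrt vy * g₃] ∂γ ∂γ ∂γ := by
  have hE : 0 < 1 + s' * ρ := by positivity
  set E := 1 + s' * ρ with hEd
  set σ := s' / E with hσ
  have hσE : σ * E = s' := by rw [hσ]; field_simp
  set q := Real.sqrt (ρ * E / a) with hq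
  have hq2 : q * q = ρ * E / a := Real.mul_self_sqrt (by positivity)
  set t := Real.sqrt ((σ - s) / a) with ht
  have ht2 : t * t = (σ - s) / a := Real.mul_self_sqrt (div_nonneg (by linarith) ha.le)
  have hy2 : Real.sqrt vy * Real.sqrt vy = vy := Real.mul_self_sqrt hvy
  set u : Fin 3 → ι → ℝ := ![fun k => c0 k * Real.sqrt (v k),
    fun k => (c1 k - r * c0 k) * Real.sqrt (v k), fun k => cy k * Real.sqrt (v k)] with hu
  set u' : Fin 3 → Fin 3 → ℝ := ![![σ * q, t, 0], ![q, 0, 0], ![0, 0, Real.sqrt vy]] with hu'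
  have hsq : ∀ k, Real.sqrt (v k) * Real.sqrt (v k) = v k := fun k => Real.mul_self_sqrt (hv k)
  have gram : ∀ (x y : ι → ℝ), ∑ k, (x k * Real.sqrt (v k)) * (y k * Real.sqrt (v k)) =
      ∑ k, v k * (x k * y k) := fun x y =>
    Finset.sum_congr rfl fun k _ => by
      have := hsq k
      linear_combination (x k * y k) * this
  have r11 : ∑ k, v k * ((c1 k - r * c0 k) * (c1 k - r * c0 k)) = ρ * E / a := by
    have : ∑ k, v k * ((c1 k - r * c0 k) * (c1 k - r * c0 k)) =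
        ∑ k, v k * (c1 k * c1 k) - 2 * r * ∑ k, v k * (c0 k * c1 k) +
          r ^ 2 * ∑ k, v k * (c0 k * c0 k) := by
      rw [Finset.mul_sum, Finset.mul_sum, ← Finset.sum_sub_distrib, ← Finset.sum_add_distrib]
      exact Finset.sum_congr rfl fun k _ => by ring
    rw [this, g00, g01, g11, hEd]
    field_simp
    ring
  have r01 : ∑ k, v k * (c0 k * (c1 k - r * c0 k)) = s' * ρ / a := by
    have : ∑ k, v k * (c0 k * (c1 k - r * c0 k)) =
        ∑ k, v k * (c0 k * c1 k) - r * ∑ k, v k * (c0 k * c0 k) := by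
      rw [Finset.mul_sum, ← Finset.sum_sub_distrib]
      exact Finset.sum_congr rfl fun k _ => by ring
    rw [this, g00, g01]
    field_simp
    ring
  have r1y : ∑ k, v k * ((c1 k - r * c0 k) * cy k) = 0 := by
    have : ∑ k, v k * ((c1 k - r * c0 k) * cy k) =
        ∑ k, v k * (c1 k * cy k) - r * ∑ k, v k * (c0 k * cy k) := by
      rw [Finset.mul_sum, ← Finset.sum_sub_distrib]
      exact Finset.sum_congr rfl fun k _ => by ring
    rw [this, g0y, g1y]; ring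
  have comm : ∀ (x y : ι → ℝ), ∑ k, v k * (x k * y k) = ∑ k, v k * (y k * x k) := fun x y =>
    Finset.sum_congr rfl fun k _ => by ring
  have q00 : σ * q * (σ * q) + t * t = (s' - s) / a := by
    have : σ * q * (σ * q) = σ ^ 2 * (q * q) := by ring
    rw [this, hq2, ht2]
    have : σ ^ 2 * (ρ * E / a) = σ * (σ * E) * ρ / a := by ring
    rw [this, hσE]
    have : σ + σ * s' * ρ = s' := by
      have : σ + σ * s' * ρ = σ * E := by rw [hEd]; ring
      rw [this, hσE]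
    rw [← add_div]
    congr 1
    linarith
  have q01 : σ * q * q = s' * ρ / a := by
    have : σ * q * q = σ * (q * q) := by ring
    rw [this, hq2]
    have : σ * (ρ * E / a) = (σ * E) * ρ / a := by ring
    rw [this, hσE]
  have hG : ∀ i j, ∑ k, u i k * u j k = ∑ k, u' i k * u' j k := by
    intro i j
    rw [Fin.sum_univ_three]
    fin_cases i <;> fin_cases j <;> simp only [hu, hu', Fin.zero_eta, Fin.mk_one, Fin.reduceFinMk,
      Matrix.cons_val_zero, Matrix.cons_val_one, Matrix.cons_val_two, Matrix.head_cons,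
      Matrix.tail_cons, Matrix.cons_val] <;>
      rw [gram]
    · rw [g00, ← q00]; ring
    · rw [r01, ← q01]; ring
    · rw [g0y]; ring
    · rw [comm, r01, ← q01]; ring
    · rw [r11, ← hq2]; ring
    · rw [r1y]; ring
    · rw [comm, g0y]; ring
    · rw [comm, r1y]; ring
    · rw [gyy]; linear_combination -hy2
  have hlaw := law_lin u u' hG
  have e1 : ∫⁻ g, H ![∑ k, (c0 k * Real.sqrt (v k)) * g k,
        ∑ k, (c1 k * Real.sqrt (v k)) * g k - r * ∑ k, (c0 k * Real.sqrt (v k)) * g k,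
        ∑ k, (cy k * Real.sqrt (v k)) * g k] ∂(gm ι) = ∫⁻ X, H X ∂((gm ι).map (lin u)) := by
    rw [lintegral_map hH (measurable_lin u)]
    refine lintegral_congr fun g => ?_
    congr 1
    funext i
    fin_cases i
    · rfl
    · show _ = ∑ k, ((c1 k - r * c0 k) * Real.sqrt (v k)) * g k
      simp only [Fin.mk_one, Matrix.cons_val_one, Matrix.cons_val_zero]
      rw [Finset.mul_sum, ← Finset.sum_sub_distrib]
      exact Finset.sum_congr rfl fun k _ => by ring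
    · rfl
  rw [e1, hlaw, lintegral_map hH (measurable_lin u'), 
    lintegral_gm3 (fun z => H (lin u' z)) (hH.comp (measurable_lin u'))]
  refine lintegral_congr fun a' => lintegral_congr fun b' => lintegral_congr fun c' => ?_
  congr 1
  funext i
  unfold lin
  rw [Fin.sum_univ_three]
  fin_cases i
  · simp [hu']; ring
  · simp [hu']
  · simp [hu']

theorem lint_exact {c a s s' r ρ θ vy : ℝ} (ha : 0 < a) (hs' : 0 ≤ s') (hρ : 0 ≤ ρ) (hvy : 0 ≤ vy)
    (hss : s ≤ s' / (1 + s' * ρ)) (h1 : 0 < 1 + θ * s) (h2 : 0 < 1 + (θ + ρ) * s')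
    (v c0 c1 cy : ι → ℝ) (hv : ∀ k, 0 ≤ v k)
    (g00 : ∑ k, v k * (c0 k * c0 k) = (s' - s) / a)
    (g01 : ∑ k, v k * (c0 k * c1 k) = (s' * (r + ρ) - s * r) / a)
    (g11 : ∑ k, v k * (c1 k * c1 k) =
      ((s' * (r + ρ) ^ 2 + (r + ρ)) - (s * r ^ 2 + r)) / a)
    (g0y : ∑ k, v k * (c0 k * cy k) = 0) (g1y : ∑ k, v k * (c1 k * cy k) = 0)
    (gyy : ∑ k, v k * (cy k * cy k) = vy) (f : ℝ → ℝ) (hf : Measurable f) (z : ι → ℝ) :
    ∫⁻ g, ENNReal.ofReal (Real.exp (a * Fr c s θ r f c0 c1 cy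
        (fun k => z k + Real.sqrt (v k) * g k))) ∂(gm ι) =
      ENNReal.ofReal (Real.sqrt ((1 + θ * s) / (1 + (θ + ρ) * s')) *
        Real.exp (a * Qf s' (θ + ρ) (dot c0 z) (dot c1 z - (r + ρ) * dot c0 z))) *
      (ENNReal.ofReal (Real.exp (a * c)) *
      ∫⁻ g, ENNReal.ofReal (Real.exp (a * f (dot c1 z - (r + ρ) * dot c0 z + dot cy z +
        Real.sqrt (ρ / a + vy) * g))) ∂γ) := by
  set x := dot c0 z with hx
  set Y := dot cy z with hY
  set ζ := dot c1 z - (r + ρ) * x with hζ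
  have hζ0 : dot c1 z - r * x = ζ + ρ * x := by rw [hζ]; ring
  set H : (Fin 3 → ℝ) → ℝ≥0∞ := fun X => ENNReal.ofReal (Real.exp (a * (c +
    Qf s θ (x + X 0) (ζ + ρ * x + X 1) + f (ζ + ρ * x + X 1 + (Y + X 2))))) with hH
  have hHm : Measurable H := by
    have := meas_Qf s θ
    have h3 : Measurable fun X : Fin 3 → ℝ => Qf s θ (x + X 0) (ζ + ρ * x + X 1) := by
      unfold Qf; fun_prop
    have h4 : Measurable fun X : Fin 3 → ℝ => f (ζ + ρ * x + X 1 + (Y + X 2)) :=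
      hf.comp (by fun_prop)
    exact (((((measurable_const.add h3).add h4).const_mul a).exp)).ennreal_ofReal
  have hL := three_law ha hs' hρ hvy hss v c0 c1 cy hv g00 g01 g11 g0y g1y gyy H hHm
  have e1 : ∀ g : ι → ℝ, ENNReal.ofReal (Real.exp (a * Fr c s θ r f c0 c1 cy
        (fun k => z k + Real.sqrt (v k) * g k))) = H ![∑ k, (c0 k * Real.sqrt (v k)) * g k,
        ∑ k, (c1 k * Real.sqrt (v k)) * g k - r * ∑ k, (c0 k * Real.sqrt (v k)) * g k,
        ∑ k, (cy k * Real.sqrt (v k)) * g k] := by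
    intro g
    simp only [hH, Fr, dot_add, Matrix.cons_val_zero, Matrix.cons_val_one, Matrix.cons_val_two,
      Matrix.head_cons, Matrix.tail_cons, Matrix.cons_val]
    rw [← hx, ← hY]
    have e2 : dot c1 z + ∑ k, c1 k * Real.sqrt (v k) * g k -
        r * (x + ∑ k, c0 k * Real.sqrt (v k) * g k) = ζ + ρ * x +
        (∑ k, c1 k * Real.sqrt (v k) * g k - r * ∑ k, c0 k * Real.sqrt (v k) * g k) := by
      rw [← hζ0]; ring
    rw [e2]
  simp only [e1]
  rw [hL]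
  set h : ℝ → ℝ≥0∞ := fun t => ENNReal.ofReal (Real.exp (a * c)) *
    ∫⁻ g₃, ENNReal.ofReal (Real.exp (a * f (t + Y + Real.sqrt vy * g₃))) ∂γ with hh
  have hFm : Measurable fun t : ℝ => ENNReal.ofReal (Real.exp (a * f t)) :=
    ((hf.const_mul a).exp).ennreal_ofReal
  have hhm : Measurable h := by
    refine Measurable.const_mul ?_ _
    exact Measurable.lintegral_prod_right'
      (f := fun p : ℝ × ℝ => ENNReal.ofReal (Real.exp (a * f (p.1 + Y + Real.sqrt vy * p.2))))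
      (hFm.comp (by fun_prop))
  have hcore := step_core ha hs' hρ hss h1 h2 x ζ h hhm
  have e3 : ∀ g₁ g₂ : ℝ, ∫⁻ g₃, H ![s' / (1 + s' * ρ) * (Real.sqrt (ρ * (1 + s' * ρ) / a) * g₁) +
          Real.sqrt ((s' / (1 + s' * ρ) - s) / a) * g₂,
        Real.sqrt (ρ * (1 + s' * ρ) / a) * g₁, Real.sqrt vy * g₃] ∂γ =
      ENNReal.ofReal (Real.exp (a * Qf s θ
        (x + s' / (1 + s' * ρ) * (Real.sqrt (ρ * (1 + s' * ρ) / a) * g₁) +
          Real.sqrt ((s' / (1 + s' * ρ) - s) / a) * g₂)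
        (ζ + ρ * x + Real.sqrt (ρ * (1 + s' * ρ) / a) * g₁))) *
        h (ζ + ρ * x + Real.sqrt (ρ * (1 + s' * ρ) / a) * g₁) := by
    intro g₁ g₂
    simp only [hH, hh, Matrix.cons_val_zero, Matrix.cons_val_one, Matrix.cons_val_two,
      Matrix.head_cons, Matrix.tail_cons, Matrix.cons_val]
    have hm1 : Measurable fun g₃ : ℝ => ENNReal.ofReal (Real.exp (a *
        f (ζ + ρ * x + Real.sqrt (ρ * (1 + s' * ρ) / a) * g₁ + Y + Real.sqrt vy * g₃))) :=
      hFm.comp (g := fun t : ℝ => ENNReal.ofReal (Real.exp (a * f t)))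
        (f := fun g₃ : ℝ => ζ + ρ * x + Real.sqrt (ρ * (1 + s' * ρ) / a) * g₁ + Y +
          Real.sqrt vy * g₃) (by fun_prop)
    rw [← lintegral_const_mul _ hm1, ← lintegral_const_mul _ (hm1.const_mul _)]
    refine lintegral_congr fun g₃ => ?_
    rw [← ENNReal.ofReal_mul (Real.exp_pos _).le, ← ENNReal.ofReal_mul (Real.exp_pos _).le,
      ← Real.exp_add, ← Real.exp_add]
    congr 2
    ring_nf
  simp only [e3]
  rw [hcore]
  congr 1
  simp only [hh]
  have hmm : Measurable fun g : ℝ => ∫⁻ g₃, ENNReal.ofReal (Real.exp (a *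
      f (ζ + Real.sqrt (ρ / a) * g + Y + Real.sqrt vy * g₃))) ∂γ :=
    Measurable.lintegral_prod_right'
      (f := fun p : ℝ × ℝ => ENNReal.ofReal (Real.exp (a * f (ζ + Real.sqrt (ρ / a) * p.1 + Y +
        Real.sqrt vy * p.2)))) (hFm.comp (by fun_prop))
  rw [lintegral_const_mul _ hmm]
  congr 1
  have hadd := lintegral_add_gauss (fun t => ENNReal.ofReal (Real.exp (a * f t))) hFm (ζ + Y)
    (Real.sqrt (ρ / a)) (Real.sqrt vy)
  rw [Real.sq_sqrt (by positivity), Real.sq_sqrt hvy] at hadd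
  rw [← hadd]
  refine lintegral_congr fun g => lintegral_congr fun g₃ => ?_
  congr 4
  ring

theorem meas_dot (c : ι → ℝ) : Measurable (dot c) := by unfold dot; fun_prop

theorem meas_Fr (c s θ r : ℝ) {f : ℝ → ℝ} (hf : Measurable f) (c0 c1 cy : ι → ℝ) :
    Measurable (Fr c s θ r f c0 c1 cy) := by
  have h0 := meas_dot c0
  have h1 := meas_dot c1
  have hy := meas_dot cy
  have h3 : Measurable fun z => Qf s θ (dot c0 z) (dot c1 z - r * dot c0 z) := by
    unfold Qf; fun_prop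
  have h4 : Measurable fun z => f (dot c1 z - r * dot c0 z + dot cy z) := hf.comp (by fun_prop)
  exact (measurable_const.add h3).add h4

/-- Real version: the value of the integral. -/
theorem int_exact {c a s s' r ρ θ vy : ℝ} (ha : 0 < a) (hs' : 0 ≤ s') (hρ : 0 ≤ ρ) (hvy : 0 ≤ vy)
    (hss : s ≤ s' / (1 + s' * ρ)) (h1 : 0 < 1 + θ * s) (h2 : 0 < 1 + (θ + ρ) * s')
    (v c0 c1 cy : ι → ℝ) (hv : ∀ k, 0 ≤ v k)
    (g00 : ∑ k, v k * (c0 k * c0 k) = (s' - s) / a)
    (g01 : ∑ k, v k * (c0 k * c1 k) = (s' * (r + ρ) - s * r) / a)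
    (g11 : ∑ k, v k * (c1 k * c1 k) =
      ((s' * (r + ρ) ^ 2 + (r + ρ)) - (s * r ^ 2 + r)) / a)
    (g0y : ∑ k, v k * (c0 k * cy k) = 0) (g1y : ∑ k, v k * (c1 k * cy k) = 0)
    (gyy : ∑ k, v k * (cy k * cy k) = vy) {f : ℝ → ℝ} (hf : Lip f) (z : ι → ℝ) :
    Integrable (fun g => Real.exp (a * Fr c s θ r f c0 c1 cy
        (fun k => z k + Real.sqrt (v k) * g k))) (gm ι) ∧
    ∫ g, Real.exp (a * Fr c s θ r f c0 c1 cy
        (fun k => z k + Real.sqrt (v k) * g k)) ∂(gm ι) =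
      (Real.sqrt ((1 + θ * s) / (1 + (θ + ρ) * s')) *
        Real.exp (a * Qf s' (θ + ρ) (dot c0 z) (dot c1 z - (r + ρ) * dot c0 z))) *
      (Real.exp (a * c) *
      ∫ g, Real.exp (a * f (dot c1 z - (r + ρ) * dot c0 z + dot cy z +
        Real.sqrt (ρ / a + vy) * g)) ∂γ) := by
  have hfm : Measurable f := hf.continuous.measurable
  have hL := lint_exact (c := c) ha hs' hρ hvy hss h1 h2 v c0 c1 cy hv g00 g01 g11 g0y g1y gyy f
    hfm z
  have hI := hf.integrable_exp a (dot c1 z - (r + ρ) * dot c0 z + dot cy z)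
    (Real.sqrt (ρ / a + vy))
  rw [← ofReal_integral_eq_lintegral_ofReal hI (ae_of_all _ fun g => (Real.exp_pos _).le),
    ← ENNReal.ofReal_mul (Real.exp_pos _).le, ← ENNReal.ofReal_mul (by positivity)] at hL
  have hm : Measurable fun g : ι → ℝ => Real.exp (a * Fr c s θ r f c0 c1 cy
        (fun k => z k + Real.sqrt (v k) * g k)) := by
    refine Real.measurable_exp.comp (((meas_Fr c s θ r hfm c0 c1 cy).comp ?_).const_mul a)
    fun_prop
  have hint : Integrable (fun g => Real.exp (a * Fr c s θ r f c0 c1 cy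
        (fun k => z k + Real.sqrt (v k) * g k))) (gm ι) := by
    refine ⟨hm.aestronglyMeasurable, ?_⟩
    rw [hasFiniteIntegral_iff_ofReal (ae_of_all _ fun g => (Real.exp_pos _).le), hL]
    exact ENNReal.ofReal_lt_top
  refine ⟨hint, ?_⟩
  have hp := hf.int_exp_pos a (dot c1 z - (r + ρ) * dot c0 z + dot cy z) (Real.sqrt (ρ / a + vy))
  rw [integral_eq_lintegral_of_nonneg_ae (ae_of_all _ fun g => (Real.exp_pos _).le)
    hm.aestronglyMeasurable, hL, ENNReal.toReal_ofReal (by positivity)]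

theorem gstep_exact {c a s s' r ρ θ vy : ℝ} (ha : 0 < a) (hs' : 0 ≤ s') (hρ : 0 ≤ ρ)
    (hvy : 0 ≤ vy)
    (hss : s ≤ s' / (1 + s' * ρ)) (h1 : 0 < 1 + θ * s) (h2 : 0 < 1 + (θ + ρ) * s')
    (v c0 c1 cy : ι → ℝ) (hv : ∀ k, 0 ≤ v k)
    (g00 : ∑ k, v k * (c0 k * c0 k) = (s' - s) / a)
    (g01 : ∑ k, v k * (c0 k * c1 k) = (s' * (r + ρ) - s * r) / a)
    (g11 : ∑ k, v k * (c1 k * c1 k) =
      ((s' * (r + ρ) ^ 2 + (r + ρ)) - (s * r ^ 2 + r)) / a)
    (g0y : ∑ k, v k * (c0 k * cy k) = 0) (g1y : ∑ k, v k * (c1 k * cy k) = 0)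
    (gyy : ∑ k, v k * (cy k * cy k) = vy) {f : ℝ → ℝ} (hf : Lip f) :
    gstep a v (Fr c s θ r f c0 c1 cy) =
      Fr (c - 1 / (2 * a) * Real.log ((1 + (θ + ρ) * s') / (1 + θ * s))) s' (θ + ρ) (r + ρ)
        (gaussOp a (ρ / a + vy) f) c0 c1 cy := by
  funext z
  have hI := (int_exact (c := c) ha hs' hρ hvy hss h1 h2 v c0 c1 cy hv g00 g01 g11 g0y g1y gyy hf
    z).2
  have hp := hf.int_exp_pos a (dot c1 z - (r + ρ) * dot c0 z + dot cy z) (Real.sqrt (ρ / a + vy))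
  unfold gstep
  rw [hI, Real.log_mul (by positivity) (by positivity), Real.log_mul (by positivity) (by positivity),
    Real.log_mul (Real.exp_pos _).ne' hp.ne', Real.log_exp, Real.log_exp, Real.log_sqrt (by
      positivity)]
  unfold Fr
  rw [gaussOp, if_neg ha.ne']
  have e1 : Real.log ((1 + θ * s) / (1 + (θ + ρ) * s')) =
      -Real.log ((1 + (θ + ρ) * s') / (1 + θ * s)) := by
    rw [← Real.log_inv, inv_div]
  rw [e1]
  field_simp
  ring

end

end Crest.Agent.R164.EG
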