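import Mathlib
import Crest.Prelude.Def_InvariantGlass

-- ▼ part R164/RTrans
section

/-!
Row 164, analytic facts about the edge-extended R-transform.

`μ` is a probability measure with `μ (Icc lo hi) = 1`; `G b = ∫ (b - lam)⁻¹ dμ` for `b > hi`;
`b(x) = resolventPoint μ hi x`, `R(x) = rTransform μ hi x`.
Main facts: `R` is nondecreasing and `4 (hi - lo)^2`-Lipschitz on `[0, ∞)`, `lo ≤ R ≤ hi`.
-/

set_option autoImplicit false

namespace Crest.Agent.R164.RTrans

open MeasureTheory Crest.ProbabilityR.InvariantGlass Set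

variable {μ : Measure ℝ} [IsProbabilityMeasure μ] {lo hi : ℝ}

/-- The resolvent (Stieltjes transform) to the right of the support. -/
noncomputable def G (μ : Measure ℝ) (b : ℝ) : ℝ := ∫ lam, (b - lam)⁻¹ ∂μ

lemma ae_mem (h : μ (Icc lo hi) = 1) : ∀ᵐ lam ∂μ, lam ∈ Icc lo hi := by
  have : μ (Icc lo hi)ᶜ = 0 := by
    rw [prob_compl_eq_zero_iff measurableSet_Icc]; exact h
  exact mem_ae_iff.mpr this

omit [IsProbabilityMeasure μ] in
lemma lo_le_hi (h : μ (Icc lo hi) = 1) : lo ≤ hi := by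
  by_contra hc
  rw [Icc_eq_empty hc] at h
  simp at h

lemma integrable_of_bdd (h : μ (Icc lo hi) = 1) {f : ℝ → ℝ} (hf : Measurable f) (C : ℝ)
    (hC : ∀ lam ∈ Icc lo hi, |f lam| ≤ C) : Integrable f μ := by
  refine Integrable.mono' (integrable_const C) hf.aestronglyMeasurable ?_
  filter_upwards [ae_mem h] with lam hl
  rw [Real.norm_eq_abs]; exact hC lam hl

lemma integral_mono_of (h : μ (Icc lo hi) = 1) {f g : ℝ → ℝ} (hf : Integrable f μ)
    (hg : Integrable g μ) (hfg : ∀ lam ∈ Icc lo hi, f lam ≤ g lam) : ∫ l, f l ∂μ ≤ ∫ l, g l ∂μ := by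
  refine integral_mono_ae hf hg ?_
  filter_upwards [ae_mem h] with lam hl using hfg lam hl

lemma integrable_inv (h : μ (Icc lo hi) = 1) {b : ℝ} (hb : hi < b) :
    Integrable (fun lam => (b - lam)⁻¹) μ := by
  refine integrable_of_bdd h (by fun_prop) (b - hi)⁻¹ ?_
  intro lam hl
  have h1 : 0 < b - hi := by linarith
  have h2 : b - hi ≤ b - lam := by linarith [hl.2]
  rw [abs_of_nonneg (inv_nonneg.mpr (by linarith))]
  exact inv_anti₀ h1 h2

lemma integrable_id' (h : μ (Icc lo hi) = 1) : Integrable (fun lam : ℝ => lam) μ := by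
  refine integrable_of_bdd h measurable_id (max |lo| |hi|) ?_
  intro lam hl
  exact abs_le_max_abs_abs hl.1 hl.2

lemma G_lower (h : μ (Icc lo hi) = 1) {b : ℝ} (hb : hi < b) : (b - lo)⁻¹ ≤ G μ b := by
  have := integral_mono_of h (integrable_const (b - lo)⁻¹) (integrable_inv h hb) (fun lam hl => by
    have h1 : 0 < b - lam := by linarith [hl.2]
    exact inv_anti₀ h1 (by linarith [hl.1]))
  simpa [G] using this

lemma G_upper (h : μ (Icc lo hi) = 1) {b : ℝ} (hb : hi < b) : G μ b ≤ (b - hi)⁻¹ := by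
  have := integral_mono_of h (integrable_inv h hb) (integrable_const (b - hi)⁻¹) (fun lam hl => by
    have h1 : 0 < b - hi := by linarith
    exact inv_anti₀ h1 (by linarith [hl.2]))
  simpa [G] using this

lemma G_pos (h : μ (Icc lo hi) = 1) {b : ℝ} (hb : hi < b) : 0 < G μ b :=
  lt_of_lt_of_le (inv_pos.mpr (by linarith [lo_le_hi h])) (G_lower h hb)

/-- The mean. -/
lemma mean_mem (h : μ (Icc lo hi) = 1) : (∫ l, l ∂μ) ∈ Icc lo hi := by
  constructor
  · have := integral_mono_of h (integrable_const lo) (integrable_id' h) (fun l hl => hl.1)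
    simpa using this
  · have := integral_mono_of h (integrable_id' h) (integrable_const hi) (fun l hl => hl.2)
    simpa using this

/-- `I(b₁,b₂) = ∫ 1/((b₁-λ)(b₂-λ))`. -/
lemma integrable_inv_mul (h : μ (Icc lo hi) = 1) {b c : ℝ} (hb : hi < b) (hc : hi < c) :
    Integrable (fun lam => (b - lam)⁻¹ * (c - lam)⁻¹) μ := by
  refine integrable_of_bdd h (by fun_prop) ((b - hi)⁻¹ * (c - hi)⁻¹) ?_
  intro lam hl
  have h1 : 0 < b - hi := by linarith
  have h1' : 0 < c - hi := by linarith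
  have h2 : b - hi ≤ b - lam := by linarith [hl.2]
  have h2' : c - hi ≤ c - lam := by linarith [hl.2]
  have e1 := inv_anti₀ h1 h2
  have e2 := inv_anti₀ h1' h2'
  have p1 : 0 ≤ (b - lam)⁻¹ := inv_nonneg.mpr (by linarith)
  have p2 : 0 ≤ (c - lam)⁻¹ := inv_nonneg.mpr (by linarith)
  rw [abs_of_nonneg (mul_nonneg p1 p2)]
  exact mul_le_mul e1 e2 p2 (inv_nonneg.mpr h1.le)

lemma G_sub (h : μ (Icc lo hi) = 1) {b c : ℝ} (hb : hi < b) (hc : hi < c) :
    G μ b - G μ c = (c - b) * ∫ lam, (b - lam)⁻¹ * (c - lam)⁻¹ ∂μ := by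
  unfold G
  rw [← integral_sub (integrable_inv h hb) (integrable_inv h hc), ← integral_const_mul]
  refine integral_congr_ae ?_
  filter_upwards [ae_mem h] with lam hl
  have h1 : b - lam ≠ 0 := by have := hl.2; intro h0; linarith
  have h2 : c - lam ≠ 0 := by have := hl.2; intro h0; linarith
  field_simp
  ring

lemma I_pos (h : μ (Icc lo hi) = 1) {b c : ℝ} (hb : hi < b) (hc : hi < c) :
    (b - lo)⁻¹ * (c - lo)⁻¹ ≤ ∫ lam, (b - lam)⁻¹ * (c - lam)⁻¹ ∂μ := by
  have := integral_mono_of h (integrable_const ((b - lo)⁻¹ * (c - lo)⁻¹))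
    (integrable_inv_mul h hb hc) (fun lam hl => by
      have h1 : 0 < b - lam := by linarith [hl.2]
      have h2 : 0 < c - lam := by linarith [hl.2]
      have e1 : (b - lo)⁻¹ ≤ (b - lam)⁻¹ := inv_anti₀ h1 (by linarith [hl.1])
      have e2 : (c - lo)⁻¹ ≤ (c - lam)⁻¹ := inv_anti₀ h2 (by linarith [hl.1])
      exact mul_le_mul e1 e2 (inv_nonneg.mpr (by linarith [hl.1])) (inv_nonneg.mpr h1.le))
  simpa using this

lemma G_strictAnti (h : μ (Icc lo hi) = 1) {b c : ℝ} (hb : hi < b) (hbc : b < c) :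
    G μ c < G μ b := by
  have e := G_sub h hb (hb.trans hbc)
  have hp := I_pos h hb (hb.trans hbc)
  have hlh := lo_le_hi h
  have : 0 < (b - lo)⁻¹ * (c - lo)⁻¹ := by
    apply mul_pos <;> apply inv_pos.mpr <;> linarith
  have : 0 < (c - b) * ∫ lam, (b - lam)⁻¹ * (c - lam)⁻¹ ∂μ :=
    mul_pos (by linarith) (by linarith)
  linarith

lemma G_anti (h : μ (Icc lo hi) = 1) {b c : ℝ} (hb : hi < b) (hbc : b ≤ c) :
    G μ c ≤ G μ b := by
  rcases hbc.eq_or_lt with rfl | hlt
  · exact le_rfl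
  · exact (G_strictAnti h hb hlt).le

lemma G_continuousOn (h : μ (Icc lo hi) = 1) : ContinuousOn (G μ) (Ioi hi) := by
  intro b hb
  have hb' : hi < b := hb
  refine ContinuousAt.continuousWithinAt ?_
  have hev : ∀ᶠ c in nhds b, (hi + b) / 2 < c := by
    apply lt_mem_nhds; linarith
  rw [ContinuousAt, tendsto_iff_dist_tendsto_zero]
  have hup : ∀ᶠ c in nhds b, dist (G μ c) (G μ b) ≤ |b - c| * ((((hi + b) / 2) - hi)⁻¹ * (b - hi)⁻¹) := by
    filter_upwards [hev] with c hc
    have hc' : hi < c := by linarith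
    rw [Real.dist_eq, G_sub h hc' hb', abs_mul]
    refine mul_le_mul_of_nonneg_left ?_ (abs_nonneg _)
    have hnn : 0 ≤ ∫ lam, (c - lam)⁻¹ * (b - lam)⁻¹ ∂μ := by
      refine le_trans ?_ (I_pos h hc' hb')
      have hlh := lo_le_hi h
      apply mul_nonneg <;> apply inv_nonneg.mpr <;> linarith
    rw [abs_of_nonneg hnn]
    have := integral_mono_of h (integrable_inv_mul h hc' hb')
      (integrable_const ((((hi + b) / 2) - hi)⁻¹ * (b - hi)⁻¹)) (fun lam hl => by
        have h1 : 0 < (hi + b) / 2 - hi := by linarith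
        have h2 : 0 < b - hi := by linarith
        have e1 : (c - lam)⁻¹ ≤ ((hi + b) / 2 - hi)⁻¹ := inv_anti₀ h1 (by linarith [hl.2])
        have e2 : (b - lam)⁻¹ ≤ (b - hi)⁻¹ := inv_anti₀ h2 (by linarith [hl.2])
        exact mul_le_mul e1 e2 (inv_nonneg.mpr (by linarith [hl.2])) (inv_nonneg.mpr h1.le))
    simpa using this
  refine squeeze_zero' (Filter.Eventually.of_forall fun _ => dist_nonneg) hup ?_
  have : Filter.Tendsto (fun c => |b - c| * ((((hi + b) / 2) - hi)⁻¹ * (b - hi)⁻¹)) (nhds b)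
      (nhds (|b - b| * ((((hi + b) / 2) - hi)⁻¹ * (b - hi)⁻¹))) := by
    apply Continuous.tendsto; fun_prop
  simpa using this

/-- Concavity inequality: `1/G(c) - 1/G(b) ≥ c - b` for `hi < b < c`, in exact form. -/
lemma G_exact (h : μ (Icc lo hi) = 1) {b c : ℝ} (hb : hi < b) (hbc : b ≤ c) :
    G μ c = G μ b / (1 + (c - b) * G μ b) -
      (c - b) / (1 + (c - b) * G μ b) ^ 2 *
        ∫ lam, ((b - lam)⁻¹ - G μ b) ^ 2 * ((b - lam) * (c - lam)⁻¹) ∂μ := by
  set y := G μ b with hy
  have hy0 : 0 < y := G_pos h hb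
  have hδ : 0 ≤ c - b := by linarith
  have hden : 0 < 1 + (c - b) * y := by positivity
  have hint : Integrable (fun lam => ((b - lam)⁻¹ - y) ^ 2 * ((b - lam) * (c - lam)⁻¹)) μ := by
    refine integrable_of_bdd h (by fun_prop) (((b - hi)⁻¹ + y) ^ 2) ?_
    intro lam hl
    have h1 : 0 < b - hi := by linarith
    have h2 : b - hi ≤ b - lam := by linarith [hl.2]
    have h3 : 0 < b - lam := by linarith
    have h4 : 0 < c - lam := by linarith
    have e1 : (b - lam)⁻¹ ≤ (b - hi)⁻¹ := inv_anti₀ h1 h2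
    have e0 : 0 ≤ (b - lam)⁻¹ := inv_nonneg.mpr h3.le
    have e2 : (b - lam) * (c - lam)⁻¹ ≤ 1 := by
      rw [← div_eq_mul_inv, div_le_one h4]; linarith
    have e3 : 0 ≤ (b - lam) * (c - lam)⁻¹ := mul_nonneg h3.le (inv_nonneg.mpr h4.le)
    rw [abs_of_nonneg (mul_nonneg (sq_nonneg _) e3)]
    have e4 : ((b - lam)⁻¹ - y) ^ 2 ≤ ((b - hi)⁻¹ + y) ^ 2 := by
      apply sq_le_sq'
      · linarith
      · linarith
    calc ((b - lam)⁻¹ - y) ^ 2 * ((b - lam) * (c - lam)⁻¹)
        ≤ ((b - lam)⁻¹ - y) ^ 2 * 1 := mul_le_mul_of_nonneg_left e2 (sq_nonneg _)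
      _ ≤ ((b - hi)⁻¹ + y) ^ 2 := by linarith
  have hmain : G μ c = ∫ lam, (y / (1 + (c - b) * y) + ((b - lam)⁻¹ - y) / (1 + (c - b) * y) ^ 2 -
      (c - b) / (1 + (c - b) * y) ^ 2 * (((b - lam)⁻¹ - y) ^ 2 * ((b - lam) * (c - lam)⁻¹))) ∂μ := by
    unfold G
    refine integral_congr_ae ?_
    filter_upwards [ae_mem h] with lam hl
    have h3 : 0 < b - lam := by linarith [hl.2]
    have h4 : 0 < c - lam := by linarith
    have h3' := h3.ne'
    have h4' := h4.ne'
    have hden' := hden.ne'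
    field_simp
    ring
  rw [hmain, integral_sub, integral_add, integral_const_mul]
  · have e : ∫ lam, ((b - lam)⁻¹ - y) / (1 + (c - b) * y) ^ 2 ∂μ = 0 := by
      rw [integral_div, integral_sub (integrable_inv h hb) (integrable_const _)]
      have : ∫ lam, (b - lam)⁻¹ ∂μ = y := rfl
      rw [this]; simp
    rw [e]; simp
  · exact integrable_const _
  · exact ((integrable_inv h hb).sub (integrable_const _)).div_const _
  · exact (integrable_const _).add (((integrable_inv h hb).sub (integrable_const _)).div_const _)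
  · exact hint.const_mul _


/-- `1/G(c) - 1/G(b) ≥ c - b`. -/
lemma inv_G_sub (h : μ (Icc lo hi) = 1) {b c : ℝ} (hb : hi < b) (hbc : b ≤ c) :
    c - b ≤ (G μ c)⁻¹ - (G μ b)⁻¹ := by
  have e := G_exact h hb hbc
  have hy0 : 0 < G μ b := G_pos h hb
  have hx0 : 0 < G μ c := G_pos h (lt_of_lt_of_le hb hbc)
  have hδ : 0 ≤ c - b := by linarith
  have hden : 0 < 1 + (c - b) * G μ b := by positivity
  have hnn : 0 ≤ ∫ lam, ((b - lam)⁻¹ - G μ b) ^ 2 * ((b - lam) * (c - lam)⁻¹) ∂μ := by
    refine integral_nonneg_of_ae ?_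
    filter_upwards [ae_mem h] with lam hl
    have h3 : 0 < b - lam := by linarith [hl.2]
    have h4 : 0 < c - lam := by linarith
    exact mul_nonneg (sq_nonneg _) (mul_nonneg h3.le (inv_nonneg.mpr h4.le))
  have hle : G μ c ≤ G μ b / (1 + (c - b) * G μ b) := by
    rw [e]
    have : 0 ≤ (c - b) / (1 + (c - b) * G μ b) ^ 2 *
        ∫ lam, ((b - lam)⁻¹ - G μ b) ^ 2 * ((b - lam) * (c - lam)⁻¹) ∂μ := by positivity
    linarith
  have h2 : (G μ b / (1 + (c - b) * G μ b))⁻¹ ≤ (G μ c)⁻¹ := inv_anti₀ hx0 hle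
  have h3 : (G μ b / (1 + (c - b) * G μ b))⁻¹ = (G μ b)⁻¹ + (c - b) := by
    field_simp
  rw [h3] at h2
  linarith

lemma mean_le_inv (h : μ (Icc lo hi) = 1) {b : ℝ} (hb : hi < b) :
    (G μ b)⁻¹ ≤ b - ∫ l, l ∂μ := by
  -- tangent line of `1/(b-λ)` at the mean
  set m := ∫ l, l ∂μ with hm
  have hmm := mean_mem h
  have hbm : 0 < b - m := by have := hmm.2; linarith
  have key : (b - m)⁻¹ ≤ G μ b := by
    have h1 := integral_mono_of h (f := fun lam => (b - m)⁻¹ + (lam - m) / (b - m) ^ 2)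
      (g := fun lam => (b - lam)⁻¹)
      ((integrable_const _).add (((integrable_id' h).sub (integrable_const _)).div_const _))
      (integrable_inv h hb) (fun lam hl => by
        have h3 : 0 < b - lam := by linarith [hl.2]
        have : (b - lam)⁻¹ - ((b - m)⁻¹ + (lam - m) / (b - m) ^ 2) =
            (lam - m) ^ 2 / ((b - m) ^ 2 * (b - lam)) := by
          field_simp; ring
        have h5 : 0 ≤ (lam - m) ^ 2 / ((b - m) ^ 2 * (b - lam)) := by positivity
        linarith)
    have e : ∫ lam, ((b - m)⁻¹ + (lam - m) / (b - m) ^ 2) ∂μ = (b - m)⁻¹ := by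
      have i1 : Integrable (fun lam : ℝ => (lam - m) / (b - m) ^ 2) μ :=
        ((integrable_id' h).sub (integrable_const _)).div_const _
      rw [integral_add (integrable_const _) i1, integral_div,
        integral_sub (integrable_id' h) (integrable_const _), ← hm]
      simp
    rw [e] at h1
    exact h1
  have := inv_anti₀ (inv_pos.mpr hbm) key
  rwa [inv_inv] at this

/-- The solution is unique and equals the resolvent point. -/
lemma resolventPoint_eq (h : μ (Icc lo hi) = 1) {b x : ℝ} (hb : hi < b) (hx : G μ b = x) :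
    resolventPoint μ hi x = b := by
  have hex : ∃ b : ℝ, hi < b ∧ ∫ lam, (b - lam)⁻¹ ∂μ = x := ⟨b, hb, hx⟩
  unfold resolventPoint
  rw [if_pos hex]
  have : {b : ℝ | hi < b ∧ ∫ lam, (b - lam)⁻¹ ∂μ = x} = {b} := by
    ext c
    simp only [mem_ofPred_eq, mem_singleton_iff]
    constructor
    · rintro ⟨hc, hc2⟩
      rcases lt_trichotomy c b with hlt | heq | hgt
      · have := G_strictAnti h hc hlt
        unfold G at this hx
        linarith
      · exact heq
      · have := G_strictAnti h hb hgt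
        unfold G at this hx
        linarith
    · rintro rfl; exact ⟨hb, hx⟩
  rw [this, csInf_singleton]

lemma exists_large (h : μ (Icc lo hi) = 1) {x : ℝ} (hx : 0 < x) :
    hi < hi + 1 / x + 1 ∧ G μ (hi + 1 / x + 1) < x := by
  have hx' : 0 < 1 / x := by positivity
  have hb : hi < hi + 1 / x + 1 := by linarith
  refine ⟨hb, lt_of_le_of_lt (G_upper h hb) ?_⟩
  have e : hi + 1 / x + 1 - hi = 1 / x + 1 := by ring
  rw [e]
  rw [inv_lt_comm₀ (by positivity) hx, ← one_div]
  linarith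

lemma no_sol (h : μ (Icc lo hi) = 1) {x : ℝ} (hx : 0 < x)
    (hno : ¬ ∃ b : ℝ, hi < b ∧ G μ b = x) {b : ℝ} (hb : hi < b) : G μ b < x := by
  by_contra hc
  push Not at hc
  obtain ⟨hc0, hcx⟩ := exists_large h hx
  set c := hi + 1 / x + 1
  have hbc : b ≤ c := by
    by_contra hlt
    push Not at hlt
    have := G_strictAnti h hc0 hlt
    linarith
  have hcont : ContinuousOn (G μ) (Icc b c) :=
    (G_continuousOn h).mono (fun z hz => lt_of_lt_of_le hb hz.1)
  have := intermediate_value_Icc' hbc hcont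
  obtain ⟨z, hz, hzx⟩ := this ⟨hcx.le, hc⟩
  exact hno ⟨z, lt_of_lt_of_le hb hz.1, hzx⟩

/-- Case distinction for the resolvent point. -/
lemma rp_cases (h : μ (Icc lo hi) = 1) {x : ℝ} (hx : 0 < x) :
    (hi < resolventPoint μ hi x ∧ G μ (resolventPoint μ hi x) = x) ∨
    (resolventPoint μ hi x = hi ∧ ∀ b, hi < b → G μ b < x) := by
  by_cases hex : ∃ b : ℝ, hi < b ∧ G μ b = x
  · left
    obtain ⟨b, hb, hbx⟩ := hex
    rw [resolventPoint_eq h hb hbx]
    exact ⟨hb, hbx⟩
  · right
    refine ⟨?_, fun b hb => no_sol h hx hex hb⟩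
    unfold resolventPoint
    exact if_neg hex

omit [IsProbabilityMeasure μ] in
lemma rT_pos {x : ℝ} (hx : 0 < x) : rTransform μ hi x = resolventPoint μ hi x - 1 / x := by
  unfold rTransform; rw [if_pos hx]

omit [IsProbabilityMeasure μ] in
lemma rT_zero : rTransform μ hi 0 = ∫ l, l ∂μ := by
  unfold rTransform; simp

/-- In the edge case, `1/x ≤ hi - mean`. -/
lemma edge_inv_le (h : μ (Icc lo hi) = 1) {x : ℝ} (hx : 0 < x)
    (hB : ∀ b, hi < b → G μ b < x) : 1 / x ≤ hi - ∫ l, l ∂μ := by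
  by_contra hc
  push Not at hc
  set m := ∫ l, l ∂μ
  have hmm := mean_mem h
  -- choose b > hi with b - m < 1/x
  obtain ⟨b, hb1, hb2⟩ := exists_between hc
  have hbhi : hi < m + b := by linarith
  have h1 := hB (m + b) hbhi
  have h2 := mean_le_inv h hbhi
  have h3 : m + b - m = b := by ring
  have hG := G_pos h hbhi
  have h4 : x⁻¹ < (G μ (m + b))⁻¹ := by
    exact inv_strictAnti₀ hG h1
  have h5 : 1 / x = x⁻¹ := one_div x
  have h2' : (G μ (m + b))⁻¹ ≤ m + b - m := h2
  rw [h3] at h2'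
  linarith

lemma rT_le_hi (h : μ (Icc lo hi) = 1) {x : ℝ} (hx : 0 ≤ x) : rTransform μ hi x ≤ hi := by
  rcases hx.eq_or_lt with rfl | hx
  · rw [rT_zero]; exact (mean_mem h).2
  rw [rT_pos hx]
  rcases rp_cases h hx with ⟨h1, h2⟩ | ⟨h1, _⟩
  · set b := resolventPoint μ hi x
    have h3 := G_upper h h1
    have hb : 0 < b - hi := by linarith
    have : b - hi ≤ 1 / x := by
      rw [← h2, one_div]
      have := inv_anti₀ (G_pos h h1) h3
      rwa [inv_inv] at this
    linarith
  · rw [h1]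
    have : 0 < 1 / x := by positivity
    linarith

lemma rT_ge_mean (h : μ (Icc lo hi) = 1) {x : ℝ} (hx : 0 ≤ x) :
    ∫ l, l ∂μ ≤ rTransform μ hi x := by
  rcases hx.eq_or_lt with rfl | hx
  · rw [rT_zero]
  rw [rT_pos hx]
  rcases rp_cases h hx with ⟨h1, h2⟩ | ⟨h1, h2⟩
  · have := mean_le_inv h h1
    rw [h2] at this
    rw [one_div]; linarith
  · have := edge_inv_le h hx h2
    rw [h1]; linarith

lemma rT_mem (h : μ (Icc lo hi) = 1) {x : ℝ} (hx : 0 ≤ x) :
    rTransform μ hi x ∈ Icc lo hi :=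
  ⟨(mean_mem h).1.trans (rT_ge_mean h hx), rT_le_hi h hx⟩

/-- upper bound at 0: `R(x) - R(0) ≤ Δ² x`. -/
lemma rT_sub_mean_le (h : μ (Icc lo hi) = 1) {x : ℝ} (hx : 0 ≤ x) :
    rTransform μ hi x - ∫ l, l ∂μ ≤ (hi - lo) ^ 2 * x := by
  rcases hx.eq_or_lt with rfl | hx
  · rw [rT_zero]; simp
  rw [rT_pos hx]
  have hmm := mean_mem h
  rcases rp_cases h hx with ⟨h1, h2⟩ | ⟨h1, h2⟩
  · set b := resolventPoint μ hi x
    set m := ∫ l, l ∂μ with hm
    have ht : 0 < b - m := by linarith [hmm.2]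
    have hinv := mean_le_inv h h1
    rw [h2, ← hm] at hinv
    -- t x - 1 = E[(λ-m)^2/(t (b-λ))] ≤ Δ² x / t
    have key : (b - m) * x - 1 ≤ (hi - lo) ^ 2 * x / (b - m) := by
      have i1 : Integrable (fun lam : ℝ => (lam - m) / (b - m)) μ :=
        ((integrable_id' h).sub (integrable_const _)).div_const _
      have h3 := integral_mono_of h (f := fun lam => (b - m) * (b - lam)⁻¹)
        (g := fun lam => 1 + (lam - m) / (b - m) + (hi - lo) ^ 2 / (b - m) * (b - lam)⁻¹)
        ((integrable_inv h h1).const_mul _)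
        (((integrable_const _).add i1).add ((integrable_inv h h1).const_mul _)) (fun lam hl => by
          have h3 : 0 < b - lam := by linarith [hl.2]
          have e : 1 + (lam - m) / (b - m) + (hi - lo) ^ 2 / (b - m) * (b - lam)⁻¹ -
              (b - m) * (b - lam)⁻¹ = ((hi - lo) ^ 2 - (lam - m) ^ 2) / ((b - m) * (b - lam)) := by
            field_simp; ring
          have h4 : (lam - m) ^ 2 ≤ (hi - lo) ^ 2 := by
            apply sq_le_sq'
            · linarith [hl.1, hl.2, hmm.1, hmm.2]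
            · linarith [hl.1, hl.2, hmm.1, hmm.2]
          have h5 : 0 ≤ ((hi - lo) ^ 2 - (lam - m) ^ 2) / ((b - m) * (b - lam)) := by
            apply div_nonneg (by linarith) (by positivity)
          linarith)
      have e1 : ∫ lam, (b - m) * (b - lam)⁻¹ ∂μ = (b - m) * x := by
        rw [integral_const_mul, ← h2]; rfl
      have e2 : ∫ lam, (1 + (lam - m) / (b - m) + (hi - lo) ^ 2 / (b - m) * (b - lam)⁻¹) ∂μ =
          1 + (hi - lo) ^ 2 / (b - m) * x := by
        have i2 : Integrable (fun lam : ℝ => 1 + (lam - m) / (b - m)) μ :=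
          (integrable_const _).add i1
        rw [integral_add i2 ((integrable_inv h h1).const_mul _),
          integral_add (integrable_const _) i1, integral_const_mul, integral_div,
          integral_sub (integrable_id' h) (integrable_const _), ← hm]
        have : ∫ lam, (b - lam)⁻¹ ∂μ = x := h2
        rw [this]; simp
      rw [e1, e2] at h3
      have e3 : (hi - lo) ^ 2 / (b - m) * x = (hi - lo) ^ 2 * x / (b - m) := by ring
      linarith
    have h6 : b - m - 1 / x = ((b - m) * x - 1) / x := by field_simp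
    have h7 : b - 1 / x - m = ((b - m) * x - 1) / x := by rw [← h6]; ring
    rw [h7]
    have h8 : ((b - m) * x - 1) / x ≤ (hi - lo) ^ 2 * x / (b - m) / x :=
      div_le_div_of_nonneg_right key hx.le
    have h9 : (hi - lo) ^ 2 * x / (b - m) / x = (hi - lo) ^ 2 * (b - m)⁻¹ := by
      field_simp
    rw [h9] at h8
    have h10 : (b - m)⁻¹ ≤ x := by
      have := inv_anti₀ (inv_pos.mpr hx) hinv
      rwa [inv_inv] at this
    calc _ ≤ (hi - lo) ^ 2 * (b - m)⁻¹ := h8
      _ ≤ _ := mul_le_mul_of_nonneg_left h10 (sq_nonneg _)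
  · have h3 := edge_inv_le h hx h2
    set m := ∫ l, l ∂μ with hm
    rw [h1]
    have hs : 0 < hi - m := lt_of_lt_of_le (by positivity) h3
    have hsx : 1 ≤ (hi - m) * x := by
      rw [div_le_iff₀ hx] at h3; exact h3
    have h4 : hi - m ≤ hi - lo := by linarith [hmm.1]
    have h5 : hi - m ≤ (hi - lo) ^ 2 * x := by
      calc hi - m = (hi - m) * 1 := by ring
        _ ≤ (hi - m) * ((hi - m) * x) := mul_le_mul_of_nonneg_left hsx hs.le
        _ = (hi - m) ^ 2 * x := by ring
        _ ≤ (hi - lo) ^ 2 * x := by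
          apply mul_le_mul_of_nonneg_right _ hx.le
          exact pow_le_pow_left₀ hs.le h4 2
    have : 0 < 1 / x := by positivity
    linarith

/-- interior case: both points have solutions. -/
lemma interior_sub (h : μ (Icc lo hi) = 1) {b c : ℝ} (hb : hi < b) (hbc : b ≤ c) :
    (b - (G μ b)⁻¹) - (c - (G μ c)⁻¹) ≤
      (hi - lo) ^ 2 * (1 + (hi - lo) * G μ b) * (G μ b - G μ c) := by
  have hc : hi < c := lt_of_lt_of_le hb hbc
  have hlh := lo_le_hi h
  set y := G μ b with hy
  set x := G μ c with hx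
  have hy0 : 0 < y := G_pos h hb
  have hx0 : 0 < x := G_pos h hc
  have hδ : 0 ≤ c - b := by linarith
  have hden : 0 < 1 + (c - b) * y := by positivity
  set V := ∫ lam, ((b - lam)⁻¹ - y) ^ 2 * ((b - lam) * (c - lam)⁻¹) ∂μ with hV
  set I := ∫ lam, (b - lam)⁻¹ * (c - lam)⁻¹ ∂μ with hI
  have eI : y - x = (c - b) * I := G_sub h hb hc
  have eV : x = y / (1 + (c - b) * y) - (c - b) / (1 + (c - b) * y) ^ 2 * V := G_exact h hb hbc
  -- |u - y| ≤ Δ u y
  have huy : ∀ lam ∈ Icc lo hi, |(b - lam)⁻¹ - y| ≤ (hi - lo) * (b - lam)⁻¹ * y := by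
    intro lam hl
    have h3 : 0 < b - lam := by linarith [hl.2]
    have e : (b - lam)⁻¹ - y = ∫ l', (lam - l') * (b - lam)⁻¹ * (b - l')⁻¹ ∂μ := by
      have e1 : (b - lam)⁻¹ - y = ∫ l', ((b - lam)⁻¹ - (b - l')⁻¹) ∂μ := by
        rw [integral_sub (integrable_const _) (integrable_inv h hb)]
        have : ∫ l', (b - l')⁻¹ ∂μ = y := rfl
        rw [this]; simp
      rw [e1]
      refine integral_congr_ae ?_
      filter_upwards [ae_mem h] with l' hl'
      have h4 : 0 < b - l' := by linarith [hl'.2]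
      field_simp
      ring
    rw [e]
    calc |∫ l', (lam - l') * (b - lam)⁻¹ * (b - l')⁻¹ ∂μ|
        ≤ ∫ l', |(lam - l') * (b - lam)⁻¹ * (b - l')⁻¹| ∂μ := abs_integral_le_integral_abs
      _ ≤ ∫ l', (hi - lo) * (b - lam)⁻¹ * (b - l')⁻¹ ∂μ := by
          refine integral_mono_of h ?_ ((integrable_inv h hb).const_mul _) ?_
          · refine Integrable.abs ?_
            refine integrable_of_bdd h (by fun_prop) ((hi - lo) * (b - lam)⁻¹ * (b - hi)⁻¹) ?_
            intro l' hl'
            have h4 : 0 < b - hi := by linarith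
            have h5 : (b - l')⁻¹ ≤ (b - hi)⁻¹ := inv_anti₀ h4 (by linarith [hl'.2])
            have h6 : 0 ≤ (b - l')⁻¹ := inv_nonneg.mpr (by linarith [hl'.2])
            rw [abs_mul, abs_mul, abs_of_nonneg h6, abs_of_nonneg (inv_nonneg.mpr h3.le)]
            have h7 : |lam - l'| ≤ hi - lo := by
              rw [abs_le]; constructor <;> linarith [hl.1, hl.2, hl'.1, hl'.2]
            have h8 : |lam - l'| * (b - lam)⁻¹ ≤ (hi - lo) * (b - lam)⁻¹ :=
              mul_le_mul_of_nonneg_right h7 (inv_nonneg.mpr h3.le)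
            exact mul_le_mul h8 h5 h6 (mul_nonneg (by linarith) (inv_nonneg.mpr h3.le))
          · intro l' hl'
            have h6 : 0 ≤ (b - l')⁻¹ := inv_nonneg.mpr (by linarith [hl'.2])
            rw [abs_mul, abs_mul, abs_of_nonneg h6, abs_of_nonneg (inv_nonneg.mpr h3.le)]
            have h7 : |lam - l'| ≤ hi - lo := by
              rw [abs_le]; constructor <;> linarith [hl.1, hl.2, hl'.1, hl'.2]
            have h8 : |lam - l'| * (b - lam)⁻¹ ≤ (hi - lo) * (b - lam)⁻¹ :=
              mul_le_mul_of_nonneg_right h7 (inv_nonneg.mpr h3.le)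
            exact mul_le_mul_of_nonneg_right h8 h6
      _ = (hi - lo) * (b - lam)⁻¹ * y := by
          rw [integral_const_mul]; rfl
  have hVI : V ≤ (hi - lo) ^ 2 * y ^ 2 * I := by
    rw [hV, hI, ← integral_const_mul]
    refine integral_mono_of h ?_ ((integrable_inv_mul h hb hc).const_mul _) ?_
    · refine integrable_of_bdd h (by fun_prop) (((b - hi)⁻¹ + y) ^ 2) ?_
      intro lam hl
      have h1 : 0 < b - hi := by linarith
      have h2 : b - hi ≤ b - lam := by linarith [hl.2]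
      have h3 : 0 < b - lam := by linarith
      have h4 : 0 < c - lam := by linarith
      have e1 : (b - lam)⁻¹ ≤ (b - hi)⁻¹ := inv_anti₀ h1 h2
      have e0 : 0 ≤ (b - lam)⁻¹ := inv_nonneg.mpr h3.le
      have e2 : (b - lam) * (c - lam)⁻¹ ≤ 1 := by
        rw [← div_eq_mul_inv, div_le_one h4]; linarith
      have e3 : 0 ≤ (b - lam) * (c - lam)⁻¹ := mul_nonneg h3.le (inv_nonneg.mpr h4.le)
      rw [abs_of_nonneg (mul_nonneg (sq_nonneg _) e3)]
      have e4 : ((b - lam)⁻¹ - y) ^ 2 ≤ ((b - hi)⁻¹ + y) ^ 2 := by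
        apply sq_le_sq'
        · linarith
        · linarith
      calc ((b - lam)⁻¹ - y) ^ 2 * ((b - lam) * (c - lam)⁻¹)
          ≤ ((b - lam)⁻¹ - y) ^ 2 * 1 := mul_le_mul_of_nonneg_left e2 (sq_nonneg _)
        _ ≤ ((b - hi)⁻¹ + y) ^ 2 := by linarith
    · intro lam hl
      have h3 : 0 < b - lam := by linarith [hl.2]
      have h4 : 0 < c - lam := by linarith
      have e3 : 0 ≤ (b - lam) * (c - lam)⁻¹ := mul_nonneg h3.le (inv_nonneg.mpr h4.le)
      have e5 : ((b - lam)⁻¹ - y) ^ 2 ≤ ((hi - lo) * (b - lam)⁻¹ * y) ^ 2 := by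
        rw [← sq_abs]
        exact pow_le_pow_left₀ (abs_nonneg _) (huy lam hl) 2
      calc ((b - lam)⁻¹ - y) ^ 2 * ((b - lam) * (c - lam)⁻¹)
          ≤ ((hi - lo) * (b - lam)⁻¹ * y) ^ 2 * ((b - lam) * (c - lam)⁻¹) :=
            mul_le_mul_of_nonneg_right e5 e3
        _ = (hi - lo) ^ 2 * y ^ 2 * ((b - lam)⁻¹ * (c - lam)⁻¹) := by
            field_simp
  -- x (1+δ y) ≥ (b-lo)⁻¹
  have hbl : 0 < b - lo := by linarith
  have hcl : 0 < c - lo := by linarith
  have hyl : (b - lo)⁻¹ ≤ y := G_lower h hb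
  have hxl : (c - lo)⁻¹ ≤ x := G_lower h hc
  have hxy : (b - lo)⁻¹ ≤ x * (1 + (c - b) * y) := by
    calc (b - lo)⁻¹ = (c - lo)⁻¹ * (1 + (c - b) * (b - lo)⁻¹) := by
          field_simp
          ring
      _ ≤ x * (1 + (c - b) * y) := by
          apply mul_le_mul hxl _ (by positivity) hx0.le
          have := mul_le_mul_of_nonneg_left hyl hδ
          linarith
  -- exact difference
  have hdiff : (b - y⁻¹) - (c - x⁻¹) = (c - b) * V / (x * y * (1 + (c - b) * y)) := by
    have h1 : x * (1 + (c - b) * y) ^ 2 = y * (1 + (c - b) * y) - (c - b) * V := by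
      rw [eV]; field_simp
    have h2 : (c - b) * V = y * (1 + (c - b) * y) - x * (1 + (c - b) * y) ^ 2 := by linarith
    rw [h2]
    field_simp
    ring
  rw [hdiff]
  have hyb : y * (b - lo) ≤ 1 + (hi - lo) * y := by
    have h1 : y ≤ (b - hi)⁻¹ := G_upper h hb
    have h2 : 0 < b - hi := by linarith
    have h3 : y * (b - hi) ≤ 1 := by
      calc y * (b - hi) ≤ (b - hi)⁻¹ * (b - hi) := mul_le_mul_of_nonneg_right h1 h2.le
        _ = 1 := inv_mul_cancel₀ h2.ne'
    nlinarith
  have hI0 : 0 ≤ I := by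
    refine le_trans ?_ (I_pos h hb hc)
    positivity
  have hposD : 0 < x * y * (1 + (c - b) * y) := by positivity
  rw [div_le_iff₀ hposD, eI]
  -- (c-b) V ≤ Δ²(1+Δ y) (c-b) I * (x y (1+δ y))
  have s1 : (c - b) * V ≤ (c - b) * ((hi - lo) ^ 2 * y ^ 2 * I) :=
    mul_le_mul_of_nonneg_left hVI hδ
  have s2 : y ≤ (1 + (hi - lo) * y) * (x * (1 + (c - b) * y)) := by
    have h1 : y = y * (b - lo) * (b - lo)⁻¹ := by field_simp
    calc y = y * (b - lo) * (b - lo)⁻¹ := h1
      _ ≤ (1 + (hi - lo) * y) * (x * (1 + (c - b) * y)) :=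
        mul_le_mul hyb hxy (by positivity) (by
          have : 0 ≤ (hi - lo) * y := mul_nonneg (by linarith) hy0.le
          linarith)
  calc (c - b) * V ≤ (c - b) * ((hi - lo) ^ 2 * y ^ 2 * I) := s1
    _ = (hi - lo) ^ 2 * ((c - b) * I) * y * y := by ring
    _ ≤ (hi - lo) ^ 2 * ((c - b) * I) * y * ((1 + (hi - lo) * y) * (x * (1 + (c - b) * y))) := by
        apply mul_le_mul_of_nonneg_left s2
        positivity
    _ = _ := by ring

/-- `R` is nondecreasing and Lipschitz: `0 ≤ R y - R x ≤ Δ²(1+Δ y)(y - x)` for `0 ≤ x ≤ y`. -/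
lemma rT_sub (h : μ (Icc lo hi) = 1) {x y : ℝ} (hx : 0 ≤ x) (hxy : x ≤ y) :
    0 ≤ rTransform μ hi y - rTransform μ hi x ∧
    rTransform μ hi y - rTransform μ hi x ≤ (hi - lo) ^ 2 * (1 + (hi - lo) * y) * (y - x) := by
  have hlh := lo_le_hi h
  have hD : 0 ≤ hi - lo := by linarith
  rcases hx.eq_or_lt with rfl | hx
  · rw [rT_zero]
    have h1 := rT_ge_mean h hxy
    have h2 := rT_sub_mean_le h hxy
    refine ⟨by linarith, h2.trans ?_⟩
    have : 0 ≤ (hi - lo) ^ 2 * ((hi - lo) * y) * y := by positivity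
    nlinarith
  have hy : 0 < y := lt_of_lt_of_le hx hxy
  rw [rT_pos hx, rT_pos hy]
  rcases rp_cases h hx with ⟨hx1, hx2⟩ | ⟨hx1, hx2⟩
  · set c := resolventPoint μ hi x
    rcases rp_cases h hy with ⟨hy1, hy2⟩ | ⟨hy1, hy2⟩
    · set b := resolventPoint μ hi y
      have hbc : b ≤ c := by
        by_contra hlt
        push Not at hlt
        have := G_strictAnti h hx1 hlt
        linarith
      have l1 := inv_G_sub h hy1 hbc
      have l2 := interior_sub h hy1 hbc
      rw [hx2, hy2] at l1 l2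
      rw [one_div, one_div]
      exact ⟨by linarith, by linarith⟩
    · rw [hy1, one_div, one_div]
      have hstep : ∀ b, hi < b → b ≤ c →
          c - b ≤ x⁻¹ - y⁻¹ ∧ hi - y⁻¹ - (c - x⁻¹) ≤
            (hi - lo) ^ 2 * (1 + (hi - lo) * y) * (y - x) + (b - hi) * (b - hi + 2 * (hi - lo)) * y := by
        intro b hb hbc
        have l1 := inv_G_sub h hb hbc
        have l2 := interior_sub h hb hbc
        have hG := G_pos h hb
        have hGy := hy2 b hb
        have hGx : x ≤ G μ b := by rw [← hx2]; exact G_anti h hb hbc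
        rw [hx2] at l1 l2
        have h3 : y⁻¹ < (G μ b)⁻¹ := inv_strictAnti₀ hG hGy
        refine ⟨by linarith, ?_⟩
        have hlow := G_lower h hb
        have hbl : 0 < b - lo := by linarith
        have h4 : (G μ b)⁻¹ ≤ b - lo := by
          have := inv_anti₀ (inv_pos.mpr hbl) hlow
          rwa [inv_inv] at this
        have h5 : (G μ b)⁻¹ - y⁻¹ = (y - G μ b) * ((G μ b)⁻¹ * y⁻¹) := by
          field_simp
        have h6 : (G μ b)⁻¹ * y⁻¹ ≤ (b - lo) * (b - lo) :=
          mul_le_mul h4 (by linarith) (inv_nonneg.mpr hy.le) hbl.le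
        have h7 : (G μ b)⁻¹ - y⁻¹ ≤ (y - G μ b) * ((b - lo) * (b - lo)) := by
          rw [h5]; exact mul_le_mul_of_nonneg_left h6 (by linarith)
        have h8 : (b - lo) * (b - lo) = (hi - lo) ^ 2 + (b - hi) * (b - hi + 2 * (hi - lo)) := by
          ring
        have h9 : (y - G μ b) * ((b - lo) * (b - lo)) ≤
            (hi - lo) ^ 2 * (1 + (hi - lo) * y) * (y - G μ b) +
              (b - hi) * (b - hi + 2 * (hi - lo)) * y := by
          rw [h8]
          have k1 : (y - G μ b) * (hi - lo) ^ 2 ≤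
              (hi - lo) ^ 2 * (1 + (hi - lo) * y) * (y - G μ b) := by
            have : 0 ≤ (hi - lo) ^ 2 * ((hi - lo) * y) * (y - G μ b) := by
              apply mul_nonneg (by positivity) (by linarith)
            nlinarith
          have k2 : (y - G μ b) * ((b - hi) * (b - hi + 2 * (hi - lo))) ≤
              (b - hi) * (b - hi + 2 * (hi - lo)) * y := by
            have : 0 ≤ (b - hi) * (b - hi + 2 * (hi - lo)) := by
              apply mul_nonneg <;> linarith
            nlinarith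
          linarith
        have h10 : (hi - lo) ^ 2 * (1 + (hi - lo) * G μ b) * (G μ b - x) ≤
            (hi - lo) ^ 2 * (1 + (hi - lo) * y) * (G μ b - x) := by
          apply mul_le_mul_of_nonneg_right _ (by linarith)
          apply mul_le_mul_of_nonneg_left _ (sq_nonneg _)
          have := mul_le_mul_of_nonneg_left hGy.le hD
          linarith
        have h11 : hi - y⁻¹ - (c - x⁻¹) = (hi - b) + ((G μ b)⁻¹ - y⁻¹) +
            ((b - (G μ b)⁻¹) - (c - x⁻¹)) := by ring
        rw [h11]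
        nlinarith
      constructor
      · -- c - hi ≤ x⁻¹ - y⁻¹
        have : c - hi ≤ x⁻¹ - y⁻¹ := by
          refine le_of_forall_pos_le_add ?_
          intro ε hε
          have hm : hi < min c (hi + ε) := lt_min hx1 (by linarith)
          have := (hstep (min c (hi + ε)) hm (min_le_left _ _)).1
          have h2 : min c (hi + ε) ≤ hi + ε := min_le_right _ _
          linarith
        linarith
      · have hcont : Filter.Tendsto (fun b : ℝ => (hi - lo) ^ 2 * (1 + (hi - lo) * y) * (y - x) +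
            (b - hi) * (b - hi + 2 * (hi - lo)) * y) (nhdsWithin hi (Ioi hi))
            (nhds ((hi - lo) ^ 2 * (1 + (hi - lo) * y) * (y - x) +
            (hi - hi) * (hi - hi + 2 * (hi - lo)) * y)) := by
          apply Filter.Tendsto.mono_left _ nhdsWithin_le_nhds
          apply Continuous.tendsto; fun_prop
        have h0 : (hi - lo) ^ 2 * (1 + (hi - lo) * y) * (y - x) +
            (hi - hi) * (hi - hi + 2 * (hi - lo)) * y =
            (hi - lo) ^ 2 * (1 + (hi - lo) * y) * (y - x) := by ring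
        rw [h0] at hcont
        refine ge_of_tendsto hcont ?_
        have : Ioc hi c ∈ nhdsWithin hi (Ioi hi) := Ioc_mem_nhdsGT hx1
        filter_upwards [this] with b hb
        exact (hstep b hb.1 hb.2).2
  · have hynone : resolventPoint μ hi y = hi := by
      rcases rp_cases h hy with ⟨hy1, hy2⟩ | ⟨hy1, _⟩
      · exfalso
        have := hx2 _ hy1
        linarith
      · exact hy1
    rw [hx1, hynone, one_div, one_div]
    have h3 := edge_inv_le h hx hx2
    have hmm := mean_mem h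
    rw [one_div] at h3
    have h4 : y⁻¹ ≤ x⁻¹ := inv_anti₀ hx hxy
    have h5 : x⁻¹ ≤ hi - lo := by linarith [hmm.1]
    refine ⟨by linarith, ?_⟩
    have e : hi - y⁻¹ - (hi - x⁻¹) = (y - x) * (x⁻¹ * y⁻¹) := by field_simp; ring
    rw [e]
    have h6 : x⁻¹ * y⁻¹ ≤ (hi - lo) * (hi - lo) :=
      mul_le_mul h5 (by linarith) (inv_nonneg.mpr hy.le) hD
    calc (y - x) * (x⁻¹ * y⁻¹) ≤ (y - x) * ((hi - lo) * (hi - lo)) :=
          mul_le_mul_of_nonneg_left h6 (by linarith)
      _ ≤ (hi - lo) ^ 2 * (1 + (hi - lo) * y) * (y - x) := by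
        have : 0 ≤ (hi - lo) ^ 2 * ((hi - lo) * y) * (y - x) := by
          apply mul_nonneg (by positivity) (by linarith)
        nlinarith

lemma rT_mono (h : μ (Icc lo hi) = 1) {x y : ℝ} (hx : 0 ≤ x) (hxy : x ≤ y) :
    rTransform μ hi x ≤ rTransform μ hi y := by linarith [(rT_sub h hx hxy).1]

/-- Lipschitz on `[0,1]` with constant `Δ²(1+Δ)`. -/
lemma rT_lip (h : μ (Icc lo hi) = 1) {x y : ℝ} (hx : x ∈ Icc (0:ℝ) 1) (hy : y ∈ Icc (0:ℝ) 1) :
    |rTransform μ hi x - rTransform μ hi y| ≤ (hi - lo) ^ 2 * (1 + (hi - lo)) * |x - y| := by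
  have hlh := lo_le_hi h
  have main : ∀ x y : ℝ, x ∈ Icc (0:ℝ) 1 → y ∈ Icc (0:ℝ) 1 → x ≤ y →
      |rTransform μ hi y - rTransform μ hi x| ≤ (hi - lo) ^ 2 * (1 + (hi - lo)) * |y - x| := by
    intro x y hx hy hxy
    obtain ⟨h1, h2⟩ := rT_sub h hx.1 hxy
    rw [abs_of_nonneg h1, abs_of_nonneg (by linarith)]
    refine h2.trans ?_
    apply mul_le_mul_of_nonneg_right _ (by linarith)
    apply mul_le_mul_of_nonneg_left _ (sq_nonneg _)
    have : (hi - lo) * y ≤ (hi - lo) * 1 := mul_le_mul_of_nonneg_left hy.2 (by linarith)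
    linarith
  rcases le_total x y with hxy | hxy
  · have := main x y hx hy hxy
    rwa [abs_sub_comm, abs_sub_comm x y]
  · exact main y x hy hx hxy

end Crest.Agent.R164.RTrans
end

-- ▼ part R164/RTrans2

/-!
Row 164: comparison/stability of the R-transform, spectral part and variational values.
-/

set_option autoImplicit false

namespace Crest.Agent.R164.RTrans

open MeasureTheory Crest.ProbabilityR.InvariantGlass Set Filter Topology

variable {μ : Measure ℝ} [IsProbabilityMeasure μ] {lo hi : ℝ}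

lemma rp_ge (h : μ (Icc lo hi) = 1) {x : ℝ} (hx : 0 < x) : hi ≤ resolventPoint μ hi x := by
  rcases rp_cases h hx with ⟨h1, _⟩ | ⟨h1, _⟩
  · exact h1.le
  · exact h1.ge

lemma rp_lt_iff (h : μ (Icc lo hi) = 1) {x z : ℝ} (hx : 0 < x) (hz : hi < z) :
    resolventPoint μ hi x < z ↔ G μ z < x := by
  rcases rp_cases h hx with ⟨h1, h2⟩ | ⟨h1, h2⟩
  · constructor
    · intro hlt
      have := G_strictAnti h h1 hlt
      linarith
    · intro hlt
      by_contra hc
      push Not at hc
      have := G_anti h hz hc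
      linarith
  · rw [h1]
    exact ⟨fun _ => h2 z hz, fun _ => hz⟩


variable {ν : Measure ℝ} [IsProbabilityMeasure ν] {lo' hi' : ℝ}

/-- Comparison of resolvent points. -/
lemma rp_compare_le (h : μ (Icc lo hi) = 1) (h' : ν (Icc lo' hi') = 1) (hhi : hi ≤ hi')
    (hG : ∀ z, hi' < z → G μ z ≤ G ν z) {x : ℝ} (hx : 0 < x) :
    resolventPoint μ hi x ≤ resolventPoint ν hi' x := by
  refine le_of_forall_gt fun z hz => ?_
  have hz' : hi' < z := lt_of_le_of_lt (rp_ge h' hx) hz
  have h1 := (rp_lt_iff h' hx hz').1 hz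
  exact (rp_lt_iff h hx (lt_of_le_of_lt hhi hz')).2 (lt_of_le_of_lt (hG z hz') h1)

lemma rp_compare_add (h : μ (Icc lo hi) = 1) (h' : ν (Icc lo' hi') = 1) {ε : ℝ}
    (hhi : hi' ≤ hi + ε) (hG : ∀ z, hi < z → G ν (z + ε) ≤ G μ z) {x : ℝ} (hx : 0 < x) :
    resolventPoint ν hi' x ≤ resolventPoint μ hi x + ε := by
  rw [← sub_le_iff_le_add]
  refine le_of_forall_gt fun z hz => ?_
  have hz' : hi < z := lt_of_le_of_lt (rp_ge h hx) hz
  have h1 := (rp_lt_iff h hx hz').1 hz
  have h2 := (rp_lt_iff h' hx (z := z + ε) (by linarith)).2 (lt_of_le_of_lt (hG z hz') h1)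
  linarith

/-- Comparison of the R-transforms on `[0,1]`. -/
lemma rT_compare (h : μ (Icc lo hi) = 1) (h' : ν (Icc lo' hi') = 1) {ε : ℝ}
    (hhi : hi ≤ hi') (hhi' : hi' ≤ hi + ε) (hG : ∀ z, hi' < z → G μ z ≤ G ν z)
    (hG' : ∀ z, hi < z → G ν (z + ε) ≤ G μ z) {x : ℝ} (hx : x ∈ Icc (0:ℝ) 1) :
    rTransform μ hi x ≤ rTransform ν hi' x ∧ rTransform ν hi' x ≤ rTransform μ hi x + ε := by
  have pos : ∀ x : ℝ, 0 < x → rTransform μ hi x ≤ rTransform ν hi' x ∧
      rTransform ν hi' x ≤ rTransform μ hi x + ε := by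
    intro x hx
    rw [rT_pos hx, rT_pos hx]
    have h1 := rp_compare_le h h' hhi hG hx
    have h2 := rp_compare_add h h' hhi' hG' hx
    exact ⟨by linarith, by linarith⟩
  rcases hx.1.eq_or_lt with h0 | h0
  · subst h0
    have e1 : ∀ n : ℕ, |rTransform μ hi 0 - rTransform μ hi (1 / ((n:ℝ) + 1))| ≤
        (hi - lo) ^ 2 * (1 + (hi - lo)) * |0 - 1 / ((n:ℝ) + 1)| := by
      intro n
      refine rT_lip h ⟨le_rfl, zero_le_one⟩ ⟨by positivity, ?_⟩
      rw [div_le_one (by positivity)]; linarith [(Nat.cast_nonneg n : (0:ℝ) ≤ n)]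
    have e2 : ∀ n : ℕ, |rTransform ν hi' 0 - rTransform ν hi' (1 / ((n:ℝ) + 1))| ≤
        (hi' - lo') ^ 2 * (1 + (hi' - lo')) * |0 - 1 / ((n:ℝ) + 1)| := by
      intro n
      refine rT_lip h' ⟨le_rfl, zero_le_one⟩ ⟨by positivity, ?_⟩
      rw [div_le_one (by positivity)]; linarith [(Nat.cast_nonneg n : (0:ℝ) ≤ n)]
    have ht0 : Tendsto (fun n : ℕ => 1 / ((n:ℝ) + 1)) atTop (𝓝 0) :=
      tendsto_one_div_add_atTop_nhds_zero_nat
    have t1 : Tendsto (fun n : ℕ => rTransform μ hi (1 / ((n:ℝ) + 1))) atTop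
        (𝓝 (rTransform μ hi 0)) := by
      rw [tendsto_iff_dist_tendsto_zero]
      refine squeeze_zero (g := fun n : ℕ => (hi - lo) ^ 2 * (1 + (hi - lo)) * |0 - 1 / ((n:ℝ) + 1)|)
        (fun _ => dist_nonneg) (fun n => ?_) ?_
      · rw [dist_comm, Real.dist_eq]; exact e1 n
      · have : Tendsto (fun n : ℕ => (hi - lo) ^ 2 * (1 + (hi - lo)) * |0 - 1 / ((n:ℝ) + 1)|) atTop
            (𝓝 ((hi - lo) ^ 2 * (1 + (hi - lo)) * |0 - 0|)) :=
          ((ht0.const_sub 0).abs).const_mul _
        simpa using this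
    have t2 : Tendsto (fun n : ℕ => rTransform ν hi' (1 / ((n:ℝ) + 1))) atTop
        (𝓝 (rTransform ν hi' 0)) := by
      rw [tendsto_iff_dist_tendsto_zero]
      refine squeeze_zero
        (g := fun n : ℕ => (hi' - lo') ^ 2 * (1 + (hi' - lo')) * |0 - 1 / ((n:ℝ) + 1)|)
        (fun _ => dist_nonneg) (fun n => ?_) ?_
      · rw [dist_comm, Real.dist_eq]; exact e2 n
      · have : Tendsto (fun n : ℕ => (hi' - lo') ^ 2 * (1 + (hi' - lo')) * |0 - 1 / ((n:ℝ) + 1)|)
            atTop (𝓝 ((hi' - lo') ^ 2 * (1 + (hi' - lo')) * |0 - 0|)) :=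
          ((ht0.const_sub 0).abs).const_mul _
        simpa using this
    constructor
    · exact le_of_tendsto_of_tendsto' t1 t2 (fun n => (pos _ (by positivity)).1)
    · exact le_of_tendsto_of_tendsto' t2 (t1.add_const ε) (fun n => (pos _ (by positivity)).2)
  · exact pos x h0


/-! ### The deficit and the spectral part -/

lemma pos_part_integrable {p : ℝ → ℝ} (hp : IsTrialPath p) (r : ℝ) (hr : 0 ≤ r) :
    IntegrableOn (fun s => max (p s - r) 0) (Ioo (0:ℝ) 1) := by
  refine Measure.integrableOn_of_bounded (M := 1) (by simp) ?_ ?_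
  · exact ((hp.1.sub_const r).max measurable_const).aestronglyMeasurable
  · filter_upwards [ae_restrict_mem measurableSet_Ioo] with s hs
    rw [Real.norm_eq_abs, abs_of_nonneg (le_max_right _ _)]
    exact max_le (by linarith [(hp.2.2 s hs).2]) zero_le_one

lemma deficit_mem {p : ℝ → ℝ} (hp : IsTrialPath p) {r : ℝ} (hr : r ∈ Ioo (0:ℝ) 1) :
    deficit p r ∈ Icc (0:ℝ) 1 := by
  unfold deficit
  have h1 : ∫ s in Ioo (0:ℝ) 1, max (p s - r) 0 ≤ ∫ s in Ioo (0:ℝ) 1, (1 - r) := by
    refine setIntegral_mono_on (pos_part_integrable hp r hr.1.le) (integrable_const _)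
      measurableSet_Ioo ?_
    intro s hs
    exact max_le (by linarith [(hp.2.2 s hs).2]) (by linarith [hr.2])
  have h2 : 0 ≤ ∫ s in Ioo (0:ℝ) 1, max (p s - r) 0 :=
    setIntegral_nonneg measurableSet_Ioo (fun s _ => le_max_right _ _)
  have h3 : ∫ s in Ioo (0:ℝ) 1, (1 - r) = 1 - r := by simp
  rw [h3] at h1
  constructor <;> linarith [hr.1, hr.2]

lemma deficit_sub_le {p q : ℝ → ℝ} (hp : IsTrialPath p) (hq : IsTrialPath q) {r : ℝ}
    (hr : r ∈ Ioo (0:ℝ) 1) :
    |deficit p r - deficit q r| ≤ ∫ s in Ioo (0:ℝ) 1, |p s - q s| := by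
  unfold deficit
  have e : (1 - r - ∫ s in Ioo (0:ℝ) 1, max (p s - r) 0) -
      (1 - r - ∫ s in Ioo (0:ℝ) 1, max (q s - r) 0) =
      ∫ s in Ioo (0:ℝ) 1, (max (q s - r) 0 - max (p s - r) 0) := by
    rw [integral_sub (pos_part_integrable hq r hr.1.le) (pos_part_integrable hp r hr.1.le)]
    ring
  rw [e]
  have hint : IntegrableOn (fun s => |p s - q s|) (Ioo (0:ℝ) 1) := by
    refine Measure.integrableOn_of_bounded (M := 1) (by simp) ?_ ?_
    · exact (hp.1.sub hq.1).abs.aestronglyMeasurable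
    · filter_upwards [ae_restrict_mem measurableSet_Ioo] with s hs
      rw [Real.norm_eq_abs, abs_abs, abs_le]
      have a := hp.2.2 s hs
      have b := hq.2.2 s hs
      constructor <;> linarith [a.1, a.2, b.1, b.2]
  refine (abs_integral_le_integral_abs).trans ?_
  refine setIntegral_mono_on ?_ hint measurableSet_Ioo ?_
  · exact ((pos_part_integrable hq r hr.1.le).sub (pos_part_integrable hp r hr.1.le)).abs
  · intro s _
    calc |max (q s - r) 0 - max (p s - r) 0| ≤ |(q s - r) - (p s - r)| :=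
          abs_max_sub_max_le_abs _ _ _
      _ = |p s - q s| := by rw [abs_sub_comm]; congr 1; ring

lemma deficit_antitone {p : ℝ → ℝ} (hp : IsTrialPath p) {r r' : ℝ} (hr : r ∈ Ioo (0:ℝ) 1)
    (hr' : r' ∈ Ioo (0:ℝ) 1) (hrr : r ≤ r') : deficit p r' ≤ deficit p r := by
  unfold deficit
  have h1 : (∫ s in Ioo (0:ℝ) 1, max (p s - r) 0) ≤
      ∫ s in Ioo (0:ℝ) 1, (max (p s - r') 0 + (r' - r)) := by
    refine setIntegral_mono_on (pos_part_integrable hp r hr.1.le)
      ((pos_part_integrable hp r' hr'.1.le).add (integrable_const _))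
      measurableSet_Ioo ?_
    intro s _
    refine max_le ?_ ?_
    · have := le_max_left (p s - r') 0; linarith
    · have := le_max_right (p s - r') 0; linarith
  rw [integral_add (pos_part_integrable hp r' hr'.1.le) (by simp)] at h1
  have h3 : ∫ s in Ioo (0:ℝ) 1, (r' - r) = r' - r := by simp
  rw [h3] at h1
  linarith

lemma integrand_integrable (h : μ (Icc lo hi) = 1) {p : ℝ → ℝ} (hp : IsTrialPath p) :
    IntegrableOn (fun r => rTransform μ hi (deficit p r)) (Ioo (0:ℝ) 1) := by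
  refine Integrable.mono' (integrable_const (max |lo| |hi|)) ?_ ?_
  · refine AEMeasurable.aestronglyMeasurable ?_
    refine aemeasurable_restrict_of_antitoneOn (μ := volume) (s := Ioo (0:ℝ) 1)
      (f := fun r => rTransform μ hi (deficit p r)) measurableSet_Ioo ?_
    intro r hr r' hr' hrr
    exact rT_mono h (deficit_mem hp hr').1 (deficit_antitone hp hr hr' hrr)
  · filter_upwards [ae_restrict_mem measurableSet_Ioo] with r hr
    have := rT_mem h (deficit_mem hp hr).1
    rw [Real.norm_eq_abs]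
    exact abs_le_max_abs_abs this.1 this.2

lemma spectralPart_lip (h : μ (Icc lo hi) = 1) {p q : ℝ → ℝ} (hp : IsTrialPath p)
    (hq : IsTrialPath q) :
    |spectralPart μ hi p - spectralPart μ hi q| ≤
      (1 / 2) * ((hi - lo) ^ 2 * (1 + (hi - lo))) * ∫ s in Ioo (0:ℝ) 1, |p s - q s| := by
  have hlh := lo_le_hi h
  unfold spectralPart
  rw [← mul_sub, ← integral_sub (integrand_integrable h hp) (integrand_integrable h hq), abs_mul,
    abs_of_nonneg (by norm_num : (0:ℝ) ≤ 1 / 2), mul_assoc]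
  refine mul_le_mul_of_nonneg_left ?_ (by norm_num)
  refine (abs_integral_le_integral_abs).trans ?_
  calc ∫ r in Ioo (0:ℝ) 1, |rTransform μ hi (deficit p r) - rTransform μ hi (deficit q r)|
      ≤ ∫ r in Ioo (0:ℝ) 1, ((hi - lo) ^ 2 * (1 + (hi - lo))) *
          ∫ s in Ioo (0:ℝ) 1, |p s - q s| := by
        refine setIntegral_mono_on
          ((integrand_integrable h hp).sub (integrand_integrable h hq)).abs (integrable_const _)
          measurableSet_Ioo ?_
        intro r hr
        refine (rT_lip h (deficit_mem hp hr) (deficit_mem hq hr)).trans ?_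
        refine mul_le_mul_of_nonneg_left (deficit_sub_le hp hq hr) ?_
        have : 0 ≤ hi - lo := by linarith
        positivity
    _ = _ := by simp

lemma spectralPart_compare (h : μ (Icc lo hi) = 1) (h' : ν (Icc lo' hi') = 1) {ε : ℝ}
    (hR : ∀ x ∈ Icc (0:ℝ) 1, rTransform μ hi x ≤ rTransform ν hi' x ∧
      rTransform ν hi' x ≤ rTransform μ hi x + ε) {p : ℝ → ℝ} (hp : IsTrialPath p) :
    spectralPart μ hi p ≤ spectralPart ν hi' p ∧
      spectralPart ν hi' p ≤ spectralPart μ hi p + ε / 2 := by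
  unfold spectralPart
  constructor
  · refine mul_le_mul_of_nonneg_left ?_ (by norm_num)
    exact setIntegral_mono_on (integrand_integrable h hp) (integrand_integrable h' hp)
      measurableSet_Ioo (fun r hr => (hR _ (deficit_mem hp hr)).1)
  · have h1 : ∫ r in Ioo (0:ℝ) 1, rTransform ν hi' (deficit p r) ≤
        ∫ r in Ioo (0:ℝ) 1, (rTransform μ hi (deficit p r) + ε) :=
      setIntegral_mono_on (integrand_integrable h' hp)
        ((integrand_integrable h hp).add (integrable_const _))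
        measurableSet_Ioo (fun r hr => (hR _ (deficit_mem hp hr)).2)
    rw [integral_add (integrand_integrable h hp) (by simp)] at h1
    have h3 : ∫ s in Ioo (0:ℝ) 1, ε = ε := by simp
    rw [h3] at h1
    linarith

/-! ### Comparison of the variational values -/

lemma ereal_le_add_of_sub {a b : EReal} {c : ℝ} (h : a - (c : EReal) ≤ b) :
    a ≤ b + (c : EReal) := by
  rwa [EReal.sub_le_iff_le_add] at h
  · left; exact EReal.coe_ne_bot c
  · left; exact EReal.coe_ne_top c

/-- A general comparison: `⨅ (S + g) ≤ ⨅ (S + g')` etc. -/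
lemma iInf_compare {ι : Sort*} (P : ι → Prop) (S : ι → EReal) (g g' : ι → ℝ) {c : ℝ}
    (h1 : ∀ i, P i → g i ≤ g' i) (h2 : ∀ i, P i → g' i ≤ g i + c) :
    (⨅ (i : ι) (_ : P i), S i + (g i : EReal)) ≤ (⨅ (i : ι) (_ : P i), S i + (g' i : EReal)) ∧
    (⨅ (i : ι) (_ : P i), S i + (g' i : EReal)) ≤
      (⨅ (i : ι) (_ : P i), S i + (g i : EReal)) + (c : EReal) := by
  constructor
  · refine iInf_mono fun i => iInf_mono fun hi => ?_
    exact add_le_add le_rfl (EReal.coe_le_coe_iff.2 (h1 i hi))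
  · refine ereal_le_add_of_sub ?_
    refine le_iInf fun i => le_iInf fun hi => ?_
    have h3 : (⨅ (i : ι) (_ : P i), S i + (g' i : EReal)) ≤ S i + (g' i : EReal) :=
      iInf₂_le i hi
    have h4 : S i + (g' i : EReal) ≤ (S i + (g i : EReal)) + (c : EReal) := by
      rw [add_assoc, ← EReal.coe_add]
      exact add_le_add le_rfl (EReal.coe_le_coe_iff.2 (h2 i hi))
    have h5 := h3.trans h4
    rw [EReal.sub_le_iff_le_add]
    · exact h5
    · left; exact EReal.coe_ne_bot c
    · left; exact EReal.coe_ne_top c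


lemma magneticValue_compare (h : μ (Icc lo hi) = 1) (h' : ν (Icc lo' hi') = 1) {ε : ℝ}
    (hR : ∀ x ∈ Icc (0:ℝ) 1, rTransform μ hi x ≤ rTransform ν hi' x ∧
      rTransform ν hi' x ≤ rTransform μ hi x + ε) {J : ℕ} (c : Fin J → ℝ) (γ : Fin J → ℚ) :
    magneticValue μ hi c γ ≤ magneticValue ν hi' c γ ∧
      magneticValue ν hi' c γ ≤ magneticValue μ hi c γ + ((ε / 2 : ℝ) : EReal) := by
  unfold magneticValue
  have key := fun m : Fin J → ℚ => iInf_compare IsTrialPath (constrainedEntropyPart γ m)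
    (spectralPart μ hi) (spectralPart ν hi')
    (fun p hp => (spectralPart_compare h h' hR hp).1)
    (fun p hp => (spectralPart_compare h h' hR hp).2)
  constructor
  · refine iSup_mono fun m => iSup_mono fun hm => ?_
    exact add_le_add le_rfl (key m).1
  · refine iSup_le fun m => iSup_le fun hm => ?_
    refine (add_le_add le_rfl (key m).2).trans ?_
    rw [← add_assoc]
    refine add_le_add ?_ le_rfl
    exact le_iSup₂_of_le m hm le_rfl

end Crest.Agent.R164.RTrans
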