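import Crest.Agent.R164.Atomic2
import Crest.Agent.R164.RTrans2

-- ▼ part R164/PAlg
section

/-!
Row 164: the Parisi algebra, analytic half: `b(x)`, `R(x)`, `Ψ(x)` for a finitely supported law.
-/

set_option autoImplicit false

namespace Crest.Agent.R164.PAlg

open MeasureTheory Crest.ProbabilityR.InvariantGlass Set Filter Topology
open Crest.Agent.R164.RTrans Crest.Agent.R164.Atomic

noncomputable section

variable {K : ℕ} (w val : Fin (K + 1) → ℝ)

/-- `b(x)` -/
def bb (x : ℝ) : ℝ := resolventPoint (atomic w val) (val (Fin.last K)) x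

/-- `R(x)` -/
def RR (x : ℝ) : ℝ := rTransform (atomic w val) (val (Fin.last K)) x

/-- `Σ w_k (b - λ_k)^{-2}` -/
def g2 (b : ℝ) : ℝ := ∑ k, w k * ((b - val k)⁻¹) ^ 2

/-- `R'(x)` for `x > 0`. -/
def RD (x : ℝ) : ℝ := (x ^ 2)⁻¹ - (g2 w val (bb w val x))⁻¹

/-- `Ψ(x) = -½ Σ w_k log (x (b(x) - λ_k))`. -/
def Psi (x : ℝ) : ℝ := -(1 / 2) * ∑ k, w k * Real.log (x * (bb w val x - val k))

variable {w val}

theorem atomic_G (hw : ∀ k, 0 < w k) (b : ℝ) :
    G (atomic w val) b = ∑ k, w k * (b - val k)⁻¹ := by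
  unfold G
  exact atomic_integral val (fun k => (hw k).le) _

section

variable (hv : StrictMono val) (hw : ∀ k, 0 < w k) (hs : ∑ k, w k = 1)
include hv hw hs

theorem supp : (atomic w val) (Icc (val 0) (val (Fin.last K))) = 1 :=
  atomic_supp (fun k => (hw k).le) hs
    (fun k => ⟨hv.monotone (Fin.zero_le _), hv.monotone (Fin.le_last _)⟩)

theorem bb_spec {x : ℝ} (hx : 0 < x) :
    val (Fin.last K) < bb w val x ∧ ∑ k, w k * (bb w val x - val k)⁻¹ = x := by
  have := atomic_prob (w := w) val (fun k => (hw k).le) hs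
  rcases rp_cases (supp hv hw hs) hx with ⟨h1, h2⟩ | ⟨_, h2⟩
  · rw [atomic_G hw] at h2
    exact ⟨h1, h2⟩
  · exfalso
    have hwl := hw (Fin.last K)
    have hlt : val (Fin.last K) < val (Fin.last K) + w (Fin.last K) / x := by
      have : 0 < w (Fin.last K) / x := by positivity
      linarith
    have h3 := h2 _ hlt
    rw [atomic_G hw] at h3
    have h4 : w (Fin.last K) * (val (Fin.last K) + w (Fin.last K) / x - val (Fin.last K))⁻¹ ≤
        ∑ k, w k * (val (Fin.last K) + w (Fin.last K) / x - val k)⁻¹ := by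
      refine Finset.single_le_sum (f := fun k =>
        w k * (val (Fin.last K) + w (Fin.last K) / x - val k)⁻¹) (fun k _ => ?_)
        (Finset.mem_univ _)
      have h5 : val k ≤ val (Fin.last K) := hv.monotone (Fin.le_last _)
      exact mul_nonneg (hw k).le (inv_nonneg.2 (by linarith))
    have h6 : w (Fin.last K) * (val (Fin.last K) + w (Fin.last K) / x - val (Fin.last K))⁻¹ = x := by
      have : val (Fin.last K) + w (Fin.last K) / x - val (Fin.last K) = w (Fin.last K) / x := by
        ring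
      rw [this]
      field_simp
    linarith

theorem bb_gt {x : ℝ} (hx : 0 < x) (k : Fin (K + 1)) : val k < bb w val x :=
  lt_of_le_of_lt (hv.monotone (Fin.le_last _)) (bb_spec hv hw hs hx).1

theorem bb_sum {x : ℝ} (hx : 0 < x) : ∑ k, w k * (bb w val x - val k)⁻¹ = x :=
  (bb_spec hv hw hs hx).2

omit hv hw hs in
theorem RR_eq {x : ℝ} (hx : 0 < x) : RR w val x = bb w val x - 1 / x := rT_pos hx

omit hv in
theorem RR_zero : RR w val 0 = ∑ k, w k * val k := by
  have := atomic_prob (w := w) val (fun k => (hw k).le) hs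
  unfold RR
  rw [rT_zero, atomic_integral val (fun k => (hw k).le)]

theorem RR_mono {x y : ℝ} (hx : 0 ≤ x) (hxy : x ≤ y) : RR w val x ≤ RR w val y := by
  have := atomic_prob (w := w) val (fun k => (hw k).le) hs
  exact rT_mono (supp hv hw hs) hx hxy

theorem RR_lip {x y : ℝ} (hx : 0 ≤ x) (hxy : x ≤ y) :
    RR w val y - RR w val x ≤
      (val (Fin.last K) - val 0) ^ 2 * (1 + (val (Fin.last K) - val 0) * y) * (y - x) := by
  have := atomic_prob (w := w) val (fun k => (hw k).le) hs
  exact (rT_sub (supp hv hw hs) hx hxy).2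

theorem RR_mem {x : ℝ} (hx : 0 ≤ x) : val 0 ≤ RR w val x ∧ RR w val x ≤ val (Fin.last K) := by
  have := atomic_prob (w := w) val (fun k => (hw k).le) hs
  exact rT_mem (supp hv hw hs) hx

theorem RR_cont : ContinuousOn (RR w val) (Ici 0) := by
  set Δ := val (Fin.last K) - val 0 with hΔ
  have hΔ0 : 0 ≤ Δ := by
    have := hv.monotone (Fin.zero_le (Fin.last K)); rw [hΔ]; linarith
  intro x hx
  have hx0 : (0:ℝ) ≤ x := hx
  rw [ContinuousWithinAt, tendsto_iff_dist_tendsto_zero]
  have hev : ∀ᶠ y in 𝓝[Ici 0] x, y ≤ x + 1 ∧ 0 ≤ y := by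
    refine (Filter.Eventually.and ?_ self_mem_nhdsWithin)
    exact mem_nhdsWithin_of_mem_nhds (Iic_mem_nhds (by linarith))
  refine squeeze_zero' (Eventually.of_forall fun _ => dist_nonneg)
    (g := fun y => Δ ^ 2 * (1 + Δ * (x + 1)) * |y - x|) ?_ ?_
  · filter_upwards [hev] with y hy
    rw [Real.dist_eq]
    rcases le_total x y with hxy | hxy
    · have h1 := RR_mono hv hw hs hx0 hxy
      have h2 := RR_lip hv hw hs hx0 hxy
      rw [abs_of_nonneg (by linarith), abs_of_nonneg (by linarith)]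
      refine h2.trans ?_
      apply mul_le_mul_of_nonneg_right _ (by linarith)
      apply mul_le_mul_of_nonneg_left _ (sq_nonneg _)
      have := mul_le_mul_of_nonneg_left hy.1 hΔ0
      linarith
    · have h1 := RR_mono hv hw hs hy.2 hxy
      have h2 := RR_lip hv hw hs hy.2 hxy
      rw [abs_of_nonpos (by linarith), abs_of_nonpos (by linarith)]
      have h3 : (val (Fin.last K) - val 0) ^ 2 * (1 + (val (Fin.last K) - val 0) * x) * (x - y) ≤
          Δ ^ 2 * (1 + Δ * (x + 1)) * (x - y) := by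
        apply mul_le_mul_of_nonneg_right _ (by linarith)
        apply mul_le_mul_of_nonneg_left _ (sq_nonneg _)
        have := mul_le_mul_of_nonneg_left (by linarith : x ≤ x + 1) hΔ0
        linarith
      have h4 : Δ ^ 2 * (1 + Δ * (x + 1)) * -(y - x) = Δ ^ 2 * (1 + Δ * (x + 1)) * (x - y) := by
        ring
      rw [h4]
      linarith
  · have : Tendsto (fun y => Δ ^ 2 * (1 + Δ * (x + 1)) * |y - x|) (𝓝 x)
        (𝓝 (Δ ^ 2 * (1 + Δ * (x + 1)) * |x - x|)) := by
      apply Continuous.tendsto; fun_prop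
    simp only [sub_self, abs_zero, mul_zero] at this
    exact this.mono_left nhdsWithin_le_nhds

theorem bb_contAt {x : ℝ} (hx : 0 < x) : ContinuousAt (bb w val) x := by
  have h1 : ContinuousAt (RR w val) x :=
    (RR_cont hv hw hs).continuousAt (Ici_mem_nhds hx)
  have h2 : ContinuousAt (fun y => RR w val y + 1 / y) x :=
    h1.add (continuousAt_const.div continuousAt_id hx.ne')
  refine h2.congr ?_
  filter_upwards [lt_mem_nhds hx] with y hy
  rw [RR_eq hy]; ring

omit hv hs in
theorem g2_pos {b : ℝ} (hb : ∀ k, val k < b) : 0 < g2 w val b := by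
  unfold g2
  refine Finset.sum_pos (fun k _ => ?_) Finset.univ_nonempty
  have : 0 < b - val k := by linarith [hb k]
  exact mul_pos (hw k) (by positivity)

theorem bb_deriv {x : ℝ} (hx : 0 < x) :
    HasDerivAt (bb w val) (-(g2 w val (bb w val x))⁻¹) x := by
  have hgt := bb_gt hv hw hs hx
  have hg2 := g2_pos hw hgt
  have hd : HasDerivAt (fun b => ∑ k, w k * (b - val k)⁻¹) (-(g2 w val (bb w val x)))
      (bb w val x) := by
    have h1 : HasDerivAt (fun b => ∑ k, w k * (b - val k)⁻¹)
        (∑ k, w k * (-(1 : ℝ) / (bb w val x - val k) ^ 2)) (bb w val x) := by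
      refine HasDerivAt.fun_sum fun k _ => ?_
      refine HasDerivAt.const_mul _ ?_
      have hne : bb w val x - val k ≠ 0 := by have := hgt k; intro h; linarith
      exact ((hasDerivAt_id _).sub_const (val k)).inv hne
    convert h1 using 1
    unfold g2
    rw [← Finset.sum_neg_distrib]
    refine Finset.sum_congr rfl fun k _ => ?_
    field_simp
  have h := HasDerivAt.of_local_left_inverse (bb_contAt hv hw hs hx) hd (by linarith [hg2] : -(g2 w val (bb w val x)) ≠ 0) ?_
  · rw [inv_neg] at h; exact h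
  · filter_upwards [lt_mem_nhds hx] with y hy
    exact bb_sum hv hw hs hy

theorem RR_deriv {x : ℝ} (hx : 0 < x) : HasDerivAt (RR w val) (RD w val x) x := by
  have h1 := bb_deriv hv hw hs hx
  have h2 : HasDerivAt (fun y : ℝ => bb w val y - y⁻¹)
      (-(g2 w val (bb w val x))⁻¹ - (-(x ^ 2)⁻¹)) x := h1.sub (hasDerivAt_inv hx.ne')
  have h3 : HasDerivAt (RR w val) (-(g2 w val (bb w val x))⁻¹ - (-(x ^ 2)⁻¹)) x := by
    refine h2.congr_of_eventuallyEq ?_
    filter_upwards [lt_mem_nhds hx] with y hy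
    rw [RR_eq hy, one_div]
  convert h3 using 1
  unfold RD; ring

theorem RD_nonneg {x : ℝ} (hx : 0 < x) : 0 ≤ RD w val x := by
  have hgt := bb_gt hv hw hs hx
  have hsum := bb_sum hv hw hs hx
  have hg2 := g2_pos hw hgt
  unfold RD
  rw [sub_nonneg]
  refine inv_anti₀ (by positivity) ?_
  -- Cauchy-Schwarz: x² ≤ g2
  have h1 : (∑ k, w k * (bb w val x - val k)⁻¹) ^ 2 ≤
      (∑ k, w k) * ∑ k, w k * ((bb w val x - val k)⁻¹) ^ 2 := by
    refine Finset.sum_sq_le_sum_mul_sum_of_sq_le_mul _ (fun k _ => (hw k).le)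
      (fun k _ => mul_nonneg (hw k).le (sq_nonneg _)) (fun k _ => by
        have : (w k * (bb w val x - val k)⁻¹) ^ 2 = w k * (w k * ((bb w val x - val k)⁻¹) ^ 2) := by
          ring
        exact this.le)
  rw [hsum, hs, one_mul] at h1
  exact h1

/-! ### the function `Ψ` -/

theorem Psi_deriv {x : ℝ} (hx : 0 < x) :
    HasDerivAt (Psi w val) (-(1 / 2) * (x * RD w val x)) x := by
  have hgt := bb_gt hv hw hs hx
  have hsum := bb_sum hv hw hs hx
  have hb := bb_deriv hv hw hs hx
  set b' := -(g2 w val (bb w val x))⁻¹ with hb'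
  have h1 : HasDerivAt (fun y => ∑ k, w k * Real.log (y * (bb w val y - val k)))
      (∑ k, w k * ((1 * (bb w val x - val k) + x * b') / (x * (bb w val x - val k)))) x := by
    refine HasDerivAt.fun_sum fun k _ => HasDerivAt.const_mul _ ?_
    have hne : x * (bb w val x - val k) ≠ 0 := by
      have : 0 < bb w val x - val k := by linarith [hgt k]
      positivity
    exact ((hasDerivAt_id x).mul (hb.sub_const (val k))).log hne
  have h2 : HasDerivAt (Psi w val)
      (-(1 / 2) * ∑ k, w k * ((1 * (bb w val x - val k) + x * b') / (x * (bb w val x - val k)))) x :=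
    h1.const_mul _
  convert h2 using 1
  congr 1
  have h3 : ∀ k, w k * ((1 * (bb w val x - val k) + x * b') / (x * (bb w val x - val k))) =
      w k * x⁻¹ + b' * (w k * (bb w val x - val k)⁻¹) := by
    intro k
    have : 0 < bb w val x - val k := by linarith [hgt k]
    field_simp
  simp only [h3]
  rw [Finset.sum_add_distrib, ← Finset.sum_mul, ← Finset.mul_sum, hs, hsum, hb']
  unfold RD
  field_simp
  ring

omit hv hw hs in
theorem Psi_zero : Psi w val 0 = 0 := by
  unfold Psi; simp

theorem Psi_tendsto_zero : Tendsto (Psi w val) (𝓝[>] 0) (𝓝 0) := by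
  have hR : Tendsto (RR w val) (𝓝[>] 0) (𝓝 (RR w val 0)) :=
    ((RR_cont hv hw hs) 0 (mem_Ici.2 le_rfl)).mono_left (nhdsWithin_mono _ Ioi_subset_Ici_self)
  have hx : Tendsto (fun x : ℝ => x) (𝓝[>] 0) (𝓝 0) := nhdsWithin_le_nhds
  have h1 : ∀ k, Tendsto (fun x => w k * Real.log (1 + x * (RR w val x - val k))) (𝓝[>] 0)
      (𝓝 (w k * Real.log (1 + 0 * (RR w val 0 - val k)))) := by
    intro k
    refine Tendsto.const_mul _ ?_
    refine Tendsto.log ?_ (by simp)
    exact tendsto_const_nhds.add (hx.mul (hR.sub_const _))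
  have h2 : Tendsto (fun x => -(1 / 2) * ∑ k, w k * Real.log (1 + x * (RR w val x - val k)))
      (𝓝[>] 0) (𝓝 (-(1 / 2) * ∑ k, w k * Real.log (1 + 0 * (RR w val 0 - val k)))) :=
    (tendsto_finsetSum _ fun k _ => h1 k).const_mul _
  simp only [zero_mul, add_zero, Real.log_one, mul_zero, Finset.sum_const_zero] at h2
  refine h2.congr' ?_
  filter_upwards [self_mem_nhdsWithin] with x hx0
  have hx0' : 0 < x := hx0
  unfold Psi
  congr 1
  refine Finset.sum_congr rfl fun k _ => ?_
  congr 2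
  rw [RR_eq hx0']
  field_simp
  ring

/-- `Φ(x) = ½ ∫_0^x R`. -/
theorem Psi_eq {x : ℝ} (hx : 0 ≤ x) :
    Psi w val x = (1 / 2) * (∫ t in (0:ℝ)..x, RR w val t) - (1 / 2) * (x * RR w val x) := by
  rcases hx.eq_or_lt with rfl | hx
  · rw [Psi_zero]; simp
  -- F := Φ - ½ x R - Ψ is constant on (0,∞)
  set F : ℝ → ℝ := fun x => (1 / 2) * (∫ t in (0:ℝ)..x, RR w val t) - (1 / 2) * (x * RR w val x) -
    Psi w val x with hF
  have hcont := RR_cont hv hw hs
  have hFd : ∀ y, 0 < y → HasDerivAt F 0 y := by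
    intro y hy
    have hii : IntervalIntegrable (RR w val) volume 0 y := by
      refine ContinuousOn.intervalIntegrable ?_
      rw [uIcc_of_le hy.le]
      exact hcont.mono (fun z hz => hz.1)
    have hca : ContinuousAt (RR w val) y := hcont.continuousAt (Ici_mem_nhds hy)
    have hsm : StronglyMeasurableAtFilter (RR w val) (𝓝 y) volume := by
      refine ⟨Ici 0, Ici_mem_nhds hy, ?_⟩
      exact hcont.aestronglyMeasurable measurableSet_Ici
    have h1 : HasDerivAt (fun x => ∫ t in (0:ℝ)..x, RR w val t) (RR w val y) y :=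
      intervalIntegral.integral_hasDerivAt_right hii hsm hca
    have h2 : HasDerivAt (fun x => x * RR w val x) (1 * RR w val y + y * RD w val y) y :=
      (hasDerivAt_id y).mul (RR_deriv hv hw hs hy)
    have h3 := ((h1.const_mul (1 / 2)).sub (h2.const_mul (1 / 2))).sub (Psi_deriv hv hw hs hy)
    exact h3.congr_deriv (by ring)
  have hconst : ∀ y z, 0 < y → 0 < z → F y = F z := by
    intro y z hy hz
    have hconv : Convex ℝ (Ioi (0:ℝ)) := convex_Ioi 0
    have hdiff : DifferentiableOn ℝ F (Ioi 0) := fun u hu =>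
      (hFd u hu).differentiableAt.differentiableWithinAt
    refine hconv.is_const_of_fderivWithin_eq_zero (𝕜 := ℝ) hdiff (fun u hu => ?_) hy hz
    have h1 : fderivWithin ℝ F (Ioi 0) u = fderiv ℝ F u :=
      fderivWithin_of_isOpen isOpen_Ioi hu
    rw [h1]
    ext
    simp [(hFd u hu).hasFDerivAt.fderiv]
  have hlim : Tendsto F (𝓝[>] 0) (𝓝 0) := by
    have hR : Tendsto (RR w val) (𝓝[>] 0) (𝓝 (RR w val 0)) :=
      (hcont 0 (mem_Ici.2 le_rfl)).mono_left (nhdsWithin_mono _ Ioi_subset_Ici_self)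
    have hxx : Tendsto (fun x : ℝ => x) (𝓝[>] 0) (𝓝 0) := nhdsWithin_le_nhds
    have hint : Tendsto (fun x => ∫ t in (0:ℝ)..x, RR w val t) (𝓝[>] 0) (𝓝 0) := by
      set C := max |val 0| |val (Fin.last K)| with hC
      refine squeeze_zero_norm' (a := fun x => C * |x|) ?_ ?_
      · filter_upwards [self_mem_nhdsWithin] with y hy
        have hy' : 0 < y := hy
        have := intervalIntegral.norm_integral_le_of_norm_le_const (a := 0) (b := y) (C := C)
          (f := RR w val) (fun t ht => by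
            rw [uIoc_of_le hy'.le] at ht
            obtain ⟨h1, h2⟩ := RR_mem hv hw hs ht.1.le
            rw [Real.norm_eq_abs]
            exact abs_le_max_abs_abs h1 h2)
        rwa [sub_zero] at this
      · have : Tendsto (fun x : ℝ => C * |x|) (𝓝[>] 0) (𝓝 (C * |0|)) := (hxx.abs).const_mul C
        simpa using this
    have h := ((hint.const_mul (1 / 2)).sub ((hxx.mul hR).const_mul (1 / 2))).sub
      (Psi_tendsto_zero hv hw hs)
    have h0 : (1 / 2 : ℝ) * 0 - 1 / 2 * (0 * RR w val 0) - 0 = 0 := by ring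
    rw [h0] at h
    exact h
  have hFx : F x = 0 := by
    have h1 : Tendsto F (𝓝[>] 0) (𝓝 (F x)) := by
      refine tendsto_const_nhds.congr' ?_
      filter_upwards [self_mem_nhdsWithin] with y hy
      exact hconst x y hx hy
    exact tendsto_nhds_unique h1 hlim
  simp only [hF] at hFx
  linarith

end

end

end Crest.Agent.R164.PAlg
end

-- ▼ part R164/PAlg2

/-!
Row 164: the Parisi algebra for step paths: deficit of a step function, the spectral part of a step
path, the associated field `h` and the trace identities.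
-/

set_option autoImplicit false

namespace Crest.Agent.R164.PAlg

open MeasureTheory Crest.ProbabilityR.InvariantGlass Set Filter Topology
open Crest.Agent.R164.RTrans Crest.Agent.R164.Atomic

noncomputable section

theorem tele {m : ℕ} (f : Fin (m + 1) → ℝ) :
    ∑ j : Fin m, (f j.succ - f j.castSucc) = f (Fin.last m) - f 0 := by
  have h1 := Fin.sum_univ_succ f
  have h2 := Fin.sum_univ_castSucc f
  rw [Finset.sum_sub_distrib]
  linarith

/-! ### step functions -/

section Step

variable {m : ℕ} {wd : Fin (m + 1) → ℝ}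

theorem ze_zero : leftEnd wd 0 = 0 := by
  unfold leftEnd
  exact Finset.sum_eq_zero fun l _ => if_neg (by simp)

theorem ze_succ (j : Fin m) : leftEnd wd j.succ = leftEnd wd j.castSucc + wd j.castSucc := by
  unfold leftEnd
  have h : ∀ l : Fin (m + 1), (if l < j.succ then wd l else 0) =
      (if l < j.castSucc then wd l else 0) + (if l = j.castSucc then wd l else 0) := by
    intro l
    have h1 : l < j.succ ↔ l ≤ j.castSucc := by
      rw [Fin.lt_def, Fin.le_def, Fin.val_succ, Fin.val_castSucc]; omega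
    rcases lt_trichotomy l j.castSucc with h | h | h
    · rw [if_pos (h1.2 h.le), if_pos h, if_neg h.ne]; simp
    · rw [if_pos (h1.2 h.le), if_neg (by rw [h]; exact lt_irrefl _), if_pos h]; simp
    · rw [if_neg (fun h2 => absurd (h1.1 h2) (not_le.2 h)), if_neg (not_lt.2 h.le), if_neg h.ne']
      simp
  rw [Finset.sum_congr rfl fun l _ => h l, Finset.sum_add_distrib, Finset.sum_ite_eq' Finset.univ]
  simp

theorem ze_last (hs : ∑ i, wd i = 1) :
    leftEnd wd (Fin.last m) + wd (Fin.last m) = 1 := by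
  unfold leftEnd
  rw [← hs, Fin.sum_univ_castSucc, Fin.sum_univ_castSucc (f := wd)]
  have : ∀ i : Fin m, (if i.castSucc < Fin.last m then wd i.castSucc else 0) = wd i.castSucc :=
    fun i => if_pos (Fin.castSucc_lt_last i)
  rw [Finset.sum_congr rfl fun i _ => this i]
  simp

variable (hw : ∀ i, 0 < wd i)
include hw

theorem ze_nonneg (i : Fin (m + 1)) : 0 ≤ leftEnd wd i := by
  unfold leftEnd
  exact Finset.sum_nonneg fun l _ => by split_ifs; exacts [(hw l).le, le_rfl]

theorem ze_pos (j : Fin m) : 0 < leftEnd wd j.succ := by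
  rw [ze_succ]
  have := ze_nonneg hw j.castSucc
  linarith [hw j.castSucc]

theorem ze_add_le {i j : Fin (m + 1)} (hij : i < j) : leftEnd wd i + wd i ≤ leftEnd wd j := by
  unfold leftEnd
  have h1 : wd i = ∑ l, if l = i then wd l else 0 := by
    rw [Finset.sum_ite_eq' Finset.univ]; simp
  conv_lhs => rw [h1]
  rw [← Finset.sum_add_distrib]
  refine Finset.sum_le_sum fun l _ => ?_
  rcases lt_trichotomy l i with h | h | h
  · rw [if_pos h, if_neg h.ne, if_pos (h.trans hij)]; simp
  · rw [if_neg (by rw [h]; exact lt_irrefl _), if_pos h, if_pos (by rw [h]; exact hij)]; simp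
  · rw [if_neg (not_lt.2 h.le), if_neg h.ne']
    split_ifs
    · simpa using (hw l).le
    · simp


variable (hs : ∑ i, wd i = 1)
include hs

omit hw in
theorem exists_cell {s : ℝ} (h0 : 0 < s) (h1 : s ≤ 1) :
    ∃ i, leftEnd wd i < s ∧ s ≤ leftEnd wd i + wd i := by
  classical
  set S : Finset (Fin (m + 1)) := Finset.univ.filter fun i => leftEnd wd i < s with hS
  have hne : S.Nonempty := ⟨0, by simp [hS, ze_zero, h0]⟩
  obtain ⟨i, hi, hmax⟩ : ∃ i ∈ S, ∀ j ∈ S, j ≤ i := ⟨S.max' hne, S.max'_mem hne, fun j hj => S.le_max' j hj⟩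
  have hi' : leftEnd wd i < s := by simpa [hS] using hi
  refine ⟨i, hi', ?_⟩
  by_cases hl : i = Fin.last m
  · rw [hl, ze_last hs]; exact h1
  · obtain ⟨j, rfl⟩ := Fin.exists_castSucc_eq.2 hl
    rw [← ze_succ]
    by_contra hlt
    push Not at hlt
    have h2 : j.succ ∈ S := by simp [hS, hlt]
    exact absurd (hmax _ h2) (not_le.2 Fin.castSucc_lt_succ)

omit hs in
theorem cell_unique {s : ℝ} {i j : Fin (m + 1)} (hi : leftEnd wd i < s ∧ s ≤ leftEnd wd i + wd i)
    (hj : leftEnd wd j < s ∧ s ≤ leftEnd wd j + wd j) : i = j := by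
  by_contra hne
  rcases lt_or_gt_of_ne hne with h | h
  · have := ze_add_le hw h; linarith [hi.2, hj.1]
  · have := ze_add_le hw h; linarith [hj.2, hi.1]

omit hs in
theorem stepFn_cell (q : Fin (m + 1) → ℝ) {s : ℝ} {i : Fin (m + 1)}
    (hi : leftEnd wd i < s ∧ s ≤ leftEnd wd i + wd i) : stepFn wd q s = q i := by
  unfold stepFn
  rw [Finset.sum_eq_single i]
  · rw [if_pos hi]
  · intro j _ hj
    rw [if_neg]
    intro h
    exact hj (cell_unique hw h hi)
  · intro h; exact absurd (Finset.mem_univ i) h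

/-- Integrals of functions of step functions. -/
theorem integral_cell (f : ℝ → ℝ) (g : Fin (m + 1) → ℝ)
    (hfg : ∀ s i, leftEnd wd i < s → s ≤ leftEnd wd i + wd i → f s = g i) :
    ∫ s in Ioo (0:ℝ) 1, f s = ∑ i, wd i * g i := by
  have h1 : ∫ s in Ioo (0:ℝ) 1, f s =
      ∫ s in Ioo (0:ℝ) 1, ∑ i, (Ioc (leftEnd wd i) (leftEnd wd i + wd i)).indicator
        (fun _ => g i) s := by
    refine setIntegral_congr_fun measurableSet_Ioo fun s hsm => ?_
    obtain ⟨i, hi⟩ := exists_cell hs hsm.1 hsm.2.le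
    rw [hfg s i hi.1 hi.2, Finset.sum_eq_single i]
    · rw [indicator_of_mem (show s ∈ Ioc (leftEnd wd i) (leftEnd wd i + wd i) from hi)]
    · intro j _ hj
      rw [indicator_of_notMem]
      intro h
      exact hj (cell_unique hw h hi)
    · intro h; exact absurd (Finset.mem_univ i) h
  rw [h1, integral_finsetSum]
  · refine Finset.sum_congr rfl fun i _ => ?_
    rw [← integral_Ioc_eq_integral_Ioo, setIntegral_indicator measurableSet_Ioc]
    have h2 : Ioc (0:ℝ) 1 ∩ Ioc (leftEnd wd i) (leftEnd wd i + wd i) =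
        Ioc (leftEnd wd i) (leftEnd wd i + wd i) := by
      refine inter_eq_right.2 (Ioc_subset_Ioc (ze_nonneg hw i) ?_)
      rcases eq_or_ne i (Fin.last m) with rfl | h
      · rw [ze_last hs]
      · have := ze_add_le hw (lt_of_le_of_ne (Fin.le_last i) h)
        have h3 := ze_last hs (wd := wd)
        linarith [hw (Fin.last m)]
    rw [h2, setIntegral_const, smul_eq_mul]
    congr 1
    rw [Measure.real, Real.volume_Ioc, ENNReal.toReal_ofReal] <;> linarith [hw i]
  · intro i _
    refine (integrable_indicator_iff measurableSet_Ioc).2 ?_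
    refine integrableOn_const (μ := volume.restrict (Ioo (0:ℝ) 1)) ?_ 
    exact ((Measure.restrict_apply_le _ _).trans_lt (by simp)).ne

theorem integral_step (g : ℝ → ℝ) (q : Fin (m + 1) → ℝ) :
    ∫ s in Ioo (0:ℝ) 1, g (stepFn wd q s) = ∑ i, wd i * g (q i) :=
  integral_cell hw hs _ (fun i => g (q i)) fun s i h1 h2 => by rw [stepFn_cell hw q ⟨h1, h2⟩]

theorem integral_step_mul (q q' : Fin (m + 1) → ℝ) :
    ∫ s in Ioo (0:ℝ) 1, stepFn wd q s * stepFn wd q' s = ∑ i, wd i * (q i * q' i) :=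
  integral_cell hw hs _ (fun i => q i * q' i) fun s i h1 h2 => by
    rw [stepFn_cell hw q ⟨h1, h2⟩, stepFn_cell hw q' ⟨h1, h2⟩]

theorem deficit_step (q : Fin (m + 1) → ℝ) (r : ℝ) :
    deficit (stepFn wd q) r = 1 - r - ∑ i, wd i * max (q i - r) 0 := by
  unfold deficit
  rw [integral_step hw hs (fun y => max (y - r) 0) q]

end Step

/-! ### the deficit of a step path -/

section Def

variable {m : ℕ} {wd p : Fin (m + 1) → ℝ}

/-- `D_j` -/
def Dd (wd p : Fin (m + 1) → ℝ) (j : Fin (m + 1)) : ℝ := deficit (stepFn wd p) (p j)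

/-- `Σ_{l ≥ j} w_l p_l` -/
def tailS (wd p : Fin (m + 1) → ℝ) (j : Fin (m + 1)) : ℝ := ∑ l, if l < j then 0 else wd l * p l

variable (hw : ∀ i, 0 < wd i) (hs : ∑ i, wd i = 1) (hp : Monotone p)
include hw hs

theorem deficit_eq {r : ℝ} {j : Fin (m + 1)} (hlo : ∀ l, l < j → p l ≤ r)
    (hhi : ∀ l, j ≤ l → r ≤ p l) :
    deficit (stepFn wd p) r = 1 - tailS wd p j - leftEnd wd j * r := by
  rw [deficit_step hw hs]
  have h : ∑ i, wd i * max (p i - r) 0 = tailS wd p j - (1 - leftEnd wd j) * r := by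
    unfold tailS leftEnd
    have h1 : (1:ℝ) * r = ∑ l, wd l * r := by rw [← Finset.sum_mul, hs]
    rw [sub_mul, h1, Finset.sum_mul]
    have : ∀ l, wd l * max (p l - r) 0 = (if l < j then 0 else wd l * p l) -
        (wd l * r - (if l < j then wd l else 0) * r) := by
      intro l
      by_cases h : l < j
      · rw [if_pos h, if_pos h, max_eq_right (by linarith [hlo l h])]; ring
      · rw [if_neg h, if_neg h, max_eq_left (by linarith [hhi l (not_lt.1 h)])]; ring
    rw [Finset.sum_congr rfl fun l _ => this l, Finset.sum_sub_distrib, Finset.sum_sub_distrib]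
  rw [h]; ring

include hp in
theorem deficit_top {r : ℝ} (hr : p (Fin.last m) ≤ r) : deficit (stepFn wd p) r = 1 - r := by
  rw [deficit_step hw hs, Finset.sum_eq_zero, sub_zero]
  intro i _
  rw [max_eq_right (by linarith [hp (Fin.le_last i)]), mul_zero]

include hp in
theorem Dd_eq (j : Fin (m + 1)) : Dd wd p j = 1 - tailS wd p j - leftEnd wd j * p j :=
  deficit_eq hw hs (fun _ h => hp h.le) (fun _ h => hp h)

include hp in
theorem Dd_last : Dd wd p (Fin.last m) = 1 - p (Fin.last m) := deficit_top hw hs hp le_rfl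

include hp in
theorem deficit_mid (j : Fin m) {r : ℝ} (h1 : p j.castSucc ≤ r) (h2 : r ≤ p j.succ) :
    deficit (stepFn wd p) r = Dd wd p j.succ + leftEnd wd j.succ * (p j.succ - r) := by
  rw [Dd_eq hw hs hp, deficit_eq (j := j.succ) hw hs
    (fun l hl => (hp (Fin.le_castSucc_iff.2 hl)).trans h1) (fun l hl => h2.trans (hp hl))]
  ring

include hp in
theorem Dd_castSucc (j : Fin m) :
    Dd wd p j.castSucc = Dd wd p j.succ + leftEnd wd j.succ * (p j.succ - p j.castSucc) :=
  deficit_mid hw hs hp j le_rfl (hp Fin.castSucc_lt_succ.le)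

include hp in
theorem deficit_bot {r : ℝ} (hr : r ≤ p 0) : deficit (stepFn wd p) r = Dd wd p 0 := by
  rw [Dd_eq hw hs hp, deficit_eq (j := 0) hw hs (fun l hl => absurd hl (by simp))
    (fun l _ => hr.trans (hp (Fin.zero_le l))), ze_zero]
  ring

include hp in
theorem Dd_anti (j : Fin m) : Dd wd p j.succ ≤ Dd wd p j.castSucc := by
  rw [Dd_castSucc hw hs hp j]
  have := ze_pos hw j
  have h2 : p j.castSucc ≤ p j.succ := hp Fin.castSucc_lt_succ.le
  nlinarith

theorem deficit_nonneg_step (hp1 : ∀ i, p i ≤ 1) {r : ℝ} (hr : r ≤ 1) :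
    0 ≤ deficit (stepFn wd p) r := by
  rw [deficit_step hw hs]
  have : ∑ i, wd i * max (p i - r) 0 ≤ ∑ i, wd i * (1 - r) := by
    refine Finset.sum_le_sum fun i _ => mul_le_mul_of_nonneg_left ?_ (hw i).le
    exact max_le (by linarith [hp1 i]) (by linarith)
  rw [← Finset.sum_mul, hs] at this
  linarith

theorem deficit_cont_step : Continuous (deficit (stepFn wd p)) := by
  have : deficit (stepFn wd p) = fun r => 1 - r - ∑ i, wd i * max (p i - r) 0 :=
    funext fun r => deficit_step hw hs p r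
  rw [this]
  fun_prop

theorem Dd_nonneg (hp1 : ∀ i, p i ≤ 1) (j : Fin (m + 1)) : 0 ≤ Dd wd p j :=
  deficit_nonneg_step hw hs hp1 (hp1 j)

end Def

/-! ### the spectral part of a step path -/

section Spec

variable {K : ℕ} (w val : Fin (K + 1) → ℝ)

/-- `Φ(x) = ½ ∫_0^x R`. -/
def PhR (x : ℝ) : ℝ := (1 / 2) * ∫ t in (0:ℝ)..x, RR w val t

variable {w val}
variable (hv : StrictMono val) (hw : ∀ k, 0 < w k) (hs : ∑ k, w k = 1)
include hv hw hs

theorem RR_ii {a b : ℝ} (ha : 0 ≤ a) (hb : 0 ≤ b) :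
    IntervalIntegrable (RR w val) volume a b := by
  refine ContinuousOn.intervalIntegrable ?_
  refine (RR_cont hv hw hs).mono fun z hz => ?_
  exact (le_min ha hb).trans hz.1

theorem PhR_sub {a b : ℝ} (ha : 0 ≤ a) (hb : 0 ≤ b) :
    PhR w val b - PhR w val a = (1 / 2) * ∫ t in a..b, RR w val t := by
  unfold PhR
  rw [← mul_sub, intervalIntegral.integral_interval_sub_left (RR_ii hv hw hs le_rfl hb)
    (RR_ii hv hw hs le_rfl ha)]

theorem spectralPart_step {m : ℕ} {wd p : Fin (m + 1) → ℝ} (hwd : ∀ i, 0 < wd i)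
    (hwds : ∑ i, wd i = 1) (hp : Monotone p) (hp0 : ∀ i, 0 ≤ p i) (hp1 : ∀ i, p i ≤ 1) :
    spectralPart (atomic w val) (val (Fin.last K)) (stepFn wd p) =
      PhR w val (Dd wd p (Fin.last m)) +
        ∑ j : Fin m, (leftEnd wd j.succ)⁻¹ *
          (PhR w val (Dd wd p j.castSucc) - PhR w val (Dd wd p j.succ)) +
        p 0 * ((1 / 2) * RR w val (Dd wd p 0)) := by
  set f : ℝ → ℝ := fun r => RR w val (deficit (stepFn wd p) r) with hf
  have hfc : ContinuousOn f (Iic 1) := by
    refine (RR_cont hv hw hs).comp (deficit_cont_step hwd hwds).continuousOn fun r hr => ?_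
    exact deficit_nonneg_step hwd hwds hp1 hr
  have hii : ∀ a b, a ≤ 1 → b ≤ 1 → IntervalIntegrable f volume a b := by
    intro a b ha hb
    refine ContinuousOn.intervalIntegrable (hfc.mono fun z hz => ?_)
    exact hz.2.trans (max_le ha hb)
  have h1 : spectralPart (atomic w val) (val (Fin.last K)) (stepFn wd p) =
      (1 / 2) * ∫ r in (0:ℝ)..1, f r := by
    unfold spectralPart
    rw [intervalIntegral.integral_of_le zero_le_one, integral_Ioc_eq_integral_Ioo]
    rfl
  have h2 : ∫ r in (0:ℝ)..1, f r = (∫ r in (0:ℝ)..(p 0), f r) +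
      (∑ j : Fin m, ∫ r in (p j.castSucc)..(p j.succ), f r) + ∫ r in (p (Fin.last m))..1, f r := by
    have ht := tele (fun i : Fin (m + 1) => ∫ r in (0:ℝ)..(p i), f r)
    have h3 : ∀ j : Fin m, (∫ r in (0:ℝ)..(p j.succ), f r) - (∫ r in (0:ℝ)..(p j.castSucc), f r) =
        ∫ r in (p j.castSucc)..(p j.succ), f r := fun j =>
      intervalIntegral.integral_interval_sub_left (hii _ _ zero_le_one (hp1 _))
        (hii _ _ zero_le_one (hp1 _))
    rw [Finset.sum_congr rfl fun j _ => h3 j] at ht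
    rw [ht]
    have h4 := intervalIntegral.integral_add_adjacent_intervals
      (hii 0 (p (Fin.last m)) zero_le_one (hp1 _)) (hii (p (Fin.last m)) 1 (hp1 _) le_rfl)
    linarith
  have h3 : ∫ r in (0:ℝ)..(p 0), f r = p 0 * RR w val (Dd wd p 0) := by
    have : ∫ r in (0:ℝ)..(p 0), f r = ∫ r in (0:ℝ)..(p 0), RR w val (Dd wd p 0) := by
      refine intervalIntegral.integral_congr fun r hr => ?_
      rw [uIcc_of_le (hp0 0)] at hr
      simp only [hf]
      rw [deficit_bot hwd hwds hp hr.2]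
    rw [this, intervalIntegral.integral_const, smul_eq_mul, sub_zero]
  have h4 : ∀ j : Fin m, ∫ r in (p j.castSucc)..(p j.succ), f r =
      (leftEnd wd j.succ)⁻¹ * ∫ t in (Dd wd p j.succ)..(Dd wd p j.castSucc), RR w val t := by
    intro j
    have hz := ze_pos hwd j
    have e1 : ∫ r in (p j.castSucc)..(p j.succ), f r = ∫ r in (p j.castSucc)..(p j.succ),
        RR w val ((Dd wd p j.succ + leftEnd wd j.succ * p j.succ) - leftEnd wd j.succ * r) := by
      refine intervalIntegral.integral_congr fun r hr => ?_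
      rw [uIcc_of_le (hp Fin.castSucc_lt_succ.le)] at hr
      simp only [hf]
      rw [deficit_mid hwd hwds hp j hr.1 hr.2]
      congr 1; ring
    rw [e1, intervalIntegral.integral_comp_sub_mul (fun y => RR w val y) hz.ne', smul_eq_mul]
    congr 2
    · ring
    · rw [Dd_castSucc hwd hwds hp]; ring
  have h5 : ∫ r in (p (Fin.last m))..1, f r = ∫ t in (0:ℝ)..(Dd wd p (Fin.last m)), RR w val t := by
    have e1 : ∫ r in (p (Fin.last m))..1, f r = ∫ r in (p (Fin.last m))..1, RR w val (1 - r) := by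
      refine intervalIntegral.integral_congr fun r hr => ?_
      rw [uIcc_of_le (hp1 _)] at hr
      simp only [hf]
      rw [deficit_top hwd hwds hp hr.1]
    rw [e1, intervalIntegral.integral_comp_sub_left (fun y => RR w val y), sub_self,
      Dd_last hwd hwds hp]
  rw [h1, h2, h3, h5, Finset.sum_congr rfl fun j _ => h4 j, mul_add, mul_add]
  have h6 : (1 / 2) * ∑ j : Fin m, (leftEnd wd j.succ)⁻¹ *
      ∫ t in (Dd wd p j.succ)..(Dd wd p j.castSucc), RR w val t =
      ∑ j : Fin m, (leftEnd wd j.succ)⁻¹ *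
          (PhR w val (Dd wd p j.castSucc) - PhR w val (Dd wd p j.succ)) := by
    rw [Finset.mul_sum]
    refine Finset.sum_congr rfl fun j _ => ?_
    rw [PhR_sub hv hw hs (Dd_nonneg hwd hwds hp1 _) (Dd_nonneg hwd hwds hp1 _)]
    ring
  rw [h6]
  unfold PhR
  ring

end Spec

/-! ### the field of a step path and the trace identities -/

section Field

variable {K m : ℕ} (w val : Fin (K + 1) → ℝ) (wd p : Fin (m + 1) → ℝ)

/-- `h_i = p_0 R'(D_0) + Σ_{j ≤ i} (R(D_{j-1}) - R(D_j)) / ζ_j`. -/
def hh (i : Fin (m + 1)) : ℝ :=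
  p 0 * RD w val (Dd wd p 0) +
    ∑ j : Fin m, if j.succ ≤ i then
      (leftEnd wd j.succ)⁻¹ * (RR w val (Dd wd p j.castSucc) - RR w val (Dd wd p j.succ)) else 0

variable {w val wd p}

theorem hh_zero : hh w val wd p 0 = p 0 * RD w val (Dd wd p 0) := by
  unfold hh
  rw [Finset.sum_eq_zero, add_zero]
  intro j _
  exact if_neg (by simp)

theorem hh_last : hh w val wd p (Fin.last m) = p 0 * RD w val (Dd wd p 0) +
    ∑ j : Fin m, (leftEnd wd j.succ)⁻¹ *
      (RR w val (Dd wd p j.castSucc) - RR w val (Dd wd p j.succ)) := by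
  unfold hh
  congr 1
  refine Finset.sum_congr rfl fun j _ => if_pos (Fin.le_last _)

theorem hh_succ (i : Fin m) : hh w val wd p i.succ = hh w val wd p i.castSucc +
    (leftEnd wd i.succ)⁻¹ *
      (RR w val (Dd wd p i.castSucc) - RR w val (Dd wd p i.succ)) := by
  unfold hh
  rw [add_assoc]
  congr 1
  have h : ∀ j : Fin m, (if j.succ ≤ i.succ then
      (leftEnd wd j.succ)⁻¹ * (RR w val (Dd wd p j.castSucc) - RR w val (Dd wd p j.succ)) else 0) =
      (if j.succ ≤ i.castSucc then
      (leftEnd wd j.succ)⁻¹ * (RR w val (Dd wd p j.castSucc) - RR w val (Dd wd p j.succ)) else 0) +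
      (if j = i then
      (leftEnd wd j.succ)⁻¹ * (RR w val (Dd wd p j.castSucc) - RR w val (Dd wd p j.succ)) else 0) := by
    intro j
    have e1 : j.succ ≤ i.succ ↔ j ≤ i := Fin.succ_le_succ_iff
    have e2 : j.succ ≤ i.castSucc ↔ j < i := by
      rw [Fin.le_def, Fin.lt_def, Fin.val_succ, Fin.val_castSucc]; omega
    rcases lt_trichotomy j i with h | h | h
    · rw [if_pos (e1.2 h.le), if_pos (e2.2 h), if_neg h.ne, add_zero]
    · rw [if_pos (e1.2 h.le), if_neg (fun h2 => absurd (e2.1 h2) (by rw [h]; exact lt_irrefl _)),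
        if_pos h, zero_add]
    · rw [if_neg (fun h2 => absurd (e1.1 h2) (not_le.2 h)),
        if_neg (fun h2 => absurd (e2.1 h2) (not_lt.2 h.le)), if_neg h.ne', add_zero]
  rw [Finset.sum_congr rfl fun j _ => h j, Finset.sum_add_distrib, Finset.sum_ite_eq' Finset.univ]
  simp

variable (hv : StrictMono val) (hw : ∀ k, 0 < w k) (hs : ∑ k, w k = 1)
variable (hwd : ∀ i, 0 < wd i) (hwds : ∑ i, wd i = 1) (hp : Monotone p)
  (hp0 : ∀ i, 0 ≤ p i) (hp1 : ∀ i, p i ≤ 1)

include hwd hwds hp in
theorem Dd_pos (hp1 : ∀ i, p i ≤ 1) (h0 : p 0 < 1) : 0 < Dd wd p 0 := by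
  rw [Dd_eq hwd hwds hp, ze_zero, zero_mul, sub_zero]
  unfold tailS
  have h1 : ∑ l, (if l < 0 then 0 else wd l * p l) < ∑ l, wd l := by
    refine Finset.sum_lt_sum (fun l _ => ?_) ⟨0, Finset.mem_univ _, ?_⟩
    · rw [if_neg (by simp)]; nlinarith [hwd l, hp1 l]
    · rw [if_neg (by simp)]; nlinarith [hwd 0]
  rw [hwds] at h1
  linarith

include hv hw hs hwd hwds hp hp1 in
theorem jump_nonneg (j : Fin m) : 0 ≤ (leftEnd wd j.succ)⁻¹ *
      (RR w val (Dd wd p j.castSucc) - RR w val (Dd wd p j.succ)) := by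
  refine mul_nonneg (inv_nonneg.2 (ze_pos hwd j).le) ?_
  have := RR_mono hv hw hs (Dd_nonneg hwd hwds hp1 j.succ) (Dd_anti hwd hwds hp j)
  linarith

include hv hw hs hwd hwds hp hp1 in
theorem hh_mono : Monotone (hh w val wd p) := by
  refine Fin.monotone_iff_le_succ.2 fun i => ?_
  rw [hh_succ]
  have := jump_nonneg hv hw hs hwd hwds hp hp1 i
  linarith

include hv hw hs hwd hwds hp hp0 hp1 in
theorem hh_nonneg (hD : 0 < Dd wd p 0) (i : Fin (m + 1)) : 0 ≤ hh w val wd p i := by
  refine le_trans ?_ (hh_mono hv hw hs hwd hwds hp hp1 (Fin.zero_le i))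
  rw [hh_zero]
  exact mul_nonneg (hp0 0) (RD_nonneg hv hw hs hD)

include hv hw hs hwd hwds hp hp0 hp1 in
theorem hh_stepField (hD : 0 < Dd wd p 0) : IsStepField wd (hh w val wd p) :=
  ⟨Nat.succ_pos m, hwd, hwds, hh_mono hv hw hs hwd hwds hp hp1,
    hh_nonneg hv hw hs hwd hwds hp hp0 hp1 hD⟩

include hwd hwds hp in
/-- `Σ w_i p_i h_i` in terms of the deficits. -/
theorem sum_hh : ∑ i, wd i * (p i * hh w val wd p i) =
    p 0 * RD w val (Dd wd p 0) * (1 - Dd wd p 0) +
      ∑ j : Fin m, ((leftEnd wd j.succ)⁻¹ *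
        (RR w val (Dd wd p j.castSucc) - RR w val (Dd wd p j.succ))) *
          (1 - leftEnd wd j.succ * p j.succ - Dd wd p j.succ) := by
  have e0 : 1 - Dd wd p 0 = ∑ i, wd i * p i := by
    rw [Dd_eq hwd hwds hp, ze_zero]
    unfold tailS
    have : ∀ l : Fin (m + 1), (if l < 0 then 0 else wd l * p l) = wd l * p l := fun l =>
      if_neg (by simp)
    rw [Finset.sum_congr rfl fun l _ => this l]
    ring
  have e1 : ∀ j : Fin m, 1 - leftEnd wd j.succ * p j.succ - Dd wd p j.succ = tailS wd p j.succ := by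
    intro j
    rw [Dd_eq hwd hwds hp]; ring
  rw [e0]
  simp only [e1]
  unfold hh tailS
  have e2 : ∀ i, wd i * (p i * (p 0 * RD w val (Dd wd p 0) + ∑ j : Fin m, if j.succ ≤ i then
      (leftEnd wd j.succ)⁻¹ * (RR w val (Dd wd p j.castSucc) - RR w val (Dd wd p j.succ)) else 0)) =
      p 0 * RD w val (Dd wd p 0) * (wd i * p i) +
      ∑ j : Fin m, ((leftEnd wd j.succ)⁻¹ *
        (RR w val (Dd wd p j.castSucc) - RR w val (Dd wd p j.succ))) *
          (if i < j.succ then 0 else wd i * p i) := by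
    intro i
    rw [mul_add, mul_add, Finset.mul_sum, Finset.mul_sum]
    congr 1
    · ring
    · refine Finset.sum_congr rfl fun j _ => ?_
      by_cases h : j.succ ≤ i
      · rw [if_pos h, if_neg (not_lt.2 h)]; ring
      · rw [if_neg h, if_pos (not_le.1 h)]; ring
  rw [Finset.sum_congr rfl fun i _ => e2 i, Finset.sum_add_distrib, ← Finset.mul_sum,
    Finset.sum_comm]
  congr 1
  refine Finset.sum_congr rfl fun j _ => ?_
  rw [← Finset.mul_sum]

include hwd hwds hp in
theorem tr_xR :
    Dd wd p (Fin.last m) * RR w val (Dd wd p (Fin.last m)) +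
      ∑ j : Fin m, (leftEnd wd j.succ)⁻¹ *
        (Dd wd p j.castSucc * RR w val (Dd wd p j.castSucc) -
          Dd wd p j.succ * RR w val (Dd wd p j.succ)) +
      p 0 * (RR w val (Dd wd p 0) + Dd wd p 0 * RD w val (Dd wd p 0)) =
    RR w val (Dd wd p (Fin.last m)) + hh w val wd p (Fin.last m) -
      ∑ i, wd i * (p i * hh w val wd p i) := by
  have ht := tele (fun i : Fin (m + 1) => p i * RR w val (Dd wd p i))
  rw [Finset.sum_sub_distrib] at ht
  rw [sum_hh hwd hwds hp, hh_last]
  have e : ∀ j : Fin m, (leftEnd wd j.succ)⁻¹ *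
        (Dd wd p j.castSucc * RR w val (Dd wd p j.castSucc) -
          Dd wd p j.succ * RR w val (Dd wd p j.succ)) =
      (p j.succ * RR w val (Dd wd p j.succ) - p j.castSucc * RR w val (Dd wd p j.castSucc)) +
      ((leftEnd wd j.succ)⁻¹ *
        (RR w val (Dd wd p j.castSucc) - RR w val (Dd wd p j.succ)) -
      ((leftEnd wd j.succ)⁻¹ *
        (RR w val (Dd wd p j.castSucc) - RR w val (Dd wd p j.succ))) *
          (1 - leftEnd wd j.succ * p j.succ - Dd wd p j.succ)) := by
    intro j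
    have hz := (ze_pos hwd j).ne'
    rw [Dd_castSucc hwd hwds hp j]
    field_simp
    ring
  rw [Finset.sum_congr rfl fun j _ => e j, Finset.sum_add_distrib, Finset.sum_sub_distrib, ht,
    Finset.sum_sub_distrib, Dd_last hwd hwds hp]
  ring

include hv hw hs hwd hwds hp hp0 hp1 in
theorem tr_Psi :
    Psi w val (Dd wd p (Fin.last m)) +
      ∑ j : Fin m, (leftEnd wd j.succ)⁻¹ *
        (Psi w val (Dd wd p j.castSucc) - Psi w val (Dd wd p j.succ)) +
      p 0 * (-(1 / 2) * (Dd wd p 0 * RD w val (Dd wd p 0))) +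
      (1 / 2) * (RR w val (Dd wd p (Fin.last m)) + hh w val wd p (Fin.last m)) =
    spectralPart (atomic w val) (val (Fin.last K)) (stepFn wd p) +
      (1 / 2) * ∑ i, wd i * (p i * hh w val wd p i) := by
  have hD := Dd_nonneg hwd hwds hp1
  have hPsi : ∀ i, Psi w val (Dd wd p i) =
      PhR w val (Dd wd p i) - (1 / 2) * (Dd wd p i * RR w val (Dd wd p i)) := fun i =>
    Psi_eq hv hw hs (hD i)
  rw [spectralPart_step hv hw hs hwd hwds hp hp0 hp1]
  have hx := tr_xR (w := w) (val := val) hwd hwds hp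
  have e : ∀ j : Fin m, (leftEnd wd j.succ)⁻¹ *
        (Psi w val (Dd wd p j.castSucc) - Psi w val (Dd wd p j.succ)) =
      (leftEnd wd j.succ)⁻¹ *
          (PhR w val (Dd wd p j.castSucc) - PhR w val (Dd wd p j.succ)) -
      (1 / 2) * ((leftEnd wd j.succ)⁻¹ *
        (Dd wd p j.castSucc * RR w val (Dd wd p j.castSucc) -
          Dd wd p j.succ * RR w val (Dd wd p j.succ))) := by
    intro j
    rw [hPsi, hPsi]; ring
  rw [Finset.sum_congr rfl fun j _ => e j, Finset.sum_sub_distrib, ← Finset.mul_sum, hPsi]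
  linarith

end Field

end

end Crest.Agent.R164.PAlg
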