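import Crest.Agent.R164.CavG2
import Crest.Agent.R164.CavGDef
import Crest.Agent.R141.SkelPm
import Crest.Agent.R164.CavG5

-- ▼ part R164/GEx1
section

/-!
Row 164 (helper491): exponent change and semigroup property for the nested Gaussian functional,
part 1: one step.
-/

set_option autoImplicit false

namespace Crest.Agent.R164.GEx

open MeasureTheory ProbabilityTheory Finset
open Crest.Agent.R164.CavG

noncomputable section

variable {ι : Type*} [Fintype ι]

/-- bounded and measurable -/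
structure BM (c : ℝ) (f : (ι → ℝ) → ℝ) : Prop where
  meas : Measurable f
  bd : ∀ z, |f z| ≤ c

variable {c c' : ℝ} {f f' : (ι → ℝ) → ℝ}

omit [Fintype ι] in
theorem BM.mono (h : BM c f) (hc : c ≤ c') : BM c' f := ⟨h.meas, fun z => (h.bd z).trans hc⟩

omit [Fintype ι] in
theorem BM.nonneg (h : BM c f) : 0 ≤ c := (abs_nonneg _).trans (h.bd fun _ => 0)

omit [Fintype ι] in
theorem BM.exp (h : BM c f) (y : ℝ) : BM (Real.exp (|y| * c)) (fun z => Real.exp (y * f z)) := by
  refine ⟨(h.meas.const_mul y).exp, fun z => ?_⟩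
  rw [Real.abs_exp, Real.exp_le_exp]
  refine (le_abs_self _).trans ?_
  rw [abs_mul]
  exact mul_le_mul_of_nonneg_left (h.bd z) (abs_nonneg _)

omit [Fintype ι] in
theorem BM.smul (h : BM c f) (y : ℝ) : BM (|y| * c) (fun z => y * f z) := by
  refine ⟨h.meas.const_mul y, fun z => ?_⟩
  rw [abs_mul]
  exact mul_le_mul_of_nonneg_left (h.bd z) (abs_nonneg _)

omit [Fintype ι] in
theorem meas_shift (v z : ι → ℝ) :
    Measurable fun (g : ι → ℝ) (k : ι) => z k + Real.sqrt (v k) * g k := by fun_prop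

theorem BM.integrable (h : BM c f) (v z : ι → ℝ) :
    Integrable (fun g => f (fun k => z k + Real.sqrt (v k) * g k)) (gm ι) :=
  Integrable.of_bound (h.meas.comp (meas_shift v z)).aestronglyMeasurable c
    (ae_of_all _ fun g => by rw [Real.norm_eq_abs]; exact h.bd _)

theorem BM.sm (h : BM c f) (v : ι → ℝ) : BM c (sm v f) := by
  refine ⟨?_, fun z => sm_bound v h.bd z⟩
  have : Measurable fun p : (ι → ℝ) × (ι → ℝ) => f (fun k => p.1 k + Real.sqrt (v k) * p.2 k) :=
    h.meas.comp (by fun_prop)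
  exact (this.stronglyMeasurable.integral_prod_right (ν := gm ι)).measurable

theorem sm_mono (h : BM c f) (h' : BM c' f') (hle : ∀ z, f z ≤ f' z) (v z : ι → ℝ) :
    sm v f z ≤ sm v f' z :=
  integral_mono (h.integrable v z) (h'.integrable v z) fun _ => hle _

theorem sm_const (a : ℝ) (v z : ι → ℝ) : sm v (fun _ => a) z = a := by
  unfold sm; simp

theorem sm_smul (a : ℝ) (f : (ι → ℝ) → ℝ) (v z : ι → ℝ) : sm v (fun x => a * f x) z = a * sm v f z :=
  integral_const_mul _ _

theorem sm_add (h : BM c f) (h' : BM c' f') (v z : ι → ℝ) :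
    sm v (fun x => f x + f' x) z = sm v f z + sm v f' z :=
  integral_add (h.integrable v z) (h'.integrable v z)

theorem sm_zero (f : (ι → ℝ) → ℝ) (z : ι → ℝ) : sm (fun _ => 0) f z = f z := by
  unfold sm; simp

/-- semigroup property of the Gaussian average -/
theorem sm_sm (h : BM c f) {v v' : ι → ℝ} (hv : ∀ k, 0 ≤ v k) (hv' : ∀ k, 0 ≤ v' k) (z : ι → ℝ) :
    sm v (sm v' f) z = sm (fun k => v k + v' k) f z := by
  classical
  set F : (ι → ℝ) → ℝ := fun x => f (fun k => z k + x k) with hF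
  have hFm : Measurable F := h.meas.comp (by fun_prop)
  set u : ι → ι ⊕ ι → ℝ := fun a => Sum.elim (fun i => if i = a then Real.sqrt (v a) else 0)
    (fun i => if i = a then Real.sqrt (v' a) else 0) with hu
  set u' : ι → ι → ℝ := fun a i => if i = a then Real.sqrt (v a + v' a) else 0 with hu'
  have hint : Integrable (fun y => F (lin u y)) (gm (ι ⊕ ι)) :=
    Integrable.of_bound (hFm.comp (measurable_lin u)).aestronglyMeasurable c
      (ae_of_all _ fun g => by rw [Real.norm_eq_abs]; exact h.bd _)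
  have e1 := integral_sum_gm hint
  have e2 := integral_lin u u' (fun a b => by
    rw [Fintype.sum_sum_type]
    simp only [hu, hu', Sum.elim_inl, Sum.elim_inr, ite_mul, zero_mul, Finset.sum_ite_eq',
      Finset.mem_univ, if_true]
    by_cases hab : a = b
    · subst hab
      simp only [if_true]
      rw [Real.mul_self_sqrt (hv a), Real.mul_self_sqrt (hv' a),
        Real.mul_self_sqrt (add_nonneg (hv a) (hv' a))]
    · simp only [if_neg hab, mul_zero, add_zero]) hFm
  rw [e1] at e2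
  have l1 : ∀ g0 g1 : ι → ℝ, lin u (Sum.elim g0 g1) =
      fun a => Real.sqrt (v a) * g0 a + Real.sqrt (v' a) * g1 a := by
    intro g0 g1
    funext a
    unfold lin
    rw [Fintype.sum_sum_type]
    simp [hu]
  have l2 : ∀ g : ι → ℝ, lin u' g = fun a => Real.sqrt (v a + v' a) * g a := by
    intro g
    funext a
    unfold lin
    simp [hu']
  simp only [l1, l2, hF] at e2
  unfold sm
  rw [← e2]
  refine integral_congr_ae (ae_of_all _ fun g0 => ?_)
  refine integral_congr_ae (ae_of_all _ fun g1 => ?_)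
  simp only [add_assoc]

/-! ### one step -/

theorem sm_exp_pos (h : BM c f) (y : ℝ) (v z : ι → ℝ) :
    0 < sm v (fun x => Real.exp (y * f x)) z := by
  have h1 : BM 0 (fun _ : ι → ℝ => (0 : ℝ)) := ⟨measurable_const, fun _ => by simp⟩
  have h2 := sm_mono (f := fun _ => Real.exp (-(|y| * c))) (c := Real.exp (-(|y| * c)))
    ⟨measurable_const, fun _ => by rw [Real.abs_exp]⟩ (h.exp y) (fun x => by
      rw [Real.exp_le_exp]
      have := abs_le.1 ((h.smul y).bd x)
      linarith [this.1]) v z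
  rw [sm_const] at h2
  exact lt_of_lt_of_le (Real.exp_pos _) h2

theorem exp_gstep (h : BM c f) {y : ℝ} (hy : 0 < y) (v z : ι → ℝ) :
    Real.exp (y * gstep y v f z) = sm v (fun x => Real.exp (y * f x)) z := by
  unfold gstep
  rw [← mul_assoc, mul_one_div_cancel hy.ne', one_mul, Real.exp_log]
  · rfl
  · exact sm_exp_pos h y v z

theorem gstep_le_iff (h : BM c f) {y : ℝ} (hy : 0 < y) (v z : ι → ℝ) (a : ℝ) :
    gstep y v f z ≤ a ↔ sm v (fun x => Real.exp (y * f x)) z ≤ Real.exp (y * a) := by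
  rw [← exp_gstep h hy, Real.exp_le_exp, mul_le_mul_iff_right₀ hy]

theorem le_gstep_iff (h : BM c f) {y : ℝ} (hy : 0 < y) (v z : ι → ℝ) (a : ℝ) :
    a ≤ gstep y v f z ↔ Real.exp (y * a) ≤ sm v (fun x => Real.exp (y * f x)) z := by
  rw [← exp_gstep h hy, Real.exp_le_exp, mul_le_mul_iff_right₀ hy]

theorem gstep_const {y : ℝ} (hy : 0 < y) (v z : ι → ℝ) (a : ℝ) : gstep y v (fun _ => a) z = a := by
  have h : BM |a| (fun _ : ι → ℝ => a) := ⟨measurable_const, fun _ => le_rfl⟩
  have := exp_gstep h hy v z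
  rw [sm_const, Real.exp_eq_exp] at this
  exact mul_left_cancel₀ hy.ne' this

theorem gstep_mono (h : BM c f) (h' : BM c' f') {y : ℝ} (hy : 0 < y) (hle : ∀ z, f z ≤ f' z)
    (v z : ι → ℝ) : gstep y v f z ≤ gstep y v f' z := by
  rw [gstep_le_iff h hy, exp_gstep h' hy]
  exact sm_mono (h.exp y) (h'.exp y) (fun x => Real.exp_le_exp.2
    (mul_le_mul_of_nonneg_left (hle x) hy.le)) v z

theorem gstep_add_const (h : BM c f) {y : ℝ} (hy : 0 < y) (v z : ι → ℝ) (a : ℝ) :
    gstep y v (fun x => f x + a) z = gstep y v f z + a := by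
  have h' : BM (c + |a|) (fun x => f x + a) := ⟨h.meas.add_const a, fun z =>
    (abs_add_le _ _).trans (add_le_add_left (h.bd z) _)⟩
  have e := exp_gstep h' hy v z
  have e2 : (fun x => Real.exp (y * (f x + a))) = fun x => Real.exp (y * a) * Real.exp (y * f x) := by
    funext x; rw [← Real.exp_add]; congr 1; ring
  rw [e2, sm_smul, ← exp_gstep h hy, ← Real.exp_add, Real.exp_eq_exp] at e
  have : y * gstep y v (fun x => f x + a) z = y * (gstep y v f z + a) := by rw [e]; ring
  exact mul_left_cancel₀ hy.ne' this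

theorem gstep_le_add (h : BM c f) (h' : BM c' f') {y a : ℝ} (hy : 0 < y)
    (hle : ∀ z, f z ≤ f' z + a) (v z : ι → ℝ) : gstep y v f z ≤ gstep y v f' z + a := by
  rw [← gstep_add_const h' hy]
  exact gstep_mono h (c' := c' + |a|) ⟨h'.meas.add_const a, fun z =>
    (abs_add_le _ _).trans (add_le_add_left (h'.bd z) _)⟩ hy hle v z

theorem BM.gstep (h : BM c f) {y : ℝ} (hy : 0 < y) (v : ι → ℝ) : BM c (gstep y v f) := by
  refine ⟨?_, fun z => ?_⟩
  · have h1 := ((h.exp y).sm v).meas
    have : CavG.gstep y v f = fun z => (1 / y) * Real.log (CavG.sm v (fun x => Real.exp (y * f x)) z) := rfl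
    rw [this]
    exact (Real.measurable_log.comp h1).const_mul _
  · rw [abs_le]
    constructor
    · rw [← gstep_const hy v z (-c)]
      exact gstep_mono (c := |-c|) ⟨measurable_const, fun _ => le_rfl⟩ h hy
        (fun x => (abs_le.1 (h.bd x)).1) v z
    · rw [← gstep_const hy v z c]
      exact gstep_mono h (c' := |c|) ⟨measurable_const, fun _ => le_rfl⟩ hy
        (fun x => (abs_le.1 (h.bd x)).2) v z

/-- semigroup property of the step -/
theorem gstep_gstep (h : BM c f) {y : ℝ} (hy : 0 < y) {v v' : ι → ℝ} (hv : ∀ k, 0 ≤ v k)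
    (hv' : ∀ k, 0 ≤ v' k) : gstep y v (gstep y v' f) = gstep y (fun k => v k + v' k) f := by
  funext z
  have e := exp_gstep (h.gstep hy v') hy v z
  have e2 : (fun x => Real.exp (y * gstep y v' f x)) = sm v' (fun x => Real.exp (y * f x)) := by
    funext x; exact exp_gstep h hy v' x
  rw [e2, sm_sm (h.exp y) hv hv', ← exp_gstep h hy, Real.exp_eq_exp] at e
  exact mul_left_cancel₀ hy.ne' e

theorem gstep_zero_var {y : ℝ} (hy : 0 < y) (f : (ι → ℝ) → ℝ) : gstep y (fun _ => 0) f = f := by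
  funext z
  unfold gstep
  simp [Real.log_exp, hy.ne']

/-- monotonicity in the exponent -/
theorem gstep_mono_expo (h : BM c f) {y y' : ℝ} (hy : 0 < y) (hyy : y ≤ y') (v z : ι → ℝ) :
    gstep y v f z ≤ gstep y' v f z := by
  have hy' : 0 < y' := hy.trans_le hyy
  set a := gstep y' v f z with ha
  rw [gstep_le_iff h hy]
  set t := y / y' with ht
  have ht0 : 0 < t := div_pos hy hy'
  have ht1 : t ≤ 1 := (div_le_one hy').2 hyy
  have key : ∀ x, Real.exp (y * f x) ≤ Real.exp (y * a) * (1 - t) +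
      (Real.exp (y * a) * t * Real.exp (-(y' * a))) * Real.exp (y' * f x) := by
    intro x
    have h1 := (convexOn_exp.2 (Set.mem_univ (0 : ℝ)) (Set.mem_univ (y' * (f x - a)))
      (by linarith : 0 ≤ 1 - t) ht0.le (by ring))
    simp only [smul_eq_mul, mul_zero, zero_add, Real.exp_zero, mul_one] at h1
    have h2 : t * (y' * (f x - a)) = y * (f x - a) := by
      rw [ht]; field_simp
    rw [h2] at h1
    have h3 := mul_le_mul_of_nonneg_left h1 (Real.exp_pos (y * a)).le
    have e1 : Real.exp (y * a) * Real.exp (y * (f x - a)) = Real.exp (y * f x) := by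
      rw [← Real.exp_add]; congr 1; ring
    have e2 : Real.exp (y' * (f x - a)) = Real.exp (-(y' * a)) * Real.exp (y' * f x) := by
      rw [← Real.exp_add]; congr 1; ring
    rw [e1, e2] at h3
    linarith
  have h4 := sm_mono (h.exp y) (f' := fun x => Real.exp (y * a) * (1 - t) +
      (Real.exp (y * a) * t * Real.exp (-(y' * a))) * Real.exp (y' * f x))
      (c' := |Real.exp (y * a) * (1 - t)| + |Real.exp (y * a) * t * Real.exp (-(y' * a))| *
        Real.exp (|y'| * c))
      ⟨((h.exp y').meas.const_mul _).const_add _, fun z =>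
        (abs_add_le _ _).trans (add_le_add_right (((h.exp y').smul _).bd z) _)⟩ key v z
  refine h4.trans (le_of_eq ?_)
  rw [sm_add (c := |Real.exp (y * a) * (1 - t)|) ⟨measurable_const, fun _ => le_rfl⟩
    ((h.exp y').smul _), sm_const, sm_smul, ← exp_gstep h hy', ← ha, mul_assoc, mul_assoc,
    ← Real.exp_add, neg_add_cancel, Real.exp_zero]
  ring

/-- Jensen -/
theorem sm_le_gstep (h : BM c f) {y : ℝ} (hy : 0 < y) (v z : ι → ℝ) :
    sm v f z ≤ gstep y v f z := by
  set m := sm v f z with hm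
  rw [le_gstep_iff h hy]
  have key : ∀ x, Real.exp (y * m) * (1 - y * m) + (Real.exp (y * m) * y) * f x ≤
      Real.exp (y * f x) := by
    intro x
    have h1 := Real.add_one_le_exp (y * f x - y * m)
    have h2 := mul_le_mul_of_nonneg_left h1 (Real.exp_pos (y * m)).le
    rw [← Real.exp_add] at h2
    have e : y * m + (y * f x - y * m) = y * f x := by ring
    rw [e] at h2
    linarith
  have h4 := sm_mono (f := fun x => Real.exp (y * m) * (1 - y * m) + (Real.exp (y * m) * y) * f x)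
      (c := |Real.exp (y * m) * (1 - y * m)| + |Real.exp (y * m) * y| * c)
      ⟨(h.meas.const_mul _).const_add _, fun z =>
        (abs_add_le _ _).trans (add_le_add_right ((h.smul _).bd z) _)⟩ (h.exp y) key v z
  refine (le_of_eq ?_).trans h4
  rw [sm_add (c := |Real.exp (y * m) * (1 - y * m)|) ⟨measurable_const, fun _ => le_rfl⟩
    (h.smul _), sm_const, sm_smul, ← hm]
  ring

theorem exp_quad (u : ℝ) : Real.exp u ≤ 1 + u + u ^ 2 * Real.exp |u| := by
  have h1 : Real.exp u - 1 ≤ u * Real.exp u := by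
    have h := mul_le_mul_of_nonneg_right (Real.add_one_le_exp (-u)) (Real.exp_pos u).le
    rw [← Real.exp_add, neg_add_cancel, Real.exp_zero] at h
    linarith
  have h2 : |Real.exp u - 1| ≤ |u| * Real.exp |u| := by
    rcases le_total 0 u with h | h
    · rw [abs_of_nonneg (by linarith [Real.one_le_exp h]), abs_of_nonneg h]; exact h1
    · rw [abs_of_nonpos (by linarith [Real.exp_le_one_iff.2 h])]
      have h3 := Real.add_one_le_exp u
      have h4 : |u| * 1 ≤ |u| * Real.exp |u| :=
        mul_le_mul_of_nonneg_left (Real.one_le_exp (abs_nonneg u)) (abs_nonneg u)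
      rw [abs_of_nonpos h] at h4 ⊢
      linarith
  have h3 : u * (Real.exp u - 1) ≤ |u| * (|u| * Real.exp |u|) := by
    refine (le_abs_self _).trans ?_
    rw [abs_mul]
    exact mul_le_mul_of_nonneg_left h2 (abs_nonneg u)
  have h4 : |u| * (|u| * Real.exp |u|) = u ^ 2 * Real.exp |u| := by
    rw [← mul_assoc, ← sq, sq_abs]
  linarith

/-- a step with a small exponent is nearly the plain average -/
theorem gstep_le_sm (h : BM c f) {y : ℝ} (hy : 0 < y) (v z : ι → ℝ) :
    gstep y v f z ≤ sm v f z + y * (c ^ 2 * Real.exp (y * c)) := by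
  rw [gstep_le_iff h hy]
  have hc := h.nonneg
  have key : ∀ x, Real.exp (y * f x) ≤ (1 + y * (y * (c ^ 2 * Real.exp (y * c)))) + y * f x := by
    intro x
    have h1 := exp_quad (y * f x)
    have h2 : |y * f x| ≤ y * c := by
      rw [abs_mul, abs_of_pos hy]
      exact mul_le_mul_of_nonneg_left (h.bd x) hy.le
    have h3 : (y * f x) ^ 2 ≤ (y * c) ^ 2 := by
      rw [← sq_abs]
      exact pow_le_pow_left₀ (abs_nonneg _) h2 2
    have h4 := mul_le_mul h3 (Real.exp_le_exp.2 h2) (Real.exp_pos _).le (by positivity)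
    have e : (y * c) ^ 2 * Real.exp (y * c) = y * (y * (c ^ 2 * Real.exp (y * c))) := by ring
    linarith
  set a := 1 + y * (y * (c ^ 2 * Real.exp (y * c))) with ha
  have h4 := sm_mono (h.exp y) (f' := fun x => a + y * f x) (c' := |a| + |y| * c)
      ⟨(h.meas.const_mul _).const_add _, fun z =>
        (abs_add_le _ _).trans (add_le_add_right ((h.smul _).bd z) _)⟩ key v z
  refine h4.trans ?_
  rw [sm_add (c := |a|) ⟨measurable_const, fun _ => le_rfl⟩ (h.smul _), sm_const, sm_smul]
  have h5 := Real.add_one_le_exp (y * (sm v f z + y * (c ^ 2 * Real.exp (y * c))))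
  rw [ha]
  linarith

end

end Crest.Agent.R164.GEx
end

-- ▼ part R164/GEx2
section

/-!
Row 164 (helper491): exponent change and coarse/fine comparison for the nested Gaussian functional,
part 2: the nested functional.
-/

set_option autoImplicit false

namespace Crest.Agent.R164.GEx

open MeasureTheory ProbabilityTheory Finset
open Crest.Agent.R164.CavG
open Crest.Agent.R141.Fact (ySk ySk_pos ySk_zero ySk_le_one)

noncomputable section

variable {ι : Type*} [Fintype ι] {c : ℝ} {w : (ι → ℝ) → ℝ}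

/-- the nested functional is bounded and measurable -/
theorem BM.th (h : BM c w) {y : ℕ → ℝ} (v : ℕ → ι → ℝ) : ∀ n, (∀ m, m < n → 0 < y m) →
    BM c (CavG.th y v w n)
  | 0, _ => h
  | n + 1, hy => (h.th v n fun m hm => hy m (by omega)).gstep (hy n (Nat.lt_succ_self n)) _


/-- the final plain expectation -/
theorem gval_eq (J : ℕ) (y : ℕ → ℝ) (v : ℕ → ι → ℝ) (w : (ι → ℝ) → ℝ) :
    gval J y v w = sm (v (J + 1)) (CavG.th y v w (J + 1)) (fun _ => 0) := by
  unfold gval sm
  simp only [zero_add]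

/-- monotonicity in the exponents -/
theorem th_mono_expo (h : BM c w) {y y' : ℕ → ℝ} (v : ℕ → ι → ℝ) : ∀ n,
    (∀ m, m < n → 0 < y m ∧ y m ≤ y' m) → ∀ z, CavG.th y v w n z ≤ CavG.th y' v w n z
  | 0, _, _ => le_rfl
  | n + 1, hy, z => by
      have ih := th_mono_expo h v n (fun m hm => hy m (by omega))
      have h1 := h.th (y := y) v n fun m hm => (hy m (by omega)).1
      have h2 := h.th (y := y') v n fun m hm => (hy m (by omega)).1.trans_le (hy m (by omega)).2
      have hn := hy n (Nat.lt_succ_self n)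
      exact (gstep_mono_expo h1 hn.1 hn.2 (v n) z).trans
        (gstep_mono h1 h2 (hn.1.trans_le hn.2) ih (v n) z)

theorem gval_mono_expo (h : BM c w) {y y' : ℕ → ℝ} (v : ℕ → ι → ℝ) (J : ℕ)
    (hy : ∀ m, m ≤ J → 0 < y m ∧ y m ≤ y' m) : gval J y v w ≤ gval J y' v w := by
  rw [gval_eq, gval_eq]
  exact sm_mono (h.th v _ fun m hm => (hy m (by omega)).1)
    (h.th v _ fun m hm => (hy m (by omega)).1.trans_le (hy m (by omega)).2)
    (th_mono_expo h v (J + 1) fun m hm => hy m (by omega)) _ _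

/-- comparison of the leaf functions -/
theorem th_le_add {w' : (ι → ℝ) → ℝ} {c' a : ℝ} (h : BM c w) (h' : BM c' w') {y : ℕ → ℝ}
    (v : ℕ → ι → ℝ) (hle : ∀ z, w z ≤ w' z + a) : ∀ n, (∀ m, m < n → 0 < y m) → ∀ z,
    CavG.th y v w n z ≤ CavG.th y v w' n z + a
  | 0, _, z => hle z
  | n + 1, hy, z => gstep_le_add (h.th v n fun m hm => hy m (by omega))
      (h'.th v n fun m hm => hy m (by omega)) (hy n (Nat.lt_succ_self n))
      (th_le_add h h' v hle n fun m hm => hy m (by omega)) (v n) z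

theorem gval_le_add {w' : (ι → ℝ) → ℝ} {c' a : ℝ} (h : BM c w) (h' : BM c' w') {y : ℕ → ℝ}
    (v : ℕ → ι → ℝ) (hle : ∀ z, w z ≤ w' z + a) (J : ℕ) (hy : ∀ m, m ≤ J → 0 < y m) :
    gval J y v w ≤ gval J y v w' + a := by
  rw [gval_eq, gval_eq]
  have h1 := sm_mono (h.th (y := y) v (J + 1) fun m hm => hy m (by omega))
    (f' := fun z => CavG.th y v w' (J + 1) z + a) (c' := c' + |a|)
    ⟨(h'.th (y := y) v (J + 1) fun m hm => hy m (by omega)).meas.add_const a, fun z =>
      (abs_add_le _ _).trans (add_le_add_left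
        ((h'.th (y := y) v (J + 1) fun m hm => hy m (by omega)).bd z) _)⟩
    (th_le_add h h' v hle (J + 1) fun m hm => hy m (by omega)) (v (J + 1)) (fun _ => 0)
  rwa [sm_add (h'.th (y := y) v (J + 1) fun m hm => hy m (by omega)) (c' := |a|)
    ⟨measurable_const, fun _ => le_rfl⟩, sm_const] at h1

theorem th_congr {y y' : ℕ → ℝ} {v v' : ℕ → ι → ℝ} (w : (ι → ℝ) → ℝ) : ∀ n,
    (∀ m, m < n → y m = y' m) → (∀ m, m < n → v m = v' m) → CavG.th y v w n = CavG.th y' v' w n
  | 0, _, _ => rfl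
  | n + 1, hy, hv => by
      rw [th_succ, th_succ, hy n (Nat.lt_succ_self n), hv n (Nat.lt_succ_self n),
        th_congr w n (fun m hm => hy m (by omega)) fun m hm => hv m (by omega)]

/-- scaling: multiplying all exponents by `l` -/
theorem th_scale (w : (ι → ℝ) → ℝ) {y : ℕ → ℝ} (v : ℕ → ι → ℝ) {l : ℝ} (hl : 0 < l) : ∀ n,
    ∀ z, l * CavG.th (fun m => l * y m) v w n z = CavG.th y v (fun z => l * w z) n z
  | 0, _ => rfl
  | n + 1, z => by
      have ih := th_scale w (y := y) v hl n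
      rw [th_succ, th_succ]
      unfold gstep
      have e : ∀ x, l * y n * CavG.th (fun m => l * y m) v w n x =
          y n * CavG.th y v (fun z => l * w z) n x := fun x => by rw [← ih x]; ring
      simp only [e]
      rw [← mul_assoc]
      congr 1
      by_cases h0 : y n = 0
      · simp [h0]
      · field_simp

/-- multiplicatively close exponents -/
theorem th_ratio (h : BM c w) {y y' : ℕ → ℝ} (v : ℕ → ι → ℝ) {l : ℝ} (hl : 1 ≤ l) (n : ℕ)
    (hy : ∀ m, m < n → 0 < y m ∧ y m ≤ y' m ∧ y' m ≤ l * y m) (z : ι → ℝ) :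
    CavG.th y' v w n z ≤ CavG.th y v w n z + 2 * c * (l - 1) := by
  have hl0 : 0 < l := by linarith
  have hc := h.nonneg
  have h1 := th_mono_expo h (y := y') (y' := fun m => l * y m) v n (fun m hm =>
    ⟨(hy m hm).1.trans_le (hy m hm).2.1, (hy m hm).2.2⟩) z
  have h2 := th_scale w (y := y) v hl0 n z
  have h3 := th_le_add (h.smul l) h (y := y) v (a := (l - 1) * c) (fun z => by
    have := (abs_le.1 (h.bd z)).2
    nlinarith) n (fun m hm => (hy m hm).1) z
  have h4 := (abs_le.1 ((h.th (y := y) v n fun m hm => (hy m hm).1).bd z)).1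
  rw [← h2] at h3
  set A := CavG.th (fun m => l * y m) v w n z
  set B := CavG.th y v w n z
  have h5 : l * A ≤ l * (B + 2 * c * (l - 1)) := by
    have : 0 ≤ (l - 1) * (B + c) := mul_nonneg (by linarith) (by linarith)
    have : 0 ≤ (l - 1) * (l - 1) * c := by positivity
    nlinarith
  exact h1.trans (le_of_mul_le_mul_left h5 hl0)

/-- steps with equal exponents collapse -/
theorem th_collapse (h : BM c w) {y : ℕ → ℝ} {v : ℕ → ι → ℝ} (hv : ∀ m k, 0 ≤ v m k) {a : ℝ}
    (ha : 0 < a) (n0 : ℕ) (hy0 : ∀ m, m < n0 → 0 < y m) : ∀ q, (∀ m, m < q → y (n0 + m) = a) →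
    CavG.th y v w (n0 + q) = gstep a (fun k => ∑ m ∈ range q, v (n0 + m) k) (CavG.th y v w n0)
  | 0, _ => by simp [gstep_zero_var ha]
  | q + 1, hy => by
      rw [← add_assoc, th_succ, th_collapse h hv ha n0 hy0 q fun m hm => hy m (by omega),
        hy q (Nat.lt_succ_self q), gstep_gstep (h.th v n0 hy0) ha (hv _)
          (fun k => Finset.sum_nonneg fun m _ => hv _ k)]
      congr 1
      funext k
      rw [Finset.sum_range_succ, add_comm]

/-- levels with small exponents: lower bound by the plain average -/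
theorem sm_le_th (h : BM c w) {y : ℕ → ℝ} {v : ℕ → ι → ℝ} (hv : ∀ m k, 0 ≤ v m k) (n0 : ℕ)
    (q : ℕ) (hy : ∀ m, m < n0 + q → 0 < y m) (z : ι → ℝ) :
    sm (fun k => ∑ m ∈ range q, v (n0 + m) k) (CavG.th y v w n0) z ≤ CavG.th y v w (n0 + q) z := by
  induction q generalizing z with
  | zero => simp [sm_zero]
  | succ q ih =>
    have ih' := ih fun m hm => hy m (by omega)
    have h0 := h.th (y := y) v n0 fun m hm => hy m (by omega)
    have h1 := h.th (y := y) v (n0 + q) fun m hm => hy m (by omega)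
    rw [← add_assoc, th_succ]
    have e : sm (fun k => ∑ m ∈ range (q + 1), v (n0 + m) k) (CavG.th y v w n0) z =
        sm (v (n0 + q)) (sm (fun k => ∑ m ∈ range q, v (n0 + m) k) (CavG.th y v w n0)) z := by
      rw [sm_sm h0 (hv _) (fun k => Finset.sum_nonneg fun m _ => hv _ k)]
      congr 1
      funext k
      rw [Finset.sum_range_succ, add_comm]
    rw [e]
    exact (sm_mono (h0.sm _) h1 ih' _ z).trans (sm_le_gstep h1 (hy _ (by omega)) _ z)

/-- levels with small exponents: upper bound by the plain average -/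
theorem th_le_sm (h : BM c w) {y : ℕ → ℝ} {v : ℕ → ι → ℝ} (hv : ∀ m k, 0 ≤ v m k) {a : ℝ}
    (n0 : ℕ) (q : ℕ) (ha : 0 < a) (hy0 : ∀ m, m < n0 → 0 < y m)
    (hy : ∀ m, m < q → 0 < y (n0 + m) ∧ y (n0 + m) ≤ a) (z : ι → ℝ) :
    CavG.th y v w (n0 + q) z ≤
      sm (fun k => ∑ m ∈ range q, v (n0 + m) k) (CavG.th y v w n0) z +
        a * (c ^ 2 * Real.exp (a * c)) := by
  set y' : ℕ → ℝ := fun m => if m < n0 then y m else a with hy'
  have h1 := th_mono_expo h (y := y) (y' := y') v (n0 + q) (fun m hm => by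
    simp only [hy']
    split_ifs with hmn
    · exact ⟨hy0 m hmn, le_rfl⟩
    · obtain ⟨r, rfl⟩ : ∃ r, m = n0 + r := ⟨m - n0, by omega⟩
      exact hy r (by omega)) z
  have h2 := th_collapse h (y := y') hv ha n0 (fun m hm => by
    simp only [hy', if_pos hm]; exact hy0 m hm) q (fun m _ => by
    simp only [hy']; rw [if_neg (by omega)])
  have h3 : CavG.th y' v w n0 = CavG.th y v w n0 := th_congr w n0 (fun m hm => by
    simp only [hy', if_pos hm]) fun m _ => rfl
  rw [h2, h3] at h1
  exact h1.trans (gstep_le_sm (h.th (y := y) v n0 hy0) ha _ z)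

/-- **Exponent change**, uniform in the number of levels. -/
theorem gval_expo (h : BM c w) {y y' : ℕ → ℝ} {v : ℕ → ι → ℝ} (hv : ∀ m k, 0 ≤ v m k) {J : ℕ}
    {δ ρ : ℝ} (hρ : δ < ρ) (hya : ∀ m n, m ≤ n → n ≤ J → y n ≤ y m)
    (hy : ∀ m, m ≤ J → 0 < y m) (hyy : ∀ m, m ≤ J → y m ≤ y' m ∧ y' m ≤ y m + δ) :
    gval J y v w ≤ gval J y' v w ∧
    gval J y' v w ≤ gval J y v w + 2 * c * (δ / ρ) +
      (ρ + δ) * (c ^ 2 * Real.exp ((ρ + δ) * c)) := by
  refine ⟨gval_mono_expo h v J fun m hm => ⟨hy m hm, (hyy m hm).1⟩, ?_⟩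
  have hδ : 0 ≤ δ := by have := hyy 0 (Nat.zero_le J); linarith [this.1, this.2]
  have hρ0 : 0 < ρ := by linarith
  have hc := h.nonneg
  -- the splitting level
  obtain ⟨n0, hn0, hlow, hhigh⟩ : ∃ n0, n0 ≤ J + 1 ∧ (∀ m, m < n0 → ρ ≤ y m) ∧
      (∀ m, n0 ≤ m → m ≤ J → y m < ρ) := by
    classical
    by_cases hex : ∃ m, m ≤ J ∧ y m < ρ
    · refine ⟨Nat.find hex, (Nat.find_spec hex).1.trans (Nat.le_succ J), fun m hm => ?_,
        fun m hm hmJ => ?_⟩
      · by_contra hcon
        push Not at hcon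
        have := (Nat.find_spec hex).1
        exact Nat.find_min hex hm ⟨by omega, hcon⟩
      · exact (hya _ _ hm hmJ).trans_lt (Nat.find_spec hex).2
    · push Not at hex
      exact ⟨J + 1, le_rfl, fun m hm => hex m (by omega), fun m hm hmJ => by omega⟩
  obtain ⟨q, hq⟩ : ∃ q, J + 1 = n0 + q := ⟨J + 1 - n0, by omega⟩
  have py : ∀ m, m < n0 → 0 < y m := fun m hm => hy m (by omega)
  have py' : ∀ m, m ≤ J → 0 < y' m := fun m hm => (hy m hm).trans_le (hyy m hm).1
  have hl : (1 : ℝ) ≤ 1 + δ / ρ := by have : 0 ≤ δ / ρ := by positivity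
                                      linarith
  -- inner levels
  have h1 := th_ratio h (y := y) (y' := y') v hl n0 (fun m hm => by
    refine ⟨py m hm, (hyy m (by omega)).1, (hyy m (by omega)).2.trans ?_⟩
    have h2 : δ / ρ * ρ ≤ δ / ρ * y m := mul_le_mul_of_nonneg_left (hlow m hm) (by positivity)
    rw [div_mul_cancel₀ _ hρ0.ne'] at h2
    linarith)
  -- outer levels
  have h2 := th_le_sm h (y := y') hv n0 q (a := ρ + δ) (by linarith)
    (fun m hm => py' m (by omega)) (fun m hm => ⟨py' _ (by omega), by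
      have a1 := hhigh (n0 + m) (by omega) (by omega)
      have a2 := (hyy (n0 + m) (by omega)).2
      linarith⟩)
  have h3 := sm_le_th h (y := y) hv n0 q (fun m hm => hy m (by omega))
  have b0 := h.th (y := y) v n0 py
  have b0' := h.th (y := y') v n0 fun m hm => py' m (by omega)
  have b1 := h.th (y := y) v (n0 + q) fun m hm => hy m (by omega)
  have b1' := h.th (y := y') v (n0 + q) fun m hm => py' m (by omega)
  have h4 : ∀ z, CavG.th y' v w (n0 + q) z ≤ CavG.th y v w (n0 + q) z +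
      (2 * c * (δ / ρ) + (ρ + δ) * (c ^ 2 * Real.exp ((ρ + δ) * c))) := by
    intro z
    have h5 := sm_mono b0' (f' := fun z => CavG.th y v w n0 z + 2 * c * (1 + δ / ρ - 1))
      (c' := c + |2 * c * (1 + δ / ρ - 1)|) ⟨b0.meas.add_const _, fun z =>
        (abs_add_le _ _).trans (add_le_add_left (b0.bd z) _)⟩ h1
      (fun k => ∑ m ∈ range q, v (n0 + m) k) z
    rw [sm_add b0 (c' := |2 * c * (1 + δ / ρ - 1)|) ⟨measurable_const, fun _ => le_rfl⟩,
      sm_const] at h5
    have h6 := h2 z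
    have h7 := h3 z
    have e : 2 * c * (1 + δ / ρ - 1) = 2 * c * (δ / ρ) := by ring
    rw [e] at h5
    linarith
  rw [gval_eq, gval_eq, hq]
  have h5 := sm_mono b1' (f' := fun z => CavG.th y v w (n0 + q) z +
      (2 * c * (δ / ρ) + (ρ + δ) * (c ^ 2 * Real.exp ((ρ + δ) * c))))
    (c' := c + |2 * c * (δ / ρ) + (ρ + δ) * (c ^ 2 * Real.exp ((ρ + δ) * c))|)
    ⟨b1.meas.add_const _, fun z => (abs_add_le _ _).trans (add_le_add_left (b1.bd z) _)⟩ h4
      (v (n0 + q)) (fun _ => 0)
  rw [sm_add b1 (c' := |2 * c * (δ / ρ) + (ρ + δ) * (c ^ 2 * Real.exp ((ρ + δ) * c))|)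
    ⟨measurable_const, fun _ => le_rfl⟩, sm_const] at h5
  linarith

/-! ### coarse and fine -/

/-- block sums of the fine variances; the bottom is kept -/
def cv (J q : ℕ) (v : ℕ → ι → ℝ) (j : ℕ) : ι → ℝ :=
  if j ≤ J then fun k => ∑ r ∈ range q, v (q * j + r) k else v (q * (J + 1))

theorem th_coarse (h : BM c w) {v : ℕ → ι → ℝ} (hv : ∀ m k, 0 ≤ v m k) {J q : ℕ} (hq : 0 < q)
    {Y : ℕ → ℝ} (hY : ∀ j, j ≤ J → 0 < Y j) : ∀ j, j ≤ J + 1 →
    CavG.th (fun m => Y (m / q)) v w (q * j) = CavG.th Y (cv J q v) w j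
  | 0, _ => rfl
  | j + 1, hj => by
      have ih := th_coarse h hv hq hY j (by omega)
      have e : q * (j + 1) = q * j + q := by ring
      rw [e, th_collapse h hv (hY j (by omega)) (q * j) (fun m hm => hY _ (by
        have : m / q < j := Nat.div_lt_of_lt_mul hm
        omega)) q (fun m hm => by
          show Y ((q * j + m) / q) = Y j
          rw [Nat.mul_add_div hq, Nat.div_eq_of_lt hm, add_zero]), ih, th_succ]
      congr 1
      unfold cv
      rw [if_pos (by omega)]

/-- the coarse functional is the fine one with piecewise constant exponents -/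
theorem gval_coarse (h : BM c w) {v : ℕ → ι → ℝ} (hv : ∀ m k, 0 ≤ v m k) {J q n : ℕ} (hq : 0 < q)
    (hn : n + 1 = q * (J + 1)) {Y : ℕ → ℝ} (hY : ∀ j, j ≤ J → 0 < Y j) :
    gval n (fun m => Y (m / q)) v w = gval J Y (cv J q v) w := by
  rw [gval_eq, gval_eq, hn, th_coarse h hv hq hY (J + 1) le_rfl]
  congr 1
  unfold cv
  rw [if_neg (by omega)]

theorem ySk_fine_le {J q n m : ℕ} (hq : 0 < q) (hn : n + 1 = q * (J + 1)) :
    ySk n m ≤ ySk J (m / q) ∧ ySk J (m / q) ≤ ySk n m + 1 / ((J : ℝ) + 1) := by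
  have hn' : ((n : ℝ) + 1) = q * ((J : ℝ) + 1) := by exact_mod_cast hn
  have hJ : (0 : ℝ) < (J : ℝ) + 1 := by positivity
  have hq' : (0 : ℝ) < q := by exact_mod_cast hq
  have hdm : q * (m / q) + m % q = m := Nat.div_add_mod m q
  have hr : m % q < q := Nat.mod_lt m hq
  have hdm' : (q : ℝ) * ((m / q : ℕ) : ℝ) + ((m % q : ℕ) : ℝ) = m := by exact_mod_cast hdm
  have hr' : ((m % q : ℕ) : ℝ) ≤ q := by exact_mod_cast hr.le
  have hr0 : (0 : ℝ) ≤ ((m % q : ℕ) : ℝ) := by positivity
  have e : ySk J (m / q) - ySk n m = ((m % q : ℕ) : ℝ) / (q * ((J : ℝ) + 1)) := by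
    unfold ySk
    rw [hn', ← hdm']
    field_simp
    ring
  have h1 : 0 ≤ ((m % q : ℕ) : ℝ) / (q * ((J : ℝ) + 1)) := by positivity
  have h2 : ((m % q : ℕ) : ℝ) / (q * ((J : ℝ) + 1)) ≤ 1 / ((J : ℝ) + 1) := by
    rw [div_le_div_iff₀ (by positivity) hJ]
    nlinarith
  constructor <;> linarith

/-- the error of the coarse/fine comparison -/
def cfErr (c : ℝ) (J : ℕ) : ℝ :=
  2 * c * (1 / Real.sqrt ((J : ℝ) + 1)) +
    (2 / Real.sqrt ((J : ℝ) + 1)) * (c ^ 2 * Real.exp ((2 / Real.sqrt ((J : ℝ) + 1)) * c))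

/-- **Coarse/fine comparison**: with uniform exponents, the fine functional is at most the coarse
one, and the difference is small uniformly in the fine level `n`. -/
theorem fine_le_coarse (h : BM c w) {v : ℕ → ι → ℝ} (hv : ∀ m k, 0 ≤ v m k) {J q n : ℕ}
    (hq : 0 < q) (hn : n + 1 = q * (J + 1)) :
    gval n (ySk n) v w ≤ gval J (ySk J) (cv J q v) w := by
  rw [← gval_coarse h hv hq hn fun j hj => ySk_pos hj]
  exact gval_mono_expo h v n fun m hm => ⟨ySk_pos hm, (ySk_fine_le hq hn).1⟩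

theorem coarse_le_fine (h : BM c w) {v : ℕ → ι → ℝ} (hv : ∀ m k, 0 ≤ v m k) {J q n : ℕ}
    (hq : 0 < q) (hJ : 0 < J) (hn : n + 1 = q * (J + 1)) :
    gval J (ySk J) (cv J q v) w ≤ gval n (ySk n) v w + cfErr c J := by
  rw [← gval_coarse h hv hq hn fun j hj => ySk_pos hj]
  have hc := h.nonneg
  have hJ0 : (1 : ℝ) < (J : ℝ) + 1 := by
    have : (0 : ℝ) < J := by exact_mod_cast hJ
    linarith
  set s := Real.sqrt ((J : ℝ) + 1) with hs
  have hs1 : 1 < s := by
    have := Real.sqrt_lt_sqrt (by norm_num : (0 : ℝ) ≤ 1) hJ0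
    rwa [Real.sqrt_one] at this
  have hss : s * s = (J : ℝ) + 1 := Real.mul_self_sqrt (by linarith)
  have hlt : 1 / ((J : ℝ) + 1) < 1 / s := by
    rw [← hss]
    exact one_div_lt_one_div_of_lt (by linarith) (by nlinarith)
  have h1 := (gval_expo h (y := ySk n) (y' := fun m => ySk J (m / q)) hv (J := n) hlt
    (fun m m' hmm _ => by
      unfold ySk
      have : (m : ℝ) ≤ m' := by exact_mod_cast hmm
      gcongr) (fun m hm => ySk_pos hm) (fun m _ => ySk_fine_le hq hn)).2
  refine h1.trans ?_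
  have e1 : 1 / ((J : ℝ) + 1) / (1 / s) = 1 / s := by
    rw [← hss]
    have : s ≠ 0 := by linarith
    field_simp
  have e2 : 1 / s + 1 / ((J : ℝ) + 1) ≤ 2 / s := by
    have : 2 / s = 1 / s + 1 / s := by ring
    linarith
  have h3 : 0 ≤ 1 / s + 1 / ((J : ℝ) + 1) := by positivity
  have e3 : (1 / s + 1 / ((J : ℝ) + 1)) * (c ^ 2 * Real.exp ((1 / s + 1 / ((J : ℝ) + 1)) * c)) ≤
      (2 / s) * (c ^ 2 * Real.exp ((2 / s) * c)) := by
    have : (1 / s + 1 / ((J : ℝ) + 1)) * c ≤ 2 / s * c := mul_le_mul_of_nonneg_right e2 hc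
    gcongr
  unfold cfErr
  rw [e1, ← hs]
  linarith

/-- two-sided form -/
theorem coarse_fine (h : BM c w) {v : ℕ → ι → ℝ} (hv : ∀ m k, 0 ≤ v m k) {J q n : ℕ}
    (hq : 0 < q) (hJ : 0 < J) (hn : n + 1 = q * (J + 1)) :
    |gval n (ySk n) v w - gval J (ySk J) (cv J q v) w| ≤ cfErr c J := by
  have h1 := fine_le_coarse h hv hq hn
  have h2 := coarse_le_fine h hv hq hJ hn
  have h3 : 0 ≤ cfErr c J := by
    have := h.nonneg
    unfold cfErr
    positivity
  rw [abs_le]
  constructor <;> linarith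

theorem cfErr_tendsto (c : ℝ) : Filter.Tendsto (cfErr c) Filter.atTop (nhds 0) := by
  have h1 : Filter.Tendsto (fun J : ℕ => 1 / Real.sqrt ((J : ℝ) + 1)) Filter.atTop (nhds 0) := by
    have h2 : Filter.Tendsto (fun J : ℕ => ((J : ℝ) + 1)) Filter.atTop Filter.atTop :=
      Filter.tendsto_atTop_add_const_right _ _ tendsto_natCast_atTop_atTop
    simp only [one_div]
    exact tendsto_inv_atTop_zero.comp (Real.tendsto_sqrt_atTop.comp h2)
  have h2 : Filter.Tendsto (fun J : ℕ => 2 / Real.sqrt ((J : ℝ) + 1)) Filter.atTop (nhds 0) := by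
    have := h1.const_mul 2
    rw [mul_zero] at this
    refine this.congr fun J => ?_
    ring
  have h3 := (h1.const_mul (2 * c)).add (h2.mul
    (((Real.continuous_exp.tendsto _).comp (h2.mul_const c)).const_mul (c ^ 2)))
  simp only [mul_zero, zero_mul, add_zero] at h3
  exact h3

end

end Crest.Agent.R164.GEx
end

-- ▼ part R164/GEx3

/-!
Row 164 (helper491): coarse/fine comparison, part 3: block sums of telescoping variances, in the
form of `CavG.vC`.
-/

set_option autoImplicit false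

namespace Crest.Agent.R164.GEx

open Finset
open Crest.Agent.R164.CavG
open Crest.Agent.R141.Fact (ySk ySk_pos ySk_zero ySk_le_one)

noncomputable section

theorem sum_tele (Q : ℕ → ℝ) (a q : ℕ) :
    ∑ r ∈ range q, (Q (a + r) - Q (a + r + 1)) = Q a - Q (a + q) := by
  induction q with
  | zero => simp
  | succ q ih => rw [sum_range_succ, ih, ← add_assoc]; ring

/-- block sums of the label variances -/
def cb (J q : ℕ) (bv : ℕ → ℝ) (j : ℕ) : ℝ :=
  if j ≤ J then ∑ r ∈ range q, bv (q * j + r) else bv (q * (J + 1))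

/-- the block sums of the variances `vC` are the `vC` of the subsampled covariances -/
theorem cv_vC {β : Type} {J q n : ℕ} (hn : n + 1 = q * (J + 1)) (Q : ℕ → β → ℝ) (bv : ℕ → ℝ)
    (j : ℕ) (hj : j ≤ J + 1) :
    cv J q (vC n Q bv) j = vC J (fun i => Q (q * i)) (cb J q bv) j := by
  funext k
  unfold cv cb
  by_cases h : j ≤ J
  · rw [if_pos h]
    have hlt : ∀ r, r < q → q * j + r ≤ n := fun r hr => by
      have h1 : q * j + q ≤ q * (J + 1) := by
        rw [← Nat.mul_succ]; exact Nat.mul_le_mul_left q (by omega)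
      omega
    rcases k with k | k
    · show ∑ r ∈ range q, bv (q * j + r) = if j ≤ J then _ else _
      rw [if_pos h]
    · show ∑ r ∈ range q, (if q * j + r ≤ n then Q (q * j + r) k - Q (q * j + r + 1) k else _) =
        if j ≤ J then Q (q * j) k - Q (q * (j + 1)) k else _
      rw [if_pos h, Nat.mul_succ, ← sum_tele (fun m => Q m k) (q * j) q]
      exact sum_congr rfl fun r hr => by rw [if_pos (hlt r (mem_range.1 hr))]
  · have hj' : j = J + 1 := by omega
    rw [if_neg h, hj']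
    rcases k with k | k
    · show bv (q * (J + 1)) = if J + 1 ≤ J then _ else _
      rw [if_neg (by omega)]
    · show (if q * (J + 1) ≤ n then _ else Q (q * (J + 1)) k) =
        if J + 1 ≤ J then _ else Q (q * (J + 1)) k
      rw [if_neg (by omega), if_neg (by omega)]

theorem gval_congr {ι : Type*} [Fintype ι] {J : ℕ} {y y' : ℕ → ℝ} {v v' : ℕ → ι → ℝ}
    (w : (ι → ℝ) → ℝ) (hy : ∀ m, m ≤ J → y m = y' m) (hv : ∀ m, m ≤ J + 1 → v m = v' m) :
    gval J y v w = gval J y' v' w := by
  rw [gval_eq, gval_eq, hv (J + 1) le_rfl,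
    th_congr w (J + 1) (fun m hm => hy m (by omega)) fun m hm => hv m (by omega)]

/-- **Coarse/fine comparison** for the cavity functional. -/
theorem coarse_fine_vC {β : Type} [Fintype β] {c : ℝ} {w : (Unit ⊕ β → ℝ) → ℝ} (h : BM c w)
    {J q n : ℕ} (hq : 0 < q) (hJ : 0 < J) (hn : n + 1 = q * (J + 1)) {Q : ℕ → β → ℝ}
    {bv : ℕ → ℝ} (hQ0 : ∀ k, 0 ≤ Q (n + 1) k) (hQ : ∀ m k, m ≤ n → Q (m + 1) k ≤ Q m k)
    (hb : ∀ m, 0 ≤ bv m) :
    |gval n (ySk n) (vC n Q bv) w -
      gval J (ySk J) (vC J (fun i => Q (q * i)) (cb J q bv)) w| ≤ cfErr c J := by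
  set v' : ℕ → Unit ⊕ β → ℝ := fun m => if m ≤ n + 1 then vC n Q bv m else fun _ => 0 with hv'
  have e1 : gval n (ySk n) (vC n Q bv) w = gval n (ySk n) v' w :=
    gval_congr w (fun _ _ => rfl) fun m hm => by simp only [hv', if_pos hm]
  have e2 : gval J (ySk J) (vC J (fun i => Q (q * i)) (cb J q bv)) w =
      gval J (ySk J) (cv J q v') w := gval_congr w (fun _ _ => rfl) fun j hj => by
    rw [← cv_vC hn Q bv j hj]
    unfold cv
    by_cases h : j ≤ J
    · rw [if_pos h, if_pos h]
      funext k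
      refine sum_congr rfl fun r hr => ?_
      have h1 : q * j + q ≤ q * (J + 1) := by
        rw [← Nat.mul_succ]; exact Nat.mul_le_mul_left q (by omega)
      have h2 := mem_range.1 hr
      simp only [hv']
      rw [if_pos (by omega)]
    · rw [if_neg h, if_neg h]
      simp only [hv']
      rw [if_pos (by omega)]
  rw [e1, e2]
  refine coarse_fine h (fun m k => ?_) hq hJ hn
  simp only [hv']
  split_ifs with hm
  · rcases k with k | k
    · exact hb m
    · show 0 ≤ if m ≤ n then Q m k - Q (m + 1) k else Q m k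
      split_ifs with hmn
      · exact sub_nonneg.2 (hQ m k hmn)
      · rw [show m = n + 1 by omega]; exact hQ0 k
  · exact le_rfl

end

end Crest.Agent.R164.GEx
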