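import Crest.Agent.R164.RTrans2
import Crest.Agent.R164.SDAlg3
import Crest.Agent.R164.PAlg2

-- ▼ part R164/RScale
section

/-!
Row 164: scaling of the edge-extended R-transform and the monotonicity lemma of helper893:
for `0 ≤ s ≤ t` the function `x ↦ t R(t x) - s R(s x)` is nondecreasing on `[0, ∞)`.
-/

set_option autoImplicit false

namespace Crest.Agent.R164.RScale

open MeasureTheory Crest.ProbabilityR.InvariantGlass Set Crest.Agent.R164.RTrans

variable {μ : Measure ℝ} [IsProbabilityMeasure μ] {lo hi : ℝ}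

/-! ### Antitonicity of the resolvent point -/

lemma rp_anti (h : μ (Icc lo hi) = 1) {x y : ℝ} (hx : 0 < x) (hxy : x ≤ y) :
    resolventPoint μ hi y ≤ resolventPoint μ hi x := by
  have hy : 0 < y := lt_of_lt_of_le hx hxy
  rcases rp_cases h hy with ⟨hy1, hy2⟩ | ⟨hy1, _⟩
  · rcases rp_cases h hx with ⟨hx1, hx2⟩ | ⟨_, hx2⟩
    · by_contra hlt
      push Not at hlt
      have := G_strictAnti h hx1 hlt
      linarith
    · exfalso
      have := hx2 _ hy1
      linarith
  · rw [hy1]; exact rp_ge h hx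

/-! ### Single crossing -/

/-- If `f` changes sign once (from `≤ 0` to `≥ 0`, at `l0`), has mean zero, and `g` is monotone on
the support, then `∫ f g ≥ 0`. -/
lemma single_cross (h : μ (Icc lo hi) = 1) {f g : ℝ → ℝ} (hf : Integrable f μ)
    (hfg : Integrable (fun l => f l * g l) μ) (l0 : ℝ)
    (h1 : ∀ l ∈ Icc lo hi, l0 ≤ l → 0 ≤ f l) (h2 : ∀ l ∈ Icc lo hi, l ≤ l0 → f l ≤ 0)
    (hg : MonotoneOn g (Icc lo hi)) (h0 : ∫ l, f l ∂μ = 0) : 0 ≤ ∫ l, f l * g l ∂μ := by
  have hlh := lo_le_hi h
  set k := max lo (min l0 hi) with hk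
  have hkm : k ∈ Icc lo hi := ⟨le_max_left _ _, max_le hlh (min_le_right _ _)⟩
  have e : ∫ l, f l * g l ∂μ = ∫ l, f l * (g l - g k) ∂μ := by
    have : ∫ l, f l * (g l - g k) ∂μ = ∫ l, (f l * g l - f l * g k) ∂μ := by
      congr 1; ext l; ring
    rw [this, integral_sub hfg (hf.mul_const _), integral_mul_const, h0]; ring
  rw [e]
  refine integral_nonneg_of_ae ?_
  filter_upwards [ae_mem h] with l hl
  rcases le_total l0 l with hle | hle
  · have hkl : k ≤ l := max_le hl.1 (le_trans (min_le_left _ _) hle)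
    exact mul_nonneg (h1 l hl hle) (sub_nonneg.mpr (hg hkm hl hkl))
  · have hkl : l ≤ k := by
      have : l ≤ min l0 hi := le_min hle hl.2
      exact le_trans this (le_max_right _ _)
    exact mul_nonneg_of_nonpos_of_nonpos (h2 l hl hle) (sub_nonpos.mpr (hg hl hkm hkl))

/-- Interior case of the comparison, in terms of the points `c' ≤ c` (temperature `t`) and
`d' ≤ d` (temperature `s`). -/
lemma interior_compare (h : μ (Icc lo hi) = 1) {s t x y c c' d d' : ℝ} (hs : 0 < s) (hst : s < t)
    (hc' : hi < c') (hcc : c' ≤ c) (hd' : hi < d') (hdd : d' ≤ d)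
    (e1 : G μ c = t * x) (e2 : G μ c' = t * y) (e3 : G μ d = s * x) (e4 : G μ d' = s * y) :
    t * (c - c') ≤ s * (d - d') := by
  have ht : 0 < t := hs.trans hst
  have hc : hi < c := lt_of_lt_of_le hc' hcc
  have hd : hi < d := lt_of_lt_of_le hd' hdd
  -- the four normalised resolvents
  set X : ℝ → ℝ := fun l => (c - l)⁻¹ / t with hX
  set X' : ℝ → ℝ := fun l => (c' - l)⁻¹ / t with hX'
  set Y : ℝ → ℝ := fun l => (d - l)⁻¹ / s with hY
  set Y' : ℝ → ℝ := fun l => (d' - l)⁻¹ / s with hY'
  have iX : Integrable X μ := (integrable_inv h hc).div_const _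
  have iX' : Integrable X' μ := (integrable_inv h hc').div_const _
  have iY : Integrable Y μ := (integrable_inv h hd).div_const _
  have iY' : Integrable Y' μ := (integrable_inv h hd').div_const _
  have eX : ∫ l, X l ∂μ = x := by
    have : ∫ l, X l ∂μ = G μ c / t := by rw [hX, integral_div]; rfl
    rw [this, e1]; field_simp
  have eX' : ∫ l, X' l ∂μ = y := by
    have : ∫ l, X' l ∂μ = G μ c' / t := by rw [hX', integral_div]; rfl
    rw [this, e2]; field_simp
  have eY : ∫ l, Y l ∂μ = x := by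
    have : ∫ l, Y l ∂μ = G μ d / s := by rw [hY, integral_div]; rfl
    rw [this, e3]; field_simp
  have eY' : ∫ l, Y' l ∂μ = y := by
    have : ∫ l, Y' l ∂μ = G μ d' / s := by rw [hY', integral_div]; rfl
    rw [this, e4]; field_simp
  have iXX : Integrable (fun l => X l * X' l) μ := by
    have := (integrable_inv_mul h hc hc').div_const (t * t)
    refine this.congr (Filter.Eventually.of_forall fun l => ?_)
    simp only [hX, hX']; field_simp
  have iYX : Integrable (fun l => Y l * X' l) μ := by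
    have := (integrable_inv_mul h hd hc').div_const (s * t)
    refine this.congr (Filter.Eventually.of_forall fun l => ?_)
    simp only [hY, hX']; field_simp
  have iYY : Integrable (fun l => Y l * Y' l) μ := by
    have := (integrable_inv_mul h hd hd').div_const (s * s)
    refine this.congr (Filter.Eventually.of_forall fun l => ?_)
    simp only [hY, hY']; field_simp
  -- sign of the differences
  have sign : ∀ (a b : ℝ), hi < a → hi < b → ∀ l ∈ Icc lo hi,
      (((t * a - s * b) / (t - s) ≤ l → 0 ≤ (a - l)⁻¹ / t - (b - l)⁻¹ / s) ∧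
       (l ≤ (t * a - s * b) / (t - s) → (a - l)⁻¹ / t - (b - l)⁻¹ / s ≤ 0)) := by
    intro a b ha hb l hl
    have h1 : 0 < a - l := by linarith [hl.2]
    have h2 : 0 < b - l := by linarith [hl.2]
    have hts : 0 < t - s := by linarith
    have key : (a - l)⁻¹ / t - (b - l)⁻¹ / s =
        (l * (t - s) - (t * a - s * b)) * ((a - l)⁻¹ * (b - l)⁻¹ / (t * s)) := by
      field_simp; ring
    have hp : 0 ≤ (a - l)⁻¹ * (b - l)⁻¹ / (t * s) := by positivity
    constructor
    · intro hle
      rw [div_le_iff₀ hts] at hle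
      rw [key]; exact mul_nonneg (by linarith) hp
    · intro hle
      rw [le_div_iff₀ hts] at hle
      rw [key]; exact mul_nonpos_of_nonpos_of_nonneg (by linarith) hp
  -- monotone multipliers
  have mono : ∀ (a r : ℝ), hi < a → 0 < r → MonotoneOn (fun l => (a - l)⁻¹ / r) (Icc lo hi) := by
    intro a r ha hr l hl m hm hlm
    simp only
    have h1 : 0 < a - m := by linarith [hm.2]
    have : (a - l)⁻¹ ≤ (a - m)⁻¹ := inv_anti₀ h1 (by linarith)
    exact div_le_div_of_nonneg_right this hr.le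
  have k1 : 0 ≤ ∫ l, (X l - Y l) * X' l ∂μ := by
    refine single_cross h (iX.sub iY) ?_ ((t * c - s * d) / (t - s))
      (fun l hl hle => (sign c d hc hd l hl).1 hle) (fun l hl hle => (sign c d hc hd l hl).2 hle)
      (mono c' t hc' ht) ?_
    · refine (iXX.sub iYX).congr (Filter.Eventually.of_forall fun l => ?_)
      simp only [Pi.sub_apply]; ring
    · have : ∫ l, (X l - Y l) ∂μ = x - x := by rw [integral_sub iX iY, eX, eY]
      simpa using this
  have k2 : 0 ≤ ∫ l, (X' l - Y' l) * Y l ∂μ := by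
    refine single_cross h (iX'.sub iY') ?_ ((t * c' - s * d') / (t - s))
      (fun l hl hle => (sign c' d' hc' hd' l hl).1 hle)
      (fun l hl hle => (sign c' d' hc' hd' l hl).2 hle)
      (mono d s hd hs) ?_
    · refine (iYX.sub iYY).congr (Filter.Eventually.of_forall fun l => ?_)
      simp only [Pi.sub_apply]; ring
    · have : ∫ l, (X' l - Y' l) ∂μ = y - y := by rw [integral_sub iX' iY', eX', eY']
      simpa using this
  have k3 : ∫ l, Y l * Y' l ∂μ ≤ ∫ l, X l * X' l ∂μ := by
    have e : ∫ l, X l * X' l ∂μ - ∫ l, Y l * Y' l ∂μ =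
        ∫ l, (X l - Y l) * X' l ∂μ + ∫ l, (X' l - Y' l) * Y l ∂μ := by
      have e1' : ∫ l, (X l - Y l) * X' l ∂μ = ∫ l, X l * X' l ∂μ - ∫ l, Y l * X' l ∂μ := by
        rw [← integral_sub iXX iYX]; congr 1; ext l; ring
      have e2' : ∫ l, (X' l - Y' l) * Y l ∂μ = ∫ l, Y l * X' l ∂μ - ∫ l, Y l * Y' l ∂μ := by
        rw [← integral_sub iYX iYY]; congr 1; ext l; ring
      rw [e1', e2']; ring
    linarith
  -- translate back
  have f1 : ∫ l, X l * X' l ∂μ = (∫ l, (c - l)⁻¹ * (c' - l)⁻¹ ∂μ) / (t * t) := by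
    rw [← integral_div]; congr 1; ext l; simp only [hX, hX']; field_simp
  have f2 : ∫ l, Y l * Y' l ∂μ = (∫ l, (d - l)⁻¹ * (d' - l)⁻¹ ∂μ) / (s * s) := by
    rw [← integral_div]; congr 1; ext l; simp only [hY, hY']; field_simp
  have g1 := G_sub h hc' hc
  have g2 := G_sub h hd' hd
  rw [e1, e2] at g1
  rw [e3, e4] at g2
  have c1 : ∫ lam, (c' - lam)⁻¹ * (c - lam)⁻¹ ∂μ = ∫ l, (c - l)⁻¹ * (c' - l)⁻¹ ∂μ := by
    congr 1; ext l; ring
  have c2 : ∫ lam, (d' - lam)⁻¹ * (d - lam)⁻¹ ∂μ = ∫ l, (d - l)⁻¹ * (d' - l)⁻¹ ∂μ := by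
    congr 1; ext l; ring
  rw [c1] at g1
  rw [c2] at g2
  set A := ∫ l, X l * X' l ∂μ
  set B := ∫ l, Y l * Y' l ∂μ
  set I1 := ∫ l, (c - l)⁻¹ * (c' - l)⁻¹ ∂μ
  set I2 := ∫ l, (d - l)⁻¹ * (d' - l)⁻¹ ∂μ
  have hI1 : I1 = A * (t * t) := by rw [f1]; field_simp
  have hI2 : I2 = B * (s * s) := by rw [f2]; field_simp
  rw [hI1] at g1
  rw [hI2] at g2
  have hB : 0 < B := by
    have : 0 < I2 := by
      have := I_pos h hd hd'
      refine lt_of_lt_of_le ?_ this
      have hlh := lo_le_hi h
      have a1 : 0 < d - lo := by linarith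
      have a2 : 0 < d' - lo := by linarith
      positivity
    rw [hI2] at this
    exact pos_of_mul_pos_left this (by positivity)
  -- `y - x = t (c - c') A = s (d - d') B`
  have q1 : y - x = t * (c - c') * A := by
    have : t * (y - x) = t * (t * (c - c') * A) := by linarith
    exact mul_left_cancel₀ ht.ne' this
  have q2 : y - x = s * (d - d') * B := by
    have : s * (y - x) = s * (s * (d - d') * B) := by linarith
    exact mul_left_cancel₀ hs.ne' this
  have q3 : 0 ≤ t * (c - c') := mul_nonneg ht.le (by linarith)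
  by_contra hlt
  push Not at hlt
  have : s * (d - d') * B < t * (c - c') * B := mul_lt_mul_of_pos_right hlt hB
  have : t * (c - c') * B ≤ t * (c - c') * A := mul_le_mul_of_nonneg_left k3 q3
  linarith

/-- helper893's lemma in terms of the resolvent point: `x ↦ t b(t x) - s b(s x)` is nondecreasing
on `(0, ∞)` for `0 < s ≤ t`. -/
lemma rp_compare (h : μ (Icc lo hi) = 1) {s t x y : ℝ} (hs : 0 < s) (hst : s ≤ t)
    (hx : 0 < x) (hxy : x ≤ y) :
    t * resolventPoint μ hi (t * x) - s * resolventPoint μ hi (s * x) ≤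
      t * resolventPoint μ hi (t * y) - s * resolventPoint μ hi (s * y) := by
  have ht : 0 < t := lt_of_lt_of_le hs hst
  have hy : 0 < y := lt_of_lt_of_le hx hxy
  have htx : 0 < t * x := by positivity
  have hty : 0 < t * y := by positivity
  have hsx : 0 < s * x := by positivity
  have hsy : 0 < s * y := by positivity
  rcases hst.eq_or_lt with rfl | hlt
  · simp
  have hstx : s * x ≤ t * x := mul_le_mul_of_nonneg_right hst hx.le
  have hsty : s * y ≤ t * y := mul_le_mul_of_nonneg_right hst hy.le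
  have hsxy : s * x ≤ s * y := mul_le_mul_of_nonneg_left hxy hs.le
  have htxy : t * x ≤ t * y := mul_le_mul_of_nonneg_left hxy ht.le
  -- comparison when the point at `t z` is interior
  have main : ∀ z, x ≤ z → ∀ c', hi < c' → G μ c' = t * z →
      t * resolventPoint μ hi (t * x) - s * resolventPoint μ hi (s * x) ≤
        t * c' - s * resolventPoint μ hi (s * z) := by
    intro z hxz c' hc' ec'
    have hz : 0 < z := lt_of_lt_of_le hx hxz
    have hc'eq : resolventPoint μ hi (t * z) = c' := resolventPoint_eq h hc' ec'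
    have hcc : c' ≤ resolventPoint μ hi (t * x) := by
      rw [← hc'eq]
      exact rp_anti h htx (mul_le_mul_of_nonneg_left hxz ht.le)
    have hdc : c' ≤ resolventPoint μ hi (s * z) := by
      rw [← hc'eq]
      exact rp_anti h (by positivity) (mul_le_mul_of_nonneg_right hst hz.le)
    have hdd : resolventPoint μ hi (s * z) ≤ resolventPoint μ hi (s * x) :=
      rp_anti h hsx (mul_le_mul_of_nonneg_left hxz hs.le)
    have solve : ∀ w, 0 < w → hi < resolventPoint μ hi w → G μ (resolventPoint μ hi w) = w := by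
      intro w hw hlt
      rcases rp_cases h hw with ⟨_, h2⟩ | ⟨h1, _⟩
      · exact h2
      · rw [h1] at hlt; exact absurd hlt (lt_irrefl _)
    have := interior_compare h hs hlt hc' hcc (lt_of_lt_of_le hc' hdc) hdd
      (solve _ htx (lt_of_lt_of_le hc' hcc)) ec'
      (solve _ hsx (lt_of_lt_of_le hc' (hdc.trans hdd))) (solve _ (by positivity)
        (lt_of_lt_of_le hc' hdc))
    linarith
  rcases rp_cases h hty with ⟨hy1, hy2⟩ | ⟨hy1, hy2⟩
  · exact main y hxy _ hy1 hy2
  · rw [hy1]
    rcases rp_cases h htx with ⟨hx1, hx2⟩ | ⟨hx1, _⟩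
    · refine le_of_forall_pos_le_add ?_
      intro ε hε
      set c' := min (resolventPoint μ hi (t * x)) (hi + ε / t) with hc'def
      have hεt : 0 < ε / t := by positivity
      have hc' : hi < c' := lt_min hx1 (by linarith)
      have hc'le : c' ≤ resolventPoint μ hi (t * x) := min_le_left _ _
      have hGx : t * x ≤ G μ c' := by
        rw [← hx2]; exact G_anti h hc' hc'le
      have hGy : G μ c' < t * y := hy2 _ hc'
      set z := G μ c' / t with hz
      have hzx : x ≤ z := by rw [hz, le_div_iff₀ ht]; linarith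
      have hzy : z ≤ y := by rw [hz, div_le_iff₀ ht]; linarith
      have hGz : G μ c' = t * z := by rw [hz]; field_simp
      have h1 := main z hzx c' hc' hGz
      have hz0 : 0 < z := lt_of_lt_of_le hx hzx
      have h2 : resolventPoint μ hi (s * y) ≤ resolventPoint μ hi (s * z) :=
        rp_anti h (by positivity) (mul_le_mul_of_nonneg_left hzy hs.le)
      have h3 : s * resolventPoint μ hi (s * y) ≤ s * resolventPoint μ hi (s * z) :=
        mul_le_mul_of_nonneg_left h2 hs.le
      have h4 : c' ≤ hi + ε / t := min_le_right _ _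
      have h5 : t * c' ≤ t * (hi + ε / t) := mul_le_mul_of_nonneg_left h4 ht.le
      have h6 : t * (hi + ε / t) = t * hi + ε := by field_simp
      linarith
    · rw [hx1]
      have h3 : s * resolventPoint μ hi (s * y) ≤ s * resolventPoint μ hi (s * x) :=
        mul_le_mul_of_nonneg_left (rp_anti h hsx hsxy) hs.le
      linarith

/-- **helper893's lemma**: for `0 ≤ s ≤ t` the function `x ↦ t R(t x) - s R(s x)` is
nondecreasing on `[0, ∞)`. -/
theorem rT_incr_mono (h : μ (Icc lo hi) = 1) {s t x y : ℝ} (hs : 0 ≤ s) (hst : s ≤ t)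
    (hx : 0 ≤ x) (hxy : x ≤ y) :
    t * rTransform μ hi (t * x) - s * rTransform μ hi (s * x) ≤
      t * rTransform μ hi (t * y) - s * rTransform μ hi (s * y) := by
  have ht : 0 ≤ t := hs.trans hst
  have hy : 0 ≤ y := hx.trans hxy
  rcases hs.eq_or_lt with rfl | hs
  · have := rT_mono h (mul_nonneg ht hx) (mul_le_mul_of_nonneg_left hxy ht)
    have := mul_le_mul_of_nonneg_left this ht
    simpa using this
  have ht : 0 < t := lt_of_lt_of_le hs hst
  rcases hx.eq_or_lt with rfl | hx
  · have h1 : rTransform μ hi (s * y) ≤ rTransform μ hi (t * y) :=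
      rT_mono h (mul_nonneg hs.le hy) (mul_le_mul_of_nonneg_right hst hy)
    have h2 : (∫ l, l ∂μ) ≤ rTransform μ hi (s * y) := rT_ge_mean h (mul_nonneg hs.le hy)
    simp only [mul_zero, rT_zero]
    have h3 : s * (rTransform μ hi (s * y) - ∫ l, l ∂μ) ≤
        t * (rTransform μ hi (t * y) - ∫ l, l ∂μ) :=
      mul_le_mul hst (by linarith) (by linarith) ht.le
    linarith
  have hy : 0 < y := lt_of_lt_of_le hx hxy
  have e : ∀ w r : ℝ, 0 < w → 0 < r → r * rTransform μ hi (r * w) =
      r * resolventPoint μ hi (r * w) - 1 / w := by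
    intro w r hw hr
    rw [rT_pos (by positivity)]
    field_simp
  rw [e x t hx ht, e x s hx hs, e y t hy ht, e y s hy hs]
  have := rp_compare h hs hst hx hxy
  linarith

/-! ### Scaling -/





/-! ### The dual-cone order on paths -/




/-- `G_t(p) = ½ ∫ t R(t D_p(r)) dr`: the spectral part at temperature `t`. -/
noncomputable def specT (μ : Measure ℝ) (hi t : ℝ) (p : ℝ → ℝ) : ℝ :=
  (1 / 2) * ∫ r in Ioo (0:ℝ) 1, t * rTransform μ hi (t * deficit p r)

omit [IsProbabilityMeasure μ] in
lemma specT_one (p : ℝ → ℝ) : specT μ hi 1 p = spectralPart μ hi p := by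
  simp [specT, spectralPart]

omit [IsProbabilityMeasure μ] in
lemma specT_zero (p : ℝ → ℝ) : specT μ hi 0 p = 0 := by
  simp [specT]


lemma specT_integrable (h : μ (Icc lo hi) = 1) {t : ℝ} (ht : 0 ≤ t) {p : ℝ → ℝ}
    (hp : IsTrialPath p) :
    IntegrableOn (fun r => t * rTransform μ hi (t * deficit p r)) (Ioo (0:ℝ) 1) := by
  refine Integrable.const_mul ?_ _
  refine Integrable.mono' (integrable_const (max |lo| |hi|)) ?_ ?_
  · refine AEMeasurable.aestronglyMeasurable ?_
    refine aemeasurable_restrict_of_antitoneOn (μ := volume) (s := Ioo (0:ℝ) 1)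
      (f := fun r => rTransform μ hi (t * deficit p r)) measurableSet_Ioo ?_
    intro r hr r' hr' hrr
    exact rT_mono h (mul_nonneg ht (deficit_mem hp hr').1)
      (mul_le_mul_of_nonneg_left (deficit_antitone hp hr hr' hrr) ht)
  · filter_upwards [ae_restrict_mem measurableSet_Ioo] with r hr
    have := rT_mem h (mul_nonneg ht (deficit_mem hp hr).1)
    rw [Real.norm_eq_abs]
    exact abs_le_max_abs_abs this.1 this.2


end Crest.Agent.R164.RScale
end

-- ▼ part R164/SDAlg4
section

/-!
Row 164: deterministic consequences of the approximate left-rotation relations, part 4: calculus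
of `τ(x)`, the integral representation of `Γhat` and the `t`-derivative of `G_t(p)`.
-/

set_option autoImplicit false

namespace Crest.Agent.R164.SDAlg

open Finset

noncomputable section

variable {κ : Type} [Fintype κ]

section calculus

variable {α d : κ → ℝ} {k0 : κ} {Δ : ℝ} (hα : ∀ k, 0 < α k) (hsum : ∑ k, α k = 1)
  (hd : ∀ k, 0 ≤ d k) (h0 : d k0 = 0) (hΔ : ∀ k, d k ≤ Δ)

include hα hsum hd h0 hΔ

theorem delta_nonneg : 0 ≤ Δ := by
  have := hΔ k0
  rw [h0] at this
  exact this

theorem tau_lip {X x y : ℝ} (hx : 0 ≤ x) (hy : 0 ≤ y) (hxX : x ≤ X) (hyX : y ≤ X) :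
    |tau α d y - tau α d x| ≤ |y - x| / c0 (X / α k0) Δ := by
  have hΔ0 := delta_nonneg hα hsum hd h0 hΔ
  have hX : 0 ≤ X / α k0 := div_nonneg (hx.trans hxX) (hα k0).le
  have hc := c0_pos hX hΔ0
  have hb : ∀ z, 0 ≤ z → z ≤ X → tau α d z ≤ X / α k0 := fun z hz hzX =>
    (tau_le hα hd h0 hz).trans (div_le_div_of_nonneg_right hzX (hα k0).le)
  have h1 := abs_sub_le_of_ss hα hsum hd (tau_nonneg α d x) (tau_nonneg α d y)
    (hb x hx hxX) (hb y hy hyX) hΔ hΔ0
  rw [ss_tau hα hd h0 hx, ss_tau hα hd h0 hy] at h1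
  rw [le_div_iff₀ hc]
  linarith

theorem tau_continuousOn : ContinuousOn (tau α d) (Set.Ici 0) := by
  have hΔ0 := delta_nonneg hα hsum hd h0 hΔ
  intro x hx
  have hx : 0 ≤ x := hx
  rw [Metric.continuousWithinAt_iff]
  intro ε hε
  have hX : 0 ≤ (x + 1) / α k0 := div_nonneg (by linarith) (hα k0).le
  have hc := c0_pos hX hΔ0
  refine ⟨min 1 (ε * c0 ((x + 1) / α k0) Δ), by positivity, fun y hy hyx => ?_⟩
  have hy : 0 ≤ y := hy
  rw [Real.dist_eq] at hyx ⊢
  have h1 : |y - x| < 1 := lt_of_lt_of_le hyx (min_le_left _ _)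
  have h2 : |y - x| < ε * c0 ((x + 1) / α k0) Δ := lt_of_lt_of_le hyx (min_le_right _ _)
  have h3 := tau_lip hα hsum hd h0 hΔ (X := x + 1) hx hy (by linarith)
    (by linarith [(abs_lt.1 h1).2])
  refine lt_of_le_of_lt h3 ?_
  rw [div_lt_iff₀ hc]
  exact h2

theorem ww_continuousOn (x0 : ℝ) (hx0 : 0 ≤ x0) (k : κ) :
    ContinuousOn (fun x => ww α d (tau α d x0) (tau α d x) k) (Set.Ici 0) := by
  have h1 := tau_continuousOn hα hsum hd h0 hΔ
  have h2 : ∀ l, ContinuousOn (fun x => ee d (tau α d x) l) (Set.Ici 0) := by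
    intro l
    unfold ee
    apply ContinuousOn.inv₀
    · exact continuousOn_const.add (h1.mul continuousOn_const)
    · intro x _
      exact (one_add_pos hd (tau_nonneg α d x) l).ne'
  unfold ww qq
  apply ContinuousOn.div
  · exact continuousOn_const.mul (h2 k)
  · apply continuousOn_finset_sum
    intro l _
    exact continuousOn_const.mul (continuousOn_const.mul (h2 l))
  · intro x _
    exact (qq_pos hα ⟨k0⟩ hd (tau_nonneg α d x0) (tau_nonneg α d x)).ne'

theorem ww_diag_continuousOn (k : κ) :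
    ContinuousOn (fun x => ww α d (tau α d x) (tau α d x) k) (Set.Ici 0) := by
  have h1 := tau_continuousOn hα hsum hd h0 hΔ
  have h2 : ∀ l, ContinuousOn (fun x => ee d (tau α d x) l) (Set.Ici 0) := by
    intro l
    unfold ee
    apply ContinuousOn.inv₀
    · exact continuousOn_const.add (h1.mul continuousOn_const)
    · intro x _
      exact (one_add_pos hd (tau_nonneg α d x) l).ne'
  unfold ww qq
  apply ContinuousOn.div
  · exact (h2 k).mul (h2 k)
  · apply continuousOn_finset_sum
    intro l _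
    exact continuousOn_const.mul ((h2 l).mul (h2 l))
  · intro x _
    exact (qq_pos hα ⟨k0⟩ hd (tau_nonneg α d x) (tau_nonneg α d x)).ne'

theorem FF_tau_continuousOn (k : κ) :
    ContinuousOn (fun x => FF d (tau α d x) k) (Set.Ici 0) := by
  have h1 := tau_continuousOn hα hsum hd h0 hΔ
  unfold FF ee
  apply h1.mul
  apply ContinuousOn.inv₀
  · exact continuousOn_const.add (h1.mul continuousOn_const)
  · intro x _
    exact (one_add_pos hd (tau_nonneg α d x) k).ne'

theorem FF_tau_hasDerivAt {x : ℝ} (hx : 0 < x) (k : κ) :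
    HasDerivAt (fun x => FF d (tau α d x) k) (ww α d (tau α d x) (tau α d x) k) x := by
  rw [hasDerivAt_iff_tendsto_slope]
  have h1 : ContinuousAt (fun y => ww α d (tau α d x) (tau α d y) k) x :=
    (ww_continuousOn hα hsum hd h0 hΔ x hx.le k).continuousAt (Ici_mem_nhds hx)
  have h2 : Filter.Tendsto (fun y => ww α d (tau α d x) (tau α d y) k) (nhdsWithin x {x}ᶜ)
      (nhds (ww α d (tau α d x) (tau α d x) k)) := h1.tendsto.mono_left nhdsWithin_le_nhds
  refine h2.congr' ?_
  have h3 : ∀ᶠ y in nhdsWithin x {x}ᶜ, 0 < y :=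
    nhdsWithin_le_nhds (Ioi_mem_nhds hx)
  filter_upwards [h3, self_mem_nhdsWithin] with y hy hne
  have hne : y ≠ x := hne
  rw [slope_def_field, FF_sub_eq hα hd (tau_nonneg α d x) (tau_nonneg α d y) k,
    ss_tau hα hd h0 hx.le, ss_tau hα hd h0 hy.le]
  have : y - x ≠ 0 := sub_ne_zero.2 hne
  field_simp

end calculus

/-! ### integrals over the deficit of a step path -/

section deficit

open MeasureTheory Set Crest.ProbabilityR.InvariantGlass Crest.Agent.R164.PAlg

variable {M : ℕ} {wd p : Fin (M + 1) → ℝ}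

theorem integral_deficit {ψ Ψ : ℝ → ℝ} (hψ : ContinuousOn ψ (Ici 0))
    (hΨ : ContinuousOn Ψ (Ici 0)) (hder : ∀ x, 0 < x → HasDerivAt Ψ (ψ x) x)
    (hwd : ∀ i, 0 < wd i) (hwds : ∑ i, wd i = 1) (hp : Monotone p) (hp0 : ∀ i, 0 ≤ p i)
    (hp1 : ∀ i, p i ≤ 1) :
    ∫ r in Ioo (0 : ℝ) 1, ψ (deficit (stepFn wd p) r) =
      (Ψ (Dd wd p (Fin.last M)) - Ψ 0) +
        ∑ j : Fin M, (leftEnd wd j.succ)⁻¹ *
          (Ψ (Dd wd p j.castSucc) - Ψ (Dd wd p j.succ)) +
        p 0 * ψ (Dd wd p 0) := by
  set f : ℝ → ℝ := fun r => ψ (deficit (stepFn wd p) r) with hf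
  have hfc : ContinuousOn f (Iic 1) := by
    refine hψ.comp (deficit_cont_step hwd hwds).continuousOn fun r hr => ?_
    exact deficit_nonneg_step hwd hwds hp1 hr
  have hii : ∀ a b, a ≤ 1 → b ≤ 1 → IntervalIntegrable f volume a b := by
    intro a b ha hb
    refine ContinuousOn.intervalIntegrable (hfc.mono fun z hz => ?_)
    exact hz.2.trans (max_le ha hb)
  have hψi : ∀ a b, 0 ≤ a → 0 ≤ b → IntervalIntegrable ψ volume a b := by
    intro a b ha hb
    refine ContinuousOn.intervalIntegrable (hψ.mono fun z hz => ?_)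
    exact (le_min ha hb).trans hz.1
  have hftc : ∀ a b, 0 ≤ a → a ≤ b → ∫ t in a..b, ψ t = Ψ b - Ψ a := by
    intro a b ha hab
    apply intervalIntegral.integral_eq_sub_of_hasDerivAt_of_le hab
    · exact hΨ.mono fun z hz => ha.trans hz.1
    · intro z hz
      exact hder z (lt_of_le_of_lt ha hz.1)
    · exact hψi a b ha (ha.trans hab)
  have h1 : ∫ r in Ioo (0 : ℝ) 1, ψ (deficit (stepFn wd p) r) = ∫ r in (0:ℝ)..1, f r := by
    rw [intervalIntegral.integral_of_le zero_le_one, integral_Ioc_eq_integral_Ioo]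
  have h2 : ∫ r in (0:ℝ)..1, f r = (∫ r in (0:ℝ)..(p 0), f r) +
      (∑ j : Fin M, ∫ r in (p j.castSucc)..(p j.succ), f r) + ∫ r in (p (Fin.last M))..1, f r := by
    have ht := PAlg.tele (fun i : Fin (M + 1) => ∫ r in (0:ℝ)..(p i), f r)
    have h3 : ∀ j : Fin M, (∫ r in (0:ℝ)..(p j.succ), f r) - (∫ r in (0:ℝ)..(p j.castSucc), f r) =
        ∫ r in (p j.castSucc)..(p j.succ), f r := fun j =>
      intervalIntegral.integral_interval_sub_left (hii _ _ zero_le_one (hp1 _))
        (hii _ _ zero_le_one (hp1 _))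
    rw [Finset.sum_congr rfl fun j _ => h3 j] at ht
    rw [ht]
    have h4 := intervalIntegral.integral_add_adjacent_intervals
      (hii 0 (p (Fin.last M)) zero_le_one (hp1 _)) (hii (p (Fin.last M)) 1 (hp1 _) le_rfl)
    linarith
  have h3 : ∫ r in (0:ℝ)..(p 0), f r = p 0 * ψ (Dd wd p 0) := by
    have : ∫ r in (0:ℝ)..(p 0), f r = ∫ r in (0:ℝ)..(p 0), ψ (Dd wd p 0) := by
      refine intervalIntegral.integral_congr fun r hr => ?_
      rw [uIcc_of_le (hp0 0)] at hr
      simp only [hf]
      rw [deficit_bot hwd hwds hp hr.2]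
    rw [this, intervalIntegral.integral_const, smul_eq_mul, sub_zero]
  have h4 : ∀ j : Fin M, ∫ r in (p j.castSucc)..(p j.succ), f r =
      (leftEnd wd j.succ)⁻¹ * (Ψ (Dd wd p j.castSucc) - Ψ (Dd wd p j.succ)) := by
    intro j
    have hz := ze_pos hwd j
    have e1 : ∫ r in (p j.castSucc)..(p j.succ), f r = ∫ r in (p j.castSucc)..(p j.succ),
        ψ ((Dd wd p j.succ + leftEnd wd j.succ * p j.succ) - leftEnd wd j.succ * r) := by
      refine intervalIntegral.integral_congr fun r hr => ?_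
      rw [uIcc_of_le (hp Fin.castSucc_lt_succ.le)] at hr
      simp only [hf]
      rw [deficit_mid hwd hwds hp j hr.1 hr.2]
      congr 1; ring
    rw [e1, intervalIntegral.integral_comp_sub_mul (fun y => ψ y) hz.ne', smul_eq_mul,
      ← hftc (Dd wd p j.succ) (Dd wd p j.castSucc) (Dd_nonneg hwd hwds hp1 _)
        (Dd_anti hwd hwds hp j)]
    congr 2
    · ring
    · rw [Dd_castSucc hwd hwds hp]; ring
  have h5 : ∫ r in (p (Fin.last M))..1, f r = Ψ (Dd wd p (Fin.last M)) - Ψ 0 := by
    have e1 : ∫ r in (p (Fin.last M))..1, f r = ∫ r in (p (Fin.last M))..1, ψ (1 - r) := by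
      refine intervalIntegral.integral_congr fun r hr => ?_
      rw [uIcc_of_le (hp1 _)] at hr
      simp only [hf]
      rw [deficit_top hwd hwds hp hr.1]
    rw [e1, intervalIntegral.integral_comp_sub_left (fun y => ψ y), sub_self,
      Dd_last hwd hwds hp, hftc 0 _ le_rfl (sub_nonneg.2 (hp1 _))]
  rw [h1, h2, h3, h5, Finset.sum_congr rfl fun j _ => h4 j]
  ring

end deficit

end

end Crest.Agent.R164.SDAlg
end

-- ▼ part R164/SDAlg5

/-!
Row 164: deterministic consequences of the approximate left-rotation relations, part 5: integral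
representation of `Γhat^k_n`, and the time derivative of `G_t(p)`.
-/

set_option autoImplicit false

namespace Crest.Agent.R164.SDAlg

open Finset

noncomputable section

variable {κ : Type} [Fintype κ]

/-- the step path data (without the relations). -/
structure StepD (n : ℕ) (m p : ℕ → ℝ) : Prop where
  m0 : m 0 = 0
  mlt : ∀ b, b < n → m b < m (b + 1)
  mn : m n = 1
  p0 : 0 ≤ p 0
  pmono : ∀ b, b < n → p b ≤ p (b + 1)
  pn : p n = 1

namespace StepD

variable {n : ℕ} {m p : ℕ → ℝ} (h : StepD n m p)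

include h

theorem mmono {b : ℕ} (hb : b < n) : m b ≤ m (b + 1) := (h.mlt b hb).le

theorem m_nonneg {b : ℕ} (hb : b ≤ n) : 0 ≤ m b := by
  rw [← h.m0]
  exact mono_of_succ (f := m) (fun _ hb => h.mmono hb) (Nat.zero_le b) hb

theorem m_pos {b : ℕ} (hb1 : 1 ≤ b) (hb : b ≤ n) : 0 < m b := by
  have h1 := h.mlt 0 (by omega)
  rw [h.m0] at h1
  exact h1.trans_le (mono_of_succ (f := m) (fun _ hb => h.mmono hb) hb1 hb)

theorem m_le_one {b : ℕ} (hb : b ≤ n) : m b ≤ 1 := by
  rw [← h.mn]
  exact mono_of_succ (f := m) (fun _ hb => h.mmono hb) hb le_rfl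

theorem p_nonneg {b : ℕ} (hb : b ≤ n) : 0 ≤ p b :=
  h.p0.trans (mono_of_succ h.pmono (Nat.zero_le b) hb)

theorem p_le_one {b : ℕ} (hb : b ≤ n) : p b ≤ 1 := by
  rw [← h.pn]
  exact mono_of_succ h.pmono hb le_rfl

theorem Dp_nonneg (a : ℕ) : 0 ≤ Dl m n p a :=
  Dl_nonneg (fun _ hb => h.m_nonneg hb) h.pmono a



end StepD

/-- increments of `Γhat`. -/
theorem ghat_inc' {α d : κ → ℝ} {k0 : κ} (hα : ∀ k, 0 < α k) (hd : ∀ k, 0 ≤ d k)
    (h0 : d k0 = 0) {n : ℕ} {m p : ℕ → ℝ} (h : StepD n m p) {b : ℕ} (hb : b < n) (k : κ) :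
    (p (b + 1) - p b) * ww α d (tau α d (Dl m n p (b + 1))) (tau α d (Dl m n p b)) k =
    (m (b + 1))⁻¹ * (FF d (tau α d (Dl m n p b)) k - FF d (tau α d (Dl m n p (b + 1))) k) := by
  have h1 := FF_sub_eq hα hd (tau_nonneg α d (Dl m n p (b + 1)))
    (tau_nonneg α d (Dl m n p b)) k
  rw [ss_tau hα hd h0 (h.Dp_nonneg b), ss_tau hα hd h0 (h.Dp_nonneg (b + 1)), Dl_succ hb] at h1
  have hm := (h.m_pos (by omega : 1 ≤ b + 1) (by omega)).ne'
  rw [Dl_succ hb, h1]
  field_simp
  ring

section conv

open MeasureTheory Set Crest.ProbabilityR.InvariantGlass Crest.Agent.R164.PAlg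

variable {M : ℕ} {m p : ℕ → ℝ}

/-- widths -/
def wdOf (M : ℕ) (m : ℕ → ℝ) (i : Fin (M + 1)) : ℝ := m (i + 1) - m i

/-- values -/
def pOf (M : ℕ) (p : ℕ → ℝ) (i : Fin (M + 1)) : ℝ := p i

/-- the step path -/
def pathOf (M : ℕ) (m p : ℕ → ℝ) : ℝ → ℝ := stepFn (wdOf M m) (pOf M p)

variable (h : StepD (M + 1) m p)

include h

theorem wdOf_pos (i : Fin (M + 1)) : 0 < wdOf M m i := sub_pos.2 (h.mlt i i.2)

theorem wdOf_sum : ∑ i, wdOf M m i = 1 := by
  unfold wdOf
  rw [Fin.sum_univ_eq_sum_range (fun i => m (i + 1) - m i) (M + 1), Finset.sum_range_sub m,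
    h.mn, h.m0, sub_zero]

theorem leftEnd_of (i : Fin (M + 1)) : leftEnd (wdOf M m) i = m i := by
  induction i using Fin.induction with
  | zero =>
    rw [ze_zero]
    exact h.m0.symm
  | succ i ih =>
    rw [ze_succ, ih]
    unfold wdOf
    simp

theorem pOf_mono : Monotone (pOf M p) := by
  intro i j hij
  exact mono_of_succ h.pmono hij (by omega)

theorem pOf_nonneg (i : Fin (M + 1)) : 0 ≤ pOf M p i := h.p_nonneg (by omega)

theorem pOf_le_one (i : Fin (M + 1)) : pOf M p i ≤ 1 := h.p_le_one (by omega)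

theorem Dd_of (j : Fin (M + 1)) : Dd (wdOf M m) (pOf M p) j = Dl m (M + 1) p j := by
  have hw := wdOf_pos h
  have hs := wdOf_sum h
  have hp := pOf_mono h
  induction j using Fin.reverseInduction with
  | last =>
    rw [Dd_last hw hs hp]
    have : ((Fin.last M : Fin (M + 1)) : ℕ) = M := rfl
    rw [this, Dl_succ (by omega : M < M + 1), Dl_top, h.mn, h.pn]
    unfold pOf
    rw [this]
    ring
  | cast j ih =>
    rw [Dd_castSucc hw hs hp, ih, leftEnd_of h]
    have e1 : ((j.castSucc : Fin (M + 1)) : ℕ) = j := rfl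
    have e2 : ((j.succ : Fin (M + 1)) : ℕ) = j + 1 := rfl
    unfold pOf
    rw [e1, e2, Dl_succ (by omega : (j : ℕ) < M + 1)]
    ring

/-- integral representation of `Γhat^k` at the leaf. -/
theorem ghat_integral {α d : κ → ℝ} {k0 : κ} {Δ : ℝ} (hα : ∀ k, 0 < α k) (hsum : ∑ k, α k = 1)
    (hd : ∀ k, 0 ≤ d k) (h0 : d k0 = 0) (hΔ : ∀ k, d k ≤ Δ) (k : κ) :
    Ghat α d (M + 1) m p k (M + 1) = ∫ r in Ioo (0 : ℝ) 1,
      ww α d (tau α d (deficit (pathOf M m p) r)) (tau α d (deficit (pathOf M m p) r)) k := by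
  have hI := integral_deficit
    (ψ := fun x => ww α d (tau α d x) (tau α d x) k) (Ψ := fun x => FF d (tau α d x) k)
    (ww_diag_continuousOn hα hsum hd h0 hΔ k) (FF_tau_continuousOn hα hsum hd h0 hΔ k)
    (fun x hx => FF_tau_hasDerivAt hα hsum hd h0 hΔ hx k)
    (wdOf_pos h) (wdOf_sum h) (pOf_mono h) (pOf_nonneg h) (pOf_le_one h)
  unfold pathOf
  rw [hI]
  unfold Ghat
  rw [Finset.sum_congr rfl (fun b hb => ghat_inc' (k0 := k0) hα hd h0 h
    (Finset.mem_range.1 hb) k)]
  rw [Finset.sum_range_succ, Dl_top, tau_zero hα hd h0, h.mn]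
  have hz : FF d 0 k = 0 := by simp [FF]
  rw [hz]
  rw [← Fin.sum_univ_eq_sum_range (fun b => (m (b + 1))⁻¹ *
    (FF d (tau α d (Dl m (M + 1) p b)) k - FF d (tau α d (Dl m (M + 1) p (b + 1))) k)) M]
  have e1 : ∀ j : Fin M, (leftEnd (wdOf M m) j.succ)⁻¹ *
      (FF d (tau α d (Dd (wdOf M m) (pOf M p) j.castSucc)) k -
        FF d (tau α d (Dd (wdOf M m) (pOf M p) j.succ)) k) =
      (m (j + 1))⁻¹ * (FF d (tau α d (Dl m (M + 1) p j)) k -
        FF d (tau α d (Dl m (M + 1) p (j + 1))) k) := by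
    intro j
    rw [leftEnd_of h, Dd_of h, Dd_of h]
    rfl
  rw [Finset.sum_congr rfl fun j _ => e1 j, Dd_of h, Dd_of h]
  have e2 : ((Fin.last M : Fin (M + 1)) : ℕ) = M := rfl
  have e3 : ((0 : Fin (M + 1)) : ℕ) = 0 := rfl
  have e4 : pOf M p 0 = p 0 := rfl
  rw [e2, e3, e4]
  ring

end conv

/-! ### time derivative -/

section time

open MeasureTheory Set Crest.ProbabilityR.InvariantGlass Crest.Agent.R164.PAlg
open Crest.Agent.R164.RTrans Crest.Agent.R164.Atomic Crest.Agent.R164.RScale

variable {K : ℕ} (w val : Fin (K + 1) → ℝ)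

/-- gaps at temperature `t` -/
def gap (t : ℝ) (k : Fin (K + 1)) : ℝ := t * (val (Fin.last K) - val k)

/-- `φ_t(x) = d/dt [t R(t x)]` -/
def phiT (t x : ℝ) : ℝ :=
  ∑ k, w k * (val k * ww w (gap val t) (tau w (gap val t) x) (tau w (gap val t) x) k)

/-- `E_t(q) = ½ ∫ φ_t(D_q(r)) dr` : the time derivative of `G_t(q)`. -/
def ET (t : ℝ) (q : ℝ → ℝ) : ℝ := (1 / 2) * ∫ r in Ioo (0 : ℝ) 1, phiT w val t (deficit q r)

variable {w val}
variable (hv : StrictMono val) (hw : ∀ k, 0 < w k) (hs : ∑ k, w k = 1)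

include hv in
theorem gap_nonneg {t : ℝ} (ht : 0 ≤ t) (k : Fin (K + 1)) : 0 ≤ gap val t k :=
  mul_nonneg ht (sub_nonneg.2 (hv.monotone (Fin.le_last k)))

omit hv in
theorem gap_last (t : ℝ) : gap val t (Fin.last K) = 0 := by simp [gap]

include hv in
theorem gap_le {t : ℝ} (ht : 0 ≤ t) (ht1 : t ≤ 1) (k : Fin (K + 1)) :
    gap val t k ≤ val (Fin.last K) - val 0 := by
  unfold gap
  have h1 : 0 ≤ val (Fin.last K) - val k := sub_nonneg.2 (hv.monotone (Fin.le_last k))
  have h2 : val 0 ≤ val k := hv.monotone (Fin.zero_le k)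
  calc t * (val (Fin.last K) - val k) ≤ 1 * (val (Fin.last K) - val k) :=
        mul_le_mul_of_nonneg_right ht1 h1
    _ ≤ _ := by linarith

include hv hw hs

theorem tau_pos_of_pos {t : ℝ} (ht : 0 ≤ t) {x : ℝ} (hx : 0 < x) :
    0 < tau w (gap val t) x := by
  rcases (tau_nonneg w (gap val t) x).lt_or_eq with h | h
  · exact h
  · exfalso
    have := ss_tau hw (gap_nonneg hv ht) (gap_last t) hx.le
    rw [← h, ss_zero] at this
    linarith

theorem tR_exact {t : ℝ} (ht : 0 ≤ t) {x : ℝ} (hx : 0 < x) :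
    t * RR w val (t * x) = t * val (Fin.last K) + (tau w (gap val t) x)⁻¹ - x⁻¹ := by
  have := atomic_prob (w := w) val (fun k => (hw k).le) hs
  have hτ := tau_pos_of_pos hv hw hs ht hx
  set τ := tau w (gap val t) x with hτd
  have hss := ss_tau hw (gap_nonneg hv ht) (gap_last t) hx.le
  rw [← hτd] at hss
  rcases ht.lt_or_eq with h | h
  · have htx : 0 < t * x := mul_pos h hx
    rw [RR_eq htx]
    have hb : bb w val (t * x) = val (Fin.last K) + (t * τ)⁻¹ := by
      unfold bb
      apply resolventPoint_eq (supp hv hw hs)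
      · have : 0 < (t * τ)⁻¹ := by positivity
        linarith
      · rw [atomic_G hw]
        rw [← hss]
        unfold ss
        rw [Finset.mul_sum]
        apply Finset.sum_congr rfl
        intro k _
        have h1 : val (Fin.last K) + (t * τ)⁻¹ - val k = (1 + τ * gap val t k) / (t * τ) := by
          unfold gap
          field_simp
          ring
        rw [h1, inv_div]
        unfold FF ee
        have h2 := (one_add_pos (gap_nonneg hv ht) hτ.le k).ne'
        field_simp
    rw [hb]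
    field_simp
  · subst h
    have hg : ∀ k, gap val 0 k = 0 := fun k => by simp [gap]
    have : τ = x := by
      rw [← hss]
      unfold ss FF ee
      simp only [hg, mul_zero, add_zero, inv_one, mul_one]
      rw [← Finset.sum_mul, hs, one_mul]
    rw [this]
    ring

theorem tR_zero (t : ℝ) : t * RR w val (t * 0) = t * ∑ k, w k * val k := by
  rw [mul_zero, RR_zero hw hs]

theorem phiT_zero {t : ℝ} (ht : 0 ≤ t) : phiT w val t 0 = ∑ k, w k * val k := by
  unfold phiT
  rw [tau_zero hw (gap_nonneg hv ht) (gap_last t)]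
  apply Finset.sum_congr rfl
  intro k _
  have : ww w (gap val t) 0 0 k = 1 := by
    unfold ww qq ee
    simp [hs]
  rw [this, mul_one]

/-- exact difference quotient of `t ↦ t R(t x)`. -/
theorem tR_diff {t t' : ℝ} (ht : 0 ≤ t) (ht' : 0 ≤ t') {x : ℝ} (hx : 0 < x) :
    (t' * RR w val (t' * x) - t * RR w val (t * x)) *
      (∑ k, w k * (FF (gap val t) (tau w (gap val t) x) k *
        FF (gap val t') (tau w (gap val t') x) k)) =
    (t' - t) * ∑ k, w k * (val k * (FF (gap val t) (tau w (gap val t) x) k *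
        FF (gap val t') (tau w (gap val t') x) k)) := by
  have hτ := tau_pos_of_pos hv hw hs ht hx
  have hτ' := tau_pos_of_pos hv hw hs ht' hx
  rw [tR_exact hv hw hs ht hx, tR_exact hv hw hs ht' hx]
  have hss := ss_tau hw (gap_nonneg hv ht) (gap_last t) hx.le
  have hss' := ss_tau hw (gap_nonneg hv ht') (gap_last t') hx.le
  set τ := tau w (gap val t) x with hτd
  set τ' := tau w (gap val t') x with hτd'
  have hF : ∀ k, FF (gap val t') τ' k - FF (gap val t) τ k =
      FF (gap val t) τ k * FF (gap val t') τ' k *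
        ((τ⁻¹ - τ'⁻¹) + (t - t') * (val (Fin.last K) - val k)) := by
    intro k
    have h1 := (one_add_pos (gap_nonneg hv ht) hτ.le k).ne'
    have h2 := (one_add_pos (gap_nonneg hv ht') hτ'.le k).ne'
    have e1 : FF (gap val t) τ k * (τ⁻¹ + t * (val (Fin.last K) - val k)) = 1 := by
      have := ee_mul (gap_nonneg hv ht) hτ.le k
      unfold FF
      unfold gap at this ⊢
      field_simp
      linarith
    have e2 : FF (gap val t') τ' k * (τ'⁻¹ + t' * (val (Fin.last K) - val k)) = 1 := by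
      have := ee_mul (gap_nonneg hv ht') hτ'.le k
      unfold FF
      unfold gap at this ⊢
      field_simp
      linarith
    linear_combination (-FF (gap val t') τ' k) * e1 + FF (gap val t) τ k * e2
  have hsum : ∑ k, w k * (FF (gap val t') τ' k - FF (gap val t) τ k) = 0 := by
    simp only [mul_sub, Finset.sum_sub_distrib]
    have a1 : ∑ k, w k * FF (gap val t') τ' k = x := hss'
    have a2 : ∑ k, w k * FF (gap val t) τ k = x := hss
    rw [a1, a2, sub_self]
  rw [Finset.sum_congr rfl (fun k _ => by rw [hF k])] at hsum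
  have hsum2 : (τ⁻¹ - τ'⁻¹) * (∑ k, w k * (FF (gap val t) τ k * FF (gap val t') τ' k)) +
      (t - t') * ∑ k, w k * ((val (Fin.last K) - val k) *
        (FF (gap val t) τ k * FF (gap val t') τ' k)) = 0 := by
    rw [← hsum, Finset.mul_sum, Finset.mul_sum, ← Finset.sum_add_distrib]
    apply Finset.sum_congr rfl
    intro k _
    ring
  have hsum3 : ∑ k, w k * ((val (Fin.last K) - val k) *
        (FF (gap val t) τ k * FF (gap val t') τ' k)) =
      val (Fin.last K) * (∑ k, w k * (FF (gap val t) τ k * FF (gap val t') τ' k)) -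
      ∑ k, w k * (val k * (FF (gap val t) τ k * FF (gap val t') τ' k)) := by
    rw [Finset.mul_sum, ← Finset.sum_sub_distrib]
    apply Finset.sum_congr rfl
    intro k _
    ring
  rw [hsum3] at hsum2
  linarith

/-- normalised weights in terms of `F`. -/
theorem ww_eq_FF {t : ℝ} (ht : 0 ≤ t) {τ : ℝ} (hτ : 0 < τ) (k : Fin (K + 1)) :
    ww w (gap val t) τ τ k * (∑ l, w l * (FF (gap val t) τ l * FF (gap val t) τ l)) =
      FF (gap val t) τ k * FF (gap val t) τ k := by
  have hq := (qq_pos hw ⟨k⟩ (gap_nonneg hv ht) hτ.le hτ.le).ne'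
  have h1 : ∑ l, w l * (FF (gap val t) τ l * FF (gap val t) τ l) = τ * τ * qq w (gap val t) τ τ := by
    unfold qq FF
    rw [Finset.mul_sum]
    apply Finset.sum_congr rfl
    intro l _
    ring
  rw [h1]
  unfold ww FF
  field_simp

/-- **Quadratic estimate for the time increments of `t R(t x)`**, uniform in `x ∈ [0,1]`. -/
theorem tR_quad {V : ℝ} (hV : ∀ k, |val k| ≤ V) {t t' : ℝ} (ht : 0 ≤ t) (ht' : 0 ≤ t')
    {x : ℝ} (hx : 0 ≤ x) (hx1 : x ≤ 1) :
    |(t' * RR w val (t' * x) - t * RR w val (t * x)) - (t' - t) * phiT w val t x| ≤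
      8 * V * (val (Fin.last K) - val 0) / w (Fin.last K) * (t' - t) ^ 2 := by
  have hV0 : 0 ≤ V := (abs_nonneg _).trans (hV 0)
  have hΔ0 : 0 ≤ val (Fin.last K) - val 0 := sub_nonneg.2 (hv.monotone (Fin.zero_le _))
  have hwl := hw (Fin.last K)
  rcases hx.lt_or_eq with hx0 | hx0
  swap
  · rw [← hx0, tR_zero hv hw hs, tR_zero hv hw hs, phiT_zero hv hw hs ht]
    have : t' * (∑ k, w k * val k) - t * (∑ k, w k * val k) -
        (t' - t) * ∑ k, w k * val k = 0 := by ring
    rw [this, abs_zero]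
    positivity
  set Δ := val (Fin.last K) - val 0 with hΔ
  have hτ := tau_pos_of_pos hv hw hs ht hx0
  have hτ' := tau_pos_of_pos hv hw hs ht' hx0
  have hdiff := tR_diff hv hw hs ht ht' hx0
  have hww : ∀ k, ww w (gap val t) (tau w (gap val t) x) (tau w (gap val t) x) k *
      (∑ l, w l * (FF (gap val t) (tau w (gap val t) x) l *
        FF (gap val t) (tau w (gap val t) x) l)) =
      FF (gap val t) (tau w (gap val t) x) k * FF (gap val t) (tau w (gap val t) x) k :=
    fun k => ww_eq_FF hv hw hs ht hτ k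
  have hτl' := tau_le hw (gap_nonneg hv ht') (gap_last t') hx
  unfold phiT
  have hss := ss_tau hw (gap_nonneg hv ht) (gap_last t) hx
  have hss' := ss_tau hw (gap_nonneg hv ht') (gap_last t') hx
  set τ := tau w (gap val t) x with hτd
  set τ' := tau w (gap val t') x with hτd'
  set X := t' * RR w val (t' * x) - t * RR w val (t * x) with hX
  -- the sums
  set F : Fin (K + 1) → ℝ := FF (gap val t) τ with hFd
  set F' : Fin (K + 1) → ℝ := FF (gap val t') τ' with hFd'
  have hF0 : ∀ k, 0 < F k := fun k => mul_pos hτ (ee_pos (gap_nonneg hv ht) hτ.le k)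
  have hF0' : ∀ k, 0 < F' k := fun k => mul_pos hτ' (ee_pos (gap_nonneg hv ht') hτ'.le k)
  have hFle' : ∀ k, F' k ≤ 1 / w (Fin.last K) := by
    intro k
    have h1 : F' k ≤ τ' := by
      have := mul_le_mul_of_nonneg_left (ee_le_one (gap_nonneg hv ht') hτ'.le k) hτ'.le
      rw [mul_one] at this
      exact this
    refine h1.trans (hτl'.trans ?_)
    exact div_le_div_of_nonneg_right hx1 hwl.le
  -- relative differences
  set δ : Fin (K + 1) → ℝ := fun k => F' k * ((τ⁻¹ - τ'⁻¹) +
    (t - t') * (val (Fin.last K) - val k)) with hδ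
  have hFδ : ∀ k, F' k = F k * (1 + δ k) := by
    intro k
    have e1 : F k * (τ⁻¹ + t * (val (Fin.last K) - val k)) = 1 := by
      have := ee_mul (gap_nonneg hv ht) hτ.le k
      rw [hFd]
      unfold FF
      unfold gap at this ⊢
      field_simp
      linarith
    have e2 : F' k * (τ'⁻¹ + t' * (val (Fin.last K) - val k)) = 1 := by
      have := ee_mul (gap_nonneg hv ht') hτ'.le k
      rw [hFd']
      unfold FF
      unfold gap at this ⊢
      field_simp
      linarith
    simp only [hδ]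
    linear_combination (-F' k) * e1 + F k * e2
  -- bound on 1/τ - 1/τ'
  set S := ∑ k, w k * (F k * F' k) with hS
  have hS0 : 0 < S := Finset.sum_pos (fun k _ => mul_pos (hw k) (mul_pos (hF0 k) (hF0' k)))
    ⟨0, Finset.mem_univ _⟩
  have hβ : |τ⁻¹ - τ'⁻¹| ≤ |t' - t| * Δ := by
    have hsum : ∑ k, w k * (F' k - F k) = 0 := by
      simp only [mul_sub, Finset.sum_sub_distrib]
      have a1 : ∑ k, w k * F' k = x := hss'
      have a2 : ∑ k, w k * F k = x := hss
      rw [a1, a2, sub_self]
    have hsum2 : (τ⁻¹ - τ'⁻¹) * S =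
        (t' - t) * ∑ k, w k * ((val (Fin.last K) - val k) * (F k * F' k)) := by
      have e : ∑ k, w k * (F' k - F k) = (τ⁻¹ - τ'⁻¹) * S +
          (t - t') * ∑ k, w k * ((val (Fin.last K) - val k) * (F k * F' k)) := by
        rw [hS, Finset.mul_sum, Finset.mul_sum, ← Finset.sum_add_distrib]
        apply Finset.sum_congr rfl
        intro k _
        have h1 : F' k - F k = F k * δ k := by rw [hFδ k]; ring
        rw [h1]
        simp only [hδ]
        ring
      rw [hsum] at e
      linarith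
    have h3 : |∑ k, w k * ((val (Fin.last K) - val k) * (F k * F' k))| ≤ Δ * S := by
      rw [abs_of_nonneg]
      · rw [hS, Finset.mul_sum]
        apply Finset.sum_le_sum
        intro k _
        have h4 : val (Fin.last K) - val k ≤ Δ := by
          have := hv.monotone (Fin.zero_le k)
          rw [hΔ]; linarith
        have h5 := mul_pos (hw k) (mul_pos (hF0 k) (hF0' k))
        have := mul_le_mul_of_nonneg_right h4 h5.le
        linarith
      · apply Finset.sum_nonneg
        intro k _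
        exact mul_nonneg (hw k).le (mul_nonneg (sub_nonneg.2 (hv.monotone (Fin.le_last k)))
          (mul_pos (hF0 k) (hF0' k)).le)
    have h4 : |τ⁻¹ - τ'⁻¹| * S ≤ |t' - t| * Δ * S := by
      rw [← abs_of_pos hS0, ← abs_mul, abs_of_pos hS0, hsum2, abs_mul, mul_assoc]
      exact mul_le_mul_of_nonneg_left h3 (abs_nonneg _)
    exact le_of_mul_le_mul_right h4 hS0
  set η := 2 * Δ / w (Fin.last K) * |t' - t| with hη
  have hη0 : 0 ≤ η := by positivity
  have hδle : ∀ k, |δ k| ≤ η := by
    intro k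
    simp only [hδ]
    rw [abs_mul, abs_of_pos (hF0' k)]
    have h1 : |(τ⁻¹ - τ'⁻¹) + (t - t') * (val (Fin.last K) - val k)| ≤ 2 * (|t' - t| * Δ) := by
      refine (abs_add_le _ _).trans ?_
      have h2 : |(t - t') * (val (Fin.last K) - val k)| ≤ |t' - t| * Δ := by
        rw [abs_mul, abs_sub_comm t t',
          abs_of_nonneg (sub_nonneg.2 (hv.monotone (Fin.le_last k)))]
        apply mul_le_mul_of_nonneg_left _ (abs_nonneg _)
        have := hv.monotone (Fin.zero_le k)
        rw [hΔ]; linarith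
      linarith
    calc F' k * |(τ⁻¹ - τ'⁻¹) + (t - t') * (val (Fin.last K) - val k)| ≤
        1 / w (Fin.last K) * (2 * (|t' - t| * Δ)) :=
          mul_le_mul (hFle' k) h1 (abs_nonneg _) (by positivity)
      _ = η := by rw [hη]; ring
  -- weights u
  set S0 := ∑ l, w l * (F l * F l) with hS0d
  have hS00 : 0 < S0 := Finset.sum_pos (fun k _ => mul_pos (hw k) (mul_pos (hF0 k) (hF0 k)))
    ⟨0, Finset.mem_univ _⟩
  set φ := ∑ k, w k * (val k * ww w (gap val t) τ τ k) with hφ
  have hφS : φ * S0 = ∑ k, w k * (val k * (F k * F k)) := by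
    rw [hφ, Finset.sum_mul]
    apply Finset.sum_congr rfl
    intro k _
    have := hww k
    calc w k * (val k * ww w (gap val t) τ τ k) * S0 =
        w k * (val k * (ww w (gap val t) τ τ k * S0)) := by ring
      _ = _ := by rw [this]
  have hφV : |φ| ≤ V := by
    have h1 : |φ * S0| ≤ V * S0 := by
      rw [hφS, hS0d, Finset.mul_sum]
      refine (Finset.abs_sum_le_sum_abs _ _).trans (Finset.sum_le_sum fun k _ => ?_)
      rw [abs_mul, abs_mul, abs_of_pos (hw k), abs_of_pos (mul_pos (hF0 k) (hF0 k))]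
      have := mul_le_mul_of_nonneg_right (hV k)
        (mul_pos (hw k) (mul_pos (hF0 k) (hF0 k))).le
      linarith
    rw [abs_mul, abs_of_pos hS00] at h1
    exact le_of_mul_le_mul_right h1 hS00
  -- the difference
  have hXV : (X - (t' - t) * φ) * S = (t' - t) * ∑ k, w k * ((val k - φ) * (F k * F' k)) := by
    have : ∑ k, w k * ((val k - φ) * (F k * F' k)) =
        (∑ k, w k * (val k * (F k * F' k))) - φ * S := by
      rw [hS, Finset.mul_sum, ← Finset.sum_sub_distrib]
      apply Finset.sum_congr rfl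
      intro k _
      ring
    rw [this, sub_mul, mul_sub, ← hdiff]
    ring
  have hcenter : ∑ k, w k * ((val k - φ) * (F k * F' k)) =
      ∑ k, w k * ((val k - φ) * (F k * F k * δ k)) := by
    have h1 : ∑ k, w k * ((val k - φ) * (F k * F k)) = 0 := by
      have : ∑ k, w k * ((val k - φ) * (F k * F k)) =
          (∑ k, w k * (val k * (F k * F k))) - φ * S0 := by
        rw [hS0d, Finset.mul_sum, ← Finset.sum_sub_distrib]
        apply Finset.sum_congr rfl
        intro k _
        ring
      rw [this, hφS, sub_self]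
    have h2 : ∑ k, w k * ((val k - φ) * (F k * F' k)) =
        (∑ k, w k * ((val k - φ) * (F k * F k))) +
          ∑ k, w k * ((val k - φ) * (F k * F k * δ k)) := by
      rw [← Finset.sum_add_distrib]
      apply Finset.sum_congr rfl
      intro k _
      rw [hFδ k]; ring
    rw [h2, h1, zero_add]
  have hb1 : |∑ k, w k * ((val k - φ) * (F k * F k * δ k))| ≤ 2 * V * η * S0 := by
    rw [hS0d, Finset.mul_sum]
    refine (Finset.abs_sum_le_sum_abs _ _).trans (Finset.sum_le_sum fun k _ => ?_)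
    rw [abs_mul, abs_mul, abs_mul, abs_of_pos (hw k), abs_of_pos (mul_pos (hF0 k) (hF0 k))]
    have h1 : |val k - φ| ≤ 2 * V := by
      refine (abs_sub _ _).trans ?_
      linarith [hV k]
    have h2 : |val k - φ| * |δ k| ≤ 2 * V * η :=
      mul_le_mul h1 (hδle k) (abs_nonneg _) (by positivity)
    have h3 := mul_le_mul_of_nonneg_right h2 (mul_pos (hw k) (mul_pos (hF0 k) (hF0 k))).le
    calc w k * (|val k - φ| * (F k * F k * |δ k|)) =
        |val k - φ| * |δ k| * (w k * (F k * F k)) := by ring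
      _ ≤ 2 * V * η * (w k * (F k * F k)) := h3
  have hb2 : |∑ k, w k * ((val k - φ) * (F k * F' k))| ≤ 2 * V * S := by
    rw [hS, Finset.mul_sum]
    refine (Finset.abs_sum_le_sum_abs _ _).trans (Finset.sum_le_sum fun k _ => ?_)
    rw [abs_mul, abs_mul, abs_of_pos (hw k), abs_of_pos (mul_pos (hF0 k) (hF0' k))]
    have h1 : |val k - φ| ≤ 2 * V := by
      refine (abs_sub _ _).trans ?_
      linarith [hV k]
    have h3 := mul_le_mul_of_nonneg_right h1 (mul_pos (hw k) (mul_pos (hF0 k) (hF0' k))).le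
    linarith
  have hgoal : |X - (t' - t) * φ| ≤ |t' - t| * (4 * V * η) := by
    by_cases hcase : η ≤ 1 / 2
    · -- S ≥ S0/2
      have hSS : S0 / 2 ≤ S := by
        have : S = ∑ k, w k * (F k * F k) * (1 + δ k) := by
          rw [hS]
          apply Finset.sum_congr rfl
          intro k _
          rw [hFδ k]; ring
        rw [this, hS0d, Finset.sum_div]
        apply Finset.sum_le_sum
        intro k _
        have h1 : (1 : ℝ) / 2 ≤ 1 + δ k := by
          have := (abs_le.1 (hδle k)).1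
          linarith
        have h2 := mul_le_mul_of_nonneg_left h1 (mul_pos (hw k) (mul_pos (hF0 k) (hF0 k))).le
        linarith
      have h5 : |X - (t' - t) * φ| * S ≤ |t' - t| * (2 * V * η * S0) := by
        rw [← abs_of_pos hS0, ← abs_mul, hXV, hcenter, abs_mul]
        exact mul_le_mul_of_nonneg_left hb1 (abs_nonneg _)
      have h6 : |t' - t| * (2 * V * η * S0) ≤ |t' - t| * (4 * V * η) * S := by
        have : 2 * V * η * S0 ≤ 4 * V * η * S := by
          have h7 : 0 ≤ 4 * V * η := by positivity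
          have := mul_le_mul_of_nonneg_left hSS h7
          linarith
        have := mul_le_mul_of_nonneg_left this (abs_nonneg (t' - t))
        linarith
      exact le_of_mul_le_mul_right (h5.trans h6) hS0
    · push Not at hcase
      have h5 : |X - (t' - t) * φ| * S ≤ |t' - t| * (2 * V) * S := by
        rw [← abs_of_pos hS0, ← abs_mul, abs_of_pos hS0, hXV, abs_mul, mul_assoc]
        exact mul_le_mul_of_nonneg_left hb2 (abs_nonneg _)
      refine (le_of_mul_le_mul_right h5 hS0).trans ?_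
      apply mul_le_mul_of_nonneg_left _ (abs_nonneg _)
      nlinarith
  refine hgoal.trans (le_of_eq ?_)
  rw [hη, ← sq_abs (t' - t)]
  ring

end time

end

end Crest.Agent.R164.SDAlg
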