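import Crest.Agent.R164.GaussNest
import Crest.Agent.R164.ClipG1
import Crest.Agent.R164.ExactG2
import Crest.Agent.R164.ExactG4
import Crest.Agent.R164.SDAlg5
import Crest.Agent.R164.GEx3
import Crest.Agent.R164.EDa

-- ▼ part R164/GaussPair
section

/-!
# Row 164: two linear observables of a product Gaussian (helper318)

`law2`: the joint law of two linear functionals of independent Gaussians depends on the Gram
data only.  `level_lintegral`: one level of the cavity recursion.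
-/

set_option autoImplicit false

namespace Crest.Agent.R164.GPair

open MeasureTheory ProbabilityTheory ENNReal GTilt

noncomputable section







/-- Cameron-Martin shift. -/
theorem cm (t : ℝ) (G : ℝ → ℝ≥0∞) (hG : Measurable G) :
    ∫⁻ x, ENNReal.ofReal (Real.exp (t * x)) * G x ∂γ =
      ENNReal.ofReal (Real.exp (t ^ 2 / 2)) * ∫⁻ x, G (x + t) ∂γ := by
  have hmap : γ.map (fun x => x + t) = gaussianReal t 1 := by
    rw [gaussianReal_map_add_const, zero_add]
  have hR : ∫⁻ x, G (x + t) ∂γ = ∫⁻ z, G z ∂(gaussianReal t 1) := by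
    rw [← hmap, lintegral_map hG (by fun_prop)]
  have hEm : Measurable (fun x : ℝ => ENNReal.ofReal (Real.exp (t * x))) := by fun_prop
  have hL := lintegral_gaussianReal 0 one_ne_zero (hEm.mul hG)
  simp only [Pi.mul_apply] at hL
  have hC := lintegral_const_mul (ENNReal.ofReal (Real.exp (t ^ 2 / 2)))
    ((measurable_gaussianPDF t 1).mul hG) (μ := volume)
  simp only [Pi.mul_apply] at hC
  rw [hR, hL, lintegral_gaussianReal t one_ne_zero hG, ← hC]
  refine lintegral_congr fun z => ?_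
  have hgoal : gaussianPDF 0 1 z * ENNReal.ofReal (Real.exp (t * z)) =
      ENNReal.ofReal (Real.exp (t ^ 2 / 2)) * gaussianPDF t 1 z := by
    unfold gaussianPDF
    rw [← ENNReal.ofReal_mul (gaussianPDFReal_nonneg _ _ _), ← ENNReal.ofReal_mul (Real.exp_pos _).le]
    congr 1
    unfold gaussianPDFReal
    rw [mul_left_comm (Real.exp (t ^ 2 / 2)), mul_assoc, ← Real.exp_add, ← Real.exp_add]
    congr 2
    simp only [NNReal.coe_one, mul_one, sub_zero]
    ring
  rw [← mul_assoc, hgoal, mul_assoc]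

/-- general Gaussian integral. -/
theorem gq (A B : ℝ) (hA : A < 1) :
    ∫⁻ x, ENNReal.ofReal (Real.exp (1 / 2 * A * x ^ 2 + B * x)) ∂γ =
      ENNReal.ofReal ((Real.sqrt (1 - A))⁻¹ * Real.exp (B ^ 2 / (2 * (1 - A)))) := by
  have h1 : ∀ x : ℝ, ENNReal.ofReal (Real.exp (1 / 2 * A * x ^ 2 + B * x)) =
      ENNReal.ofReal (Real.exp (B * x)) *
        (fun x : ℝ => ENNReal.ofReal (Real.exp (1 / 2 * A * x ^ 2))) x := by
    intro x
    rw [← ENNReal.ofReal_mul (Real.exp_pos _).le, ← Real.exp_add, add_comm]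
  simp only [h1]
  rw [cm B (fun x : ℝ => ENNReal.ofReal (Real.exp (1 / 2 * A * x ^ 2))) (by fun_prop)]
  have h2 : ∀ x : ℝ, ENNReal.ofReal (Real.exp (1 / 2 * A * (x + B) ^ 2)) =
      ENNReal.ofReal (Real.exp (1 * (1 / 2 * (A * (B + Real.sqrt 1 * x) ^ 2)))) *
        (fun _ : ℝ => (1 : ℝ≥0∞)) (B + Real.sqrt 1 * x) := by
    intro x
    rw [mul_one, Real.sqrt_one, one_mul, one_mul, add_comm x B, mul_assoc]
  simp only [h2]
  rw [one_dim 1 A 1 B zero_le_one (by linarith) (fun _ => 1) measurable_const]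
  simp only [lintegral_const, measure_univ, mul_one, one_mul]
  rw [← ENNReal.ofReal_mul (Real.exp_pos _).le]
  congr 1
  have hA' : (1 - A) ≠ 0 := by linarith
  rw [mul_left_comm, ← Real.exp_add]
  congr 2
  field_simp
  ring

end

end Crest.Agent.R164.GPair
end

-- ▼ part R164/ClipG2
section

/-!
# Row 164: exponential supersolutions for the exact tilted law (helper318)

One step of the recursion `Fr` of helper716, with an additional exponential of one of the three
coordinates `M = (x - s z)/(1 + θ s)`, `z`, `y`.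
-/

set_option autoImplicit false

namespace Crest.Agent.R164.ClipG

open MeasureTheory ProbabilityTheory ENNReal Crest.ProbabilityR.InvariantGlass
open Crest.Agent.R164.GTilt (γ lintegral_add_gauss Lip)
open Crest.Agent.R164.CavG (gm lin gstep th gval)
open Crest.Agent.R164.EG (Qf Fr dot dot_add step_core three_law meas_Fr meas_dot int_exact
  gstep_exact)

noncomputable section

variable {ι : Type*} [Fintype ι]

/-- the first decoupled coordinate. -/
def Mf (s θ x z : ℝ) : ℝ := (x - s * z) / (1 + θ * s)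

theorem Qf_shift {s θ : ℝ} (h : 0 < 1 + θ * s) {a : ℝ} (ha : 0 < a) (t x z : ℝ) :
    a * Qf s θ x (z - t / a) = a * Qf s θ x z + t * Mf s θ x z +
      1 / 2 * (t ^ 2 / a) * (s / (1 + θ * s)) := by
  unfold Qf Mf
  have := h.ne'
  field_simp
  ring_nf

/-- one step with an arbitrary test function of `(z, y)` and a shift in the quadratic part. -/
theorem lint_gen {a s s' r ρ θ vy : ℝ} (ha : 0 < a) (hs' : 0 ≤ s') (hρ : 0 ≤ ρ) (hvy : 0 ≤ vy)
    (hss : s ≤ s' / (1 + s' * ρ)) (h1 : 0 < 1 + θ * s) (h2 : 0 < 1 + (θ + ρ) * s')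
    (v c0 c1 cy : ι → ℝ) (hv : ∀ k, 0 ≤ v k)
    (g00 : ∑ k, v k * (c0 k * c0 k) = (s' - s) / a)
    (g01 : ∑ k, v k * (c0 k * c1 k) = (s' * (r + ρ) - s * r) / a)
    (g11 : ∑ k, v k * (c1 k * c1 k) =
      ((s' * (r + ρ) ^ 2 + (r + ρ)) - (s * r ^ 2 + r)) / a)
    (g0y : ∑ k, v k * (c0 k * cy k) = 0) (g1y : ∑ k, v k * (c1 k * cy k) = 0)
    (gyy : ∑ k, v k * (cy k * cy k) = vy) (τ : ℝ) (F : ℝ × ℝ → ℝ≥0∞) (hF : Measurable F)
    (z : ι → ℝ) :
    ∫⁻ g, ENNReal.ofReal (Real.exp (a * Qf s θ (dot c0 (sh v z g))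
        (dot c1 (sh v z g) - r * dot c0 (sh v z g) - τ))) *
      F (dot c1 (sh v z g) - r * dot c0 (sh v z g), dot cy (sh v z g)) ∂(gm ι) =
      ENNReal.ofReal (Real.sqrt ((1 + θ * s) / (1 + (θ + ρ) * s')) *
        Real.exp (a * Qf s' (θ + ρ) (dot c0 z) (dot c1 z - (r + ρ) * dot c0 z - τ))) *
      ∫⁻ g, ∫⁻ g₃, F (dot c1 z - (r + ρ) * dot c0 z + Real.sqrt (ρ / a) * g,
        dot cy z + Real.sqrt vy * g₃) ∂γ ∂γ := by
  set x := dot c0 z with hx
  set Y := dot cy z with hY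
  set ζ := dot c1 z - (r + ρ) * x with hζ
  have hζ0 : dot c1 z - r * x = ζ + ρ * x := by rw [hζ]; ring
  set H : (Fin 3 → ℝ) → ℝ≥0∞ := fun X => ENNReal.ofReal (Real.exp (a *
    Qf s θ (x + X 0) (ζ - τ + ρ * x + X 1))) * F (ζ + ρ * x + X 1, Y + X 2) with hH
  have hHm : Measurable H := by
    have h3 : Measurable fun X : Fin 3 → ℝ => Qf s θ (x + X 0) (ζ - τ + ρ * x + X 1) := by
      unfold Qf; fun_prop
    have h4 : Measurable fun X : Fin 3 → ℝ => F (ζ + ρ * x + X 1, Y + X 2) :=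
      hF.comp (by fun_prop)
    exact ((h3.const_mul a).exp.ennreal_ofReal).mul h4
  have hL := three_law ha hs' hρ hvy hss v c0 c1 cy hv g00 g01 g11 g0y g1y gyy H hHm
  have e1 : ∀ g : ι → ℝ, ENNReal.ofReal (Real.exp (a * Qf s θ (dot c0 (sh v z g))
        (dot c1 (sh v z g) - r * dot c0 (sh v z g) - τ))) *
      F (dot c1 (sh v z g) - r * dot c0 (sh v z g), dot cy (sh v z g)) =
        H ![∑ k, (c0 k * Real.sqrt (v k)) * g k,
        ∑ k, (c1 k * Real.sqrt (v k)) * g k - r * ∑ k, (c0 k * Real.sqrt (v k)) * g k,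
        ∑ k, (cy k * Real.sqrt (v k)) * g k] := by
    intro g
    simp only [hH, dot_add, Matrix.cons_val_zero, Matrix.cons_val_one, Matrix.cons_val_two,
      Matrix.head_cons, Matrix.tail_cons]
    rw [← hx, ← hY]
    have e2 : dot c1 z + ∑ k, c1 k * Real.sqrt (v k) * g k -
        r * (x + ∑ k, c0 k * Real.sqrt (v k) * g k) = ζ + ρ * x +
        (∑ k, c1 k * Real.sqrt (v k) * g k - r * ∑ k, c0 k * Real.sqrt (v k) * g k) := by
      rw [← hζ0]; ring
    rw [e2]
    congr 4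
    ring_nf
  simp only [e1]
  rw [hL]
  set h : ℝ → ℝ≥0∞ := fun t => ∫⁻ g₃, F (t + τ, Y + Real.sqrt vy * g₃) ∂γ with hh
  have hhm : Measurable h :=
    Measurable.lintegral_prod_right'
      (f := fun p : ℝ × ℝ => F (p.1 + τ, Y + Real.sqrt vy * p.2)) (hF.comp (by fun_prop))
  have hcore := step_core ha hs' hρ hss h1 h2 x (ζ - τ) h hhm
  have e3 : ∀ g₁ g₂ : ℝ, ∫⁻ g₃, H ![s' / (1 + s' * ρ) * (Real.sqrt (ρ * (1 + s' * ρ) / a) * g₁) +
          Real.sqrt ((s' / (1 + s' * ρ) - s) / a) * g₂,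
        Real.sqrt (ρ * (1 + s' * ρ) / a) * g₁, Real.sqrt vy * g₃] ∂γ =
      ENNReal.ofReal (Real.exp (a * Qf s θ
        (x + s' / (1 + s' * ρ) * (Real.sqrt (ρ * (1 + s' * ρ) / a) * g₁) +
          Real.sqrt ((s' / (1 + s' * ρ) - s) / a) * g₂)
        (ζ - τ + ρ * x + Real.sqrt (ρ * (1 + s' * ρ) / a) * g₁))) *
        h (ζ - τ + ρ * x + Real.sqrt (ρ * (1 + s' * ρ) / a) * g₁) := by
    intro g₁ g₂
    simp only [hH, hh, Matrix.cons_val_zero, Matrix.cons_val_one, Matrix.cons_val_two,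
      Matrix.head_cons, Matrix.tail_cons]
    have hm1 : Measurable fun g₃ : ℝ => F (ζ + ρ * x + Real.sqrt (ρ * (1 + s' * ρ) / a) * g₁,
        Y + Real.sqrt vy * g₃) := hF.comp (by fun_prop)
    rw [lintegral_const_mul _ hm1]
    congr 1
    · congr 4
      ring
    · refine lintegral_congr fun g₃ => ?_
      congr 2
      ring
  simp only [e3]
  rw [hcore]
  congr 1
  simp only [hh]
  refine lintegral_congr fun g => lintegral_congr fun g₃ => ?_
  congr 2
  ring

/-- data of one step. -/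
structure Step (a s s' r ρ θ vy : ℝ) (v c0 c1 cy : ι → ℝ) : Prop where
  ha : 0 < a
  hs' : 0 ≤ s'
  hρ : 0 ≤ ρ
  hvy : 0 ≤ vy
  hss : s ≤ s' / (1 + s' * ρ)
  h1 : 0 < 1 + θ * s
  h2 : 0 < 1 + (θ + ρ) * s'
  hv : ∀ k, 0 ≤ v k
  g00 : ∑ k, v k * (c0 k * c0 k) = (s' - s) / a
  g01 : ∑ k, v k * (c0 k * c1 k) = (s' * (r + ρ) - s * r) / a
  g11 : ∑ k, v k * (c1 k * c1 k) = ((s' * (r + ρ) ^ 2 + (r + ρ)) - (s * r ^ 2 + r)) / a
  g0y : ∑ k, v k * (c0 k * cy k) = 0
  g1y : ∑ k, v k * (c1 k * cy k) = 0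
  gyy : ∑ k, v k * (cy k * cy k) = vy

variable {a s s' r ρ θ vy : ℝ} {v c0 c1 cy : ι → ℝ}

theorem Step.gen (S : Step a s s' r ρ θ vy v c0 c1 cy) (τ : ℝ) (F : ℝ × ℝ → ℝ≥0∞)
    (hF : Measurable F) (z : ι → ℝ) :
    ∫⁻ g, ENNReal.ofReal (Real.exp (a * Qf s θ (dot c0 (sh v z g))
        (dot c1 (sh v z g) - r * dot c0 (sh v z g) - τ))) *
      F (dot c1 (sh v z g) - r * dot c0 (sh v z g), dot cy (sh v z g)) ∂(gm ι) =
      ENNReal.ofReal (Real.sqrt ((1 + θ * s) / (1 + (θ + ρ) * s')) *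
        Real.exp (a * Qf s' (θ + ρ) (dot c0 z) (dot c1 z - (r + ρ) * dot c0 z - τ))) *
      ∫⁻ g, ∫⁻ g₃, F (dot c1 z - (r + ρ) * dot c0 z + Real.sqrt (ρ / a) * g,
        dot cy z + Real.sqrt vy * g₃) ∂γ ∂γ :=
  lint_gen S.ha S.hs' S.hρ S.hvy S.hss S.h1 S.h2 v c0 c1 cy S.hv S.g00 S.g01 S.g11 S.g0y S.g1y
    S.gyy τ F hF z

theorem Step.integrable (S : Step a s s' r ρ θ vy v c0 c1 cy) {f : ℝ → ℝ} (hf : Lip f) (c : ℝ)
    (z : ι → ℝ) :
    Integrable (fun g => Real.exp (a * Fr c s θ r f c0 c1 cy (sh v z g))) (gm ι) :=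
  (int_exact (c := c) S.ha S.hs' S.hρ S.hvy S.hss S.h1 S.h2 v c0 c1 cy S.hv S.g00 S.g01 S.g11
    S.g0y S.g1y S.gyy hf z).1

/-- the new function. -/
def Frn (c a s s' r ρ θ vy : ℝ) (f : ℝ → ℝ) (c0 c1 cy : ι → ℝ) : (ι → ℝ) → ℝ :=
  Fr (c - 1 / (2 * a) * Real.log ((1 + (θ + ρ) * s') / (1 + θ * s))) s' (θ + ρ) (r + ρ)
        (gaussOp a (ρ / a + vy) f) c0 c1 cy

theorem Step.gstep (S : Step a s s' r ρ θ vy v c0 c1 cy) {f : ℝ → ℝ} (hf : Lip f) (c : ℝ) :
    gstep a v (Fr c s θ r f c0 c1 cy) = Frn c a s s' r ρ θ vy f c0 c1 cy :=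
  gstep_exact S.ha S.hs' S.hρ S.hvy S.hss S.h1 S.h2 v c0 c1 cy S.hv S.g00 S.g01 S.g11
    S.g0y S.g1y S.gyy hf

/-- the scalar double integral. -/
def II (a ρ vy : ℝ) (f : ℝ → ℝ) (ζ Y : ℝ) : ℝ≥0∞ :=
  ∫⁻ g, ∫⁻ g₃, ENNReal.ofReal (Real.exp (a * f (ζ + Real.sqrt (ρ / a) * g +
    (Y + Real.sqrt vy * g₃)))) ∂γ ∂γ

theorem Step.exp_new (S : Step a s s' r ρ θ vy v c0 c1 cy) {f : ℝ → ℝ} (hf : Lip f) (c : ℝ)
    (z : ι → ℝ) :
    ENNReal.ofReal (Real.exp (a * Frn c a s s' r ρ θ vy f c0 c1 cy z)) =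
      ENNReal.ofReal (Real.exp (a * c)) *
      (ENNReal.ofReal (Real.sqrt ((1 + θ * s) / (1 + (θ + ρ) * s')) *
        Real.exp (a * Qf s' (θ + ρ) (dot c0 z) (dot c1 z - (r + ρ) * dot c0 z))) *
      II a ρ vy f (dot c1 z - (r + ρ) * dot c0 z) (dot cy z)) := by
  have hI := S.integrable hf c z
  have h1 := exp_gstep S.ha v (Fr c s θ r f c0 c1 cy) z hI
  rw [S.gstep hf c] at h1
  rw [h1, ofReal_integral_eq_lintegral_ofReal hI (ae_of_all _ fun g => (Real.exp_pos _).le)]
  have hfm : Measurable f := hf.continuous.measurable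
  have hF : Measurable fun p : ℝ × ℝ => ENNReal.ofReal (Real.exp (a * f (p.1 + p.2))) :=
    ((hfm.comp (by fun_prop : Measurable fun p : ℝ × ℝ => p.1 + p.2)).const_mul a).exp.ennreal_ofReal
  have h2 := S.gen 0 _ hF z
  simp only [sub_zero] at h2
  unfold II
  rw [← h2, ← lintegral_const_mul]
  · refine lintegral_congr fun g => ?_
    rw [← ENNReal.ofReal_mul (Real.exp_pos _).le, ← ENNReal.ofReal_mul (Real.exp_pos _).le,
      ← Real.exp_add, ← Real.exp_add]
    congr 2
    unfold Fr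
    ring
  · have m0 : Measurable fun g : ι → ℝ => dot c0 (sh v z g) := (meas_dot c0).comp (measurable_sh v z)
    have m1 : Measurable fun g : ι → ℝ => dot c1 (sh v z g) := (meas_dot c1).comp (measurable_sh v z)
    have my : Measurable fun g : ι → ℝ => dot cy (sh v z g) := (meas_dot cy).comp (measurable_sh v z)
    have mQ : Measurable fun g : ι → ℝ => Qf s θ (dot c0 (sh v z g))
        (dot c1 (sh v z g) - r * dot c0 (sh v z g)) := by
      unfold Qf; fun_prop
    have mf : Measurable fun g : ι → ℝ => f (dot c1 (sh v z g) - r * dot c0 (sh v z g) +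
        dot cy (sh v z g)) := hfm.comp (by fun_prop)
    exact ((mQ.const_mul a).exp.ennreal_ofReal).mul ((mf.const_mul a).exp.ennreal_ofReal)

/-- tilted average of `exp (t M) E(z, y)`. -/
theorem Step.tilt (S : Step a s s' r ρ θ vy v c0 c1 cy) {f : ℝ → ℝ} (hf : Lip f) (c : ℝ)
    (z : ι → ℝ) (t : ℝ) (E : ℝ × ℝ → ℝ≥0∞) (hE : Measurable E) (C : ℝ≥0∞)
    (hC : ∫⁻ g, ∫⁻ g₃, E (dot c1 z - (r + ρ) * dot c0 z + Real.sqrt (ρ / a) * g,
        dot cy z + Real.sqrt vy * g₃) * ENNReal.ofReal (Real.exp (a * f (dot c1 z -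
          (r + ρ) * dot c0 z + Real.sqrt (ρ / a) * g + (dot cy z + Real.sqrt vy * g₃)))) ∂γ ∂γ ≤
      C * II a ρ vy f (dot c1 z - (r + ρ) * dot c0 z) (dot cy z)) :
    ∫⁻ g, (ENNReal.ofReal (Real.exp (t * Mf s θ (dot c0 (sh v z g))
        (dot c1 (sh v z g) - r * dot c0 (sh v z g)))) *
      E (dot c1 (sh v z g) - r * dot c0 (sh v z g), dot cy (sh v z g))) *
      ENNReal.ofReal (Real.exp (a * (Fr c s θ r f c0 c1 cy (sh v z g) -
        Frn c a s s' r ρ θ vy f c0 c1 cy z))) ∂(gm ι) ≤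
    ENNReal.ofReal (Real.exp (t * Mf s' (θ + ρ) (dot c0 z) (dot c1 z - (r + ρ) * dot c0 z) +
      1 / 2 * (t ^ 2 / a) * (s' / (1 + (θ + ρ) * s') - s / (1 + θ * s)))) * C := by
  have hfm : Measurable f := hf.continuous.measurable
  set x := dot c0 z with hx
  set Y := dot cy z with hY
  set ζ := dot c1 z - (r + ρ) * x with hζ
  set Fn := Frn c a s s' r ρ θ vy f c0 c1 cy z with hFn
  set F : ℝ × ℝ → ℝ≥0∞ := fun p => E p * ENNReal.ofReal (Real.exp (a * f (p.1 + p.2))) with hFd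
  have hF : Measurable F := hE.mul
    ((hfm.comp (by fun_prop : Measurable fun p : ℝ × ℝ => p.1 + p.2)).const_mul a).exp.ennreal_ofReal
  have hgen := S.gen (t / a) F hF z
  rw [← hx, ← hY, ← hζ] at hgen
  -- constants
  set k0 : ℝ := -(a * Fn) + a * c - 1 / 2 * (t ^ 2 / a) * (s / (1 + θ * s)) with hk0
  have e1 : ∀ g : ι → ℝ, (ENNReal.ofReal (Real.exp (t * Mf s θ (dot c0 (sh v z g))
        (dot c1 (sh v z g) - r * dot c0 (sh v z g)))) *
      E (dot c1 (sh v z g) - r * dot c0 (sh v z g), dot cy (sh v z g))) *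
      ENNReal.ofReal (Real.exp (a * (Fr c s θ r f c0 c1 cy (sh v z g) - Fn))) =
      ENNReal.ofReal (Real.exp k0) *
      (ENNReal.ofReal (Real.exp (a * Qf s θ (dot c0 (sh v z g))
        (dot c1 (sh v z g) - r * dot c0 (sh v z g) - t / a))) *
      F (dot c1 (sh v z g) - r * dot c0 (sh v z g), dot cy (sh v z g))) := by
    intro g
    simp only [hFd]
    rw [mul_right_comm, ← ENNReal.ofReal_mul (Real.exp_pos _).le, ← Real.exp_add,
      mul_comm (E _), ← mul_assoc, ← mul_assoc, ← ENNReal.ofReal_mul (Real.exp_pos _).le,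
      ← Real.exp_add, ← ENNReal.ofReal_mul (Real.exp_pos _).le, ← Real.exp_add]
    congr 3
    rw [Qf_shift S.h1 S.ha, hk0]
    unfold Fr
    ring
  simp only [e1]
  rw [lintegral_const_mul]
  · rw [hgen]
    have hsh := Qf_shift S.h2 S.ha t x ζ
    rw [hsh]
    have hnew := S.exp_new hf c z
    rw [← hx, ← hY, ← hζ, ← hFn] at hnew
    have hone : ENNReal.ofReal (Real.exp (-(a * Fn))) * ENNReal.ofReal (Real.exp (a * Fn)) = 1 := by
      rw [← ENNReal.ofReal_mul (Real.exp_pos _).le, ← Real.exp_add]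
      simp
    rw [hnew] at hone
    set sq := Real.sqrt ((1 + θ * s) / (1 + (θ + ρ) * s')) with hsq
    have hsq0 : 0 ≤ sq := Real.sqrt_nonneg _
    set m1 := t * Mf s' (θ + ρ) x ζ with hm1
    set q1 := a * Qf s' (θ + ρ) x ζ with hq1
    calc ENNReal.ofReal (Real.exp k0) * (ENNReal.ofReal (sq * Real.exp (q1 + m1 +
          1 / 2 * (t ^ 2 / a) * (s' / (1 + (θ + ρ) * s')))) *
          ∫⁻ g, ∫⁻ g₃, F (ζ + Real.sqrt (ρ / a) * g, Y + Real.sqrt vy * g₃) ∂γ ∂γ)
        ≤ ENNReal.ofReal (Real.exp k0) * (ENNReal.ofReal (sq * Real.exp (q1 + m1 +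
          1 / 2 * (t ^ 2 / a) * (s' / (1 + (θ + ρ) * s')))) * (C * II a ρ vy f ζ Y)) := by
          gcongr
      _ = ENNReal.ofReal (Real.exp (m1 +
            1 / 2 * (t ^ 2 / a) * (s' / (1 + (θ + ρ) * s') - s / (1 + θ * s)))) * C *
          (ENNReal.ofReal (Real.exp (-(a * Fn))) * (ENNReal.ofReal (Real.exp (a * c)) *
            (ENNReal.ofReal (sq * Real.exp q1) * II a ρ vy f ζ Y))) := by
          have h3 : ENNReal.ofReal (Real.exp k0) * ENNReal.ofReal (sq * Real.exp (q1 + m1 +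
              1 / 2 * (t ^ 2 / a) * (s' / (1 + (θ + ρ) * s')))) =
              ENNReal.ofReal (Real.exp (m1 +
                1 / 2 * (t ^ 2 / a) * (s' / (1 + (θ + ρ) * s') - s / (1 + θ * s)))) *
              (ENNReal.ofReal (Real.exp (-(a * Fn))) * (ENNReal.ofReal (Real.exp (a * c)) *
                ENNReal.ofReal (sq * Real.exp q1))) := by
            rw [← ENNReal.ofReal_mul (Real.exp_pos _).le, ← ENNReal.ofReal_mul (Real.exp_pos _).le,
              ← ENNReal.ofReal_mul (Real.exp_pos _).le, ← ENNReal.ofReal_mul (Real.exp_pos _).le]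
            congr 1
            have h4 : Real.exp k0 * (sq * Real.exp (q1 + m1 +
              1 / 2 * (t ^ 2 / a) * (s' / (1 + (θ + ρ) * s')))) = sq * (Real.exp k0 *
              Real.exp (q1 + m1 + 1 / 2 * (t ^ 2 / a) * (s' / (1 + (θ + ρ) * s')))) := by ring
            have h5 : Real.exp (m1 +
                1 / 2 * (t ^ 2 / a) * (s' / (1 + (θ + ρ) * s') - s / (1 + θ * s))) *
              (Real.exp (-(a * Fn)) * (Real.exp (a * c) * (sq * Real.exp q1))) =
              sq * (Real.exp (m1 +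
                1 / 2 * (t ^ 2 / a) * (s' / (1 + (θ + ρ) * s') - s / (1 + θ * s))) *
              (Real.exp (-(a * Fn)) * (Real.exp (a * c) * Real.exp q1))) := by ring
            rw [h4, h5, ← Real.exp_add, ← Real.exp_add, ← Real.exp_add, ← Real.exp_add]
            congr 2
            rw [hk0]
            ring
          calc _ = (ENNReal.ofReal (Real.exp k0) * ENNReal.ofReal (sq * Real.exp (q1 + m1 +
              1 / 2 * (t ^ 2 / a) * (s' / (1 + (θ + ρ) * s'))))) * (C * II a ρ vy f ζ Y) := by ring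
            _ = _ := by rw [h3]; ring
      _ = ENNReal.ofReal (Real.exp (m1 +
            1 / 2 * (t ^ 2 / a) * (s' / (1 + (θ + ρ) * s') - s / (1 + θ * s)))) * C := by
          rw [hone, mul_one]
  · have m0 : Measurable fun g : ι → ℝ => dot c0 (sh v z g) := (meas_dot c0).comp (measurable_sh v z)
    have m1 : Measurable fun g : ι → ℝ => dot c1 (sh v z g) := (meas_dot c1).comp (measurable_sh v z)
    have my : Measurable fun g : ι → ℝ => dot cy (sh v z g) := (meas_dot cy).comp (measurable_sh v z)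
    have mQ : Measurable fun g : ι → ℝ => Qf s θ (dot c0 (sh v z g))
        (dot c1 (sh v z g) - r * dot c0 (sh v z g) - t / a) := by
      unfold Qf; fun_prop
    have mF : Measurable fun g : ι → ℝ => F (dot c1 (sh v z g) - r * dot c0 (sh v z g),
        dot cy (sh v z g)) := hF.comp ((m1.sub (m0.const_mul r)).prodMk my)
    exact ((mQ.const_mul a).exp.ennreal_ofReal).mul mF

end

end Crest.Agent.R164.ClipG
end

-- ▼ part R164/ClipG3
section

/-!
# Row 164: exponential supersolutions, part 2 (helper318)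
-/

set_option autoImplicit false

namespace Crest.Agent.R164.ClipG

open MeasureTheory ProbabilityTheory ENNReal Crest.ProbabilityR.InvariantGlass
open Crest.Agent.R164.GTilt (γ lintegral_add_gauss Lip)
open Crest.Agent.R164.CavG (gm lin gstep th gval)
open Crest.Agent.R164.EG (Qf Fr dot dot_add step_core three_law meas_Fr meas_dot int_exact
  gstep_exact)
open Crest.Agent.R164.GPair (cm)

noncomputable section

variable {ι : Type*} [Fintype ι]
variable {a s s' r ρ θ vy : ℝ} {v c0 c1 cy : ι → ℝ}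

/-- exponential of the z coordinate. -/
theorem II_z (ha : 0 < a) (hρ : 0 ≤ ρ) {f : ℝ → ℝ} (hf : Lip f) (ζ Y t : ℝ) :
    ∫⁻ g, ∫⁻ g₃, ENNReal.ofReal (Real.exp (t * (ζ + Real.sqrt (ρ / a) * g))) *
        ENNReal.ofReal (Real.exp (a * f (ζ + Real.sqrt (ρ / a) * g + (Y + Real.sqrt vy * g₃))))
          ∂γ ∂γ ≤
      ENNReal.ofReal (Real.exp (t * ζ + (1 / 2 * t ^ 2 * (ρ / a) + |t| * ρ))) * II a ρ vy f ζ Y := by
  have hfm : Measurable f := hf.continuous.measurable
  have hFm : Measurable fun u : ℝ => ENNReal.ofReal (Real.exp (a * f u)) :=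
    (hfm.const_mul a).exp.ennreal_ofReal
  set q := Real.sqrt (ρ / a) with hq
  have hq2 : q ^ 2 = ρ / a := Real.sq_sqrt (div_nonneg hρ ha.le)
  set Φ : ℝ → ℝ≥0∞ := fun g => ∫⁻ g₃, ENNReal.ofReal (Real.exp (a * f (ζ + q * g +
    (Y + Real.sqrt vy * g₃)))) ∂γ with hΦ
  have hΦm : Measurable Φ :=
    Measurable.lintegral_prod_right' (f := fun p : ℝ × ℝ => ENNReal.ofReal (Real.exp (a *
      f (ζ + q * p.1 + (Y + Real.sqrt vy * p.2))))) (hFm.comp (by fun_prop))
  have e1 : ∀ g : ℝ, ∫⁻ g₃, ENNReal.ofReal (Real.exp (t * (ζ + q * g))) *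
        ENNReal.ofReal (Real.exp (a * f (ζ + q * g + (Y + Real.sqrt vy * g₃)))) ∂γ =
      ENNReal.ofReal (Real.exp (t * ζ)) * (ENNReal.ofReal (Real.exp ((t * q) * g)) * Φ g) := by
    intro g
    have hm : Measurable fun g₃ : ℝ => ENNReal.ofReal (Real.exp (a *
        f (ζ + q * g + (Y + Real.sqrt vy * g₃)))) := hFm.comp (by fun_prop)
    rw [lintegral_const_mul _ hm, ← mul_assoc, ← ENNReal.ofReal_mul (Real.exp_pos _).le,
      ← Real.exp_add]
    congr 4
    ring
  simp only [e1]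
  have hm2 : Measurable fun g : ℝ => ENNReal.ofReal (Real.exp ((t * q) * g)) * Φ g :=
    Measurable.mul (by fun_prop) hΦm
  rw [lintegral_const_mul _ hm2, cm (t * q) Φ hΦm]
  have h3 : ∀ g : ℝ, Φ (g + t * q) ≤ ENNReal.ofReal (Real.exp (|t| * ρ)) * Φ g := by
    intro g
    simp only [hΦ]
    have hm : Measurable fun g₃ : ℝ => ENNReal.ofReal (Real.exp (a *
        f (ζ + q * g + (Y + Real.sqrt vy * g₃)))) := hFm.comp (by fun_prop)
    rw [← lintegral_const_mul _ hm]
    refine lintegral_mono fun g₃ => ?_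
    rw [← ENNReal.ofReal_mul (Real.exp_pos _).le, ← Real.exp_add]
    apply ENNReal.ofReal_le_ofReal
    apply Real.exp_le_exp.mpr
    have h4 := hf (ζ + q * (g + t * q) + (Y + Real.sqrt vy * g₃))
      (ζ + q * g + (Y + Real.sqrt vy * g₃))
    have e2 : ζ + q * (g + t * q) + (Y + Real.sqrt vy * g₃) -
        (ζ + q * g + (Y + Real.sqrt vy * g₃)) = t * q ^ 2 := by ring
    rw [e2, hq2, abs_mul, abs_of_nonneg (div_nonneg hρ ha.le)] at h4
    have h5 := (abs_le.mp h4).2
    have h6 := mul_le_mul_of_nonneg_left h5 ha.le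
    have e3 : a * (|t| * (ρ / a)) = |t| * ρ := by field_simp
    rw [e3] at h6
    linarith
  calc ENNReal.ofReal (Real.exp (t * ζ)) * (ENNReal.ofReal (Real.exp ((t * q) ^ 2 / 2)) *
        ∫⁻ g, Φ (g + t * q) ∂γ)
      ≤ ENNReal.ofReal (Real.exp (t * ζ)) * (ENNReal.ofReal (Real.exp ((t * q) ^ 2 / 2)) *
        ∫⁻ g, ENNReal.ofReal (Real.exp (|t| * ρ)) * Φ g ∂γ) := by
        gcongr with g
        exact h3 g
    _ = ENNReal.ofReal (Real.exp (t * ζ)) * (ENNReal.ofReal (Real.exp ((t * q) ^ 2 / 2)) *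
        (ENNReal.ofReal (Real.exp (|t| * ρ)) * II a ρ vy f ζ Y)) := by
        rw [lintegral_const_mul _ hΦm]
        rfl
    _ = _ := by
        rw [← mul_assoc, ← mul_assoc, ← ENNReal.ofReal_mul (Real.exp_pos _).le,
          ← ENNReal.ofReal_mul (by positivity), ← Real.exp_add, ← Real.exp_add]
        congr 3
        have : (t * q) ^ 2 = t ^ 2 * (ρ / a) := by rw [mul_pow, hq2]
        rw [this]
        ring

/-- exponential of the label coordinate. -/
theorem II_y (ha : 0 < a) (hvy : 0 ≤ vy) {f : ℝ → ℝ} (hf : Lip f) (ζ Y t : ℝ) :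
    ∫⁻ g, ∫⁻ g₃, ENNReal.ofReal (Real.exp (t * (Y + Real.sqrt vy * g₃))) *
        ENNReal.ofReal (Real.exp (a * f (ζ + Real.sqrt (ρ / a) * g + (Y + Real.sqrt vy * g₃))))
          ∂γ ∂γ ≤
      ENNReal.ofReal (Real.exp (t * Y + (1 / 2 * t ^ 2 * vy + |t| * (a * vy)))) *
        II a ρ vy f ζ Y := by
  have hfm : Measurable f := hf.continuous.measurable
  have hFm : Measurable fun u : ℝ => ENNReal.ofReal (Real.exp (a * f u)) :=
    (hfm.const_mul a).exp.ennreal_ofReal
  set q := Real.sqrt vy with hq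
  have hq2 : q ^ 2 = vy := Real.sq_sqrt hvy
  unfold II
  have hmI : Measurable fun g : ℝ => ∫⁻ g₃, ENNReal.ofReal (Real.exp (a *
      f (ζ + Real.sqrt (ρ / a) * g + (Y + q * g₃)))) ∂γ :=
    Measurable.lintegral_prod_right' (f := fun p : ℝ × ℝ => ENNReal.ofReal (Real.exp (a *
      f (ζ + Real.sqrt (ρ / a) * p.1 + (Y + q * p.2))))) (hFm.comp (by fun_prop))
  rw [← lintegral_const_mul _ hmI]
  refine lintegral_mono fun g => ?_
  have hm : Measurable fun g₃ : ℝ => ENNReal.ofReal (Real.exp (a *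
        f (ζ + Real.sqrt (ρ / a) * g + (Y + q * g₃)))) := hFm.comp (by fun_prop)
  have e1 : ∀ g₃ : ℝ, ENNReal.ofReal (Real.exp (t * (Y + q * g₃))) *
        ENNReal.ofReal (Real.exp (a * f (ζ + Real.sqrt (ρ / a) * g + (Y + q * g₃)))) =
      ENNReal.ofReal (Real.exp (t * Y)) * (ENNReal.ofReal (Real.exp ((t * q) * g₃)) *
        ENNReal.ofReal (Real.exp (a * f (ζ + Real.sqrt (ρ / a) * g + (Y + q * g₃))))) := by
    intro g₃
    have e : ENNReal.ofReal (Real.exp (t * (Y + q * g₃))) =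
        ENNReal.ofReal (Real.exp (t * Y)) * ENNReal.ofReal (Real.exp ((t * q) * g₃)) := by
      rw [← ENNReal.ofReal_mul (Real.exp_pos _).le, ← Real.exp_add]
      congr 2
      ring
    rw [e, mul_assoc]
  simp only [e1]
  have hm2 : Measurable fun g₃ : ℝ => ENNReal.ofReal (Real.exp ((t * q) * g₃)) *
        ENNReal.ofReal (Real.exp (a * f (ζ + Real.sqrt (ρ / a) * g + (Y + q * g₃)))) :=
    Measurable.mul (by fun_prop) hm
  rw [lintegral_const_mul _ hm2,
    cm (t * q) (fun g₃ : ℝ => ENNReal.ofReal (Real.exp (a *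
        f (ζ + Real.sqrt (ρ / a) * g + (Y + q * g₃))))) hm]
  have h3 : ∀ g₃ : ℝ, ENNReal.ofReal (Real.exp (a *
        f (ζ + Real.sqrt (ρ / a) * g + (Y + q * (g₃ + t * q))))) ≤
      ENNReal.ofReal (Real.exp (|t| * (a * vy))) * ENNReal.ofReal (Real.exp (a *
        f (ζ + Real.sqrt (ρ / a) * g + (Y + q * g₃)))) := by
    intro g₃
    rw [← ENNReal.ofReal_mul (Real.exp_pos _).le, ← Real.exp_add]
    apply ENNReal.ofReal_le_ofReal
    apply Real.exp_le_exp.mpr
    have h4 := hf (ζ + Real.sqrt (ρ / a) * g + (Y + q * (g₃ + t * q)))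
      (ζ + Real.sqrt (ρ / a) * g + (Y + q * g₃))
    have e2 : ζ + Real.sqrt (ρ / a) * g + (Y + q * (g₃ + t * q)) -
        (ζ + Real.sqrt (ρ / a) * g + (Y + q * g₃)) = t * q ^ 2 := by ring
    rw [e2, hq2, abs_mul, abs_of_nonneg hvy] at h4
    have h5 := (abs_le.mp h4).2
    have h6 := mul_le_mul_of_nonneg_left h5 ha.le
    have e3 : a * (|t| * vy) = |t| * (a * vy) := by ring
    rw [e3] at h6
    linarith
  calc _ ≤ ENNReal.ofReal (Real.exp (t * Y)) * (ENNReal.ofReal (Real.exp ((t * q) ^ 2 / 2)) *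
        ∫⁻ g₃, ENNReal.ofReal (Real.exp (|t| * (a * vy))) * ENNReal.ofReal (Real.exp (a *
        f (ζ + Real.sqrt (ρ / a) * g + (Y + q * g₃)))) ∂γ) := by
        gcongr with g₃
        exact h3 g₃
    _ = _ := by
        rw [lintegral_const_mul _ hm, ← mul_assoc, ← mul_assoc, ← mul_assoc,
          ← ENNReal.ofReal_mul (Real.exp_pos _).le,
          ← ENNReal.ofReal_mul (by positivity), ← Real.exp_add, ← Real.exp_add]
        congr 3
        have : (t * q) ^ 2 = t ^ 2 * vy := by rw [mul_pow, hq2]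
        rw [this]
        ring

/-- the tilt density of one step -/
def dens (a c s s' r ρ θ vy : ℝ) (f : ℝ → ℝ) (v c0 c1 cy z g : ι → ℝ) : ℝ≥0∞ :=
  ENNReal.ofReal (Real.exp (a * (Fr c s θ r f c0 c1 cy (sh v z g) -
        Frn c a s s' r ρ θ vy f c0 c1 cy z)))

theorem Step.tilt_M (S : Step a s s' r ρ θ vy v c0 c1 cy) {f : ℝ → ℝ} (hf : Lip f) (c : ℝ)
    (z : ι → ℝ) (t : ℝ) :
    ∫⁻ g, ENNReal.ofReal (Real.exp (t * Mf s θ (dot c0 (sh v z g))
        (dot c1 (sh v z g) - r * dot c0 (sh v z g)))) *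
        dens a c s s' r ρ θ vy f v c0 c1 cy z g ∂(gm ι) ≤
    ENNReal.ofReal (Real.exp (t * Mf s' (θ + ρ) (dot c0 z) (dot c1 z - (r + ρ) * dot c0 z) +
      1 / 2 * (t ^ 2 / a) * (s' / (1 + (θ + ρ) * s') - s / (1 + θ * s)))) := by
  have h := S.tilt hf c z t (fun _ => 1) measurable_const 1 (by
    simp only [one_mul]
    exact le_rfl)
  unfold dens
  simpa only [mul_one] using h

theorem Step.tilt_z (S : Step a s s' r ρ θ vy v c0 c1 cy) {f : ℝ → ℝ} (hf : Lip f) (c : ℝ)
    (z : ι → ℝ) (t : ℝ) :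
    ∫⁻ g, ENNReal.ofReal (Real.exp (t * (dot c1 (sh v z g) - r * dot c0 (sh v z g)))) *
        dens a c s s' r ρ θ vy f v c0 c1 cy z g ∂(gm ι) ≤
    ENNReal.ofReal (Real.exp (t * (dot c1 z - (r + ρ) * dot c0 z) +
      (1 / 2 * t ^ 2 * (ρ / a) + |t| * ρ))) := by
  have h := S.tilt hf c z 0 (fun p => ENNReal.ofReal (Real.exp (t * p.1))) (by fun_prop) _
    (II_z S.ha S.hρ hf _ _ t)
  have e : (0 : ℝ) ^ 2 = 0 := by norm_num
  unfold dens
  simpa only [zero_mul, Real.exp_zero, ENNReal.ofReal_one, one_mul, e, zero_div, mul_zero,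
    add_zero] using h

theorem Step.tilt_y (S : Step a s s' r ρ θ vy v c0 c1 cy) {f : ℝ → ℝ} (hf : Lip f) (c : ℝ)
    (z : ι → ℝ) (t : ℝ) :
    ∫⁻ g, ENNReal.ofReal (Real.exp (t * dot cy (sh v z g))) *
        dens a c s s' r ρ θ vy f v c0 c1 cy z g ∂(gm ι) ≤
    ENNReal.ofReal (Real.exp (t * dot cy z + (1 / 2 * t ^ 2 * vy + |t| * (a * vy)))) := by
  have h := S.tilt hf c z 0 (fun p => ENNReal.ofReal (Real.exp (t * p.2))) (by fun_prop) _
    (II_y S.ha S.hvy hf _ _ t)
  have e : (0 : ℝ) ^ 2 = 0 := by norm_num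
  unfold dens
  simpa only [zero_mul, Real.exp_zero, ENNReal.ofReal_one, one_mul, e, zero_div, mul_zero,
    add_zero] using h

end

end Crest.Agent.R164.ClipG
end

-- ▼ part R164/ClipG4
section

/-!
# Row 164: uniform truncation of the nested Gaussian functional (helper318)
-/

set_option autoImplicit false

namespace Crest.Agent.R164.ClipG

open MeasureTheory ProbabilityTheory ENNReal Crest.ProbabilityR.InvariantGlass
open Crest.Agent.R164.GTilt (γ lintegral_add_gauss Lip)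
open Crest.Agent.R164.CavG (gm lin gstep th gval th_zero th_succ)
open Crest.Agent.R164.EG (Qf Fr dot dot_add step_core three_law meas_Fr meas_dot int_exact
  gstep_exact)
open Crest.Agent.R164.GPair (cm)

noncomputable section

variable {ι : Type*} [Fintype ι]
variable {a s s' r ρ θ vy : ℝ} {v c0 c1 cy : ι → ℝ}

/-- `e^u + e^{-u}` -/
def ee (u : ℝ) : ℝ≥0∞ := ENNReal.ofReal (Real.exp (1 * u)) + ENNReal.ofReal (Real.exp ((-1) * u))

theorem measurable_ee : Measurable ee := by unfold ee; fun_prop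

theorem meas_dens (c : ℝ) {f : ℝ → ℝ} (hf : Measurable f) (z : ι → ℝ) :
    Measurable (dens a c s s' r ρ θ vy f v c0 c1 cy z) := by
  unfold dens
  have h : Measurable fun g : ι → ℝ => Fr c s θ r f c0 c1 cy (sh v z g) :=
    (meas_Fr c s θ r hf c0 c1 cy).comp (measurable_sh v z)
  exact (((h.sub_const _).const_mul a).exp).ennreal_ofReal

omit [Fintype ι] in
theorem ee_step {μ : Measure (ι → ℝ)} (D : (ι → ℝ) → ℝ≥0∞) (hD : Measurable D)
    (U : (ι → ℝ) → ℝ) (hU : Measurable U) (u δ : ℝ)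
    (h : ∀ t : ℝ, t ^ 2 = 1 → |t| = 1 → ∫⁻ g, ENNReal.ofReal (Real.exp (t * U g)) * D g ∂μ ≤
      ENNReal.ofReal (Real.exp (t * u + δ))) :
    ∫⁻ g, ee (U g) * D g ∂μ ≤ ENNReal.ofReal (Real.exp δ) * ee u := by
  have h1 := h 1 (by norm_num) (by norm_num)
  have h2 := h (-1) (by norm_num) (by norm_num)
  have e : ∀ g, ee (U g) * D g = ENNReal.ofReal (Real.exp (1 * U g)) * D g +
      ENNReal.ofReal (Real.exp ((-1) * U g)) * D g := by
    intro g; unfold ee; rw [add_mul]
  simp only [e]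
  have hm1 : Measurable fun g => ENNReal.ofReal (Real.exp (1 * U g)) * D g :=
    Measurable.mul ((hU.const_mul 1).exp.ennreal_ofReal) hD
  rw [lintegral_add_left hm1]
  refine (add_le_add h1 h2).trans (le_of_eq ?_)
  unfold ee
  rw [Real.exp_add, Real.exp_add, ENNReal.ofReal_mul (Real.exp_pos _).le,
    ENNReal.ofReal_mul (Real.exp_pos _).le]
  ring

/-- the supersolution -/
def Gf (C s θ r : ℝ) (c0 c1 cy : ι → ℝ) (z : ι → ℝ) : ℝ≥0∞ :=
  ENNReal.ofReal C * (ee (Mf s θ (dot c0 z) (dot c1 z - r * dot c0 z)) +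
    ee (dot c1 z - r * dot c0 z) + ee (dot cy z))

/-- exponent increment of one step -/
def dl (a s s' ρ θ vy : ℝ) : ℝ :=
  1 / 2 * (1 / a) * (s' / (1 + (θ + ρ) * s') - s / (1 + θ * s)) + (1 / 2 * (ρ / a) + ρ) +
    (1 / 2 * vy + a * vy)

theorem Step.dM_nonneg (S : Step a s s' r ρ θ vy v c0 c1 cy) :
    0 ≤ s' / (1 + (θ + ρ) * s') - s / (1 + θ * s) := by
  have hE : 0 < 1 + s' * ρ := by have := mul_nonneg S.hs' S.hρ; linarith
  have h := S.hss
  rw [le_div_iff₀ hE] at h
  rw [sub_nonneg, div_le_div_iff₀ S.h1 S.h2]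
  nlinarith

theorem Gf_step (S : Step a s s' r ρ θ vy v c0 c1 cy) {f : ℝ → ℝ} (hf : Lip f) (c C : ℝ)
    (hC : 0 ≤ C) (z : ι → ℝ) :
    ∫⁻ g, Gf C s θ r c0 c1 cy (sh v z g) * dens a c s s' r ρ θ vy f v c0 c1 cy z g ∂(gm ι) ≤
      Gf (C * Real.exp (dl a s s' ρ θ vy)) s' (θ + ρ) (r + ρ) c0 c1 cy z := by
  have hD := meas_dens (a := a) (s := s) (s' := s') (r := r) (ρ := ρ) (θ := θ) (vy := vy) (v := v)
    (c0 := c0) (c1 := c1) (cy := cy) c hf.continuous.measurable z
  set D := dens a c s s' r ρ θ vy f v c0 c1 cy z with hDd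
  have m0 : Measurable fun g : ι → ℝ => dot c0 (sh v z g) := (meas_dot c0).comp (measurable_sh v z)
  have m1 : Measurable fun g : ι → ℝ => dot c1 (sh v z g) := (meas_dot c1).comp (measurable_sh v z)
  have my : Measurable fun g : ι → ℝ => dot cy (sh v z g) := (meas_dot cy).comp (measurable_sh v z)
  have mz : Measurable fun g : ι → ℝ => dot c1 (sh v z g) - r * dot c0 (sh v z g) := by fun_prop
  have mM : Measurable fun g : ι → ℝ => Mf s θ (dot c0 (sh v z g))
      (dot c1 (sh v z g) - r * dot c0 (sh v z g)) := by unfold Mf; fun_prop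
  have ha := S.ha
  have hdM := S.dM_nonneg
  have hρ := S.hρ
  have hvy := S.hvy
  have p1 : 0 ≤ 1 / 2 * (1 / a) * (s' / (1 + (θ + ρ) * s') - s / (1 + θ * s)) := by positivity
  have p2 : 0 ≤ 1 / 2 * (ρ / a) + ρ := by positivity
  have p3 : 0 ≤ 1 / 2 * vy + a * vy := by positivity
  set δ := dl a s s' ρ θ vy with hδ
  have kM := ee_step (μ := gm ι) D hD _ mM (Mf s' (θ + ρ) (dot c0 z)
    (dot c1 z - (r + ρ) * dot c0 z)) δ (fun t ht _ => by
      refine (S.tilt_M hf c z t).trans (ENNReal.ofReal_le_ofReal (Real.exp_le_exp.mpr ?_))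
      rw [ht, hδ]; unfold dl; linarith)
  have kz := ee_step (μ := gm ι) D hD _ mz (dot c1 z - (r + ρ) * dot c0 z) δ (fun t ht ht' => by
      refine (S.tilt_z hf c z t).trans (ENNReal.ofReal_le_ofReal (Real.exp_le_exp.mpr ?_))
      rw [ht, ht', hδ]; unfold dl; linarith)
  have ky := ee_step (μ := gm ι) D hD _ my (dot cy z) δ (fun t ht ht' => by
      refine (S.tilt_y hf c z t).trans (ENNReal.ofReal_le_ofReal (Real.exp_le_exp.mpr ?_))
      rw [ht, ht', hδ]; unfold dl; linarith)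
  have e : ∀ g, Gf C s θ r c0 c1 cy (sh v z g) * D g = ENNReal.ofReal C *
      (ee (Mf s θ (dot c0 (sh v z g)) (dot c1 (sh v z g) - r * dot c0 (sh v z g))) * D g +
      ee (dot c1 (sh v z g) - r * dot c0 (sh v z g)) * D g + ee (dot cy (sh v z g)) * D g) := by
    intro g
    unfold Gf
    ring
  simp only [e]
  have q1 : Measurable fun g : ι → ℝ => ee (Mf s θ (dot c0 (sh v z g))
      (dot c1 (sh v z g) - r * dot c0 (sh v z g))) * D g := (measurable_ee.comp mM).mul hD
  have q2 : Measurable fun g : ι → ℝ => ee (dot c1 (sh v z g) - r * dot c0 (sh v z g)) * D g :=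
    (measurable_ee.comp mz).mul hD
  have q3 : Measurable fun g : ι → ℝ => ee (dot cy (sh v z g)) * D g := (measurable_ee.comp my).mul hD
  have q12 : Measurable fun g : ι → ℝ => ee (Mf s θ (dot c0 (sh v z g))
      (dot c1 (sh v z g) - r * dot c0 (sh v z g))) * D g +
      ee (dot c1 (sh v z g) - r * dot c0 (sh v z g)) * D g := q1.add q2
  have q123 : Measurable fun g : ι → ℝ => ee (Mf s θ (dot c0 (sh v z g))
      (dot c1 (sh v z g) - r * dot c0 (sh v z g))) * D g +
      ee (dot c1 (sh v z g) - r * dot c0 (sh v z g)) * D g + ee (dot cy (sh v z g)) * D g :=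
    q12.add q3
  rw [lintegral_const_mul _ q123, lintegral_add_left q12, lintegral_add_left q1]
  unfold Gf
  rw [ENNReal.ofReal_mul hC, mul_assoc]
  gcongr
  rw [mul_add, mul_add]
  exact add_le_add (add_le_add kM kz) ky

/-- untilted average of exponentials of linear functionals. -/
theorem lint_exp_dot (v : ι → ℝ) (hv : ∀ k, 0 ≤ v k) (c z : ι → ℝ) (t : ℝ) :
    ∫⁻ g, ENNReal.ofReal (Real.exp (t * dot c (sh v z g))) ∂(gm ι) =
      ENNReal.ofReal (Real.exp (t * dot c z + 1 / 2 * t ^ 2 * ∑ k, v k * (c k * c k))) := by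
  have hG : ∀ i j : Fin 1, ∑ k, (fun (_ : Fin 1) (k : ι) => c k * Real.sqrt (v k)) i k *
      (fun (_ : Fin 1) (k : ι) => c k * Real.sqrt (v k)) j k =
      ∑ k : Fin 1, (fun (_ : Fin 1) (_ : Fin 1) => Real.sqrt (∑ k, v k * (c k * c k))) i k *
        (fun (_ : Fin 1) (_ : Fin 1) => Real.sqrt (∑ k, v k * (c k * c k))) j k := by
    intro i j
    simp only [Finset.univ_unique, Finset.sum_singleton]
    rw [Real.mul_self_sqrt (Finset.sum_nonneg fun k _ => mul_nonneg (hv k) (mul_self_nonneg _))]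
    refine Finset.sum_congr rfl fun k _ => ?_
    have := Real.mul_self_sqrt (hv k)
    linear_combination (c k * c k) * this
  have hlaw := CavG.law_lin _ _ hG
  set q := Real.sqrt (∑ k, v k * (c k * c k)) with hq
  have hq2 : q ^ 2 = ∑ k, v k * (c k * c k) :=
    Real.sq_sqrt (Finset.sum_nonneg fun k _ => mul_nonneg (hv k) (mul_self_nonneg _))
  have hF : Measurable fun X : Fin 1 → ℝ => ENNReal.ofReal (Real.exp (t * (dot c z + X 0))) := by
    fun_prop
  have h := congrArg (fun μ => ∫⁻ X, ENNReal.ofReal (Real.exp (t * (dot c z + X 0))) ∂μ) hlaw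
  rw [lintegral_map hF (CavG.measurable_lin _), lintegral_map hF (CavG.measurable_lin _)] at h
  have e1 : ∀ g : ι → ℝ, ENNReal.ofReal (Real.exp (t * dot c (sh v z g))) =
      ENNReal.ofReal (Real.exp (t * (dot c z + lin (fun (_ : Fin 1) (k : ι) =>
        c k * Real.sqrt (v k)) g 0))) := by
    intro g
    show ENNReal.ofReal (Real.exp (t * dot c (fun k => z k + Real.sqrt (v k) * g k))) = _
    rw [dot_add]
    rfl
  simp only [e1]
  rw [h]
  have e2 : ∀ X : Fin 1 → ℝ, ENNReal.ofReal (Real.exp (t * (dot c z +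
      lin (fun (_ : Fin 1) (_ : Fin 1) => q) X 0))) =
      ENNReal.ofReal (Real.exp (t * dot c z)) *
        ENNReal.ofReal (Real.exp (1 / 2 * 0 * (X 0) ^ 2 + (t * q) * (X 0))) := by
    intro X
    rw [← ENNReal.ofReal_mul (Real.exp_pos _).le, ← Real.exp_add]
    congr 2
    simp only [lin, Finset.univ_unique, Finset.sum_singleton, Fin.default_eq_zero]
    ring
  simp only [e2]
  rw [lintegral_const_mul _ (by fun_prop)]
  have e3 : ∫⁻ X : Fin 1 → ℝ, ENNReal.ofReal (Real.exp (1 / 2 * 0 * (X 0) ^ 2 + (t * q) * (X 0)))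
      ∂(gm (Fin 1)) = ∫⁻ x, ENNReal.ofReal (Real.exp (1 / 2 * 0 * x ^ 2 + (t * q) * x)) ∂γ := by
    have hmp := measurePreserving_eval (fun _ : Fin 1 => gaussianReal 0 1) 0
    have hmF : Measurable fun x : ℝ => ENNReal.ofReal (Real.exp (1 / 2 * 0 * x ^ 2 +
      (t * q) * x)) := by fun_prop
    exact hmp.lintegral_comp hmF
  rw [e3, GPair.gq 0 (t * q) zero_lt_one, ← ENNReal.ofReal_mul (Real.exp_pos _).le]
  congr 1
  rw [sub_zero, Real.sqrt_one, inv_one, one_mul, ← Real.exp_add]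
  congr 1
  have : (t * q) ^ 2 = t ^ 2 * (∑ k, v k * (c k * c k)) := by rw [mul_pow, hq2]
  rw [this]
  ring

end

end Crest.Agent.R164.ClipG
end

-- ▼ part R164/ClipG5
section

/-!
# Row 164: uniform truncation, concrete leaf function (helper318)
-/

set_option autoImplicit false

namespace Crest.Agent.R164.ClipG

open MeasureTheory ProbabilityTheory ENNReal Crest.ProbabilityR.InvariantGlass
open Crest.Agent.R164.PAlg
open Crest.Agent.R164.GTilt (γ lintegral_add_gauss Lip)
open Crest.Agent.R164.CavG (gm lin gstep th gval th_zero th_succ)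
open Crest.Agent.R164.EG

noncomputable section

/-! ### elementary bounds -/

theorem ee_eq (u : ℝ) : ee u = ENNReal.ofReal (Real.exp u + Real.exp (-u)) := by
  unfold ee
  rw [one_mul, neg_one_mul, ← ENNReal.ofReal_add (Real.exp_pos _).le (Real.exp_pos _).le]

theorem sq_le_ee (u : ℝ) : u ^ 2 ≤ 2 * (Real.exp u + Real.exp (-u)) := by
  have h := Real.pow_div_factorial_le_exp |u| (abs_nonneg u) 2
  have h1 : Real.exp |u| ≤ Real.exp u + Real.exp (-u) := by
    have := Real.exp_pos u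
    have := Real.exp_pos (-u)
    rcases abs_cases u with ⟨h, _⟩ | ⟨h, _⟩ <;> rw [h] <;> linarith
  have h2 : ((2 : ℕ).factorial : ℝ) = 2 := by norm_num [Nat.factorial]
  rw [h2, sq_abs] at h
  linarith

theorem four_le_ee (u : ℝ) : u ^ 4 ≤ 24 * (Real.exp u + Real.exp (-u)) := by
  have h := Real.pow_div_factorial_le_exp |u| (abs_nonneg u) 4
  have h1 : Real.exp |u| ≤ Real.exp u + Real.exp (-u) := by
    have := Real.exp_pos u
    have := Real.exp_pos (-u)
    rcases abs_cases u with ⟨h, _⟩ | ⟨h, _⟩ <;> rw [h] <;> linarith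
  have h2 : ((4 : ℕ).factorial : ℝ) = 24 := by norm_num [Nat.factorial]
  have h3 : |u| ^ 4 = u ^ 4 := by
    have : |u| ^ 4 = (|u| ^ 2) ^ 2 := by ring
    rw [this, sq_abs]; ring
  rw [h2, h3] at h
  linarith

theorem two_le_ee (u : ℝ) : 2 ≤ Real.exp u + Real.exp (-u) := by
  have h1 := Real.add_one_le_exp u
  have h2 := Real.add_one_le_exp (-u)
  linarith

theorem abs_log_cosh_le (u : ℝ) : |Real.log (Real.cosh u)| ≤ |u| := by
  have h := GTilt.lip_log_cosh u 0
  simpa using h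

/-- constant of the leaf bound -/
def AW (L B : ℝ) : ℝ := 5 * ((L / 2 + B) ^ 2 + 24 * (L + 1 / 2) ^ 2 + 8)

theorem AW_nonneg (L B : ℝ) : 0 ≤ AW L B := by unfold AW; positivity

theorem leaf_sq (L B M θ b x z y : ℝ) (hM : |M| ≤ L) (hθ : |θ| ≤ 2 * L)
    (hb : |b| ≤ B) :
    (M / 2 + Qf 0 θ x z + Real.log (Real.cosh (z + y + b))) ^ 2 ≤
      AW L B * ((Real.exp x + Real.exp (-x)) + (Real.exp z + Real.exp (-z)) +
        (Real.exp y + Real.exp (-y))) := by
  have hB : 0 ≤ B := (abs_nonneg b).trans hb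
  have h1 := abs_log_cosh_le (z + y + b)
  have h2 : |z + y + b| ≤ |z| + |y| + B := by
    refine (abs_add_le _ _).trans ?_
    have := abs_add_le z y
    linarith
  have h3 : |Qf 0 θ x z| ≤ (L + 1 / 2) * x ^ 2 + z ^ 2 / 2 := by
    unfold Qf
    have e : -(θ * x ^ 2 + 2 * x * z - 0 * z ^ 2) / (2 * (1 + θ * 0)) =
        -(θ / 2 * x ^ 2) - x * z := by ring
    rw [e]
    have h4 : |θ / 2 * x ^ 2| ≤ L * x ^ 2 := by
      rw [abs_mul, abs_of_nonneg (sq_nonneg x)]
      refine mul_le_mul_of_nonneg_right ?_ (sq_nonneg x)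
      rw [abs_div, abs_two]
      linarith
    have h5 : |x * z| ≤ x ^ 2 / 2 + z ^ 2 / 2 := by
      rw [abs_le]
      constructor <;> nlinarith [sq_nonneg (x + z), sq_nonneg (x - z)]
    have h6 : |(-(θ / 2 * x ^ 2)) - x * z| ≤ |θ / 2 * x ^ 2| + |x * z| := by
      refine (abs_sub _ _).trans ?_
      rw [abs_neg]
    linarith
  have h7 : |M / 2 + Qf 0 θ x z + Real.log (Real.cosh (z + y + b))| ≤
      (L / 2 + B) + (L + 1 / 2) * x ^ 2 + z ^ 2 / 2 + |z| + |y| := by
    have a1 := abs_add_le (M / 2 + Qf 0 θ x z) (Real.log (Real.cosh (z + y + b)))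
    have a2 := abs_add_le (M / 2) (Qf 0 θ x z)
    have a3 : |M / 2| ≤ L / 2 := by rw [abs_div, abs_two]; linarith
    linarith
  have h8 : 0 ≤ |M / 2 + Qf 0 θ x z + Real.log (Real.cosh (z + y + b))| := abs_nonneg _
  rw [← sq_abs]
  have h9 : |M / 2 + Qf 0 θ x z + Real.log (Real.cosh (z + y + b))| ^ 2 ≤
      ((L / 2 + B) + (L + 1 / 2) * x ^ 2 + z ^ 2 / 2 + |z| + |y|) ^ 2 :=
    pow_le_pow_left₀ h8 h7 2
  refine h9.trans ?_
  have h10 : ∀ p q r s t : ℝ, (p + q + r + s + t) ^ 2 ≤ 5 * (p ^ 2 + q ^ 2 + r ^ 2 + s ^ 2 + t ^ 2) := by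
    intro p q r s t
    have e : 5 * (p ^ 2 + q ^ 2 + r ^ 2 + s ^ 2 + t ^ 2) - (p + q + r + s + t) ^ 2 =
        (p - q) ^ 2 + (p - r) ^ 2 + (p - s) ^ 2 + (p - t) ^ 2 + (q - r) ^ 2 + (q - s) ^ 2 +
        (q - t) ^ 2 + (r - s) ^ 2 + (r - t) ^ 2 + (s - t) ^ 2 := by ring
    have h : 0 ≤ 5 * (p ^ 2 + q ^ 2 + r ^ 2 + s ^ 2 + t ^ 2) - (p + q + r + s + t) ^ 2 := by
      rw [e]; positivity
    linarith
  refine (h10 _ _ _ _ _).trans ?_
  have x4 := four_le_ee x
  have z4 := four_le_ee z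
  have z2 := sq_le_ee z
  have y2 := sq_le_ee y
  have x1 := two_le_ee x
  have y1 := two_le_ee y
  have z1 := two_le_ee z
  set X := Real.exp x + Real.exp (-x)
  set Z := Real.exp z + Real.exp (-z)
  set Y := Real.exp y + Real.exp (-y)
  rw [sq_abs, sq_abs]
  unfold AW
  have e1 : ((L + 1 / 2) * x ^ 2) ^ 2 = (L + 1 / 2) ^ 2 * x ^ 4 := by ring
  have e2 : (z ^ 2 / 2) ^ 2 = z ^ 4 / 4 := by ring
  rw [e1, e2]
  have k1 : (L + 1 / 2) ^ 2 * x ^ 4 ≤ (L + 1 / 2) ^ 2 * (24 * X) :=
    mul_le_mul_of_nonneg_left x4 (sq_nonneg _)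
  have ha0 : 0 ≤ (L / 2 + B) ^ 2 := sq_nonneg _
  have hc0 : 0 ≤ (L + 1 / 2) ^ 2 := sq_nonneg _
  generalize (L / 2 + B) ^ 2 = α at ha0 ⊢
  generalize (L + 1 / 2) ^ 2 = β at hc0 k1 ⊢
  have k2 : α * 1 ≤ α * X := mul_le_mul_of_nonneg_left (by linarith) ha0
  have k3 : 0 ≤ α * Z := mul_nonneg ha0 (by linarith)
  have k4 : 0 ≤ α * Y := mul_nonneg ha0 (by linarith)
  have k5 : 0 ≤ β * Z := mul_nonneg hc0 (by linarith)
  have k6 : 0 ≤ β * Y := mul_nonneg hc0 (by linarith)
  have e3 : 5 * (α + 24 * β + 8) * (X + Z + Y) = 5 * (α * X + α * Z + α * Y +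
      24 * (β * X) + 24 * (β * Z) + 24 * (β * Y) + 8 * X + 8 * Z + 8 * Y) := by ring
  rw [e3]
  have e4 : β * (24 * X) = 24 * (β * X) := by ring
  rw [e4] at k1
  linarith

end

end Crest.Agent.R164.ClipG
end

-- ▼ part R164/ClipG6
section

/-!
# Row 164: uniform truncation, main theorem (helper318)
-/

set_option autoImplicit false

namespace Crest.Agent.R164.ClipG

open MeasureTheory ProbabilityTheory ENNReal Crest.ProbabilityR.InvariantGlass
open Crest.Agent.R164.PAlg
open Crest.Agent.R164.GTilt (γ lintegral_add_gauss Lip)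
open Crest.Agent.R164.CavG (gm lin gstep th gval th_zero th_succ)
open Crest.Agent.R164.EG

noncomputable section

variable {K : ℕ} {w val : Fin (K + 1) → ℝ}

/-- the standing hypotheses on the recursion data -/
structure Dat (w val : Fin (K + 1) → ℝ) (J : ℕ) (y S vy : ℕ → ℝ) (p0 : ℝ)
    (v : ℕ → Option (Fin (K + 1)) → ℝ) : Prop where
  hv : StrictMono val
  hw : ∀ k, 0 < w k
  hs : ∑ k, w k = 1
  hS0 : S 0 = 0
  hSm : ∀ n, n ≤ J → S n ≤ S (n + 1)
  hy : ∀ n, n ≤ J → 0 < y n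
  hy1 : ∀ n, n ≤ J → y n ≤ 1
  hya : ∀ n, n + 1 ≤ J → y (n + 1) ≤ y n
  hvy : ∀ n, n ≤ J + 1 → 0 ≤ vy n
  hvk : ∀ n, n ≤ J → ∀ k, v n (some k) = (DK w val (S (n + 1)) k - DK w val (S n) k) / y n
  hvn : ∀ n, n ≤ J + 1 → v n none = vy n
  hSp : 0 < S (J + 1)
  hp0 : 0 ≤ p0
  hvb : ∀ k, v (J + 1) (some k) = p0 * (w k * ((bb w val (S (J + 1)) - val k)⁻¹) ^ 2 /
      g2 w val (bb w val (S (J + 1))))

variable {J : ℕ} {y S vy : ℕ → ℝ} {p0 : ℝ} {v : ℕ → Option (Fin (K + 1)) → ℝ}

namespace Dat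

variable (D : Dat w val J y S vy p0 v)
include D

theorem S_nonneg : ∀ n, n ≤ J + 1 → 0 ≤ S n := by
  intro m
  induction m with
  | zero => intro _; rw [D.hS0]
  | succ m ih => intro hm; exact (ih (by omega)).trans (D.hSm m (by omega))

theorem v_nonneg (n : ℕ) (hn : n ≤ J + 1) (o : Option (Fin (K + 1))) : 0 ≤ v n o := by
  cases o with
  | none => rw [D.hvn n hn]; exact D.hvy n hn
  | some k =>
    rcases Nat.lt_or_ge J n with h | h
    · have : n = J + 1 := by omega
      subst this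
      rw [D.hvb]
      have hgt := bb_gt D.hv D.hw D.hs D.hSp
      have hg := g2_pos D.hw hgt
      exact mul_nonneg D.hp0 (div_nonneg (mul_nonneg (D.hw k).le (sq_nonneg _)) hg.le)
    · rw [D.hvk n h]
      exact div_nonneg (sub_nonneg.2 (DK_mono D.hv D.hw D.hs (D.S_nonneg n (by omega))
        (D.hSm n h) k)) (D.hy n h).le

theorem step (l : Fin (K + 1)) (n : ℕ) (hn : n ≤ J) :
    Step (y n) (S n) (S (n + 1)) (RR w val (S n) - m1 w val)
      (RR w val (S (n + 1)) - RR w val (S n)) (RR w val (S n) - val l) (vy n) (v n)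
      oc0 (oc1 w val) ocy := by
  have h0 := D.S_nonneg n (by omega)
  have h0' := D.S_nonneg (n + 1) (by omega)
  have hv := D.hv
  have hw := D.hw
  have hs := D.hs
  refine
    { ha := D.hy n hn
      hs' := h0'
      hρ := sub_nonneg.2 (RR_mono hv hw hs h0 (D.hSm n hn))
      hvy := D.hvy n (by omega)
      hss := cond_s hv hw hs h0 (D.hSm n hn)
      h1 := theta_pos hv hw hs h0 l
      h2 := ?_
      hv := D.v_nonneg n (by omega)
      g00 := ?_
      g01 := ?_
      g11 := ?_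
      g0y := ?_
      g1y := ?_
      gyy := ?_ }
  · have := theta_pos hv hw hs h0' l
    have e : RR w val (S n) - val l + (RR w val (S (n + 1)) - RR w val (S n)) =
      RR w val (S (n + 1)) - val l := by ring
    rw [e]; exact this
  · rw [Fintype.sum_option]
    simp only [oc0, Option.elim_none, Option.elim_some, mul_zero, zero_add, mul_one]
    rw [Finset.sum_congr rfl fun k _ => D.hvk n hn k, ← Finset.sum_div, Finset.sum_sub_distrib,
      sum_DK hv hw hs h0, sum_DK hv hw hs h0']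
  · rw [Fintype.sum_option]
    simp only [oc0, oc1, Option.elim_none, Option.elim_some, mul_zero, zero_add, one_mul]
    have e : ∀ k, v n (some k) * (val k - m1 w val) =
        ((DK w val (S (n + 1)) k * val k - m1 w val * DK w val (S (n + 1)) k) -
         (DK w val (S n) k * val k - m1 w val * DK w val (S n) k)) / y n := by
      intro k; rw [D.hvk n hn]; ring
    rw [Finset.sum_congr rfl fun k _ => e k, ← Finset.sum_div, Finset.sum_sub_distrib,
      Finset.sum_sub_distrib, Finset.sum_sub_distrib, ← Finset.mul_sum, ← Finset.mul_sum,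
      sum_DK hv hw hs h0, sum_DK hv hw hs h0', sum_DK_val hv hw hs h0,
      sum_DK_val hv hw hs h0']
    congr 1
    ring
  · rw [Fintype.sum_option]
    simp only [oc1, Option.elim_none, Option.elim_some, mul_zero, zero_add]
    have e : ∀ k, v n (some k) * ((val k - m1 w val) * (val k - m1 w val)) =
        ((DK w val (S (n + 1)) k * val k ^ 2 - 2 * m1 w val * (DK w val (S (n + 1)) k * val k) +
          m1 w val ^ 2 * DK w val (S (n + 1)) k) -
         (DK w val (S n) k * val k ^ 2 - 2 * m1 w val * (DK w val (S n) k * val k) +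
          m1 w val ^ 2 * DK w val (S n) k)) / y n := by
      intro k; rw [D.hvk n hn]; ring
    rw [Finset.sum_congr rfl fun k _ => e k, ← Finset.sum_div, Finset.sum_sub_distrib,
      Finset.sum_add_distrib, Finset.sum_add_distrib, Finset.sum_sub_distrib,
      Finset.sum_sub_distrib, ← Finset.mul_sum, ← Finset.mul_sum, ← Finset.mul_sum,
      ← Finset.mul_sum, sum_DK hv hw hs h0, sum_DK hv hw hs h0', sum_DK_val hv hw hs h0,
      sum_DK_val hv hw hs h0', sum_DK_val2 hv hw hs h0, sum_DK_val2 hv hw hs h0']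
    congr 1
    ring
  · rw [Fintype.sum_option]
    simp [oc0, ocy]
  · rw [Fintype.sum_option]
    simp [oc1, ocy]
  · rw [Fintype.sum_option]
    simp [ocy, D.hvn n (by omega : n ≤ J + 1)]

theorem th_eq (b : ℝ) (l : Fin (K + 1)) (n : ℕ) (hn : n ≤ J + 1) :
    th y v (WF w val b l) n =
      Fr (cst w val y S l n) (S n) (RR w val (S n) - val l) (RR w val (S n) - m1 w val)
        (fs w val b y S vy n) oc0 (oc1 w val) ocy :=
  th_exact D.hv D.hw D.hs b l D.hS0 D.hSm D.hy (fun n hn => D.hvy n (by omega)) D.hvk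
    (fun n hn => D.hvn n (by omega)) n hn

theorem lip (b : ℝ) (n : ℕ) (hn : n ≤ J + 1) : Lip (fs w val b y S vy n) :=
  lip_fs (w := w) (val := val) b (S := S) (vy := vy) D.hy n hn

/-- the density of one step -/
theorem dens_eq (b : ℝ) (l : Fin (K + 1)) (n : ℕ) (hn : n ≤ J) (z g : Option (Fin (K + 1)) → ℝ) :
    ENNReal.ofReal (Real.exp (y n * (th y v (WF w val b l) n (sh (v n) z g) -
      th y v (WF w val b l) (n + 1) z))) =
    dens (y n) (cst w val y S l n) (S n) (S (n + 1)) (RR w val (S n) - m1 w val)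
      (RR w val (S (n + 1)) - RR w val (S n)) (RR w val (S n) - val l) (vy n)
      (fs w val b y S vy n) (v n) oc0 (oc1 w val) ocy z g := by
  have h1 : th y v (WF w val b l) (n + 1) =
      Frn (cst w val y S l n) (y n) (S n) (S (n + 1)) (RR w val (S n) - m1 w val)
      (RR w val (S (n + 1)) - RR w val (S n)) (RR w val (S n) - val l) (vy n)
      (fs w val b y S vy n) oc0 (oc1 w val) ocy := by
    rw [th_succ, D.th_eq b l n (by omega)]
    exact (D.step l n hn).gstep (D.lip b n (by omega)) _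
  rw [h1, D.th_eq b l n (by omega)]
  rfl

theorem integrable_th (b : ℝ) (l : Fin (K + 1)) (n : ℕ) (hn : n ≤ J)
    (z : Option (Fin (K + 1)) → ℝ) :
    Integrable (fun g => Real.exp (y n * th y v (WF w val b l) n (sh (v n) z g)))
      (gm (Option (Fin (K + 1)))) := by
  rw [D.th_eq b l n (by omega)]
  exact (D.step l n hn).integrable (D.lip b n (by omega)) _ z

end Dat

end

end Crest.Agent.R164.ClipG
end

-- ▼ part R164/ClipG7
section

/-!
# Row 164: uniform truncation, bounds of the exponents (helper318)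
-/

set_option autoImplicit false

namespace Crest.Agent.R164.ClipG

open MeasureTheory ProbabilityTheory ENNReal Crest.ProbabilityR.InvariantGlass
open Crest.Agent.R164.PAlg
open Crest.Agent.R164.GTilt (γ lintegral_add_gauss Lip)
open Crest.Agent.R164.CavG (gm lin gstep th gval th_zero th_succ)
open Crest.Agent.R164.EG

noncomputable section

section gen

variable {ι : Type*} [Fintype ι]

theorem ee_dot (v : ι → ℝ) (hv : ∀ k, 0 ≤ v k) (c z : ι → ℝ) (δ : ℝ)
    (hδ : 1 / 2 * ∑ k, v k * (c k * c k) ≤ δ) :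
    ∫⁻ g, ee (dot c (sh v z g)) ∂(gm ι) ≤ ENNReal.ofReal (Real.exp δ) * ee (dot c z) := by
  have h := ee_step (μ := gm ι) (fun _ => 1) measurable_const (fun g => dot c (sh v z g))
    ((meas_dot c).comp (measurable_sh v z)) (dot c z) δ (fun t ht _ => by
      simp only [mul_one]
      rw [lint_exp_dot v hv c z t]
      apply ENNReal.ofReal_le_ofReal
      apply Real.exp_le_exp.mpr
      rw [ht, mul_one]
      linarith)
  simpa only [mul_one] using h

/-- untilted supersolution -/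
def Uf (C : ℝ) (c0 c1 cy : ι → ℝ) (z : ι → ℝ) : ℝ≥0∞ :=
  ENNReal.ofReal C * (ee (dot c0 z) + ee (dot c1 z) + ee (dot cy z))

theorem Uf_step (v : ι → ℝ) (hv : ∀ k, 0 ≤ v k) (c0 c1 cy z : ι → ℝ) (C δ : ℝ) (hC : 0 ≤ C)
    (h0 : 1 / 2 * ∑ k, v k * (c0 k * c0 k) ≤ δ) (h1 : 1 / 2 * ∑ k, v k * (c1 k * c1 k) ≤ δ)
    (hy : 1 / 2 * ∑ k, v k * (cy k * cy k) ≤ δ) :
    ∫⁻ g, Uf C c0 c1 cy (sh v z g) ∂(gm ι) ≤ Uf (C * Real.exp δ) c0 c1 cy z := by
  have m0 : Measurable fun g : ι → ℝ => ee (dot c0 (sh v z g)) :=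
    measurable_ee.comp ((meas_dot c0).comp (measurable_sh v z))
  have m1 : Measurable fun g : ι → ℝ => ee (dot c1 (sh v z g)) :=
    measurable_ee.comp ((meas_dot c1).comp (measurable_sh v z))
  have my : Measurable fun g : ι → ℝ => ee (dot cy (sh v z g)) :=
    measurable_ee.comp ((meas_dot cy).comp (measurable_sh v z))
  have m01 : Measurable fun g : ι → ℝ => ee (dot c0 (sh v z g)) + ee (dot c1 (sh v z g)) :=
    m0.add m1
  have m01y : Measurable fun g : ι → ℝ => ee (dot c0 (sh v z g)) + ee (dot c1 (sh v z g)) +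
    ee (dot cy (sh v z g)) := m01.add my
  unfold Uf
  rw [lintegral_const_mul _ m01y, lintegral_add_left m01, lintegral_add_left m0,
    ENNReal.ofReal_mul hC, mul_assoc]
  gcongr
  rw [mul_add, mul_add]
  exact add_le_add (add_le_add (ee_dot v hv c0 z δ h0) (ee_dot v hv c1 z δ h1))
    (ee_dot v hv cy z δ hy)

theorem Mf_dot (s θ r : ℝ) (c0 c1 z : ι → ℝ) :
    Mf s θ (dot c0 z) (dot c1 z - r * dot c0 z) =
      dot (fun k => (c0 k - s * (c1 k - r * c0 k)) / (1 + θ * s)) z := by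
  unfold Mf dot
  rw [Finset.mul_sum, ← Finset.sum_sub_distrib, Finset.mul_sum, ← Finset.sum_sub_distrib,
    Finset.sum_div]
  exact Finset.sum_congr rfl fun k _ => by ring

theorem z_dot (r : ℝ) (c0 c1 z : ι → ℝ) :
    dot c1 z - r * dot c0 z = dot (fun k => c1 k - r * c0 k) z := by
  unfold dot
  rw [Finset.mul_sum, ← Finset.sum_sub_distrib]
  exact Finset.sum_congr rfl fun k _ => by ring

theorem dot_zero (c : ι → ℝ) : dot c (fun _ => 0) = 0 := by simp [dot]

theorem ee_zero : ee 0 = ENNReal.ofReal 2 := by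
  rw [ee_eq]; norm_num

/-- bottom integral of `Gf` -/
theorem Gf_bot (v : ι → ℝ) (hv : ∀ k, 0 ≤ v k) (c0 c1 cy : ι → ℝ) (C s θ r δ : ℝ)
    (hM : 1 / 2 * ∑ k, v k * (((c0 k - s * (c1 k - r * c0 k)) / (1 + θ * s)) *
      ((c0 k - s * (c1 k - r * c0 k)) / (1 + θ * s))) ≤ δ)
    (h1 : 1 / 2 * ∑ k, v k * ((c1 k - r * c0 k) * (c1 k - r * c0 k)) ≤ δ)
    (hy : 1 / 2 * ∑ k, v k * (cy k * cy k) ≤ δ) :
    ∫⁻ g, Gf C s θ r c0 c1 cy (sh v (fun _ => 0) g) ∂(gm ι) ≤
      ENNReal.ofReal C * (ENNReal.ofReal (Real.exp δ) * ENNReal.ofReal 6) := by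
  unfold Gf
  simp only [Mf_dot]
  simp only [z_dot r]
  set cM : ι → ℝ := fun k => (c0 k - s * (c1 k - r * c0 k)) / (1 + θ * s) with hcM
  set cz : ι → ℝ := fun k => c1 k - r * c0 k with hcz
  set z : ι → ℝ := fun _ => 0 with hz
  have m0 : Measurable fun g : ι → ℝ => ee (dot cM (sh v z g)) :=
    measurable_ee.comp ((meas_dot cM).comp (measurable_sh v z))
  have m1 : Measurable fun g : ι → ℝ => ee (dot cz (sh v z g)) :=
    measurable_ee.comp ((meas_dot cz).comp (measurable_sh v z))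
  have my : Measurable fun g : ι → ℝ => ee (dot cy (sh v z g)) :=
    measurable_ee.comp ((meas_dot cy).comp (measurable_sh v z))
  have m01 : Measurable fun g : ι → ℝ => ee (dot cM (sh v z g)) + ee (dot cz (sh v z g)) :=
    m0.add m1
  have m01y : Measurable fun g : ι → ℝ => ee (dot cM (sh v z g)) + ee (dot cz (sh v z g)) +
    ee (dot cy (sh v z g)) := m01.add my
  rw [lintegral_const_mul _ m01y, lintegral_add_left m01, lintegral_add_left m0]
  gcongr
  have k0 := ee_dot v hv cM z δ hM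
  have k1 := ee_dot v hv cz z δ h1
  have k2 := ee_dot v hv cy z δ hy
  rw [hz, dot_zero, ee_zero] at k0 k1 k2
  refine (add_le_add (add_le_add k0 k1) k2).trans (le_of_eq ?_)
  rw [← mul_add, ← mul_add, ← ENNReal.ofReal_add (by norm_num) (by norm_num),
    ← ENNReal.ofReal_add (by norm_num) (by norm_num)]
  norm_num

theorem Uf_bot (v : ι → ℝ) (hv : ∀ k, 0 ≤ v k) (c0 c1 cy : ι → ℝ) (C δ : ℝ) (hC : 0 ≤ C)
    (h0 : 1 / 2 * ∑ k, v k * (c0 k * c0 k) ≤ δ) (h1 : 1 / 2 * ∑ k, v k * (c1 k * c1 k) ≤ δ)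
    (hy : 1 / 2 * ∑ k, v k * (cy k * cy k) ≤ δ) :
    ∫⁻ g, Uf C c0 c1 cy (sh v (fun _ => 0) g) ∂(gm ι) ≤
      ENNReal.ofReal C * (ENNReal.ofReal (Real.exp δ) * ENNReal.ofReal 6) := by
  refine (Uf_step v hv c0 c1 cy (fun _ => 0) C δ hC h0 h1 hy).trans (le_of_eq ?_)
  unfold Uf
  rw [dot_zero, dot_zero, dot_zero, ee_zero, ENNReal.ofReal_mul hC, mul_assoc,
    ← ENNReal.ofReal_add (by norm_num) (by norm_num),
    ← ENNReal.ofReal_add (by norm_num) (by norm_num)]
  norm_num

end gen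

section conc

variable {K : ℕ} {w val : Fin (K + 1) → ℝ}
variable {J : ℕ} {y S vy : ℕ → ℝ} {p0 : ℝ} {v : ℕ → Option (Fin (K + 1)) → ℝ}

/-- total block variance at depth `n` -/
def bv (v : ℕ → Option (Fin (K + 1)) → ℝ) (n : ℕ) : ℝ := ∑ k, v n (some k)

namespace Dat

variable (D : Dat w val J y S vy p0 v)
include D

theorem bv_nonneg (n : ℕ) (hn : n ≤ J + 1) : 0 ≤ bv v n :=
  Finset.sum_nonneg fun k _ => D.v_nonneg n hn (some k)

theorem le_bv (n : ℕ) (hn : n ≤ J + 1) (k : Fin (K + 1)) : v n (some k) ≤ bv v n :=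
  Finset.single_le_sum (f := fun k => v n (some k)) (fun k _ => D.v_nonneg n hn (some k))
    (Finset.mem_univ k)

theorem sfrac {x : ℝ} (hx : 0 ≤ x) (l : Fin (K + 1)) :
    x / (1 + (RR w val x - val l) * x) = DK w val x l / w l := by
  rcases hx.eq_or_lt with rfl | hx
  · simp [DK]
  · rw [theta_eq hx]
    unfold DK
    rw [if_pos hx]
    have h1 := bb_gt D.hv D.hw D.hs hx l
    have h2 : bb w val x - val l ≠ 0 := by intro h; linarith
    have h3 := (D.hw l).ne'
    field_simp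

theorem abs_m1_le {L : ℝ} (hL : ∀ k, |val k| ≤ L) : |m1 w val| ≤ L := by
  unfold m1
  refine (Finset.abs_sum_le_sum_abs _ _).trans ?_
  calc ∑ k, |w k * val k| ≤ ∑ k, w k * L := by
        refine Finset.sum_le_sum fun k _ => ?_
        rw [abs_mul, abs_of_pos (D.hw k)]
        exact mul_le_mul_of_nonneg_left (hL k) (D.hw k).le
    _ = L := by rw [← Finset.sum_mul, D.hs, one_mul]

theorem abs_RR_le {L : ℝ} (hL : ∀ k, |val k| ≤ L) {x : ℝ} (hx : 0 ≤ x) : |RR w val x| ≤ L := by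
  obtain ⟨h1, h2⟩ := RR_mem D.hv D.hw D.hs hx
  have h3 := (abs_le.mp (hL 0)).1
  have h4 := (abs_le.mp (hL (Fin.last K))).2
  rw [abs_le]
  constructor <;> linarith

theorem sq_diff {L : ℝ} (hL : ∀ k, |val k| ≤ L) {r : ℝ} (hr : |r| ≤ L) (n : ℕ) (hn : n ≤ J + 1) :
    ∑ k, v n (some k) * ((val k - r) * (val k - r)) ≤ 4 * L ^ 2 * bv v n := by
  unfold bv
  rw [Finset.mul_sum]
  refine Finset.sum_le_sum fun k _ => ?_
  rw [mul_comm]
  refine mul_le_mul_of_nonneg_right ?_ (D.v_nonneg n hn (some k))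
  have h1 : |val k - r| ≤ 2 * L := by
    refine (abs_sub _ _).trans ?_
    have := hL k
    linarith
  calc (val k - r) * (val k - r) = |val k - r| ^ 2 := by rw [sq_abs]; ring
    _ ≤ (2 * L) ^ 2 := pow_le_pow_left₀ (abs_nonneg _) h1 2
    _ = 4 * L ^ 2 := by ring

theorem rho_le {L : ℝ} (hL : ∀ k, |val k| ≤ L) (n : ℕ) (hn : n ≤ J) :
    (RR w val (S (n + 1)) - RR w val (S n)) / y n ≤ 4 * L ^ 2 * bv v n := by
  have St := D.step 0 n hn
  have h0 := D.S_nonneg n (by omega)
  have h0' := D.S_nonneg (n + 1) (by omega)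
  have hya := D.hy n hn
  set ρ := RR w val (S (n + 1)) - RR w val (S n) with hρ
  have hρ0 : 0 ≤ ρ := St.hρ
  have e1 : ∑ k, v n (some k) * ((val k - RR w val (S n)) * (val k - RR w val (S n))) =
      (S (n + 1) * ρ ^ 2 + ρ) / y n := by
    have g00 := St.g00
    have g01 := St.g01
    have g11 := St.g11
    set r := RR w val (S n) - m1 w val with hr
    have e2 : ∑ k, v n (some k) * ((val k - RR w val (S n)) * (val k - RR w val (S n))) =
        ∑ o, v n o * (oc1 w val o * oc1 w val o) - 2 * r * ∑ o, v n o * (oc0 o * oc1 w val o) +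
          r ^ 2 * ∑ o, v n o * (oc0 o * oc0 o) := by
      rw [Finset.mul_sum, Finset.mul_sum, ← Finset.sum_sub_distrib, ← Finset.sum_add_distrib,
        Fintype.sum_option]
      simp only [oc0, oc1, Option.elim_none, Option.elim_some, mul_zero, zero_add, mul_one,
        one_mul, sub_self]
      refine Finset.sum_congr rfl fun k _ => ?_
      rw [hr]
      ring
    rw [e2, g00, g01, g11]
    field_simp
    ring
  have h2 := D.sq_diff hL (D.abs_RR_le hL h0) n (by omega)
  rw [e1] at h2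
  refine le_trans ?_ h2
  refine div_le_div_of_nonneg_right ?_ hya.le
  have := mul_nonneg h0' (sq_nonneg ρ)
  linarith

theorem dl_le {L wm : ℝ} (hL : ∀ k, |val k| ≤ L) (hwm : 0 < wm) (hwm' : ∀ k, wm ≤ w k)
    (l : Fin (K + 1)) (n : ℕ) (hn : n ≤ J) :
    dl (y n) (S n) (S (n + 1)) (RR w val (S (n + 1)) - RR w val (S n)) (RR w val (S n) - val l)
      (vy n) ≤ (1 / (2 * wm) + 6 * L ^ 2) * bv v n + 3 / 2 * vy n := by
  have h0 := D.S_nonneg n (by omega)
  have h0' := D.S_nonneg (n + 1) (by omega)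
  have hy0 := D.hy n hn
  have hy1 := D.hy1 n hn
  have hvy := D.hvy n (by omega)
  have hρ := D.rho_le hL n hn
  have hρ0 : 0 ≤ RR w val (S (n + 1)) - RR w val (S n) :=
    sub_nonneg.2 (RR_mono D.hv D.hw D.hs h0 (D.hSm n hn))
  unfold dl
  have e : RR w val (S n) - val l + (RR w val (S (n + 1)) - RR w val (S n)) =
      RR w val (S (n + 1)) - val l := by ring
  rw [e, D.sfrac h0' l, D.sfrac h0 l]
  set ρ := RR w val (S (n + 1)) - RR w val (S n) with hρd
  have t1 : 1 / 2 * (1 / y n) * (DK w val (S (n + 1)) l / w l - DK w val (S n) l / w l) =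
      1 / 2 * (v n (some l) / w l) := by
    rw [D.hvk n hn]
    have := (D.hw l).ne'
    have := hy0.ne'
    field_simp
  have t1' : 1 / 2 * (v n (some l) / w l) ≤ 1 / (2 * wm) * bv v n := by
    have h1 : v n (some l) / w l ≤ bv v n / wm := by
      have := D.v_nonneg n (by omega) (some l)
      exact div_le_div₀ (D.bv_nonneg n (by omega)) (D.le_bv n (by omega) l) hwm (hwm' l)
    calc _ ≤ 1 / 2 * (bv v n / wm) := by linarith
      _ = _ := by field_simp
  have t2 : ρ ≤ ρ / y n := by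
    rw [le_div_iff₀ hy0]
    calc ρ * y n ≤ ρ * 1 := mul_le_mul_of_nonneg_left hy1 hρ0
      _ = ρ := mul_one _
  have t3 : y n * vy n ≤ vy n := by
    calc y n * vy n ≤ 1 * vy n := mul_le_mul_of_nonneg_right hy1 hvy
      _ = vy n := one_mul _
  rw [t1]
  have e2 : (1 / (2 * wm) + 6 * L ^ 2) * bv v n = 1 / (2 * wm) * bv v n + 3 / 2 *
      (4 * L ^ 2 * bv v n) := by ring
  rw [e2]
  linarith

end Dat

end conc

end

end Crest.Agent.R164.ClipG
end

-- ▼ part R164/ClipG8
section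

/-!
# Row 164: uniform truncation of the nested Gaussian functional, main theorem (helper318)
-/

set_option autoImplicit false

namespace Crest.Agent.R164.ClipG

open MeasureTheory ProbabilityTheory ENNReal Crest.ProbabilityR.InvariantGlass
open Crest.Agent.R164.PAlg
open Crest.Agent.R164.GTilt (γ lintegral_add_gauss Lip)
open Crest.Agent.R164.CavG (gm lin gstep th gval th_zero th_succ)
open Crest.Agent.R164.EG

noncomputable section

section gen

variable {ι : Type*} [Fintype ι]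

theorem th_mono (y : ℕ → ℝ) (v : ℕ → ι → ℝ) (A B : (ι → ℝ) → ℝ) (hAm : Measurable A)
    (hAB : ∀ z, A z ≤ B z) (N : ℕ) (hy : ∀ n < N, 0 < y n)
    (hInt : ∀ n < N, ∀ z, Integrable (fun g => Real.exp (y n * th y v B n (sh (v n) z g))) (gm ι)) :
    ∀ n ≤ N, ∀ z, th y v A n z ≤ th y v B n z := by
  intro n
  induction n with
  | zero => intro _ z; exact hAB z
  | succ n ih =>
    intro hn z
    exact gstep_mono (hy n hn) (v n) _ _ (measurable_th y v A hAm n) (ih (Nat.le_of_succ_le hn)) z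
      (hInt n hn z)

theorem gval_sh (J : ℕ) (y : ℕ → ℝ) (v : ℕ → ι → ℝ) (F : (ι → ℝ) → ℝ) :
    gval J y v F = ∫ g, th y v F (J + 1) (sh (v (J + 1)) (fun _ => 0) g) ∂(gm ι) := by
  unfold gval
  refine integral_congr_ae (ae_of_all _ fun g => ?_)
  show th y v F (J + 1) _ = th y v F (J + 1) _
  congr 1
  funext k
  exact (zero_add _).symm

end gen

theorem sub_min_le {W Kc : ℝ} (hK : 0 < Kc) : W - min W Kc ≤ W ^ 2 / (4 * Kc) := by
  rw [le_div_iff₀ (by positivity)]
  rcases le_total W Kc with h | h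
  · rw [min_eq_left h, sub_self, zero_mul]; exact sq_nonneg _
  · rw [min_eq_right h]
    nlinarith [sq_nonneg (W - 2 * Kc)]

theorem max_sub_le {W Kc C : ℝ} (hK : 0 < Kc) (hC : Kc ≤ C) :
    max (min W C) (-Kc) - min W C ≤ W ^ 2 / (4 * Kc) := by
  rw [le_div_iff₀ (by positivity)]
  rcases le_total (-Kc) (min W C) with h | h
  · rw [max_eq_left h, sub_self, zero_mul]; exact sq_nonneg _
  · rw [max_eq_right h]
    have h2 : min W C = W := by
      rcases le_total W C with h3 | h3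
      · exact min_eq_left h3
      · rw [min_eq_right h3] at h
        linarith
    rw [h2]
    nlinarith [sq_nonneg (W + 2 * Kc)]

section conc

variable {K : ℕ} {w val : Fin (K + 1) → ℝ}
variable {J : ℕ} {y S vy : ℕ → ℝ} {p0 : ℝ} {v : ℕ → Option (Fin (K + 1)) → ℝ}

theorem meas_WF (b : ℝ) (l : Fin (K + 1)) : Measurable (WF w val b l) := by
  unfold WF
  refine meas_Fr _ _ _ _ ?_ _ _ _
  exact (lip_shift Crest.Agent.R164.GTilt.lip_log_cosh b).continuous.measurable

theorem WF_sq {L B b : ℝ} (hL : ∀ k, |val k| ≤ L) (hm1 : |m1 w val| ≤ L) (hb : |b| ≤ B)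
    (l : Fin (K + 1)) (z : Option (Fin (K + 1)) → ℝ) :
    ENNReal.ofReal (WF w val b l z ^ 2) ≤ Uf (AW L B) oc0 (oc1 w val) ocy z := by
  have h := leaf_sq L B (m1 w val) (m1 w val - val l) b (dot oc0 z)
    (dot (oc1 w val) z - 0 * dot oc0 z) (dot ocy z) hm1 (by
      refine (abs_sub _ _).trans ?_
      have := hL l
      linarith) hb
  have e : WF w val b l z = m1 w val / 2 + Qf 0 (m1 w val - val l) (dot oc0 z)
      (dot (oc1 w val) z - 0 * dot oc0 z) + Real.log (Real.cosh (dot (oc1 w val) z -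
        0 * dot oc0 z + dot ocy z + b)) := rfl
  rw [← e] at h
  refine (ENNReal.ofReal_le_ofReal h).trans (le_of_eq ?_)
  unfold Uf
  rw [ee_eq, ee_eq, ee_eq, ENNReal.ofReal_mul (AW_nonneg L B), zero_mul, sub_zero,
    ENNReal.ofReal_add (by positivity) (by positivity),
    ENNReal.ofReal_add (by positivity) (by positivity)]

theorem Uf_mul (c C : ℝ) (hc : 0 ≤ c) (c0 c1 cy z : Option (Fin (K + 1)) → ℝ) :
    ENNReal.ofReal c * Uf C c0 c1 cy z = Uf (c * C) c0 c1 cy z := by
  unfold Uf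
  rw [ENNReal.ofReal_mul hc, mul_assoc]

theorem leaf_le {L B b Kc : ℝ} (hL : ∀ k, |val k| ≤ L) (hm1 : |m1 w val| ≤ L) (hb : |b| ≤ B)
    (hK : 0 < Kc) (l : Fin (K + 1)) (z : Option (Fin (K + 1)) → ℝ) (X : ℝ)
    (hX : X ≤ WF w val b l z ^ 2 / (4 * Kc)) :
    ENNReal.ofReal X ≤ Uf (1 / (4 * Kc) * AW L B) oc0 (oc1 w val) ocy z := by
  rw [← Uf_mul _ _ (by positivity)]
  calc ENNReal.ofReal X ≤ ENNReal.ofReal (1 / (4 * Kc) * WF w val b l z ^ 2) := by
        apply ENNReal.ofReal_le_ofReal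
        rw [one_div_mul_eq_div]
        exact hX
    _ = ENNReal.ofReal (1 / (4 * Kc)) * ENNReal.ofReal (WF w val b l z ^ 2) :=
        ENNReal.ofReal_mul (by positivity)
    _ ≤ _ := by
        gcongr
        exact WF_sq hL hm1 hb l z

namespace Dat

variable (D : Dat w val J y S vy p0 v)
include D

/-- bottom variances -/
theorem bot_M (l : Fin (K + 1)) {wm : ℝ} (hwm : 0 < wm) (hwm' : ∀ k, wm ≤ w k) :
    ∑ o, v (J + 1) o * (((oc0 o - S (J + 1) * (oc1 w val o - (RR w val (S (J + 1)) - m1 w val) *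
      oc0 o)) / (1 + (RR w val (S (J + 1)) - val l) * S (J + 1))) *
      ((oc0 o - S (J + 1) * (oc1 w val o - (RR w val (S (J + 1)) - m1 w val) *
      oc0 o)) / (1 + (RR w val (S (J + 1)) - val l) * S (J + 1)))) ≤ bv v (J + 1) / wm := by
  have hx := D.hSp
  set x := S (J + 1) with hxd
  have hgt := bb_gt D.hv D.hw D.hs hx
  have hg := g2_pos D.hw hgt
  rw [Fintype.sum_option]
  simp only [oc0, oc1, Option.elim_none, Option.elim_some, mul_zero, zero_add, mul_one,
    sub_self, zero_div]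
  have e : ∀ k, v (J + 1) (some k) * (((1 - x * (val k - m1 w val - (RR w val x - m1 w val))) /
      (1 + (RR w val x - val l) * x)) * ((1 - x * (val k - m1 w val - (RR w val x - m1 w val))) /
      (1 + (RR w val x - val l) * x))) = w k * (v (J + 1) (some l) / w l) := by
    intro k
    have e1 : 1 - x * (val k - m1 w val - (RR w val x - m1 w val)) =
        1 + (RR w val x - val k) * x := by ring
    rw [e1, theta_eq hx k, theta_eq hx l, D.hvb k, D.hvb l]
    have h1 : bb w val x - val k ≠ 0 := by have := hgt k; intro h; linarith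
    have h2 : bb w val x - val l ≠ 0 := by have := hgt l; intro h; linarith
    have h3 := (D.hw l).ne'
    rw [← hxd]
    field_simp
  rw [Finset.sum_congr rfl fun k _ => e k, ← Finset.sum_mul, D.hs, one_mul]
  exact div_le_div₀ (D.bv_nonneg _ le_rfl) (D.le_bv _ le_rfl l) hwm (hwm' l)

omit D in
theorem sum_oc0 (n : ℕ) : ∑ o, v n o * (oc0 o * oc0 o) = bv v n := by
  rw [Fintype.sum_option]
  simp [oc0, bv]

theorem sum_ocy (n : ℕ) (hn : n ≤ J + 1) : ∑ o, v n o * (ocy o * ocy o) = vy n := by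
  rw [Fintype.sum_option]
  simp [ocy, D.hvn n hn]

theorem sum_oc1 (n : ℕ) {L : ℝ} (hL : ∀ k, |val k| ≤ L) (hn : n ≤ J + 1) :
    ∑ o, v n o * (oc1 w val o * oc1 w val o) ≤ 4 * L ^ 2 * bv v n := by
  rw [Fintype.sum_option]
  simp only [oc1, Option.elim_none, Option.elim_some, mul_zero, zero_add]
  exact D.sq_diff hL (D.abs_m1_le hL) n hn

end Dat

end conc

end

end Crest.Agent.R164.ClipG
end

-- ▼ part R164/ClipG9
section

/-!
# Row 164: uniform truncation of the nested Gaussian functional, main theorem (helper318)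
-/

set_option autoImplicit false

namespace Crest.Agent.R164.ClipG

open MeasureTheory ProbabilityTheory ENNReal Crest.ProbabilityR.InvariantGlass
open Crest.Agent.R164.PAlg
open Crest.Agent.R164.GTilt (γ lintegral_add_gauss Lip)
open Crest.Agent.R164.CavG (gm lin gstep th gval th_zero th_succ)
open Crest.Agent.R164.EG

noncomputable section

variable {K : ℕ} {w val : Fin (K + 1) → ℝ}
variable {J : ℕ} {y S vy : ℕ → ℝ} {p0 : ℝ} {v : ℕ → Option (Fin (K + 1)) → ℝ}

/-- increment of the exponent (untilted and tilted) -/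
def inc (L wm : ℝ) (v : ℕ → Option (Fin (K + 1)) → ℝ) (vy : ℕ → ℝ) (n : ℕ) : ℝ :=
  (1 / (2 * wm) + 6 * L ^ 2 + 1) * bv v n + 3 / 2 * vy n

/-- accumulated exponent -/
def acc (L wm : ℝ) (v : ℕ → Option (Fin (K + 1)) → ℝ) (vy : ℕ → ℝ) (n : ℕ) : ℝ :=
  ∑ j ∈ Finset.range n, inc L wm v vy j

namespace Dat

variable (D : Dat w val J y S vy p0 v)
include D

theorem inc_ge (L : ℝ) {wm : ℝ} (hwm : 0 < wm) (n : ℕ) (hn : n ≤ J + 1) :
    (1 / (2 * wm) + 6 * L ^ 2) * bv v n + 3 / 2 * vy n ≤ inc L wm v vy n ∧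
    1 / 2 * bv v n ≤ inc L wm v vy n ∧ 1 / 2 * (4 * L ^ 2 * bv v n) ≤ inc L wm v vy n ∧
    1 / 2 * vy n ≤ inc L wm v vy n ∧ 1 / 2 * (bv v n / wm) ≤ inc L wm v vy n := by
  have h1 := D.bv_nonneg n hn
  have h2 := D.hvy n hn
  have h3 : 0 ≤ 1 / (2 * wm) * bv v n := by positivity
  have h4 : 0 ≤ L ^ 2 * bv v n := by positivity
  have h5 : 1 / (2 * wm) * bv v n = 1 / 2 * (bv v n / wm) := by field_simp
  unfold inc
  have e : (1 / (2 * wm) + 6 * L ^ 2 + 1) * bv v n = 1 / (2 * wm) * bv v n +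
      6 * (L ^ 2 * bv v n) + bv v n := by ring
  have e2 : (1 / (2 * wm) + 6 * L ^ 2) * bv v n = 1 / (2 * wm) * bv v n +
      6 * (L ^ 2 * bv v n) := by ring
  rw [e, e2]
  refine ⟨by linarith, by linarith, by linarith, by linarith, by linarith⟩

omit D in
theorem Gf_mono {C C' s θ r : ℝ} (h : C ≤ C') (c0 c1 cy z : Option (Fin (K + 1)) → ℝ) :
    Gf C s θ r c0 c1 cy z ≤ Gf C' s θ r c0 c1 cy z := by
  unfold Gf
  gcongr

/-- upper truncation -/
theorem upper {L wm B b Kc C0 : ℝ} (hL : ∀ k, |val k| ≤ L) (hwm : 0 < wm)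
    (hwm' : ∀ k, wm ≤ w k) (hb : |b| ≤ B) (hK : 0 < Kc) (l : Fin (K + 1))
    (hC0 : C0 = 1 / (4 * Kc) * AW L B) (n : ℕ) (hn : n ≤ J + 1)
    (z : Option (Fin (K + 1)) → ℝ) :
    ENNReal.ofReal (th y v (WF w val b l) n z -
      th y v (fun z => min (WF w val b l z) Kc) n z) ≤
      Gf (C0 * Real.exp (acc L wm v vy n)) (S n) (RR w val (S n) - val l)
        (RR w val (S n) - m1 w val) oc0 (oc1 w val) ocy z := by
  have hC0' : 0 ≤ C0 := by rw [hC0]; exact mul_nonneg (by positivity) (AW_nonneg L B)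
  have hR0 : RR w val (S 0) = m1 w val := by rw [D.hS0, RR_zero D.hw D.hs]; rfl
  have hm1 := D.abs_m1_le hL
  refine (th_upper y v (WF w val b l) (fun z => min (WF w val b l z) Kc) (meas_WF b l)
    ((meas_WF b l).min measurable_const) (fun z => min_le_left _ _) (J + 1)
    (fun n hn => D.hy n (by omega)) (fun n hn z => D.integrable_th b l n (by omega) z)
    (fun n => Gf (C0 * Real.exp (acc L wm v vy n)) (S n) (RR w val (S n) - val l)
        (RR w val (S n) - m1 w val) oc0 (oc1 w val) ocy) ?_ ?_ n hn z).2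
  · intro z
    have h1 := leaf_le (w := w) hL hm1 hb hK l z _ (sub_min_le (W := WF w val b l z) hK)
    refine h1.trans (le_of_eq ?_)
    unfold Uf Gf acc
    rw [Finset.range_zero, Finset.sum_empty, Real.exp_zero, mul_one, hR0, D.hS0, ← hC0]
    unfold Mf
    simp only [sub_self, zero_mul, sub_zero, mul_zero, add_zero, div_one]
  · intro n hn z
    have hnJ : n ≤ J := by omega
    have St := D.step l n hnJ
    simp only [D.dens_eq b l n hnJ]
    have h1 := Gf_step St (D.lip b n (by omega)) (cst w val y S l n)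
      (C0 * Real.exp (acc L wm v vy n)) (by positivity) z
    refine h1.trans ?_
    have e1 : RR w val (S n) - val l + (RR w val (S (n + 1)) - RR w val (S n)) =
      RR w val (S (n + 1)) - val l := by ring
    have e2 : RR w val (S n) - m1 w val + (RR w val (S (n + 1)) - RR w val (S n)) =
      RR w val (S (n + 1)) - m1 w val := by ring
    rw [e1, e2]
    apply Gf_mono
    rw [mul_assoc, ← Real.exp_add]
    apply mul_le_mul_of_nonneg_left _ hC0'
    apply Real.exp_le_exp.mpr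
    unfold acc
    rw [Finset.sum_range_succ]
    have h2 := D.dl_le hL hwm hwm' l n hnJ
    have h3 := (D.inc_ge L hwm n (by omega)).1
    linarith

omit D in
theorem Uf_mono {C C' : ℝ} (h : C ≤ C') (c0 c1 cy z : Option (Fin (K + 1)) → ℝ) :
    Uf C c0 c1 cy z ≤ Uf C' c0 c1 cy z := by
  unfold Uf
  gcongr

/-- lower truncation -/
theorem lower {L wm B b Kc C C0 : ℝ} (hL : ∀ k, |val k| ≤ L) (hwm : 0 < wm)
    (hb : |b| ≤ B) (hK : 0 < Kc) (hC : Kc ≤ C) (l : Fin (K + 1))
    (hC0 : C0 = 1 / (4 * Kc) * AW L B) (n : ℕ) (hn : n ≤ J + 1)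
    (z : Option (Fin (K + 1)) → ℝ) :
    ENNReal.ofReal (th y v (fun z => max (min (WF w val b l z) C) (-Kc)) n z -
      th y v (fun z => min (WF w val b l z) C) n z) ≤
      Uf (C0 * Real.exp (acc L wm v vy n)) oc0 (oc1 w val) ocy z := by
  have hC0' : 0 ≤ C0 := by rw [hC0]; exact mul_nonneg (by positivity) (AW_nonneg L B)
  have hm1 := D.abs_m1_le hL
  have mX : Measurable fun z => min (WF w val b l z) C := (meas_WF b l).min measurable_const
  refine (th_lower y v (fun z => min (WF w val b l z) C)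
    (fun z => max (min (WF w val b l z) C) (-Kc)) mX (mX.max measurable_const) Kc C
    (fun z => rfl) (fun z => max_le (min_le_right _ _) (by linarith)) (J + 1)
    (fun n hn => D.hy n (by omega)) (fun n hn => D.hya n (by omega))
    (fun n => Uf (C0 * Real.exp (acc L wm v vy n)) oc0 (oc1 w val) ocy) ?_ ?_ n hn z).2
  · intro z
    have h1 := leaf_le (w := w) hL hm1 hb hK l z _ (max_sub_le (W := WF w val b l z) hK hC)
    refine h1.trans (le_of_eq ?_)
    unfold acc
    rw [Finset.range_zero, Finset.sum_empty, Real.exp_zero, mul_one, ← hC0]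
  · intro n hn z
    have hn' : n ≤ J + 1 := by omega
    obtain ⟨-, i1, i2, i3, -⟩ := D.inc_ge L hwm n hn'
    have h1 := Uf_step (v n) (D.v_nonneg n hn') oc0 (oc1 w val) ocy z
      (C0 * Real.exp (acc L wm v vy n)) (inc L wm v vy n) (by positivity)
      (by rw [sum_oc0]; exact i1)
      (by
        have := D.sum_oc1 n hL hn'
        linarith)
      (by rw [D.sum_ocy n hn']; exact i3)
    refine h1.trans ?_
    apply Uf_mono
    unfold acc
    rw [Finset.sum_range_succ, Real.exp_add, mul_assoc]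

end Dat

end

end Crest.Agent.R164.ClipG
end

-- ▼ part R164/ClipG10
section

/-!
# Row 164: uniform truncation of the nested Gaussian functional, final theorems (helper318)
-/

set_option autoImplicit false

namespace Crest.Agent.R164.ClipG

open MeasureTheory ProbabilityTheory ENNReal Crest.ProbabilityR.InvariantGlass
open Crest.Agent.R164.PAlg
open Crest.Agent.R164.GTilt (γ lintegral_add_gauss Lip)
open Crest.Agent.R164.CavG (gm lin gstep th gval th_zero th_succ)
open Crest.Agent.R164.EG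

noncomputable section

theorem abs_integral_le {Ω : Type*} [MeasurableSpace Ω] {μ : Measure Ω} (F G : Ω → ℝ)
    (hF : Measurable F) (hG : Measurable G) (hGi : Integrable G μ) (E : ℝ) (hE : 0 ≤ E)
    (h1 : ∫⁻ g, ENNReal.ofReal (F g - G g) ∂μ ≤ ENNReal.ofReal E)
    (h2 : ∫⁻ g, ENNReal.ofReal (G g - F g) ∂μ ≤ ENNReal.ofReal E) :
    Integrable F μ ∧ |∫ g, G g ∂μ - ∫ g, F g ∂μ| ≤ 2 * E := by
  have mD : Measurable fun g => F g - G g := hF.sub hG
  have hb : ∫⁻ g, ‖F g - G g‖ₑ ∂μ ≤ ENNReal.ofReal (2 * E) := by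
    calc ∫⁻ g, ‖F g - G g‖ₑ ∂μ
        ≤ ∫⁻ g, (ENNReal.ofReal (F g - G g) + ENNReal.ofReal (G g - F g)) ∂μ := by
          refine lintegral_mono fun g => ?_
          rw [Real.enorm_eq_ofReal_abs]
          rcases le_total 0 (F g - G g) with h | h
          · rw [abs_of_nonneg h]; exact le_self_add
          · rw [abs_of_nonpos h, neg_sub]; exact le_add_self
      _ = ∫⁻ g, ENNReal.ofReal (F g - G g) ∂μ + ∫⁻ g, ENNReal.ofReal (G g - F g) ∂μ :=
          lintegral_add_left mD.ennreal_ofReal _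
      _ ≤ ENNReal.ofReal E + ENNReal.ofReal E := add_le_add h1 h2
      _ = ENNReal.ofReal (2 * E) := by rw [← ENNReal.ofReal_add hE hE, two_mul]
  have hDi : Integrable (fun g => F g - G g) μ :=
    ⟨mD.aestronglyMeasurable, hb.trans_lt ENNReal.ofReal_lt_top⟩
  have hFi : Integrable F μ := by
    have := hDi.add hGi
    refine this.congr (ae_of_all _ fun g => ?_)
    show F g - G g + G g = F g
    ring
  refine ⟨hFi, ?_⟩
  rw [abs_sub_comm, ← integral_sub hFi hGi, ← Real.norm_eq_abs]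
  refine (norm_integral_le_integral_norm _).trans ?_
  rw [integral_norm_eq_lintegral_enorm mD.aestronglyMeasurable]
  exact ENNReal.toReal_le_of_le_ofReal (by positivity) hb

variable {K : ℕ} {w val : Fin (K + 1) → ℝ}
variable {J : ℕ} {y S vy : ℕ → ℝ} {p0 : ℝ} {v : ℕ → Option (Fin (K + 1)) → ℝ}

theorem acc_le {L wm V : ℝ} (hwm : 0 < wm) (hbv : ∑ n ∈ Finset.range (J + 2), bv v n ≤ 1)
    (hV : ∑ n ∈ Finset.range (J + 2), vy n ≤ V) :
    acc L wm v vy (J + 2) ≤ 1 / (2 * wm) + 6 * L ^ 2 + 1 + 3 / 2 * V := by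
  unfold acc inc
  rw [Finset.sum_add_distrib, ← Finset.mul_sum, ← Finset.mul_sum]
  have h1 : 0 ≤ 1 / (2 * wm) + 6 * L ^ 2 + 1 := by positivity
  have := mul_le_mul_of_nonneg_left hbv h1
  linarith

/-- the constant of the truncation -/
def Ktr (L wm B V : ℝ) : ℝ := 3 * (AW L B * Real.exp (1 / (2 * wm) + 6 * L ^ 2 + 1 + 3 / 2 * V))

theorem Ktr_nonneg (L wm B V : ℝ) : 0 ≤ Ktr L wm B V :=
  mul_nonneg (by norm_num) (mul_nonneg (AW_nonneg L B) (Real.exp_pos _).le)

namespace Dat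

variable (D : Dat w val J y S vy p0 v)
include D

/-- **Uniform truncation**, in the min/max form. -/
theorem main {L wm B b V Kc C : ℝ} (hL : ∀ k, |val k| ≤ L) (hwm : 0 < wm)
    (hwm' : ∀ k, wm ≤ w k) (hb : |b| ≤ B) (hK : 0 < Kc) (hC : Kc ≤ C) (l : Fin (K + 1))
    (hbv : ∑ n ∈ Finset.range (J + 2), bv v n ≤ 1) (hV : ∑ n ∈ Finset.range (J + 2), vy n ≤ V)
    (ψ : ℝ → ℝ) (hψm : Measurable ψ) (hlo : ∀ x, min x Kc ≤ ψ x)
    (hup : ∀ x, ψ x ≤ max (min x C) (-Kc)) (hbd : ∀ x, -C ≤ ψ x) :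
    Integrable (fun g => th y v (WF w val b l) (J + 1) (sh (v (J + 1)) (fun _ => 0) g))
      (gm (Option (Fin (K + 1)))) ∧
    |gval J y v (fun z => ψ (WF w val b l z)) - gval J y v (WF w val b l)| ≤
      Ktr L wm B V / Kc := by
  have hyp : ∀ n < J + 1, 0 < y n := fun n hn => D.hy n (by omega)
  have mW := meas_WF (w := w) (val := val) b l
  have mψW : Measurable fun z => ψ (WF w val b l z) := hψm.comp mW
  have hψC : ∀ z, ψ (WF w val b l z) ≤ C := fun z =>
    (hup _).trans (max_le (min_le_right _ _) (by linarith))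
  set C0 : ℝ := 1 / (4 * Kc) * AW L B with hC0
  have hC0' : 0 ≤ C0 := by rw [hC0]; exact mul_nonneg (by positivity) (AW_nonneg L B)
  set E : ℝ := C0 * Real.exp (acc L wm v vy (J + 2)) * 6 with hE
  have hE0 : 0 ≤ E := by positivity
  have hacc : acc L wm v vy (J + 2) = acc L wm v vy (J + 1) + inc L wm v vy (J + 1) := by
    unfold acc
    rw [Finset.sum_range_succ]
  -- comparison of the four nested functionals
  have c1 : ∀ z, th y v (fun z => min (WF w val b l z) Kc) (J + 1) z ≤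
      th y v (fun z => ψ (WF w val b l z)) (J + 1) z :=
    th_mono y v _ _ (mW.min measurable_const) (fun z => hlo _) (J + 1) hyp
      (fun n hn z => integrable_exp_of_le (hyp n hn) (v n) _ (measurable_th y v _ mψW n)
        (fun z => th_le_const y v _ mψW (J + 1) hyp C hψC n (by omega) z) z) (J + 1) le_rfl
  have mX : Measurable fun z => min (WF w val b l z) C := mW.min measurable_const
  have mX2 : Measurable fun z => max (min (WF w val b l z) C) (-Kc) := mX.max measurable_const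
  have c2 : ∀ z, th y v (fun z => ψ (WF w val b l z)) (J + 1) z ≤
      th y v (fun z => max (min (WF w val b l z) C) (-Kc)) (J + 1) z :=
    th_mono y v _ _ mψW (fun z => hup _) (J + 1) hyp
      (fun n hn z => integrable_exp_of_le (hyp n hn) (v n) _ (measurable_th y v _ mX2 n)
        (fun z => th_le_const y v _ mX2 (J + 1) hyp C
          (fun z => max_le (min_le_right _ _) (by linarith)) n (by omega) z) z) (J + 1) le_rfl
  have c3 : ∀ z, th y v (fun z => min (WF w val b l z) C) (J + 1) z ≤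
      th y v (WF w val b l) (J + 1) z :=
    th_mono y v _ _ mX (fun z => min_le_left _ _) (J + 1) hyp
      (fun n hn z => D.integrable_th b l n (by omega) z) (J + 1) le_rfl
  have hvn := D.v_nonneg (J + 1) le_rfl
  obtain ⟨-, i1, i2, i3, i4⟩ := D.inc_ge L hwm (J + 1) le_rfl
  have hm1 := D.abs_m1_le hL
  -- the two one-sided bounds
  have u1 : ∫⁻ g, ENNReal.ofReal
      (th y v (WF w val b l) (J + 1) (sh (v (J + 1)) (fun _ => 0) g) -
        th y v (fun z => ψ (WF w val b l z)) (J + 1) (sh (v (J + 1)) (fun _ => 0) g))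
        ∂(gm (Option (Fin (K + 1)))) ≤ ENNReal.ofReal E := by
    calc _ ≤ ∫⁻ g, Gf (C0 * Real.exp (acc L wm v vy (J + 1))) (S (J + 1))
          (RR w val (S (J + 1)) - val l) (RR w val (S (J + 1)) - m1 w val) oc0 (oc1 w val) ocy
          (sh (v (J + 1)) (fun _ => 0) g) ∂(gm (Option (Fin (K + 1)))) := by
          refine lintegral_mono fun g => ?_
          refine le_trans (ENNReal.ofReal_le_ofReal ?_)
            (D.upper hL hwm hwm' hb hK l hC0 (J + 1) le_rfl _)
          have := c1 (sh (v (J + 1)) (fun _ => 0) g)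
          linarith
      _ ≤ ENNReal.ofReal (C0 * Real.exp (acc L wm v vy (J + 1))) *
          (ENNReal.ofReal (Real.exp (inc L wm v vy (J + 1))) * ENNReal.ofReal 6) := by
          refine Gf_bot (v (J + 1)) hvn oc0 (oc1 w val) ocy _ _ _ _ _ ?_ ?_ ?_
          · have := D.bot_M l hwm hwm'
            linarith
          · rw [Fintype.sum_option]
            simp only [oc0, oc1, Option.elim_none, Option.elim_some, mul_zero, zero_add, mul_one,
              sub_self]
            have h5 := D.sq_diff hL (D.abs_RR_le hL (D.S_nonneg (J + 1) le_rfl)) (J + 1) le_rfl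
            have e : ∀ k, val k - m1 w val - (RR w val (S (J + 1)) - m1 w val) =
              val k - RR w val (S (J + 1)) := fun k => by ring
            simp only [e]
            linarith
          · rw [D.sum_ocy (J + 1) le_rfl]; exact i3
      _ = ENNReal.ofReal E := by
          rw [hE, hacc, Real.exp_add, ← ENNReal.ofReal_mul (Real.exp_pos _).le,
            ← ENNReal.ofReal_mul (by positivity)]
          congr 1
          ring
  have u2 : ∫⁻ g, ENNReal.ofReal
      (th y v (fun z => ψ (WF w val b l z)) (J + 1) (sh (v (J + 1)) (fun _ => 0) g) -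
        th y v (WF w val b l) (J + 1) (sh (v (J + 1)) (fun _ => 0) g))
        ∂(gm (Option (Fin (K + 1)))) ≤ ENNReal.ofReal E := by
    calc _ ≤ ∫⁻ g, Uf (C0 * Real.exp (acc L wm v vy (J + 1))) oc0 (oc1 w val) ocy
          (sh (v (J + 1)) (fun _ => 0) g) ∂(gm (Option (Fin (K + 1)))) := by
          refine lintegral_mono fun g => ?_
          refine le_trans (ENNReal.ofReal_le_ofReal ?_)
            (D.lower hL hwm hb hK hC l hC0 (J + 1) le_rfl _)
          have k2 := c2 (sh (v (J + 1)) (fun _ => 0) g)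
          have k3 := c3 (sh (v (J + 1)) (fun _ => 0) g)
          linarith
      _ ≤ ENNReal.ofReal (C0 * Real.exp (acc L wm v vy (J + 1))) *
          (ENNReal.ofReal (Real.exp (inc L wm v vy (J + 1))) * ENNReal.ofReal 6) := by
          refine Uf_bot (v (J + 1)) hvn oc0 (oc1 w val) ocy _ _ (by positivity) ?_ ?_ ?_
          · rw [sum_oc0]; exact i1
          · have := D.sum_oc1 (J + 1) hL le_rfl
            linarith
          · rw [D.sum_ocy (J + 1) le_rfl]; exact i3
      _ = ENNReal.ofReal E := by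
          rw [hE, hacc, Real.exp_add, ← ENNReal.ofReal_mul (Real.exp_pos _).le,
            ← ENNReal.ofReal_mul (by positivity)]
          congr 1
          ring
  have msh : Measurable fun g : Option (Fin (K + 1)) → ℝ => sh (v (J + 1)) (fun _ => 0) g :=
    measurable_sh _ _
  have mF := (measurable_th y v _ mW (J + 1)).comp msh
  have mG := (measurable_th y v _ mψW (J + 1)).comp msh
  have hGi : Integrable (fun g => th y v (fun z => ψ (WF w val b l z)) (J + 1)
      (sh (v (J + 1)) (fun _ => 0) g)) (gm (Option (Fin (K + 1)))) := by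
    refine Integrable.of_bound mG.aestronglyMeasurable C (ae_of_all _ fun g => ?_)
    rw [Real.norm_eq_abs, abs_le]
    exact ⟨const_le_th y v _ mψW (J + 1) hyp (-C) C (fun z => hbd _) hψC (J + 1) le_rfl _,
      th_le_const y v _ mψW (J + 1) hyp C hψC (J + 1) le_rfl _⟩
  obtain ⟨r1, r2⟩ := abs_integral_le _ _ mF mG hGi E hE0 u1 u2
  refine ⟨r1, ?_⟩
  rw [gval_sh, gval_sh]
  refine r2.trans ?_
  have hexp : Real.exp (acc L wm v vy (J + 2)) ≤
      Real.exp (1 / (2 * wm) + 6 * L ^ 2 + 1 + 3 / 2 * V) := Real.exp_le_exp.mpr (acc_le hwm hbv hV)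
  calc 2 * E = 3 * (AW L B * Real.exp (acc L wm v vy (J + 2))) / Kc := by
        rw [hE, hC0]; field_simp; ring
    _ ≤ Ktr L wm B V / Kc := by
        refine div_le_div_of_nonneg_right ?_ hK.le
        unfold Ktr
        have := mul_le_mul_of_nonneg_left hexp (AW_nonneg L B)
        linarith

end Dat

/-- conditions on the truncation function -/
structure Trunc (Kc C : ℝ) (ψ : ℝ → ℝ) : Prop where
  meas : Measurable ψ
  lo : ∀ x, min x Kc ≤ ψ x
  up : ∀ x, ψ x ≤ max (min x C) (-Kc)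
  bd : ∀ x, -C ≤ ψ x

/-- a monotone truncation with `|ψ x| ≤ |x|`, `ψ = id` on `[-Kc, Kc]`, values in `[-C, C]` -/
theorem Trunc.of_mono {Kc C : ℝ} {ψ : ℝ → ℝ} (hK : 0 < Kc) (hm : Monotone ψ)
    (h1 : ∀ x, |ψ x| ≤ |x|) (h2 : ∀ x, |x| ≤ Kc → ψ x = x) (h3 : ∀ x, |ψ x| ≤ C) :
    Trunc Kc C ψ where
  meas := hm.measurable
  lo x := by
    rcases le_total x Kc with h | h
    · rw [min_eq_left h]
      rcases le_total x 0 with h0 | h0
      · have := h1 x
        rw [abs_of_nonpos h0] at this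
        have := (abs_le.mp this).1
        linarith
      · rw [h2 x (by rwa [abs_of_nonneg h0])]
    · rw [min_eq_right h]
      have := hm h
      rwa [h2 Kc (by rw [abs_of_pos hK])] at this
  up x := by
    rcases le_total x (-Kc) with h | h
    · have := hm h
      rw [h2 (-Kc) (by rw [abs_neg, abs_of_pos hK])] at this
      exact this.trans (le_max_right _ _)
    · refine le_trans (le_min ?_ (abs_le.mp (h3 x)).2) (le_max_left _ _)
      rcases le_total x 0 with h0 | h0
      · exact (h2 x (by rw [abs_of_nonpos h0]; linarith)).le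
      · have := h1 x
        rw [abs_of_nonneg h0] at this
        exact (abs_le.mp this).2
  bd x := (abs_le.mp (h3 x)).1


end

end Crest.Agent.R164.ClipG
end

-- ▼ part R164/ExactG5
section

/-!
Row 164, exact value of the nested Gaussian functional, part 5: identification with `fieldValueAt`
and the Parisi functional of a step path (helper716).
-/

set_option autoImplicit false

namespace Crest.Agent.R164.EG

open MeasureTheory ProbabilityTheory ENNReal Crest.ProbabilityR.InvariantGlass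
open Crest.Agent.R164.PAlg Crest.Agent.R164.Atomic
open Crest.Agent.R164.GTilt (γ Lip lip_log_cosh)
open Crest.Agent.R164.CavG (gm lin gstep th gval th_zero th_succ)

noncomputable section

theorem foldr_rec {α : Type*} : ∀ (k : ℕ) (F : Fin k → α → α) (x : α) (G : ℕ → α) (_ : G 0 = x)
    (_ : ∀ n (hn : n < k), G (n + 1) = F ⟨k - 1 - n, by omega⟩ (G n)),
    (List.finRange k).foldr F x = G k := by
  intro k
  induction k with
  | zero => intro F x G h0 _; simp [h0]
  | succ k ih =>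
    intro F x G h0 hs
    rw [List.finRange_succ, List.foldr_cons, List.foldr_map]
    have h1 := ih (fun i => F i.succ) x G h0 (fun n hn => by
      rw [hs n (by omega)]
      congr 1
      ext
      simp only [Fin.val_succ]
      omega)
    rw [h1, hs k (by omega)]
    congr 1
    ext
    simp

/-- translation and additive constants pass through `gaussOp`. -/
theorem gaussOp_shift {f : ℝ → ℝ} (hf : Lip f) (a v C b x : ℝ) :
    gaussOp a v (fun t => C + f (t + b)) x = C + gaussOp a v f (x + b) := by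
  unfold gaussOp
  have e : ∀ g : ℝ, x + Real.sqrt v * g + b = x + b + Real.sqrt v * g := fun g => by ring
  split_ifs with ha
  · simp only [e]
    rw [integral_add (integrable_const _) (hf.integrable (x + b) (Real.sqrt v))]
    simp
  · simp only [e, mul_add, Real.exp_add]
    rw [integral_const_mul, Real.log_mul (Real.exp_pos _).ne'
      (hf.int_exp_pos a (x + b) (Real.sqrt v)).ne', Real.log_exp]
    field_simp

theorem gaussOp_one_cosh {v : ℝ} (hv : 0 ≤ v) (x : ℝ) :
    gaussOp 1 v (fun t => Real.log (Real.cosh t)) x = v / 2 + Real.log (Real.cosh x) := by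
  unfold gaussOp
  rw [if_neg one_ne_zero]
  have hm : ∀ t : ℝ, ∫ g, Real.exp (t * g) ∂(gaussianReal 0 1) = Real.exp (t ^ 2 / 2) := by
    intro t
    have := mgf_id_gaussianReal (μ := 0) (v := 1)
    have h2 := congrFun this t
    simp only [mgf, id] at h2
    rw [h2]
    simp
  have e1 : ∀ g : ℝ, Real.exp (1 * Real.log (Real.cosh (x + Real.sqrt v * g))) =
      Real.exp x / 2 * Real.exp (Real.sqrt v * g) + Real.exp (-x) / 2 *
        Real.exp (-Real.sqrt v * g) := by
    intro g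
    rw [one_mul, Real.exp_log (Real.cosh_pos _), Real.cosh_eq, neg_add, Real.exp_add, Real.exp_add,
      neg_mul]
    ring
  simp only [e1]
  have i1 : Integrable (fun g : ℝ => Real.exp (Real.sqrt v * g)) (gaussianReal 0 1) :=
    integrable_exp_mul_gaussianReal _
  have i2 : Integrable (fun g : ℝ => Real.exp (-Real.sqrt v * g)) (gaussianReal 0 1) :=
    integrable_exp_mul_gaussianReal _
  rw [integral_add (i1.const_mul _) (i2.const_mul _), integral_const_mul, integral_const_mul, hm, hm,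
    neg_sq, Real.sq_sqrt hv, inv_one, one_mul]
  have e2 : Real.exp x / 2 * Real.exp (v / 2) + Real.exp (-x) / 2 * Real.exp (v / 2) =
      Real.exp (v / 2) * Real.cosh x := by rw [Real.cosh_eq]; ring
  rw [e2, Real.log_mul (Real.exp_pos _).ne' (Real.cosh_pos _).ne', Real.log_exp]

/-! ### step data in the depth convention -/

section Step

variable {K J : ℕ}

/-- the level index at depth `n ≥ 1`: `J + 1 - n`. -/
def lv (J n : ℕ) : Fin (J + 1) := ⟨J - (n - 1), by omega⟩

/-- exponents: `1` at the leaf, `ζ_{J+1-n}` at depth `n`. -/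
def yy (wd : Fin (J + 1) → ℝ) (n : ℕ) : ℝ := if n = 0 then 1 else leftEnd wd (lv J n)

/-- deficits: `0` at the leaf, `D_{J+1-n}` at depth `n`. -/
def SS (wd p : Fin (J + 1) → ℝ) (n : ℕ) : ℝ := if n = 0 then 0 else Dd wd p (lv J n)

/-- accumulated label variances at level `i`. -/
def Hl (J : ℕ) (vy : ℕ → ℝ) (i : Fin (J + 1)) : ℝ :=
  ∑ n ∈ Finset.Icc (J + 1 - (i : ℕ)) (J + 1), vy n

/-- the recursion without the subtraction. -/
def chainV (b : ℝ) {k : ℕ} (w hv : Fin k → ℝ) : ℝ :=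
  (List.finRange k).foldr (fun i acc => gaussOp (leftEnd w i) (increment hv i) acc)
      (fun z => Real.log (Real.cosh z)) b

theorem fieldValueAt_eq_chainV (b : ℝ) (w hv : Fin (J + 1) → ℝ) :
    fieldValueAt b w hv = chainV b w hv - hv (Fin.last J) / 2 := by
  unfold fieldValueAt chainV
  congr 2
  rw [Finset.sum_eq_single (Fin.last J)]
  · simp
  · intro l _ hl
    refine if_neg fun h => hl ?_
    ext
    simp only [Fin.val_last]
    omega
  · intro h; exact absurd (Finset.mem_univ _) h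

theorem increment_zero (hv : Fin (J + 1) → ℝ) : increment hv 0 = hv 0 := by
  unfold increment
  rw [Finset.sum_eq_zero, sub_zero]
  intro l _
  exact if_neg (by simp)

theorem increment_succ (hv : Fin (J + 1) → ℝ) (j : Fin J) :
    increment hv j.succ = hv j.succ - hv j.castSucc := by
  unfold increment
  congr 1
  rw [Finset.sum_eq_single j.castSucc]
  · simp
  · intro l _ hl
    refine if_neg fun h => hl ?_
    ext
    simp only [Fin.val_succ, Fin.val_castSucc] at h ⊢
    omega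
  · intro h; exact absurd (Finset.mem_univ _) h

theorem Hl_zero (vy : ℕ → ℝ) : Hl J vy 0 = vy (J + 1) := by
  unfold Hl; simp

theorem Hl_succ (vy : ℕ → ℝ) (j : Fin J) :
    Hl J vy j.succ = Hl J vy j.castSucc + vy (J - j) := by
  unfold Hl
  have hj := j.2
  have e : Finset.Icc (J + 1 - ((j.succ : Fin (J + 1)) : ℕ)) (J + 1) =
      insert (J - (j : ℕ)) (Finset.Icc (J + 1 - ((j.castSucc : Fin (J + 1)) : ℕ)) (J + 1)) := by
    ext n
    simp only [Finset.mem_Icc, Finset.mem_insert, Fin.val_succ, Fin.val_castSucc]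
    omega
  rw [e, Finset.sum_insert, add_comm]
  simp only [Finset.mem_Icc, Fin.val_castSucc]
  omega

theorem lv_one : lv J 1 = Fin.last J := by ext; simp [lv]

theorem lv_bot : lv J (J + 1) = 0 := by ext; simp [lv]

/-- depth `n ≤ J`, `n ≥ 1` corresponds to `j.succ`, depth `n + 1` to `j.castSucc`. -/
theorem lv_succ {n : ℕ} (h1 : 1 ≤ n) (h2 : n ≤ J) :
    ∃ j : Fin J, lv J n = j.succ ∧ lv J (n + 1) = j.castSucc ∧ (j : ℕ) = J - n := by
  refine ⟨⟨J - n, by omega⟩, ?_, ?_, rfl⟩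
  · ext; simp only [lv, Fin.val_succ]; omega
  · ext; simp only [lv, Fin.val_castSucc]; omega

variable {w val : Fin (K + 1) → ℝ} {wd p : Fin (J + 1) → ℝ}
variable (hv : StrictMono val) (hw : ∀ k, 0 < w k) (hs : ∑ k, w k = 1)
variable (hwd : ∀ i, 0 < wd i) (hwds : ∑ i, wd i = 1) (hp : Monotone p)
  (hp0 : ∀ i, 0 ≤ p i) (hp1 : ∀ i, p i ≤ 1)

include hwd in
theorem yy_pos {n : ℕ} (hn : n ≤ J) : 0 < yy wd n := by
  unfold yy
  split_ifs with h
  · exact one_pos
  · obtain ⟨j, h1, -, -⟩ := lv_succ (J := J) (Nat.one_le_iff_ne_zero.2 h) hn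
    rw [h1]
    exact ze_pos hwd j

include hwd hwds hp hp1 in
theorem SS_mono {n : ℕ} (hn : n ≤ J) : SS wd p n ≤ SS wd p (n + 1) := by
  unfold SS
  rw [if_neg (Nat.succ_ne_zero n)]
  split_ifs with h
  · exact Dd_nonneg hwd hwds hp1 _
  · obtain ⟨j, h1, h2, -⟩ := lv_succ (J := J) (Nat.one_le_iff_ne_zero.2 h) hn
    rw [h1, h2]
    exact Dd_anti hwd hwds hp j

theorem SS_zero : SS wd p 0 = 0 := if_pos rfl

theorem SS_one : SS wd p 1 = Dd wd p (Fin.last J) := by
  unfold SS; rw [if_neg one_ne_zero, lv_one]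

theorem SS_bot : SS wd p (J + 1) = Dd wd p 0 := by
  unfold SS; rw [if_neg (Nat.succ_ne_zero J), lv_bot]

/-- the additive constant for the new eigenvalue `val l` -/
def CC (w val : Fin (K + 1) → ℝ) (wd p : Fin (J + 1) → ℝ) (l : Fin (K + 1)) : ℝ :=
  cst w val (yy wd) (SS wd p) l (J + 1) +
    -(1 / 2) * (p 0 * ((RR w val (Dd wd p 0) - val l + Dd wd p 0 * RD w val (Dd wd p 0)) /
        (1 + (RR w val (Dd wd p 0) - val l) * Dd wd p 0))) +
    (RR w val (Dd wd p (Fin.last J)) - m1 w val) / 2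

include hv hw hs hwd hwds hp hp0 hp1 in
/-- **Exact value of the nested Gaussian functional.** -/
theorem gval_value (b : ℝ) (l : Fin (K + 1)) (hD : 0 < Dd wd p 0) {vy : ℕ → ℝ}
    (hvy : ∀ n, n ≤ J + 1 → 0 ≤ vy n) {v : ℕ → Option (Fin (K + 1)) → ℝ}
    (hvk : ∀ n, n ≤ J → ∀ k, v n (some k) =
      (DK w val (SS wd p (n + 1)) k - DK w val (SS wd p n) k) / yy wd n)
    (hvn : ∀ n, n ≤ J + 1 → v n none = vy n)
    (hvb : ∀ k, v (J + 1) (some k) = p 0 * (w k * ((bb w val (Dd wd p 0) - val k)⁻¹) ^ 2 /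
      g2 w val (bb w val (Dd wd p 0)))) :
    gval J (yy wd) v (WF w val b l) = CC w val wd p l + vy 0 / 2 +
      chainV b wd (fun i => hh w val wd p i + Hl J vy i) := by
  have hg := gval_exact hv hw hs b l (y := yy wd) (S := SS wd p) (vy := vy) (p0 := p 0) (v := v)
    SS_zero (fun n hn => SS_mono hwd hwds hp hp1 hn) (fun n hn => yy_pos hwd hn) hvy hvk hvn
    (by rw [SS_bot]; exact hD) (hp0 0) (by rw [SS_bot]; exact hvb)
  rw [hg, SS_bot]
  set hv' : Fin (J + 1) → ℝ := fun i => hh w val wd p i + Hl J vy i with hhv'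
  set C := (RR w val (Dd wd p (Fin.last J)) - m1 w val) / 2 + vy 0 / 2 with hC
  -- the chain
  set G : ℕ → ℝ → ℝ := fun n => Nat.rec (fun z => Real.log (Real.cosh z))
    (fun n g => gaussOp (leftEnd wd (lv J (n + 1))) (increment hv' (lv J (n + 1))) g) n with hG
  have hG0 : G 0 = fun z => Real.log (Real.cosh z) := rfl
  have hGs : ∀ n, G (n + 1) = gaussOp (leftEnd wd (lv J (n + 1)))
      (increment hv' (lv J (n + 1))) (G n) := fun n => rfl
  have hlip : ∀ n, Lip (G n) := by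
    intro n
    induction n with
    | zero => exact lip_log_cosh
    | succ n ih => rw [hGs]; exact ih.lip_gaussOp (ze_nonneg hwd _) _
  have hchain : chainV b wd hv' = G (J + 1) b := by
    unfold chainV
    rw [foldr_rec (J + 1) (fun i acc => gaussOp (leftEnd wd i) (increment hv' i) acc) _ G hG0
      (fun n hn => by
        rw [hGs]
        have e : lv J (n + 1) = ⟨J + 1 - 1 - n, by omega⟩ := by
          ext; simp only [lv]; omega
        rw [e])]
  have hR0 : RR w val 0 = m1 w val := by rw [RR_zero hw hs]; rfl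
  have hfs : ∀ n, n ≤ J → ∀ t, fs w val b (yy wd) (SS wd p) vy (n + 1) t = C + G n (t + b) := by
    intro n
    induction n with
    | zero =>
      intro _ t
      have e0 : fs w val b (yy wd) (SS wd p) vy (0 + 1) = gaussOp (yy wd 0)
        ((RR w val (SS wd p (0 + 1)) - RR w val (SS wd p 0)) / yy wd 0 + vy 0)
        (fun t => Real.log (Real.cosh (t + b))) := rfl
      have hy0 : yy wd 0 = 1 := if_pos rfl
      rw [e0, hy0, SS_zero, zero_add, SS_one, hR0, div_one]
      have hsh := gaussOp_shift lip_log_cosh 1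
        (RR w val (Dd wd p (Fin.last J)) - m1 w val + vy 0) 0 b t
      simp only [zero_add] at hsh
      have hnn : 0 ≤ RR w val (Dd wd p (Fin.last J)) - m1 w val + vy 0 := by
        have h1 := RR_mono hv hw hs le_rfl (Dd_nonneg hwd hwds hp1 (Fin.last J))
        have h2 := hvy 0 (by omega)
        rw [hR0] at h1
        linarith
      rw [hsh, gaussOp_one_cosh hnn, hG0, hC]
      ring
    | succ n ih =>
      intro hn t
      have e0 : fs w val b (yy wd) (SS wd p) vy (n + 1 + 1) = gaussOp (yy wd (n + 1))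
        ((RR w val (SS wd p (n + 1 + 1)) - RR w val (SS wd p (n + 1))) / yy wd (n + 1) +
          vy (n + 1)) (fs w val b (yy wd) (SS wd p) vy (n + 1)) := rfl
      have e1 : fs w val b (yy wd) (SS wd p) vy (n + 1) = fun t => C + G n (t + b) :=
        funext fun t => ih (by omega) t
      rw [e0, e1, gaussOp_shift (hlip n), hGs]
      obtain ⟨j, h1, h2, h3⟩ := lv_succ (J := J) (n := n + 1) (by omega) (by omega)
      have e2 : yy wd (n + 1) = leftEnd wd (lv J (n + 1)) := if_neg (Nat.succ_ne_zero n)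
      have e3 : SS wd p (n + 1) = Dd wd p (lv J (n + 1)) := if_neg (Nat.succ_ne_zero n)
      have e4 : SS wd p (n + 1 + 1) = Dd wd p (lv J (n + 1 + 1)) :=
        if_neg (Nat.succ_ne_zero (n + 1))
      have e5 : (RR w val (SS wd p (n + 1 + 1)) - RR w val (SS wd p (n + 1))) / yy wd (n + 1) +
          vy (n + 1) = increment hv' (lv J (n + 1)) := by
        rw [e2, e3, e4, h1, h2, increment_succ, hhv']
        simp only
        rw [hh_succ, Hl_succ, h3]
        have : J - (J - (n + 1)) = n + 1 := by omega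
        rw [this]
        ring
      rw [e5, e2]
  have e6 : fs w val b (yy wd) (SS wd p) vy (J + 1) = fun t => C + G J (t + b) :=
    funext fun t => hfs J le_rfl t
  have e7 : increment hv' (lv J (J + 1)) = p 0 * RD w val (Dd wd p 0) + vy (J + 1) := by
    rw [lv_bot, increment_zero, hhv']
    simp only
    rw [hh_zero, Hl_zero]
  have e8 : leftEnd wd (lv J (J + 1)) = 0 := by rw [lv_bot, ze_zero]
  rw [hchain, hGs, e7, e8, e6, gaussOp_shift (hlip J), zero_add, hC]
  unfold CC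
  ring

include hv hw hs hwd hwds hp hp0 hp1 in
/-- **Average of the constants.** -/
theorem sum_CC (hD : 0 < Dd wd p 0) : ∑ l, w l * CC w val wd p l =
    spectralPart (atomic w val) (val (Fin.last K)) (stepFn wd p) +
      (1 / 2) * ∑ i, wd i * (p i * hh w val wd p i) - (1 / 2) * hh w val wd p (Fin.last J) := by
  have h1 := tr_Psi hv hw hs hwd hwds hp hp0 hp1
  unfold CC
  simp only [mul_add]
  rw [Finset.sum_add_distrib, Finset.sum_add_distrib, ← Finset.sum_mul, hs, one_mul,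
    sum_cst hv hw hs SS_zero (fun n hn => SS_mono hwd hwds hp hp1 hn) (J + 1) le_rfl]
  have e : ∀ l, w l * (-(1 / 2) * (p 0 * ((RR w val (Dd wd p 0) - val l + Dd wd p 0 *
      RD w val (Dd wd p 0)) / (1 + (RR w val (Dd wd p 0) - val l) * Dd wd p 0)))) =
      -(1 / 2) * p 0 * (w l * ((RR w val (Dd wd p 0) - val l + Dd wd p 0 *
      RD w val (Dd wd p 0)) / (1 + (RR w val (Dd wd p 0) - val l) * Dd wd p 0))) := by
    intro l; ring
  rw [Finset.sum_congr rfl fun l _ => e l, ← Finset.mul_sum, sum_bot hv hw hs hD]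
  have h2 : ∑ i ∈ Finset.range (J + 1), (yy wd i)⁻¹ *
      (Psi w val (SS wd p (i + 1)) - Psi w val (SS wd p i)) =
      Psi w val (Dd wd p (Fin.last J)) + ∑ j : Fin J, (leftEnd wd j.succ)⁻¹ *
        (Psi w val (Dd wd p j.castSucc) - Psi w val (Dd wd p j.succ)) := by
    rw [Finset.sum_range_succ', add_comm]
    congr 1
    · have hy0 : yy wd 0 = 1 := if_pos rfl
      rw [hy0, SS_zero, zero_add, SS_one, Psi_zero]; ring
    · have h3 : ∀ i ∈ Finset.range J, (yy wd (i + 1))⁻¹ *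
          (Psi w val (SS wd p (i + 1 + 1)) - Psi w val (SS wd p (i + 1))) =
          (fun i : ℕ => if h : i < J then (leftEnd wd (⟨J - 1 - i, by omega⟩ : Fin J).succ)⁻¹ *
            (Psi w val (Dd wd p (⟨J - 1 - i, by omega⟩ : Fin J).castSucc) -
              Psi w val (Dd wd p (⟨J - 1 - i, by omega⟩ : Fin J).succ)) else 0) i := by
        intro i hi
        have hi' := Finset.mem_range.1 hi
        simp only [dif_pos hi']
        have e2 : yy wd (i + 1) = leftEnd wd (lv J (i + 1)) := if_neg (Nat.succ_ne_zero i)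
        have e3 : SS wd p (i + 1) = Dd wd p (lv J (i + 1)) := if_neg (Nat.succ_ne_zero i)
        have e4 : SS wd p (i + 1 + 1) = Dd wd p (lv J (i + 1 + 1)) :=
          if_neg (Nat.succ_ne_zero (i + 1))
        have e5 : lv J (i + 1) = (⟨J - 1 - i, by omega⟩ : Fin J).succ := by
          ext; simp only [lv, Fin.val_succ]; omega
        have e6 : lv J (i + 1 + 1) = (⟨J - 1 - i, by omega⟩ : Fin J).castSucc := by
          ext; simp only [lv, Fin.val_castSucc]; omega
        rw [e2, e3, e4, e5, e6]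
      rw [Finset.sum_congr rfl h3, Finset.sum_range]
      rw [← Equiv.sum_comp Fin.revPerm]
      refine Finset.sum_congr rfl fun j _ => ?_
      have hj := j.2
      have h4 : ((Fin.revPerm j : Fin J) : ℕ) < J := (Fin.revPerm j).2
      simp only [dif_pos h4]
      have e7 : (⟨J - 1 - ((Fin.revPerm j : Fin J) : ℕ), by omega⟩ : Fin J) = j := by
        ext
        simp only [Fin.revPerm_apply, Fin.val_rev]
        omega
      rw [e7]
  rw [h2]
  linarith

end Step

end

end Crest.Agent.R164.EG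
end

-- ▼ part R164/ExactG6
section

/-!
Row 164, exact value of the nested Gaussian functional, part 6: the covariances are those of
`SDAlg.Ghat` (helper716).
-/

set_option autoImplicit false

namespace Crest.Agent.R164.EG

open MeasureTheory ProbabilityTheory Crest.ProbabilityR.InvariantGlass
open Crest.Agent.R164.PAlg Crest.Agent.R164.Atomic
open Crest.Agent.R164.SDAlg (gap tau tau_zero ss_tau FF ee ww Ghat Dl Dl_top StepD wdOf pOf
  gap_nonneg gap_last tau_pos_of_pos tR_exact ww_eq_FF ghat_inc' leftEnd_of Dd_of wdOf_pos wdOf_sum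
  pOf_mono pOf_nonneg pOf_le_one)
open Crest.Agent.R164.CavG (gm gstep th gval th_zero th_succ)

noncomputable section

theorem th_congr {ι : Type*} [Fintype ι] {y y' : ℕ → ℝ} {v v' : ℕ → ι → ℝ} (w : (ι → ℝ) → ℝ) :
    ∀ n, (∀ m, m < n → y m = y' m) → (∀ m, m < n → v m = v' m) → th y v w n = th y' v' w n
  | 0, _, _ => rfl
  | n + 1, hy, hv => by
    rw [th_succ, th_succ, th_congr w n (fun m hm => hy m (by omega)) (fun m hm => hv m (by omega)),
      hy n (by omega), hv n (by omega)]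

theorem gval_congr {ι : Type*} [Fintype ι] {J : ℕ} {y y' : ℕ → ℝ} {v v' : ℕ → ι → ℝ}
    (w : (ι → ℝ) → ℝ) (hy : ∀ m, m ≤ J → y m = y' m) (hv : ∀ m, m ≤ J + 1 → v m = v' m) :
    gval J y v w = gval J y' v' w := by
  unfold gval
  rw [th_congr w (J + 1) (fun m hm => hy m (by omega)) (fun m hm => hv m (by omega)),
    hv (J + 1) le_rfl]

variable {K : ℕ} {w val : Fin (K + 1) → ℝ}
variable (hv : StrictMono val) (hw : ∀ k, 0 < w k) (hs : ∑ k, w k = 1)
include hv hw hs

theorem bb_tau {x : ℝ} (hx : 0 < x) :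
    bb w val x = val (Fin.last K) + (tau w (gap val 1) x)⁻¹ := by
  have h := tR_exact hv hw hs (zero_le_one) hx
  rw [one_mul, one_mul, one_mul, RR_eq hx] at h
  rw [one_div] at h
  linarith

theorem FF_eq {x : ℝ} (hx : 0 < x) (k : Fin (K + 1)) :
    FF (gap val 1) (tau w (gap val 1) x) k = (bb w val x - val k)⁻¹ := by
  have hτ := tau_pos_of_pos hv hw hs zero_le_one hx
  have hb := bb_tau hv hw hs hx
  set τ := tau w (gap val 1) x
  unfold FF ee gap
  rw [hb]
  have h1 : val (Fin.last K) + τ⁻¹ - val k = (1 + τ * (1 * (val (Fin.last K) - val k))) / τ := by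
    field_simp
    ring
  rw [h1, inv_div]
  rfl

theorem FF_eq_DK {x : ℝ} (hx : 0 ≤ x) (k : Fin (K + 1)) :
    w k * FF (gap val 1) (tau w (gap val 1) x) k = DK w val x k := by
  rcases hx.eq_or_lt with rfl | hx
  · rw [tau_zero hw (gap_nonneg hv zero_le_one) (gap_last 1)]
    simp [FF, DK]
  · rw [FF_eq hv hw hs hx]
    unfold DK
    rw [if_pos hx]

theorem ww_eq {x : ℝ} (hx : 0 < x) (k : Fin (K + 1)) :
    ww w (gap val 1) (tau w (gap val 1) x) (tau w (gap val 1) x) k =
      ((bb w val x - val k)⁻¹) ^ 2 / g2 w val (bb w val x) := by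
  have h := ww_eq_FF hv hw hs zero_le_one (tau_pos_of_pos hv hw hs zero_le_one hx) k
  simp only [FF_eq hv hw hs hx] at h
  have hg := g2_pos hw (bb_gt hv hw hs hx)
  rw [eq_div_iff hg.ne', sq]
  rw [← h]
  unfold g2
  congr 1
  exact Finset.sum_congr rfl fun l _ => by ring

/-- bottom covariance -/
theorem ghat_bot {n : ℕ} {m p : ℕ → ℝ} (hD : 0 < Dl m n p 0) (k : Fin (K + 1)) :
    w k * Ghat w (gap val 1) n m p k 0 = p 0 * (w k *
      ((bb w val (Dl m n p 0) - val k)⁻¹) ^ 2 / g2 w val (bb w val (Dl m n p 0))) := by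
  unfold Ghat
  rw [Finset.range_zero, Finset.sum_empty, add_zero, ww_eq hv hw hs hD]
  ring

/-- increments -/
theorem ghat_step {n : ℕ} {m p : ℕ → ℝ} (h : StepD n m p) {b : ℕ} (hb : b < n)
    (k : Fin (K + 1)) :
    w k * (Ghat w (gap val 1) n m p k (b + 1) - Ghat w (gap val 1) n m p k b) =
      (DK w val (Dl m n p b) k - DK w val (Dl m n p (b + 1)) k) / m (b + 1) := by
  have e : Ghat w (gap val 1) n m p k (b + 1) - Ghat w (gap val 1) n m p k b =
      (p (b + 1) - p b) * ww w (gap val 1) (tau w (gap val 1) (Dl m n p (b + 1)))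
        (tau w (gap val 1) (Dl m n p b)) k := by
    unfold Ghat
    rw [Finset.sum_range_succ]
    ring
  rw [e, ghat_inc' hw (gap_nonneg hv zero_le_one) (gap_last 1) h hb,
    ← FF_eq_DK hv hw hs (h.Dp_nonneg b), ← FF_eq_DK hv hw hs (h.Dp_nonneg (b + 1))]
  ring

/-- **Exact value, for the covariances `w_k Ghat^k`.** -/
theorem gval_Ghat {M : ℕ} {m p : ℕ → ℝ} (h : StepD (M + 1) m p) (hp0 : p 0 < 1) (b : ℝ)
    (l : Fin (K + 1)) {y vy : ℕ → ℝ} {v : ℕ → Option (Fin (K + 1)) → ℝ}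
    (hy : ∀ n, n ≤ M → y n = m (M + 1 - n))
    (hvy : ∀ n, n ≤ M + 1 → 0 ≤ vy n)
    (hvn : ∀ n, n ≤ M + 1 → v n none = vy n)
    (hvk : ∀ n, n ≤ M → ∀ k, v n (some k) =
      w k * Ghat w (gap val 1) (M + 1) m p k (M + 1 - n) -
        w k * Ghat w (gap val 1) (M + 1) m p k (M - n))
    (hvb : ∀ k, v (M + 1) (some k) = w k * Ghat w (gap val 1) (M + 1) m p k 0) :
    gval M y v (WF w val b l) = CC w val (wdOf M m) (pOf M p) l + vy 0 / 2 +
      chainV b (wdOf M m) (fun i => hh w val (wdOf M m) (pOf M p) i + Hl M vy i) := by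
  have hyy : ∀ n, n ≤ M → yy (wdOf M m) n = m (M + 1 - n) := by
    intro n hn
    unfold yy
    split_ifs with h0
    · rw [h0, Nat.sub_zero, h.mn]
    · rw [leftEnd_of h]
      have : ((lv M n : Fin (M + 1)) : ℕ) = M + 1 - n := by simp only [lv]; omega
      rw [this]
  have hSS : ∀ n, n ≤ M + 1 → SS (wdOf M m) (pOf M p) n = Dl m (M + 1) p (M + 1 - n) := by
    intro n hn
    unfold SS
    split_ifs with h0
    · rw [h0, Nat.sub_zero, Dl_top]
    · rw [Dd_of h]
      have : ((lv M n : Fin (M + 1)) : ℕ) = M + 1 - n := by simp only [lv]; omega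
      rw [this]
  have hD : 0 < Dd (wdOf M m) (pOf M p) 0 :=
    Dd_pos (wdOf_pos h) (wdOf_sum h) (pOf_mono h) (pOf_le_one h) (by simpa [pOf] using hp0)
  have hD0 : Dd (wdOf M m) (pOf M p) 0 = Dl m (M + 1) p 0 := by rw [Dd_of h]; rfl
  rw [gval_congr (y' := yy (wdOf M m)) (v' := v) (WF w val b l)
    (fun n hn => by rw [hy n hn, hyy n hn]) (fun _ _ => rfl)]
  refine gval_value hv hw hs (wdOf_pos h) (wdOf_sum h) (pOf_mono h) (pOf_nonneg h) (pOf_le_one h)
    b l hD hvy (fun n hn k => ?_) hvn (fun k => ?_)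
  · rw [hvk n hn, hSS n (by omega), hSS (n + 1) (by omega), hyy n hn]
    have e1 : M + 1 - n = (M - n) + 1 := by omega
    have e2 : M + 1 - (n + 1) = M - n := by omega
    rw [e2, e1, ← ghat_step hv hw hs h (by omega : M - n < M + 1)]
    ring
  · rw [hvb k, hD0, ghat_bot hv hw hs (by rw [← hD0]; exact hD)]
    rfl

end

end Crest.Agent.R164.EG
end

-- ▼ part R164/ClipG11
section

/-!
# Row 164: uniform truncation of the nested Gaussian functional, for the covariances of
`SDAlg.Ghat` (helper318)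
-/

set_option autoImplicit false

namespace Crest.Agent.R164.ClipG

open MeasureTheory ProbabilityTheory ENNReal Crest.ProbabilityR.InvariantGlass
open Crest.Agent.R164.PAlg Crest.Agent.R164.Atomic
open Crest.Agent.R164.SDAlg (gap tau FF ee ww Ghat Dl Dl_top Dl_anti StepD wdOf pOf
  gap_nonneg gap_last Dd_of wdOf_pos wdOf_sum pOf_mono pOf_nonneg pOf_le_one sum_ww tau_nonneg)
open Crest.Agent.R164.CavG (gm lin gstep th gval th_zero th_succ)
open Crest.Agent.R164.EG

noncomputable section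

variable {K : ℕ} {w val : Fin (K + 1) → ℝ}

section data

variable (hv : StrictMono val) (hw : ∀ k, 0 < w k) (hs : ∑ k, w k = 1)
include hv hw

theorem sum_Ghat {n : ℕ} {m p : ℕ → ℝ} (a : ℕ) :
    ∑ k, w k * Ghat w (gap val 1) n m p k a = p a := by
  have hne : Nonempty (Fin (K + 1)) := ⟨0⟩
  have hd := gap_nonneg hv zero_le_one
  unfold Ghat
  have e : ∀ k, w k * (p 0 * ww w (gap val 1) (tau w (gap val 1) (Dl m n p 0))
        (tau w (gap val 1) (Dl m n p 0)) k +
      ∑ b ∈ Finset.range a, (p (b + 1) - p b) *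
        ww w (gap val 1) (tau w (gap val 1) (Dl m n p (b + 1)))
          (tau w (gap val 1) (Dl m n p b)) k) =
      p 0 * (w k * ww w (gap val 1) (tau w (gap val 1) (Dl m n p 0))
        (tau w (gap val 1) (Dl m n p 0)) k) +
      ∑ b ∈ Finset.range a, (p (b + 1) - p b) *
        (w k * ww w (gap val 1) (tau w (gap val 1) (Dl m n p (b + 1)))
          (tau w (gap val 1) (Dl m n p b)) k) := by
    intro k
    rw [mul_add, Finset.mul_sum]
    congr 1
    · ring
    · exact Finset.sum_congr rfl fun b _ => by ring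
  rw [Finset.sum_congr rfl fun k _ => e k, Finset.sum_add_distrib, ← Finset.mul_sum,
    sum_ww hw hne hd (tau_nonneg _ _ _) (tau_nonneg _ _ _), Finset.sum_comm]
  have e2 : ∀ b ∈ Finset.range a, ∑ k, (p (b + 1) - p b) *
      (w k * ww w (gap val 1) (tau w (gap val 1) (Dl m n p (b + 1)))
        (tau w (gap val 1) (Dl m n p b)) k) = p (b + 1) - p b := by
    intro b _
    rw [← Finset.mul_sum, sum_ww hw hne hd (tau_nonneg _ _ _) (tau_nonneg _ _ _), mul_one]
  rw [Finset.sum_congr rfl e2, Finset.sum_range_sub]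
  ring

include hs

/-- the data of `gval_Ghat` satisfy the standing hypotheses. -/
theorem Dat.of_Ghat {M : ℕ} {m p : ℕ → ℝ} (h : StepD (M + 1) m p) (hp0 : p 0 < 1)
    {y vy : ℕ → ℝ} {v : ℕ → Option (Fin (K + 1)) → ℝ}
    (hy : ∀ n, n ≤ M → y n = m (M + 1 - n))
    (hvy : ∀ n, n ≤ M + 1 → 0 ≤ vy n)
    (hvn : ∀ n, n ≤ M + 1 → v n none = vy n)
    (hvk : ∀ n, n ≤ M → ∀ k, v n (some k) =
      w k * Ghat w (gap val 1) (M + 1) m p k (M + 1 - n) -
        w k * Ghat w (gap val 1) (M + 1) m p k (M - n))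
    (hvb : ∀ k, v (M + 1) (some k) = w k * Ghat w (gap val 1) (M + 1) m p k 0) :
    Dat w val M y (fun n => Dl m (M + 1) p (M + 1 - n)) vy (p 0) v := by
  have hD : 0 < Dd (wdOf M m) (pOf M p) 0 :=
    Dd_pos (wdOf_pos h) (wdOf_sum h) (pOf_mono h) (pOf_le_one h) (by simpa [pOf] using hp0)
  have hD0 : Dd (wdOf M m) (pOf M p) 0 = Dl m (M + 1) p 0 := by rw [Dd_of h]; rfl
  have e0 : M + 1 - (M + 1) = 0 := by omega
  refine
    { hv := hv
      hw := hw
      hs := hs
      hS0 := by simp only [Nat.sub_zero]; exact Dl_top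
      hSm := ?_
      hy := ?_
      hy1 := ?_
      hya := ?_
      hvy := hvy
      hvk := ?_
      hvn := hvn
      hSp := ?_
      hp0 := h.p0
      hvb := ?_ }
  · intro n hn
    have e1 : M + 1 - n = (M - n) + 1 := by omega
    have e2 : M + 1 - (n + 1) = M - n := by omega
    simp only [e2, e1]
    exact Dl_anti (fun _ hb => h.m_nonneg hb) h.pmono (by omega)
  · intro n hn
    rw [hy n hn]
    exact h.m_pos (by omega) (by omega)
  · intro n hn
    rw [hy n hn]
    exact h.m_le_one (by omega)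
  · intro n hn
    rw [hy n (by omega), hy (n + 1) hn]
    have e1 : M + 1 - n = (M + 1 - (n + 1)) + 1 := by omega
    rw [e1]
    exact h.mmono (by omega)
  · intro n hn k
    rw [hvk n hn, hy n hn]
    have e1 : M + 1 - n = (M - n) + 1 := by omega
    have e2 : M + 1 - (n + 1) = M - n := by omega
    rw [e2, e1, ← ghat_step hv hw hs h (by omega : M - n < M + 1)]
    ring
  · simp only [e0]
    rw [← hD0]; exact hD
  · intro k
    simp only [e0]
    rw [hvb k, ghat_bot hv hw hs (by rw [← hD0]; exact hD)]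

omit hs in
theorem sum_bv_Ghat {M : ℕ} {m p : ℕ → ℝ} (h : StepD (M + 1) m p)
    {v : ℕ → Option (Fin (K + 1)) → ℝ}
    (hvk : ∀ n, n ≤ M → ∀ k, v n (some k) =
      w k * Ghat w (gap val 1) (M + 1) m p k (M + 1 - n) -
        w k * Ghat w (gap val 1) (M + 1) m p k (M - n))
    (hvb : ∀ k, v (M + 1) (some k) = w k * Ghat w (gap val 1) (M + 1) m p k 0) :
    ∑ n ∈ Finset.range (M + 2), bv v n = 1 := by
  rw [Finset.sum_range_succ]
  have e1 : bv v (M + 1) = p 0 := by
    unfold bv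
    rw [Finset.sum_congr rfl fun k _ => hvb k, sum_Ghat hv hw]
  have e2 : ∀ n ∈ Finset.range (M + 1), bv v n = p (M + 1 - n) - p (M + 1 - (n + 1)) := by
    intro n hn
    have hn' := Finset.mem_range.1 hn
    have e3 : M + 1 - (n + 1) = M - n := by omega
    unfold bv
    rw [Finset.sum_congr rfl fun k _ => hvk n (by omega) k, Finset.sum_sub_distrib,
      sum_Ghat hv hw, sum_Ghat hv hw, e3]
  rw [Finset.sum_congr rfl e2, Finset.sum_range_sub' (fun n => p (M + 1 - n)), e1]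
  simp only [Nat.sub_zero, Nat.sub_self, h.pn]
  ring

/-- **Uniform truncation and exact value, covariances `w_k Ghat^k`.** -/
theorem trunc_Ghat {L wm B V Kc C : ℝ} (hL : ∀ k, |val k| ≤ L) (hwm : 0 < wm)
    (hwm' : ∀ k, wm ≤ w k) (hK : 0 < Kc) (hC : Kc ≤ C) {ψ : ℝ → ℝ} (T : Trunc Kc C ψ)
    {M : ℕ} {m p : ℕ → ℝ} (h : StepD (M + 1) m p) (hp0 : p 0 < 1)
    {y vy : ℕ → ℝ} {v : ℕ → Option (Fin (K + 1)) → ℝ}
    (hy : ∀ n, n ≤ M → y n = m (M + 1 - n))
    (hvy : ∀ n, n ≤ M + 1 → 0 ≤ vy n)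
    (hvn : ∀ n, n ≤ M + 1 → v n none = vy n)
    (hvk : ∀ n, n ≤ M → ∀ k, v n (some k) =
      w k * Ghat w (gap val 1) (M + 1) m p k (M + 1 - n) -
        w k * Ghat w (gap val 1) (M + 1) m p k (M - n))
    (hvb : ∀ k, v (M + 1) (some k) = w k * Ghat w (gap val 1) (M + 1) m p k 0)
    (hV : ∑ n ∈ Finset.range (M + 2), vy n ≤ V) {b : ℝ} (hb : |b| ≤ B) (l : Fin (K + 1)) :
    |gval M y v (fun z => ψ (WF w val b l z)) -
      (CC w val (wdOf M m) (pOf M p) l + vy 0 / 2 +
        chainV b (wdOf M m) (fun i => hh w val (wdOf M m) (pOf M p) i + Hl M vy i))| ≤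
      Ktr L wm B V / Kc := by
  rw [← gval_Ghat hv hw hs h hp0 b l hy hvy hvn hvk hvb]
  exact ((Dat.of_Ghat hv hw hs h hp0 hy hvy hvn hvk hvb).main hL hwm hwm' hb hK hC l
    (sum_bv_Ghat hv hw h hvk hvb).le hV ψ T.meas T.lo T.up T.bd).2

/-- **Uniform truncation, `ε`-form.** -/
theorem uniform_trunc (B V : ℝ) {ε : ℝ} (hε : 0 < ε) : ∃ K0 : ℝ, 0 < K0 ∧
    ∀ (Kc C : ℝ), K0 ≤ Kc → Kc ≤ C → ∀ ψ : ℝ → ℝ, Trunc Kc C ψ →
    ∀ (M : ℕ) (m p : ℕ → ℝ), StepD (M + 1) m p → p 0 < 1 →
    ∀ (y vy : ℕ → ℝ) (v : ℕ → Option (Fin (K + 1)) → ℝ),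
    (∀ n, n ≤ M → y n = m (M + 1 - n)) →
    (∀ n, n ≤ M + 1 → 0 ≤ vy n) →
    (∀ n, n ≤ M + 1 → v n none = vy n) →
    (∀ n, n ≤ M → ∀ k, v n (some k) =
      w k * Ghat w (gap val 1) (M + 1) m p k (M + 1 - n) -
        w k * Ghat w (gap val 1) (M + 1) m p k (M - n)) →
    (∀ k, v (M + 1) (some k) = w k * Ghat w (gap val 1) (M + 1) m p k 0) →
    ∑ n ∈ Finset.range (M + 2), vy n ≤ V → ∀ b : ℝ, |b| ≤ B → ∀ l : Fin (K + 1),
    |gval M y v (fun z => ψ (WF w val b l z)) -
      (CC w val (wdOf M m) (pOf M p) l + vy 0 / 2 +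
        chainV b (wdOf M m) (fun i => hh w val (wdOf M m) (pOf M p) i + Hl M vy i))| ≤ ε := by
  obtain ⟨k0, -, hk0⟩ := Finset.exists_min_image (Finset.univ : Finset (Fin (K + 1))) w
    ⟨0, Finset.mem_univ 0⟩
  set L : ℝ := ∑ k, |val k| with hLd
  have hL : ∀ k, |val k| ≤ L := fun k =>
    Finset.single_le_sum (f := fun k => |val k|) (fun k _ => abs_nonneg _) (Finset.mem_univ k)
  have hK := Ktr_nonneg L (w k0) B V
  refine ⟨Ktr L (w k0) B V / ε + 1, by positivity, ?_⟩
  intro Kc C hKc hC ψ T M m p h hp0 y vy v hy hvy hvn hvk hvb hV b hb l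
  have hKc0 : 0 < Kc := lt_of_lt_of_le (by positivity) hKc
  refine (trunc_Ghat hv hw hs hL (hw k0) (fun k => hk0 k (Finset.mem_univ k)) hKc0 hC T h hp0
    hy hvy hvn hvk hvb hV hb l).trans ?_
  rw [div_le_iff₀ hKc0]
  have h1 : Ktr L (w k0) B V / ε ≤ Kc := by linarith
  rw [div_le_iff₀ hε] at h1
  linarith

end data

end

end Crest.Agent.R164.ClipG
end

-- ▼ part R164/LLimB

/-!
Row 164, L side, (GL5) (helper716): the coarse nested Gaussian value of the truncated weight is the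
exact value up to `ε`.
-/

set_option autoImplicit false

namespace Crest.Agent.R164.LLimB

open MeasureTheory ProbabilityTheory Finset
open Crest.Agent.R164.CavG (gm gstep th gval th_zero th_succ vC vv)
open Crest.Agent.R141.Fact (ySk ySk_zero)
open Crest.Agent.R164.EG
open Crest.Agent.R164.PAlg Crest.Agent.R164.Atomic
open Crest.Agent.R164.SDAlg (gap Ghat StepD wdOf pOf)
open Crest.Agent.R164.GEx (BM cb cfErr coarse_fine_vC cfErr_tendsto)
open Crest.Agent.R164.ClipG (Trunc uniform_trunc)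

noncomputable section

/-! ### change of the index type -/

section reindex

variable {ι ι' : Type*} [Fintype ι] [Fintype ι']

theorem integral_gm_reindex (e : ι ≃ ι') (F : (ι' → ℝ) → ℝ) :
    ∫ g, F g ∂(gm ι') = ∫ g, F (fun i' => g (e.symm i')) ∂(gm ι) := by
  have h := measurePreserving_piCongrLeft (fun _ : ι' => gaussianReal 0 1) e
  rw [← h.integral_comp (MeasurableEquiv.measurableEmbedding _)]
  refine integral_congr_ae (Filter.Eventually.of_forall fun g => ?_)
  show F _ = F _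
  congr 1
  funext i'
  obtain ⟨i, rfl⟩ := e.surjective i'
  rw [MeasurableEquiv.piCongrLeft_apply_apply, Equiv.symm_apply_apply]

theorem gstep_reindex (e : ι ≃ ι') (y : ℝ) (v : ι' → ℝ) (f : (ι' → ℝ) → ℝ) (z : ι' → ℝ) :
    gstep y v f z = gstep y (fun i => v (e i)) (fun x => f (fun i' => x (e.symm i')))
      (fun i => z (e i)) := by
  unfold gstep
  rw [integral_gm_reindex e]
  simp only [Equiv.apply_symm_apply]

theorem th_reindex (e : ι ≃ ι') (y : ℕ → ℝ) (v : ℕ → ι' → ℝ) (w : (ι' → ℝ) → ℝ) (n : ℕ) :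
    ∀ z : ι' → ℝ, th y v w n z = th y (fun n i => v n (e i)) (fun x => w (fun i' => x (e.symm i'))) n
      (fun i => z (e i)) := by
  induction n with
  | zero =>
    intro z
    rw [th_zero, th_zero]
    simp only [Equiv.apply_symm_apply]
  | succ n ih =>
    intro z
    rw [th_succ, th_succ, gstep_reindex e]
    congr 1
    funext x
    rw [ih]
    simp only [Equiv.symm_apply_apply]

theorem gval_reindex (e : ι ≃ ι') (J : ℕ) (y : ℕ → ℝ) (v : ℕ → ι' → ℝ) (w : (ι' → ℝ) → ℝ) :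
    gval J y v w =
      gval J y (fun n i => v n (e i)) (fun x => w (fun i' => x (e.symm i'))) := by
  unfold gval
  rw [integral_gm_reindex e]
  refine integral_congr_ae (Filter.Eventually.of_forall fun g => ?_)
  show th _ _ _ _ _ = th _ _ _ _ _
  rw [th_reindex e]
  simp only [Equiv.symm_apply_apply]

end reindex

/-- `Option β ≃ Unit ⊕ β` -/
def so (β : Type*) : Option β ≃ Unit ⊕ β where
  toFun o := o.elim (Sum.inl ()) Sum.inr
  invFun := Sum.elim (fun _ => none) some
  left_inv := by rintro (_ | k) <;> rfl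
  right_inv := by rintro (_ | k) <;> rfl

variable {K : ℕ}

/-- the leaf weight, on `Unit ⊕ Fin (K + 1)` : `inl ()` = label field, `inr k` = block fields. -/
def WS (w val : Fin (K + 1) → ℝ) (b : ℝ) (l : Fin (K + 1)) (z : Unit ⊕ Fin (K + 1) → ℝ) : ℝ :=
  WF w val b l (fun o => z (so _ o))


theorem measurable_WS (w val : Fin (K + 1) → ℝ) (b : ℝ) (l : Fin (K + 1)) :
    Measurable (WS w val b l) := by
  unfold WS
  exact (Crest.Agent.R164.ClipG.meas_WF b l).comp
    (measurable_pi_lambda _ fun o => measurable_pi_apply _)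

/-- helper562's truncation -/
theorem trunc_psi {Kc : ℝ} (hK : 0 < Kc) : Trunc Kc (Kc + 1) (ED.psi Kc) :=
  Trunc.of_mono hK (ED.psi_monotone hK.le)
    (fun x => by
      have h := ED.psi_lipschitz hK.le 0 x
      have h0 : ED.psi Kc 0 = 0 := ED.psi_of_abs_le (by rw [abs_zero]; exact hK.le)
      rwa [h0, sub_zero, sub_zero] at h)
    (fun x hx => ED.psi_of_abs_le hx) (ED.abs_psi_le hK.le)

/-- the coarse covariances -/
def Qc (w val : Fin (K + 1) → ℝ) (n q : ℕ) (p : ℕ → ℝ) (i : ℕ) (k : Fin (K + 1)) : ℝ :=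
  w k * Ghat w (gap val 1) (n + 1) (fun a => (a : ℝ) / ((n : ℝ) + 1)) p k (n + 1 - q * i)

/-- the exact value -/
def ExV (w val : Fin (K + 1) → ℝ) (n : ℕ) (p vy : ℕ → ℝ) (b : ℝ) (l : Fin (K + 1)) : ℝ :=
  CC w val (wdOf n fun a => (a : ℝ) / ((n : ℝ) + 1)) (pOf n p) l + vy 0 / 2 +
    chainV b (wdOf n fun a => (a : ℝ) / ((n : ℝ) + 1)) (fun i =>
      hh w val (wdOf n fun a => (a : ℝ) / ((n : ℝ) + 1)) (pOf n p) i + Hl n vy i)

section main

variable {w val : Fin (K + 1) → ℝ} (hv : StrictMono val) (hw : ∀ k, 0 < w k) (hs : ∑ k, w k = 1)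
include hv hw hs

omit hs in
theorem Ghat_step_nonneg {n : ℕ} {m p : ℕ → ℝ} (h : StepD n m p) {a : ℕ} (ha : a < n)
    (k : Fin (K + 1)) :
    Ghat w (gap val 1) n m p k a ≤ Ghat w (gap val 1) n m p k (a + 1) := by
  have hd := SDAlg.gap_nonneg hv zero_le_one
  unfold Ghat
  rw [sum_range_succ, ← add_assoc]
  refine le_add_of_nonneg_right (mul_nonneg (sub_nonneg.2 (h.pmono a ha)) ?_)
  exact (SDAlg.ww_pos hw hd (SDAlg.tau_nonneg _ _ _) (SDAlg.tau_nonneg _ _ _) k).le

omit hs in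
theorem Ghat_zero_nonneg {n : ℕ} {m p : ℕ → ℝ} (h : StepD n m p) (k : Fin (K + 1)) :
    0 ≤ Ghat w (gap val 1) n m p k 0 := by
  have hd := SDAlg.gap_nonneg hv zero_le_one
  unfold Ghat
  rw [range_zero, sum_empty, add_zero]
  exact mul_nonneg h.p0
    (SDAlg.ww_pos hw hd (SDAlg.tau_nonneg _ _ _) (SDAlg.tau_nonneg _ _ _) k).le

omit hs in
theorem Ghat_nonneg {n : ℕ} {m p : ℕ → ℝ} (h : StepD n m p) (k : Fin (K + 1)) :
    ∀ a, a ≤ n → 0 ≤ Ghat w (gap val 1) n m p k a
  | 0, _ => Ghat_zero_nonneg hv hw h k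
  | a + 1, ha => (Ghat_nonneg h k a (by omega)).trans (Ghat_step_nonneg hv hw h (by omega) k)

/-- **(GL5)**: coarse value of the truncated weight = exact value, up to `ε`. -/
theorem coarse_exact (B V : ℝ) {ε : ℝ} (hε : 0 < ε) : ∃ K0 : ℝ, 0 < K0 ∧
    ∀ (Kc C : ℝ), K0 ≤ Kc → Kc ≤ C → ∀ ψ : ℝ → ℝ, Trunc Kc C ψ → ∃ J0 : ℕ, ∀ J, J0 ≤ J →
    ∀ (q n : ℕ), 0 < q → n + 1 = q * (J + 1) → ∀ p : ℕ → ℝ,
    StepD (n + 1) (fun a => (a : ℝ) / ((n : ℝ) + 1)) p → p 0 < 1 →
    ∀ vy : ℕ → ℝ, (∀ m, 0 ≤ vy m) → ∑ m ∈ range (n + 2), vy m ≤ V →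
    ∀ b : ℝ, |b| ≤ B → ∀ l : Fin (K + 1),
    |gval J (ySk J) (vC J (Qc w val n q p) (cb J q vy)) (fun z => ψ (WS w val b l z)) -
      ExV w val n p vy b l| ≤ ε := by
  obtain ⟨K0, hK0, hmain⟩ := uniform_trunc hv hw hs B V (half_pos hε)
  refine ⟨K0, hK0, ?_⟩
  intro Kc C hKc hC ψ T
  have hC0 : 0 < C := by linarith
  have hJ := (cfErr_tendsto C).eventually (gt_mem_nhds (half_pos hε))
  obtain ⟨J0, hJ0⟩ := Filter.eventually_atTop.1 hJ
  refine ⟨J0 + 1, ?_⟩
  intro J hJ1 q n hq hn p h hp0 vy hvy hV b hb l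
  have hJp : 0 < J := by omega
  -- the fine covariances
  set Qf : ℕ → Fin (K + 1) → ℝ := fun i k =>
    w k * Ghat w (gap val 1) (n + 1) (fun a => (a : ℝ) / ((n : ℝ) + 1)) p k (n + 1 - i) with hQf
  have hBM : BM C (fun z : Unit ⊕ Fin (K + 1) → ℝ => ψ (WS w val b l z)) :=
    ⟨T.meas.comp (measurable_WS w val b l), fun z => abs_le.2 ⟨T.bd _, (T.up _).trans
      (max_le (min_le_right _ _) (by linarith))⟩⟩
  -- monotonicity of `Ghat`
  have hQm : ∀ m k, m ≤ n → Qf (m + 1) k ≤ Qf m k := by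
    intro m k hm
    have e : n + 1 - m = (n + 1 - (m + 1)) + 1 := by omega
    simp only [hQf]
    rw [e]
    exact mul_le_mul_of_nonneg_left (Ghat_step_nonneg hv hw h (by omega) k) (hw k).le
  have hQ0 : ∀ k, 0 ≤ Qf (n + 1) k := fun k =>
    mul_nonneg (hw k).le (Ghat_nonneg hv hw h k _ (by omega))
  have h1 := coarse_fine_vC hBM (J := J) (q := q) (n := n) hq hJp hn hQ0 hQm hvy
  have h2 := hmain Kc C hKc hC ψ T n (fun a => (a : ℝ) / ((n : ℝ) + 1)) p h hp0 (ySk n) vy
    (fun i o => vC n Qf vy i (so _ o)) ?_ (fun i _ => hvy i) (fun i _ => rfl) ?_ ?_ hV b hb l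
  · have e := gval_reindex (so (Fin (K + 1))) n (ySk n) (vC n Qf vy) (fun z => ψ (WS w val b l z))
    have e3 : (fun x : Option (Fin (K + 1)) → ℝ =>
        ψ (WS w val b l fun i' => x ((so (Fin (K + 1))).symm i'))) =
        fun x => ψ (WF w val b l x) := by
      funext x
      unfold WS
      simp only [Equiv.symm_apply_apply]
    rw [e3] at e
    rw [← e] at h2
    have h3 := hJ0 J (by omega)
    have h1' := abs_le.1 h1
    have h2' := abs_le.1 h2
    refine abs_le.2 ?_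
    unfold ExV
    show _ ≤ gval J (ySk J) (vC J (fun i => Qf (q * i)) (cb J q vy)) _ - _ ∧
      gval J (ySk J) (vC J (fun i => Qf (q * i)) (cb J q vy)) _ - _ ≤ _
    constructor <;> linarith [h1'.1, h1'.2, h2'.1, h2'.2]
  · intro i hi
    unfold ySk
    rw [Nat.cast_sub (by omega)]
    push_cast
    ring
  · intro i hi k
    show (if i ≤ n then Qf i k - Qf (i + 1) k else Qf i k) = _
    rw [if_pos hi]
    simp only [hQf]
    rw [show n + 1 - (i + 1) = n - i by omega]
  · intro k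
    show (if n + 1 ≤ n then _ else Qf (n + 1) k) = _
    rw [if_neg (by omega)]
    simp only [hQf, Nat.sub_self]

/-- form with helper562's truncation -/
theorem coarse_exact_psi (B V : ℝ) {ε : ℝ} (hε : 0 < ε) : ∃ K0 : ℝ, 0 < K0 ∧
    ∀ Kc : ℝ, K0 ≤ Kc → ∃ J0 : ℕ, ∀ J, J0 ≤ J →
    ∀ (q n : ℕ), 0 < q → n + 1 = q * (J + 1) → ∀ p : ℕ → ℝ,
    StepD (n + 1) (fun a => (a : ℝ) / ((n : ℝ) + 1)) p → p 0 < 1 →
    ∀ vy : ℕ → ℝ, (∀ m, 0 ≤ vy m) → ∑ m ∈ range (n + 2), vy m ≤ V →
    ∀ b : ℝ, |b| ≤ B → ∀ l : Fin (K + 1),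
    |gval J (ySk J) (vC J (Qc w val n q p) (cb J q vy)) (fun z => ED.psi Kc (WS w val b l z)) -
      ExV w val n p vy b l| ≤ ε := by
  obtain ⟨K0, hK0, hmain⟩ := coarse_exact hv hw hs B V hε
  exact ⟨K0, hK0, fun Kc hKc => hmain Kc (Kc + 1) hKc (by linarith) (ED.psi Kc)
    (trunc_psi (by linarith))⟩

section Q

variable {J q n : ℕ} (hn : n + 1 = q * (J + 1)) {p : ℕ → ℝ}
  (h : StepD (n + 1) (fun a => (a : ℝ) / ((n : ℝ) + 1)) p)
include h

omit hs in
theorem Qc_nonneg (i : ℕ) (k : Fin (K + 1)) : 0 ≤ Qc w val n q p i k :=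
  mul_nonneg (hw k).le (Ghat_nonneg hv hw h k _ (by omega))

omit hs in
theorem Ghat_mono {a b : ℕ} (hab : a ≤ b) (hb : b ≤ n + 1) (k : Fin (K + 1)) :
    Ghat w (gap val 1) (n + 1) (fun a => (a : ℝ) / ((n : ℝ) + 1)) p k a ≤
      Ghat w (gap val 1) (n + 1) (fun a => (a : ℝ) / ((n : ℝ) + 1)) p k b := by
  induction b, hab using Nat.le_induction with
  | base => exact le_rfl
  | succ b hab ih => exact (ih (by omega)).trans (Ghat_step_nonneg hv hw h (by omega) k)

omit hs in
theorem Qc_anti (i : ℕ) (k : Fin (K + 1)) : Qc w val n q p (i + 1) k ≤ Qc w val n q p i k := by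
  unfold Qc
  refine mul_le_mul_of_nonneg_left (Ghat_mono hv hw h ?_ (by omega) k) (hw k).le
  have : q * i ≤ q * (i + 1) := Nat.mul_le_mul_left q (by omega)
  omega

omit hs in
theorem sum_Qc_zero : ∑ k, Qc w val n q p 0 k = 1 := by
  unfold Qc
  rw [mul_zero, Nat.sub_zero, Crest.Agent.R164.ClipG.sum_Ghat hv hw, h.pn]

end Q


end main



end

end Crest.Agent.R164.LLimB
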