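import Crest.Agent.R164.FieldCrit

/-!
Row 164: groups; the constrained entropy part at real magnetisations (helper92).
-/

set_option autoImplicit false

namespace Crest.Agent.R164.GC

open MeasureTheory ProbabilityTheory Filter Topology Set
open Crest.ProbabilityR.InvariantGlass

noncomputable section

/-! ### evenness, lower bound, monotonicity in the magnetisation -/











/-! ### real magnetisations -/










/-! ### step functions as trial paths -/

theorem exists_cell :
    ∀ (a : ℝ) (M : List (ℝ × ℝ)) (u : ℝ), a < u → u ≤ a + sumw M → ∃ q ∈ M, SL a M u = q.2 := by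
  intro a M
  induction M generalizing a with
  | nil =>
      intro u h1 h2
      rw [sumw_nil, add_zero] at h2
      exact absurd h1 (not_lt.2 h2)
  | cons q M ih =>
      obtain ⟨w, h⟩ := q
      intro u h1 h2
      by_cases hu : u ≤ a + w
      · exact ⟨(w, h), List.mem_cons_self, if_pos hu⟩
      · obtain ⟨q, hq, he⟩ := ih (a + w) u (not_le.1 hu) (by rw [sumw_cons] at h2; linarith)
        refine ⟨q, List.mem_cons_of_mem _ hq, ?_⟩
        show (if u ≤ a + w then h else SL (a + w) M u) = q.2
        rw [if_neg hu, he]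

theorem mono_le : ∀ (M : List (ℝ × ℝ)) (hp : ℝ), Mono hp M → ∀ q ∈ M, hp ≤ q.2
  | [], _, _, q, hq => by simp at hq
  | (w, h) :: M, hp, hm, q, hq => by
      rcases List.mem_cons.1 hq with rfl | hq
      · exact hm.1
      · exact hm.1.trans (mono_le M h hm.2 q hq)

theorem SL_mono : ∀ (M : List (ℝ × ℝ)) (a hp : ℝ), PosW M → Mono hp M → ∀ u u', a < u → u ≤ u' →
    u' ≤ a + sumw M → SL a M u ≤ SL a M u'
  | [], _, _, _, _, _, _, _, _, _ => le_rfl
  | (w, h) :: M, a, hp, hP, hm, u, u', hu, huu, hu' => by
      rw [sumw_cons] at hu'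
      show (if u ≤ a + w then h else SL (a + w) M u) ≤ if u' ≤ a + w then h else SL (a + w) M u'
      by_cases h1 : u' ≤ a + w
      · rw [if_pos h1, if_pos (huu.trans h1)]
      · rw [if_neg h1]
        by_cases h2 : u ≤ a + w
        · rw [if_pos h2]
          obtain ⟨q, hq, he⟩ := exists_cell (a + w) M u' (not_le.1 h1) (by linarith)
          rw [he]
          exact mono_le M h hm.2 q hq
        · rw [if_neg h2]
          exact SL_mono M (a + w) h hP.tail hm.2 u u' (not_le.1 h2) huu (by linarith)

theorem isTrialPath_stepFn {k : ℕ} {w p : Fin k → ℝ} (hw : ∀ i, 0 < w i) (hs : ∑ i, w i = 1)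
    (hm : Monotone p) (h0 : ∀ i, 0 ≤ p i) (h1 : ∀ i, p i ≤ 1) : IsTrialPath (stepFn w p) := by
  have hsum : sumw (toL w p) = 1 := by rw [sumw_toL, hs]
  refine ⟨?_, ?_, ?_⟩
  · unfold stepFn
    refine Finset.measurable_sum _ fun i _ => ?_
    exact Measurable.ite (measurableSet_Ioc (a := leftEnd w i) (b := leftEnd w i + w i))
      measurable_const measurable_const
  · intro u hu u' hu' huu
    rw [stepFn_eq_SL hw p hu.1, stepFn_eq_SL hw p hu'.1]
    exact SL_mono _ 0 0 (posW_toL hw p) (mono_toL k 0 w p h0 hm) u u' hu.1 huu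
      (by rw [hsum, zero_add]; exact hu'.2.le)
  · intro u hu
    rw [stepFn_eq_SL hw p hu.1]
    obtain ⟨q, hq, he⟩ := exists_cell 0 (toL w p) u hu.1 (by rw [hsum, zero_add]; exact hu.2.le)
    rw [he]
    unfold toL at hq
    rw [List.mem_ofFn] at hq
    obtain ⟨i, rfl⟩ := hq
    exact ⟨h0 i, h1 i⟩


end

end Crest.Agent.R164.GC
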