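import Crest.Agent.R164.FieldCrit
import Crest.Agent.R164.PAlg2
import Crest.Agent.R164.Mag1
import Crest.Agent.R164.RTrans2
import Crest.Agent.R164.CvE

-- ▼ part R164/LFinal
section

/-!
Row 164, L side (helper893): final analysis. From an approximately critical step path to an upper
bound on the real constrained value `VR`.
-/

set_option autoImplicit false

namespace Crest.Agent.R164.LF

open MeasureTheory Set Filter Topology
open Crest.ProbabilityR.InvariantGlass
open Crest.Agent.R164.GC Crest.Agent.R164.PAlg Crest.Agent.R164.Mag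
open Crest.Agent.R164.RTrans Crest.Agent.R164.Atomic

noncomputable section

/-- the group path `P = Σ_j γ_j P_j` -/
def gP {J k : ℕ} (γ : Fin J → ℚ) (b : Fin J → ℝ) (wd : Fin k → ℝ) (h : Fin J → Fin k → ℝ)
    (i : Fin k) : ℝ := ∑ j, ((γ j : ℚ) : ℝ) * pAt (b j) wd (h j) i

theorem stepFn_sum {J k : ℕ} (γ : Fin J → ℝ) (wd : Fin k → ℝ) (q : Fin J → Fin k → ℝ) (u : ℝ) :
    stepFn wd (fun i => ∑ j, γ j * q j i) u = ∑ j, γ j * stepFn wd (q j) u := by
  unfold stepFn
  simp only [Finset.mul_sum]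
  rw [Finset.sum_comm]
  refine Finset.sum_congr rfl fun i _ => ?_
  split_ifs
  · rfl
  · simp

theorem stepFn_meas {k : ℕ} (w p : Fin k → ℝ) : Measurable (stepFn w p) := by
  unfold stepFn
  refine Finset.measurable_sum _ fun i _ => ?_
  refine Measurable.ite ?_ measurable_const measurable_const
  exact measurableSet_Ioc

theorem stepFn_bdd {k : ℕ} (w p : Fin k → ℝ) (u : ℝ) : |stepFn w p u| ≤ ∑ i, |p i| := by
  unfold stepFn
  refine (Finset.abs_sum_le_sum_abs _ _).trans (Finset.sum_le_sum fun i _ => ?_)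
  split_ifs
  · exact le_rfl
  · simp


theorem stepFn_mul_int {k k' : ℕ} (w p : Fin k → ℝ) (w' p' : Fin k' → ℝ) :
    IntegrableOn (fun u => stepFn w p u * stepFn w' p' u) (Ioo 0 1) := by
  refine Measure.integrableOn_of_bounded (M := (∑ i, |p i|) * (∑ i, |p' i|)) ?_
    ((stepFn_meas w p).mul (stepFn_meas w' p')).aestronglyMeasurable ?_
  · exact measure_Ioo_lt_top.ne
  · refine Eventually.of_forall fun u => ?_
    rw [Real.norm_eq_abs, abs_mul]
    exact mul_le_mul (stepFn_bdd w p u) (stepFn_bdd w' p' u) (abs_nonneg _)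
      (Finset.sum_nonneg fun _ _ => abs_nonneg _)

section trial

variable {m : ℕ} {wd : Fin (m + 1) → ℝ} (hwd : ∀ i, 0 < wd i) (hwds : ∑ i, wd i = 1)
include hwd hwds

/-- step functions of monotone `[0,1]`-valued data are trial paths -/
theorem trial_step {q : Fin (m + 1) → ℝ} (hq : Monotone q) (h0 : ∀ i, 0 ≤ q i)
    (h1 : ∀ i, q i ≤ 1) : IsTrialPath (stepFn wd q) := by
  refine ⟨stepFn_meas wd q, ?_, ?_⟩
  · intro s hs t ht hst
    obtain ⟨i, hi⟩ := exists_cell hwds hs.1 hs.2.le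
    obtain ⟨j, hj⟩ := exists_cell hwds ht.1 ht.2.le
    rw [stepFn_cell hwd q hi, stepFn_cell hwd q hj]
    rcases le_or_gt i j with hij | hij
    · exact hq hij
    · exfalso
      have := ze_add_le hwd hij
      linarith [hi.1, hj.2]
  · intro s hs
    obtain ⟨i, hi⟩ := exists_cell hwds hs.1 hs.2.le
    rw [stepFn_cell hwd q hi]
    exact ⟨h0 i, h1 i⟩

end trial

theorem ereal_le_sub {x : EReal} {c B : ℝ} (h : x + (c : EReal) ≤ (B : EReal)) :
    x ≤ ((B - c : ℝ) : EReal) := by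
  induction x with
  | bot => exact bot_le
  | top => simp at h
  | coe x =>
    have h' : x + c ≤ B := by exact_mod_cast h
    exact_mod_cast le_sub_iff_add_le.2 h'

theorem ereal_coe_sum {ι : Type*} (s : Finset ι) (f : ι → ℝ) :
    ((∑ i ∈ s, f i : ℝ) : EReal) = ∑ i ∈ s, (f i : EReal) := by
  classical
  induction s using Finset.induction_on with
  | empty => simp
  | insert a s ha ih => rw [Finset.sum_insert ha, Finset.sum_insert ha, EReal.coe_add, ih]

theorem ereal_sum_le {J : ℕ} {γ : Fin J → ℝ} (hγ : ∀ j, 0 ≤ γ j) {x : Fin J → EReal}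
    {y : Fin J → ℝ} (h : ∀ j, x j ≤ (y j : EReal)) :
    ∑ j, (γ j : EReal) * x j ≤ ((∑ j, γ j * y j : ℝ) : EReal) := by
  rw [ereal_coe_sum]
  refine Finset.sum_le_sum fun j _ => ?_
  rw [EReal.coe_mul]
  exact mul_le_mul_of_nonneg_left (h j) (EReal.coe_nonneg.2 (hγ j))

section crit

variable {J m : ℕ} {γ : Fin J → ℚ} (hγ : ∀ j, 0 < γ j) {b : Fin J → ℝ}
  {wd : Fin (m + 1) → ℝ} {h : Fin J → Fin (m + 1) → ℝ} (hstep : ∀ j, IsStepField wd (h j))
include hγ hstep

/-- `S_m̂(P) ≤ Σ_j γ_j (ℓ_{b_j}(h_j) - b_j m̂_j + ½ ∫ P_j h_j)`. -/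
theorem cepR_le (hC : Conc) :
    cepR γ (fun j => magAt (b j) wd (h j)) (stepFn wd (gP γ b wd h)) ≤
      ((∑ j, ((γ j : ℚ) : ℝ) * (fieldValueAt (b j) wd (h j) - b j * magAt (b j) wd (h j) +
        1 / 2 * ∫ u in Ioo (0 : ℝ) 1, pathP (b j) wd (h j) u * stepFn wd (h j) u) : ℝ) :
          EReal) := by
  unfold cepR
  refine iSup_le fun k => iSup_le fun w' => iSup_le fun hv' => iSup_le fun h' => ?_
  have hγ' : ∀ j, (0:ℝ) ≤ ((γ j : ℚ) : ℝ) := fun j => by exact_mod_cast (hγ j).le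
  have h1 : ∀ j, constrainedFieldValue (magAt (b j) wd (h j)) w' hv' ≤
      ((fieldValueAt (b j) wd (h j) - b j * magAt (b j) wd (h j) +
        1 / 2 * (∫ u in Ioo (0 : ℝ) 1, pathP (b j) wd (h j) u * stepFn wd (h j) u) -
        1 / 2 * (∫ u in Ioo (0 : ℝ) 1, pathP (b j) wd (h j) u * stepFn w' hv' u) : ℝ) :
          EReal) := fun j => ereal_le_sub (critical_EReal hC (hstep j) h' (b j))
  have h2 := ereal_sum_le hγ' h1
  have h3 : ∫ u in Ioo (0 : ℝ) 1, stepFn wd (gP γ b wd h) u * stepFn w' hv' u =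
      ∑ j, ((γ j : ℚ) : ℝ) * ∫ u in Ioo (0 : ℝ) 1, pathP (b j) wd (h j) u * stepFn w' hv' u := by
    have e : ∀ u, stepFn wd (gP γ b wd h) u * stepFn w' hv' u =
        ∑ j, ((γ j : ℚ) : ℝ) * (pathP (b j) wd (h j) u * stepFn w' hv' u) := by
      intro u
      have := stepFn_sum (fun j => ((γ j : ℚ) : ℝ)) wd (fun j => pAt (b j) wd (h j)) u
      show stepFn wd (fun i => ∑ j, ((γ j : ℚ) : ℝ) * pAt (b j) wd (h j) i) u * _ = _
      rw [this, Finset.sum_mul]
      exact Finset.sum_congr rfl fun j _ => by unfold pathP; ring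
    simp only [e]
    rw [integral_finsetSum]
    · exact Finset.sum_congr rfl fun j _ => integral_const_mul _ _
    · intro j _
      exact (stepFn_mul_int _ _ _ _).const_mul _
  rw [h3]
  show ∑ j : Fin J, (((γ j : ℚ) : ℝ) : EReal) * constrainedFieldValue _ w' hv' + _ ≤ _
  refine (add_le_add h2 le_rfl).trans ?_
  rw [← EReal.coe_add, EReal.coe_le_coe_iff, Finset.mul_sum, ← Finset.sum_add_distrib]
  refine Finset.sum_le_sum fun j _ => le_of_eq ?_
  ring

theorem gP_nonneg (i : Fin (m + 1)) : 0 ≤ gP γ b wd h i :=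
  Finset.sum_nonneg fun j _ => mul_nonneg (by exact_mod_cast (hγ j).le)
    (pAt_nonneg (hstep j) _ _)

theorem gP_mono : Monotone (gP γ b wd h) := fun i i' hi =>
  Finset.sum_le_sum fun j _ => mul_le_mul_of_nonneg_left (pAt_mono (hstep j) _ hi)
    (by exact_mod_cast (hγ j).le)

theorem gP_le_one (hγs : ∑ j, γ j = 1) (i : Fin (m + 1)) : gP γ b wd h i ≤ 1 := by
  have h1 : gP γ b wd h i ≤ ∑ j, ((γ j : ℚ) : ℝ) * 1 :=
    Finset.sum_le_sum fun j _ => mul_le_mul_of_nonneg_left (pAt_le_one (hstep j) _ _)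
      (by exact_mod_cast (hγ j).le)
  refine h1.trans (le_of_eq ?_)
  simp only [mul_one]
  exact_mod_cast hγs

end crit

/-- **Final analysis.** -/
theorem final (hC : Conc) {K m J : ℕ} {w val : Fin (K + 1) → ℝ} (hv : StrictMono val)
    (hw : ∀ k, 0 < w k) (hs : ∑ k, w k = 1) {γ : Fin J → ℚ} (hγ : ∀ j, 0 < γ j)
    (hγs : ∑ j, γ j = 1) {wd p : Fin (m + 1) → ℝ} (hwd : ∀ i, 0 < wd i) (hwds : ∑ i, wd i = 1)
    (hp : Monotone p) (hp0 : ∀ i, 0 ≤ p i) (hp1 : ∀ i, p i ≤ 1) (hD : 0 < Dd wd p 0)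
    {V : Fin J → Fin (m + 1) → ℝ} (hV : ∀ j, Monotone (V j)) (hV0 : ∀ j i, 0 ≤ V j i)
    (b : Fin J → ℝ) {X e : ℝ}
    (hX : ∑ j, ((γ j : ℚ) : ℝ) * (fieldValueAt (b j) wd (fun i => hh w val wd p i + V j i) +
        1 / 2 * (hh w val wd p (Fin.last m) + V j (Fin.last m))) -
        1 / 2 * hh w val wd p (Fin.last m) + 1 / 2 * ∑ i, wd i * (p i * hh w val wd p i) +
        spectralPart (atomic w val) (val (Fin.last K)) (stepFn wd p) ≤ X)
    (hP : ∑ i, wd i * |gP γ b wd (fun j i => hh w val wd p i + V j i) i - p i| ≤ e) :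
    VR (atomic w val) (val (Fin.last K)) γ
      (fun j => magAt (b j) wd (fun i => hh w val wd p i + V j i)) ≤
      ((X - ∑ j, ((γ j : ℚ) : ℝ) * (b j * magAt (b j) wd (fun i => hh w val wd p i + V j i)) +
        (1 / 2 * hh w val wd p (Fin.last m) +
          (1 / 2) * ((val (Fin.last K) - val 0) ^ 2 * (1 + (val (Fin.last K) - val 0)))) * e :
            ℝ) : EReal) := by
  have hprob := atomic_prob (w := w) val (fun k => (hw k).le) hs
  set hj : Fin J → Fin (m + 1) → ℝ := fun j i => hh w val wd p i + V j i with hjdef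
  have hhs := hh_stepField hv hw hs hwd hwds hp hp0 hp1 hD
  have hstep : ∀ j, IsStepField wd (hj j) := fun j =>
    ⟨hhs.1, hhs.2.1, hhs.2.2.1, hhs.2.2.2.1.add (hV j), fun i =>
      add_nonneg (hhs.2.2.2.2 i) (hV0 j i)⟩
  have hγ' : ∀ j, (0:ℝ) ≤ ((γ j : ℚ) : ℝ) := fun j => by exact_mod_cast (hγ j).le
  have hγs' : ∑ j, ((γ j : ℚ) : ℝ) = 1 := by exact_mod_cast hγs
  set P := gP γ b wd hj with hPdef
  have hPt : IsTrialPath (stepFn wd P) :=
    trial_step hwd hwds (gP_mono hγ hstep) (gP_nonneg hγ hstep) (gP_le_one hγ hstep hγs)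
  have hpt : IsTrialPath (stepFn wd p) := trial_step hwd hwds hp hp0 hp1
  -- the spectral parts
  have hG := spectralPart_lip (supp hv hw hs) hPt hpt
  have hint : ∫ s in Ioo (0:ℝ) 1, |stepFn wd P s - stepFn wd p s| =
      ∑ i, wd i * |P i - p i| := by
    have := integral_cell hwd hwds (fun s => |stepFn wd P s - stepFn wd p s|)
      (fun i => |P i - p i|) (fun s i h1 h2 => by
        rw [stepFn_cell hwd P ⟨h1, h2⟩, stepFn_cell hwd p ⟨h1, h2⟩])
    exact this
  rw [hint] at hG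
  -- the value
  have hS := cepR_le hγ hstep hC (b := b)
  have hI : ∀ j, ∫ u in Ioo (0 : ℝ) 1, pathP (b j) wd (hj j) u * stepFn wd (hj j) u =
      ∑ i, wd i * (pAt (b j) wd (hj j) i * hj j i) := fun j =>
    integral_step_mul hwd hwds _ _
  refine (iInf₂_le _ hPt).trans ?_
  refine (add_le_add hS le_rfl).trans ?_
  rw [← EReal.coe_add, EReal.coe_le_coe_iff]
  simp only [hI]
  -- bookkeeping
  have hL1 : ∑ i, wd i * (P i * hh w val wd p i) ≤
      ∑ i, wd i * (p i * hh w val wd p i) + hh w val wd p (Fin.last m) * e := by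
    have h1 : ∀ i, wd i * (P i * hh w val wd p i) ≤
        wd i * (p i * hh w val wd p i) + hh w val wd p (Fin.last m) * (wd i * |P i - p i|) := by
      intro i
      have a1 : P i - p i ≤ |P i - p i| := le_abs_self _
      have a2 := hhs.2.2.2.2 i
      have a3 : hh w val wd p i ≤ hh w val wd p (Fin.last m) := hhs.2.2.2.1 (Fin.le_last i)
      have a4 := (hwd i).le
      have a5 : (P i - p i) * hh w val wd p i ≤ |P i - p i| * hh w val wd p (Fin.last m) :=
        (mul_le_mul_of_nonneg_right a1 a2).trans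
          (mul_le_mul_of_nonneg_left a3 (abs_nonneg _))
      have a6 := mul_le_mul_of_nonneg_left a5 a4
      nlinarith
    have h2 := Finset.sum_le_sum fun i (_ : i ∈ Finset.univ) => h1 i
    rw [Finset.sum_add_distrib, ← Finset.mul_sum] at h2
    have h3 := mul_le_mul_of_nonneg_left hP (hhs.2.2.2.2 (Fin.last m))
    linarith
  have hsplit : ∑ j, ((γ j : ℚ) : ℝ) * ∑ i, wd i * (pAt (b j) wd (hj j) i * hj j i) ≤
      ∑ i, wd i * (P i * hh w val wd p i) + ∑ j, ((γ j : ℚ) : ℝ) * V j (Fin.last m) := by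
    have h1 : ∀ j, ∑ i, wd i * (pAt (b j) wd (hj j) i * hj j i) ≤
        ∑ i, wd i * (pAt (b j) wd (hj j) i * hh w val wd p i) + V j (Fin.last m) := by
      intro j
      have h2 : ∀ i, wd i * (pAt (b j) wd (hj j) i * hj j i) ≤
          wd i * (pAt (b j) wd (hj j) i * hh w val wd p i) + wd i * V j (Fin.last m) := by
        intro i
        have a1 := pAt_nonneg (hstep j) (b j) i
        have a2 := pAt_le_one (hstep j) (b j) i
        have a3 := hV j (Fin.le_last i)
        have a4 := (hwd i).le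
        have a5 := hV0 j i
        have a6 : pAt (b j) wd (hj j) i * V j i ≤ V j (Fin.last m) := by nlinarith
        have a7 := mul_le_mul_of_nonneg_left a6 a4
        have e1 : hj j i = hh w val wd p i + V j i := rfl
        rw [e1]
        nlinarith
      have h3 := Finset.sum_le_sum fun i (_ : i ∈ Finset.univ) => h2 i
      rw [Finset.sum_add_distrib, ← Finset.sum_mul, hwds, one_mul] at h3
      exact h3
    have h4 := Finset.sum_le_sum fun j (_ : j ∈ Finset.univ) =>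
      mul_le_mul_of_nonneg_left (h1 j) (hγ' j)
    refine h4.trans (le_of_eq ?_)
    simp only [mul_add, Finset.sum_add_distrib]
    congr 1
    simp only [Finset.mul_sum]
    rw [Finset.sum_comm]
    refine Finset.sum_congr rfl fun i _ => ?_
    rw [hPdef]
    unfold gP
    rw [Finset.sum_mul, Finset.mul_sum]
    exact Finset.sum_congr rfl fun j _ => by ring
  have hG' := (abs_le.1 hG).2
  have hCe : (1 / 2) * ((val (Fin.last K) - val 0) ^ 2 * (1 + (val (Fin.last K) - val 0))) *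
      ∑ i, wd i * |P i - p i| ≤
      (1 / 2) * ((val (Fin.last K) - val 0) ^ 2 * (1 + (val (Fin.last K) - val 0))) * e := by
    refine mul_le_mul_of_nonneg_left hP ?_
    have : 0 ≤ val (Fin.last K) - val 0 := by
      have := hv.monotone (Fin.zero_le (Fin.last K)); linarith
    positivity
  have e1 : ∑ j, ((γ j : ℚ) : ℝ) * (fieldValueAt (b j) wd (hj j) -
      b j * magAt (b j) wd (hj j) + 1 / 2 * ∑ i, wd i * (pAt (b j) wd (hj j) i * hj j i)) =
      ∑ j, ((γ j : ℚ) : ℝ) * fieldValueAt (b j) wd (hj j) -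
      ∑ j, ((γ j : ℚ) : ℝ) * (b j * magAt (b j) wd (hj j)) +
      1 / 2 * ∑ j, ((γ j : ℚ) : ℝ) * ∑ i, wd i * (pAt (b j) wd (hj j) i * hj j i) := by
    rw [Finset.mul_sum, ← Finset.sum_sub_distrib, ← Finset.sum_add_distrib]
    exact Finset.sum_congr rfl fun j _ => by ring
  have e2 : ∑ j, ((γ j : ℚ) : ℝ) * (fieldValueAt (b j) wd (fun i => hh w val wd p i + V j i) +
        1 / 2 * (hh w val wd p (Fin.last m) + V j (Fin.last m))) =
      ∑ j, ((γ j : ℚ) : ℝ) * fieldValueAt (b j) wd (hj j) +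
        1 / 2 * hh w val wd p (Fin.last m) + 1 / 2 * ∑ j, ((γ j : ℚ) : ℝ) * V j (Fin.last m) := by
    have : ∀ j, ((γ j : ℚ) : ℝ) * (fieldValueAt (b j) wd (fun i => hh w val wd p i + V j i) +
        1 / 2 * (hh w val wd p (Fin.last m) + V j (Fin.last m))) =
        ((γ j : ℚ) : ℝ) * fieldValueAt (b j) wd (hj j) +
        (((γ j : ℚ) : ℝ) * (1 / 2 * hh w val wd p (Fin.last m)) +
          1 / 2 * (((γ j : ℚ) : ℝ) * V j (Fin.last m))) := fun j => by ring
    simp only [this, Finset.sum_add_distrib]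
    rw [← Finset.sum_mul, hγs', ← Finset.mul_sum]
    ring
  rw [e2] at hX
  rw [e1]
  nlinarith

end

end Crest.Agent.R164.LF
end

-- ▼ part R164/CvF
section

/-!
Row 164 (helper491), part F: the dual function.
-/

set_option autoImplicit false

namespace Crest.Agent.R164.Cv

open MeasureTheory Set Filter Topology ProbabilityTheory
open Crest.ProbabilityR.InvariantGlass

noncomputable section

/-- Legendre dual on `[-1,1]` -/
def U (f : ℝ → ℝ) (y : ℝ) : ℝ := ⨆ x : ℝ, (x * y - f x)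

/-- the point with slope `y` -/
def X (f : ℝ → ℝ) (y : ℝ) : ℝ :=
  haveI := Classical.dec (∃ x, deriv f x = y)
  if h : ∃ x, deriv f x = y then h.choose else 0

section dual

variable {C c : ℝ} {f : ℝ → ℝ}

theorem aux_le (hf : Cls C f) (ha : Asy f c) {y : ℝ} (hy : |y| ≤ 1) (x : ℝ) :
    x * y - f x ≤ -c := by
  have h := ha.lower hf x
  have h2 : x * y ≤ |x| * |y| := by rw [← abs_mul]; exact le_abs_self _
  have h3 : |x| * |y| ≤ |x| := by nlinarith [abs_nonneg x]
  linarith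

theorem bddAbove_U (hf : Cls C f) (ha : Asy f c) {y : ℝ} (hy : |y| ≤ 1) :
    BddAbove (range fun x : ℝ => x * y - f x) := ⟨-c, by
  rintro _ ⟨x, rfl⟩
  exact aux_le hf ha hy x⟩

theorem U_le (hf : Cls C f) (ha : Asy f c) {y : ℝ} (hy : |y| ≤ 1) : U f y ≤ -c :=
  ciSup_le (aux_le hf ha hy)

theorem le_U (hf : Cls C f) (ha : Asy f c) {y : ℝ} (hy : |y| ≤ 1) (x : ℝ) :
    x * y - f x ≤ U f y := le_ciSup (bddAbove_U hf ha hy) x

theorem U_neg (hf : Cls C f) (y : ℝ) : U f (-y) = U f y := by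
  unfold U
  rw [← (Equiv.neg ℝ).iSup_comp]
  refine iSup_congr fun x => ?_
  show -x * -y - f (-x) = _
  rw [hf.even]
  ring

theorem U_one (hf : Cls C f) (ha : Asy f c) : U f 1 = -c := by
  refine le_antisymm (U_le hf ha (by simp)) ?_
  have h : Tendsto (fun x => -(f x - x)) atTop (𝓝 (-c)) := ha.neg
  refine le_of_tendsto h (Eventually.of_forall fun x => ?_)
  have := le_U hf ha (y := 1) (by simp) x
  linarith

theorem U_neg_one (hf : Cls C f) (ha : Asy f c) : U f (-1) = -c := by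
  rw [U_neg hf, U_one hf ha]

theorem exists_X (hf : Cls C f) (ha : Asy f c) {y : ℝ} (hy : |y| < 1) : ∃ x, deriv f x = y := by
  have hcoer : Tendsto (fun x => f x - x * y) (cocompact ℝ) atTop := by
    have h1 : Tendsto (fun x : ℝ => (1 - |y|) * |x| + c) (cocompact ℝ) atTop := by
      refine tendsto_atTop_add_const_right _ _ ?_
      exact (tendsto_norm_cocompact_atTop (E := ℝ)).const_mul_atTop (by linarith)
    refine tendsto_atTop_mono (fun x => ?_) h1
    have h := ha.lower hf x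
    have h2 : x * y ≤ |x| * |y| := by rw [← abs_mul]; exact le_abs_self _
    nlinarith
  have hcont : Continuous (fun x => f x - x * y) := by
    have := hf.lip.cont
    fun_prop
  obtain ⟨x, hx⟩ := hcont.exists_forall_le hcoer
  refine ⟨x, ?_⟩
  have hd : HasDerivAt (fun x => f x - x * y) (deriv f x - 1 * y) x :=
    (hf.h1 x).fun_sub ((hasDerivAt_id x).mul_const y)
  have := IsLocalMin.hasDerivAt_eq_zero (f := fun x => f x - x * y)
    (Eventually.of_forall hx) hd
  linarith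

theorem deriv_X (hf : Cls C f) (ha : Asy f c) {y : ℝ} (hy : |y| < 1) : deriv f (X f y) = y := by
  have h := exists_X hf ha hy
  unfold X
  rw [dif_pos h]
  exact h.choose_spec

theorem X_deriv (hf : Cls C f) (ha : Asy f c) (x : ℝ) : X f (deriv f x) = x :=
  hf.strictMono.injective (deriv_X hf ha (hf.b1' x))

theorem U_eq (hf : Cls C f) (ha : Asy f c) {y : ℝ} (hy : |y| < 1) :
    U f y = X f y * y - f (X f y) := by
  refine le_antisymm (ciSup_le fun x => ?_) (le_U hf ha hy.le _)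
  have h := hf.tangent (X f y) (x - X f y)
  rw [deriv_X hf ha hy, add_sub_cancel] at h
  linarith

theorem X_cont (hf : Cls C f) (ha : Asy f c) {y : ℝ} (hy : |y| < 1) : ContinuousAt (X f) y := by
  rw [Metric.continuousAt_iff]
  intro ε hε
  have hX := deriv_X hf ha hy
  have h1 : deriv f (X f y - ε) < y := by
    rw [← hX]; conv_lhs => rw [hX]
    exact hf.strictMono (by linarith)
  have h2 : y < deriv f (X f y + ε) := by
    conv_lhs => rw [← hX]
    exact hf.strictMono (by linarith)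
  refine ⟨min (y - deriv f (X f y - ε)) (deriv f (X f y + ε) - y), by
    exact lt_min (by linarith) (by linarith), fun {y'} hy' => ?_⟩
  rw [Real.dist_eq, lt_min_iff] at hy'
  have h3 := abs_lt.1 hy'.1
  have h4 := abs_lt.1 hy'.2
  have b1 := abs_lt.1 (hf.b1' (X f y - ε))
  have b2 := abs_lt.1 (hf.b1' (X f y + ε))
  have hy'' : |y'| < 1 := by rw [abs_lt]; constructor <;> linarith [b1.1, b2.2, h3.1, h4.2]
  have hX' := deriv_X hf ha hy''
  rw [Real.dist_eq, abs_lt]
  constructor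
  · have : X f y - ε < X f y' := by
      rw [← hf.strictMono.lt_iff_lt, hX']; linarith [h3.1]
    linarith
  · have : X f y' < X f y + ε := by
      rw [← hf.strictMono.lt_iff_lt, hX']; linarith [h4.2]
    linarith

theorem eventually_abs_lt {y : ℝ} (hy : |y| < 1) : ∀ᶠ z in 𝓝 y, |z| < 1 :=
  (isOpen_lt continuous_abs continuous_const).mem_nhds hy

theorem hasDerivAt_X (hf : Cls C f) (ha : Asy f c) {y : ℝ} (hy : |y| < 1) :
    HasDerivAt (X f) (deriv (deriv f) (X f y))⁻¹ y :=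
  HasDerivAt.of_local_left_inverse (X_cont hf ha hy) (hf.h2 _) (hf.pos _).ne'
    ((eventually_abs_lt hy).mono fun _ hz => deriv_X hf ha hz)

theorem hasDerivAt_U (hf : Cls C f) (ha : Asy f c) {y : ℝ} (hy : |y| < 1) :
    HasDerivAt (U f) (X f y) y := by
  have h1 := hasDerivAt_X hf ha hy
  have h2 : HasDerivAt (fun z => X f z * z - f (X f z))
      ((deriv (deriv f) (X f y))⁻¹ * y + X f y * 1 -
        deriv f (X f y) * (deriv (deriv f) (X f y))⁻¹) y :=
    (h1.fun_mul (hasDerivAt_id y)).fun_sub ((hf.h1 (X f y)).comp y h1)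
  rw [deriv_X hf ha hy] at h2
  have h3 := h2.congr_of_eventuallyEq (f₁ := U f)
    ((eventually_abs_lt hy).mono fun z hz => U_eq hf ha hz)
  exact h3.congr_deriv (by ring)

theorem U_le_of_le {C' c' : ℝ} {f' : ℝ → ℝ} (_hf : Cls C f) (_ha : Asy f c) (hf' : Cls C' f')
    (ha' : Asy f' c') {y ε : ℝ} (hy : |y| ≤ 1) (h : ∀ x, |f x - f' x| ≤ ε) :
    U f y ≤ U f' y + ε := by
  refine ciSup_le fun x => ?_
  have h1 := le_U hf' ha' hy x
  have h2 := (abs_le.1 (h x)).1
  linarith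

theorem U_dist {C' c' : ℝ} {f' : ℝ → ℝ} (hf : Cls C f) (ha : Asy f c) (hf' : Cls C' f')
    (ha' : Asy f' c') {y ε : ℝ} (hy : |y| ≤ 1) (h : ∀ x, |f x - f' x| ≤ ε) :
    |U f y - U f' y| ≤ ε := by
  have h1 := U_le_of_le hf ha hf' ha' hy h
  have h2 := U_le_of_le hf' ha' hf ha hy (fun x => by rw [abs_sub_comm]; exact h x)
  rw [abs_le]; constructor <;> linarith

theorem U_continuousOn (hf : Cls C f) (ha : Asy f c) : ContinuousOn (U f) (Icc (-1) 1) := by
  -- lower semicontinuity at the end point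
  have hend : ∀ ε, 0 < ε → ∃ δ, 0 < δ ∧ ∀ z, |z| ≤ 1 → 1 - δ < z → -c - ε < U f z := by
    intro ε hε
    obtain ⟨x, hx⟩ := ((ha.eventually (gt_mem_nhds (show c < c + ε / 2 by linarith))).and
      (eventually_gt_atTop 0)).exists
    refine ⟨ε / (2 * x), by have := hx.2; positivity, fun z hz h => ?_⟩
    have h1 := le_U hf ha hz x
    have h2 : x * (1 - z) < ε / 2 := by
      have h3 : 1 - z < ε / (2 * x) := by linarith
      calc x * (1 - z) < x * (ε / (2 * x)) := mul_lt_mul_of_pos_left h3 hx.2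
        _ = ε / 2 := by have := hx.2.ne'; field_simp
    have h4 := hx.1
    nlinarith
  intro y hy
  rcases hy.1.eq_or_lt with h | h
  · rw [Metric.continuousWithinAt_iff]
    intro ε hε
    obtain ⟨δ, hδ, hh⟩ := hend ε hε
    refine ⟨δ, hδ, fun {z} hz hd => ?_⟩
    rw [← h, Real.dist_eq] at hd
    rw [← h, U_neg_one hf ha, Real.dist_eq]
    have hz1 : |z| ≤ 1 := abs_le.2 ⟨hz.1, hz.2⟩
    have a1 := hh (-z) (by rwa [abs_neg]) (by linarith [(abs_lt.1 hd).2])
    rw [U_neg hf] at a1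
    have a2 := U_le hf ha hz1
    rw [abs_lt]; constructor <;> linarith
  · rcases hy.2.eq_or_lt with h' | h'
    · rw [Metric.continuousWithinAt_iff]
      intro ε hε
      obtain ⟨δ, hδ, hh⟩ := hend ε hε
      refine ⟨δ, hδ, fun {z} hz hd => ?_⟩
      rw [h', Real.dist_eq] at hd
      rw [h', U_one hf ha, Real.dist_eq]
      have hz1 : |z| ≤ 1 := abs_le.2 ⟨hz.1, hz.2⟩
      have a1 := hh z hz1 (by linarith [(abs_lt.1 hd).1])
      have a2 := U_le hf ha hz1
      rw [abs_lt]; constructor <;> linarith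
    · exact (hasDerivAt_U hf ha (abs_lt.2 ⟨h, h'⟩)).continuousAt.continuousWithinAt

end dual

end

end Crest.Agent.R164.Cv
end

-- ▼ part R164/CvG
section

/-!
Row 164 (helper491), part G: the maximum principle: the dual function is convex in the variances.
-/

set_option autoImplicit false

namespace Crest.Agent.R164.Cv

open MeasureTheory Set Filter Topology ProbabilityTheory
open Crest.ProbabilityR.InvariantGlass

noncomputable section

/-- second order condition at a local maximum in `y` -/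
theorem soc {Ca C0 C1 ca c0 c1 : ℝ} {fa f0 f1 : ℝ → ℝ} (ha : Cls Ca fa) (ha' : Asy fa ca)
    (h0 : Cls C0 f0) (h0' : Asy f0 c0) (h1 : Cls C1 f1) (h1' : Asy f1 c1) {l0 l1 y : ℝ}
    (hy : |y| < 1)
    (hmax : ∀ z, |z| < 1 → U fa z - l0 * U f0 z - l1 * U f1 z ≤
      U fa y - l0 * U f0 y - l1 * U f1 y) :
    (deriv (deriv fa) (X fa y))⁻¹ ≤ l0 * (deriv (deriv f0) (X f0 y))⁻¹ +
      l1 * (deriv (deriv f1) (X f1 y))⁻¹ := by
  by_contra hcon
  push Not at hcon
  set D := fun z => U fa z - l0 * U f0 z - l1 * U f1 z with hD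
  set D1 := fun z => X fa z - l0 * X f0 z - l1 * X f1 z with hD1
  have hd : ∀ z, |z| < 1 → HasDerivAt D (D1 z) z := fun z hz =>
    ((hasDerivAt_U ha ha' hz).fun_sub ((hasDerivAt_U h0 h0' hz).const_mul l0)).fun_sub
      ((hasDerivAt_U h1 h1' hz).const_mul l1)
  have hd1 : HasDerivAt D1 ((deriv (deriv fa) (X fa y))⁻¹ - l0 * (deriv (deriv f0) (X f0 y))⁻¹ -
      l1 * (deriv (deriv f1) (X f1 y))⁻¹) y :=
    ((hasDerivAt_X ha ha' hy).fun_sub ((hasDerivAt_X h0 h0' hy).const_mul l0)).fun_sub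
      ((hasDerivAt_X h1 h1' hy).const_mul l1)
  have hmax' : IsLocalMax D y := (eventually_abs_lt hy).mono fun z hz => hmax z hz
  have hz0 : D1 y = 0 := hmax'.hasDerivAt_eq_zero (hd y hy)
  have hpos : 0 < (deriv (deriv fa) (X fa y))⁻¹ - l0 * (deriv (deriv f0) (X f0 y))⁻¹ -
      l1 * (deriv (deriv f1) (X f1 y))⁻¹ := by linarith
  -- `D1 > 0` to the right of `y`
  have hslope := hd1.tendsto_slope
  have hev : ∀ᶠ z in 𝓝[≠] y, 0 < slope D1 y z := hslope.eventually (lt_mem_nhds hpos)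
  rw [eventually_nhdsWithin_iff] at hev
  have hev2 := hev.and (eventually_abs_lt hy)
  rw [Metric.eventually_nhds_iff] at hev2
  obtain ⟨ε, hε, hh⟩ := hev2
  set z := y + ε / 2 with hz
  have hyz : y < z := by rw [hz]; linarith
  have hin : ∀ t ∈ Icc y z, |t| < 1 := fun t ht => (hh (by
    rw [Real.dist_eq, abs_of_nonneg (by linarith [ht.1])]
    rw [hz] at ht
    linarith [ht.2])).2
  obtain ⟨t, ht, hte⟩ := exists_hasDerivAt_eq_slope D D1 hyz
    (fun t ht => (hd t (hin t ht)).continuousAt.continuousWithinAt)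
    (fun t ht => hd t (hin t (Ioo_subset_Icc_self ht)))
  have h3 := (hh (y := t) (by
    rw [Real.dist_eq, abs_of_nonneg (by linarith [ht.1])]
    have := ht.2
    rw [hz] at this
    linarith)).1 (ne_of_gt ht.1)
  rw [slope_def_field, hz0, sub_zero] at h3
  have h4 : 0 < D1 t := by
    have h5 : 0 < t - y := by linarith [ht.1]
    have := mul_pos h3 h5
    rwa [div_mul_cancel₀ _ h5.ne'] at this
  rw [hte] at h4
  have h5 : 0 < z - y := by linarith
  have h6 := mul_pos h4 h5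
  rw [div_mul_cancel₀ _ h5.ne'] at h6
  have h7 := hmax z (hin z ⟨hyz.le, le_rfl⟩)
  have h8 : D z ≤ D y := h7
  linarith

variable {k : ℕ} {ζ : Fin k → ℝ}

/-- the constant in the asymptotics -/
def cc (ζ v : Fin k → ℝ) : ℝ := -Real.log 2 + (∑ i, ζ i * v i) / 2

theorem update_nonneg {v : Fin k → ℝ} (hv : ∀ i, 0 ≤ v i) {i : Fin k} {a : ℝ} (ha : 0 ≤ a) :
    ∀ j, 0 ≤ Function.update v i a j := fun j => by
  by_cases h : j = i
  · subst h; rwa [Function.update_self]
  · rw [Function.update_of_ne h]; exact hv j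

theorem sum_abs_update (v : Fin k → ℝ) (i : Fin k) (a : ℝ) :
    ∑ j, |v j - Function.update v i a j| = |v i - a| := by
  rw [Finset.sum_eq_single i]
  · rw [Function.update_self]
  · intro j _ hj
    rw [Function.update_of_ne hj, sub_self, abs_zero]
  · intro h; exact absurd (Finset.mem_univ i) h

theorem foc_alg {μ η δ A B s K K' Ua UF UG Ue pa Fa Φa pG GG Φe : ℝ} (hμ : 0 ≤ μ)
    (m1 : UF - μ * UG + δ * (μ * η) ≤ Ua - μ * Ue) (m2 : pa - Fa ≤ UF) (m3 : Ua = pa - Φa)
    (m4 : UG = pG - GG) (m5 : pG - Φe ≤ Ue)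
    (m6 : Fa + μ * η / 2 * A ≤ Φa + (μ * η) * (K * s))
    (m7 : Φe ≤ GG + η / 2 * B + η * (K' * s)) :
    (μ * η) * (2 * δ + A) ≤ (μ * η) * (B + 2 * ((K + K') * s)) := by
  have q2 : UG - Ue ≤ Φe - GG := by linarith
  have q3 : μ * (UG - Ue) ≤ μ * (Φe - GG) := mul_le_mul_of_nonneg_left q2 hμ
  have q4 : μ * (Φe - GG) ≤ μ * (η / 2 * B + η * (K' * s)) :=
    mul_le_mul_of_nonneg_left (by linarith) hμ
  linarith

/-- first order condition -/
theorem foc (h : Adm ζ) {μ : ℝ} (hμ : 0 < μ) (hμ1 : μ ≤ 1) {va ve : Fin k → ℝ}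
    (hva : ∀ i, 0 ≤ va i) (hve : ∀ i, 0 ≤ ve i) {i : Fin k} (hi : 0 < ve i)
    (hz : ∀ j, j < i → ve j = 0) (hai : μ * ve i ≤ va i) {y δ : ℝ} (hy : |y| < 1)
    (hmax : ∀ η, 0 ≤ η → η ≤ ve i →
      U (Phi k ζ (Function.update va i (va i - μ * η))) y -
        μ * U (Phi k ζ (Function.update ve i (ve i - η))) y + δ * (μ * η) ≤
      U (Phi k ζ va) y - μ * U (Phi k ζ ve) y) :
    deriv (deriv (Phi k ζ va)) (X (Phi k ζ va) y) + 2 * δ ≤
      deriv (deriv (Phi k ζ ve)) (X (Phi k ζ ve) y) := by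
  have hCdef : ∃ C : ℝ, C = 2 + 8 * k := ⟨_, rfl⟩
  obtain ⟨C, hCe⟩ := hCdef
  have hC : 0 ≤ C := by rw [hCe]; positivity
  have cls : ∀ v : Fin k → ℝ, Cls C (Phi k ζ v) := fun v => by rw [hCe]; exact cls_Phi k ζ v h
  have asy : ∀ v : Fin k → ℝ, (∀ i, 0 ≤ v i) → Asy (Phi k ζ v) (cc ζ v) := fun v hv =>
    asy_Phi k ζ v h hv
  obtain ⟨K, hK, hlow⟩ := Phi_lower k ζ h
  obtain ⟨K', hK', hupp⟩ := Phi_upper k ζ h
  obtain ⟨L, hL, hmod⟩ := Phi_modulus k ζ h
  set xa := X (Phi k ζ va) y with hxa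
  set xe := X (Phi k ζ ve) y with hxe
  refine le_of_forall_pos_le_add fun τ hτ => ?_
  -- continuity of the inverse slope at `y`
  set ρ2 := τ / (8 * (C + 1)) with hρ2
  have hρ2p : 0 < ρ2 := by positivity
  obtain ⟨ρ', hρ', hcX⟩ := Metric.continuousAt_iff.1 (X_cont (cls ve) (asy ve hve) hy) ρ2 hρ2p
  set ρ := min (τ / 16) (ρ' / 2) with hρ
  have hρp : 0 < ρ := by rw [hρ]; exact lt_min (by positivity) (by positivity)
  have hρτ : ρ ≤ τ / 16 := min_le_left _ _
  have hρρ : ρ ≤ ρ' / 2 := min_le_right _ _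
  obtain ⟨ε, hε, hint⟩ := interp C hC hρp
  -- the step
  set s := τ / (8 * (K + K' + 1)) with hs
  have hsp : 0 < s := by positivity
  obtain ⟨η, hη0, hη1, hηv, hηL, hηs⟩ : ∃ η, 0 < η ∧ η ≤ 1 ∧ η ≤ ve i ∧ (L + 1) * η ≤ ε ∧
      Real.sqrt η ≤ s := by
    refine ⟨min (min 1 (ve i)) (min (ε / (L + 1)) (s ^ 2)), ?_, ?_, ?_, ?_, ?_⟩
    · exact lt_min (lt_min one_pos hi) (lt_min (by positivity) (by positivity))
    · exact (min_le_left _ _).trans (min_le_left _ _)
    · exact (min_le_left _ _).trans (min_le_right _ _)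
    · have h1 : min (min 1 (ve i)) (min (ε / (L + 1)) (s ^ 2)) ≤ ε / (L + 1) :=
        (min_le_right _ _).trans (min_le_left _ _)
      rw [le_div_iff₀ (by linarith)] at h1
      linarith
    · rw [Real.sqrt_le_left hsp.le]
      exact (min_le_right _ _).trans (min_le_right _ _)
  have hμη : μ * η ≤ η := by nlinarith
  have hμη0 : 0 < μ * η := by positivity
  have hμηa : μ * η ≤ va i := (mul_le_mul_of_nonneg_left hηv hμ.le).trans hai
  set F := Phi k ζ (Function.update va i (va i - μ * η)) with hF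
  set G := Phi k ζ (Function.update ve i (ve i - η)) with hG
  have nF : ∀ j, 0 ≤ Function.update va i (va i - μ * η) j :=
    update_nonneg hva (by linarith)
  have nG : ∀ j, 0 ≤ Function.update ve i (ve i - η) j := update_nonneg hve (by linarith)
  have cF := cls (Function.update va i (va i - μ * η))
  have cG := cls (Function.update ve i (ve i - η))
  have aF := asy _ nF
  have aG := asy _ nG
  rw [← hF] at cF aF
  rw [← hG] at cG aG
  -- closeness
  have dF : ∀ x, |F x - Phi k ζ va x| ≤ ε := fun x => by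
    have h1 := hmod va (Function.update va i (va i - μ * η)) hva nF (fun j => by
      have := Finset.single_le_sum (f := fun j => |va j - Function.update va i (va i - μ * η) j|)
        (fun j _ => abs_nonneg _) (Finset.mem_univ j)
      rw [sum_abs_update, sub_sub_cancel, abs_of_pos hμη0] at this
      exact this.trans (by linarith)) x
    rw [sum_abs_update, sub_sub_cancel, abs_of_pos hμη0, abs_sub_comm] at h1
    refine h1.trans ?_
    have : L * (μ * η) ≤ L * η := mul_le_mul_of_nonneg_left hμη hL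
    nlinarith
  have dG : ∀ x, |G x - Phi k ζ ve x| ≤ ε := fun x => by
    have h1 := hmod ve (Function.update ve i (ve i - η)) hve nG (fun j => by
      have := Finset.single_le_sum (f := fun j => |ve j - Function.update ve i (ve i - η) j|)
        (fun j _ => abs_nonneg _) (Finset.mem_univ j)
      rw [sum_abs_update, sub_sub_cancel, abs_of_pos hη0] at this
      exact this.trans (by linarith)) x
    rw [sum_abs_update, sub_sub_cancel, abs_of_pos hη0, abs_sub_comm] at h1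
    refine h1.trans ?_
    nlinarith
  set xG := X G y with hxG
  have sxa : deriv (Phi k ζ va) xa = y := deriv_X (cls va) (asy va hva) hy
  have sxG : deriv G xG = y := deriv_X cG aG hy
  have i1 := hint F _ cF (cls va) dF xa
  have i2 := hint G _ cG (cls ve) dG xG
  rw [sxa] at i1
  rw [sxG] at i2
  -- `xG` close to `xe`
  have hxx : |xG - xe| < ρ2 := by
    have h1 : dist (deriv (Phi k ζ ve) xG) y < ρ' := by
      rw [Real.dist_eq, abs_sub_comm]
      exact lt_of_le_of_lt i2.1 (by linarith)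
    have h2 := hcX h1
    rw [X_deriv (cls ve) (asy ve hve), Real.dist_eq] at h2
    exact h2
  have hcc : |deriv (deriv (Phi k ζ ve)) xG - deriv (deriv (Phi k ζ ve)) xe| ≤ τ / 8 := by
    have h1 := (cls ve).t2 xe (xG - xe)
    rw [add_sub_cancel] at h1
    refine h1.trans ?_
    have h2 : C * |xG - xe| ≤ (C + 1) * ρ2 := by
      have := abs_nonneg (xG - xe)
      nlinarith
    refine h2.trans (le_of_eq ?_)
    rw [hρ2]; field_simp
  -- the main inequality
  have m1 := hmax η hη0.le hηv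
  rw [← hF, ← hG] at m1
  have m2 := le_U cF aF hy.le xa
  have m3 := U_eq (cls va) (asy va hva) hy
  rw [← hxa] at m3
  have m4 := U_eq cG aG hy
  rw [← hxG] at m4
  have m5 := le_U (cls ve) (asy ve hve) hy.le xG
  have m6 := hlow va i (μ * η) hμη0.le (hμη.trans hη1) hμηa xa
  rw [← hF] at m6
  have m7 := hupp ve i hz η hη0.le hη1 hηv xG
  rw [← hG, sxG] at m7
  have hsq1 : Real.sqrt (μ * η) ≤ s := (Real.sqrt_le_sqrt hμη).trans hηs
  have m8 : K * (μ * η * Real.sqrt (μ * η)) ≤ (μ * η) * (K * s) := by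
    have := mul_le_mul_of_nonneg_left hsq1 (mul_nonneg hK hμη0.le)
    linarith
  have m9 : K' * (η * Real.sqrt η) ≤ η * (K' * s) := by
    have := mul_le_mul_of_nonneg_left hηs (mul_nonneg hK' hη0.le)
    linarith
  have hKs : 2 * ((K + K') * s) ≤ τ / 4 := by
    have q1 : (K + K' + 1) * s = τ / 8 := by rw [hs]; field_simp
    have q2 : (K + K') * s ≤ (K + K' + 1) * s :=
      mul_le_mul_of_nonneg_right (by linarith) hsp.le
    linarith
  set A := deriv (deriv F) xa + ζ i * deriv F xa ^ 2 with hA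
  set B := deriv (deriv G) xG + ζ i * y ^ 2 with hB
  have m10 : (μ * η) * (2 * δ + A) ≤ (μ * η) * (B + 2 * ((K + K') * s)) :=
    foc_alg hμ.le m1 m2 m3 m4 m5 (m6.trans (add_le_add_right m8 _))
      (m7.trans (add_le_add_right m9 _))
  have m11 := le_of_mul_le_mul_left m10 hμη0
  have hz0 := h.nonneg i
  have hz1 := h.le_one i
  have j1 := abs_le.1 i1.1
  have j2 := abs_le.1 i1.2
  have j4 := abs_le.1 i2.2
  have j5 := abs_le.1 hcc
  have hy1 := abs_lt.1 hy
  have hF1 := abs_lt.1 (cF.b1' xa)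
  have m12 : y ^ 2 - 2 * ρ ≤ deriv F xa ^ 2 := by
    have : |(deriv F xa - y) * (deriv F xa + y)| ≤ ρ * 2 := by
      rw [abs_mul]
      refine mul_le_mul i1.1 ?_ (abs_nonneg _) hρp.le
      rw [abs_le]; constructor <;> linarith
    have := (abs_le.1 this).1
    have e : (deriv F xa - y) * (deriv F xa + y) = deriv F xa ^ 2 - y ^ 2 := by ring
    rw [e] at this
    linarith
  have m13 : ζ i * y ^ 2 - 2 * ρ ≤ ζ i * deriv F xa ^ 2 := by
    have q1 := mul_le_mul_of_nonneg_left m12 hz0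
    have q2 := mul_le_mul_of_nonneg_right hz1 (by linarith : (0 : ℝ) ≤ 2 * ρ)
    linarith
  linarith [j2.1, j2.2, j4.1, j4.2, j5.1, j5.2]

/-- second derivative at the point of slope `y` is at most `1 - y²` -/
theorem d2_le {C c : ℝ} {f : ℝ → ℝ} (hf : Cls C f) (ha : Asy f c) {y : ℝ} (hy : |y| < 1) :
    deriv (deriv f) (X f y) ≤ 1 - y ^ 2 := by
  have := hf.gen (X f y)
  rw [deriv_X hf ha hy] at this
  linarith

theorem d2_lc {y : ℝ} (hy : |y| < 1) : deriv (deriv lc) (X lc y) = 1 - y ^ 2 := by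
  have h := deriv_X cls_lc asy_lc hy
  rw [deriv_lc] at h
  rw [deriv_lc, deriv_th]
  show 1 - th (X lc y) ^ 2 = _
  rw [h]

theorem U_jointCont (h : Adm ζ) : ContinuousOn
    (fun p : (Fin k → ℝ) × ℝ => U (Phi k ζ p.1) p.2) ({v | ∀ i, 0 ≤ v i} ×ˢ Icc (-1) 1) := by
  obtain ⟨L, hL, hmod⟩ := Phi_modulus k ζ h
  rintro ⟨v0, y0⟩ ⟨hv0, hy0⟩
  simp only [mem_ofPred_eq] at hv0
  rw [Metric.continuousWithinAt_iff]
  intro ε hε
  obtain ⟨δ, hδ, hc⟩ := Metric.continuousWithinAt_iff.1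
    (U_continuousOn (cls_Phi k ζ v0 h) (asy_Phi k ζ v0 h hv0) y0 hy0) (ε / 2) (by linarith)
  refine ⟨min δ (min 1 (ε / (2 * (L + 1) * (k + 1)))), ?_, ?_⟩
  · have : 0 < ε / (2 * (L + 1) * (k + 1)) := by positivity
    exact lt_min hδ (lt_min one_pos this)
  rintro ⟨v, y⟩ ⟨hv, hy⟩ hd
  simp only [mem_ofPred_eq] at hv
  rw [Prod.dist_eq, max_lt_iff] at hd
  obtain ⟨hd1, hd2⟩ := hd
  have hy' : |y| ≤ 1 := abs_le.2 ⟨hy.1, hy.2⟩
  have e1 := hc hy (lt_of_lt_of_le hd2 (min_le_left _ _))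
  have e2 : ∀ i, |v i - v0 i| ≤ min 1 (ε / (2 * (L + 1) * (k + 1))) := fun i => by
    have h1 := dist_le_pi_dist v v0 i
    rw [Real.dist_eq] at h1
    exact (h1.trans hd1.le).trans (min_le_right _ _)
  have e3 : ∑ i, |v i - v0 i| ≤ (k : ℝ) * (ε / (2 * (L + 1) * (k + 1))) := by
    have := Finset.sum_le_sum (s := Finset.univ) fun i _ => (e2 i).trans (min_le_right _ _)
    rw [Finset.sum_const, Finset.card_univ, Fintype.card_fin, nsmul_eq_mul] at this
    exact this
  have e4 : L * ∑ i, |v i - v0 i| < ε / 2 := by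
    have h1 : L * ∑ i, |v i - v0 i| ≤ L * ((k : ℝ) * (ε / (2 * (L + 1) * (k + 1)))) :=
      mul_le_mul_of_nonneg_left e3 hL
    refine lt_of_le_of_lt h1 ?_
    have h2 : L * ((k : ℝ) * (ε / (2 * (L + 1) * (k + 1)))) =
        (ε / 2) * ((L * k) / ((L + 1) * (k + 1))) := by
      field_simp
    rw [h2]
    have h3 : (L * k) / ((L + 1) * (k + 1)) < 1 := by
      rw [div_lt_one (by positivity)]
      have : (0 : ℝ) ≤ k := Nat.cast_nonneg k
      nlinarith
    nlinarith
  have e5 := U_dist (cls_Phi k ζ v h) (asy_Phi k ζ v h hv) (cls_Phi k ζ v0 h)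
    (asy_Phi k ζ v0 h hv0) hy' (fun x => hmod v v0 hv hv0 (fun i => (e2 i).trans (min_le_left _ _)) x)
  rw [Real.dist_eq] at e1 ⊢
  have e6 := abs_sub_le (U (Phi k ζ v) y) (U (Phi k ζ v0) y) (U (Phi k ζ v0) y0)
  show |U (Phi k ζ v) y - U (Phi k ζ v0) y0| < ε
  linarith

end

end Crest.Agent.R164.Cv
end

-- ▼ part R164/CvH
section

/-!
Row 164 (helper491), part H: the dual function is convex in the variances (maximum principle).
-/

set_option autoImplicit false

namespace Crest.Agent.R164.Cv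

open MeasureTheory Set Filter Topology ProbabilityTheory
open Crest.ProbabilityR.InvariantGlass

noncomputable section

variable {k : ℕ} {ζ : Fin k → ℝ}

/-- the mixture -/
def mix (l : ℝ) (v0 v1 : Fin k → ℝ) : Fin k → ℝ := fun i => (1 - l) * v0 i + l * v1 i

theorem mix_nonneg {l : ℝ} (h0 : 0 ≤ l) (h1 : l ≤ 1) {v0 v1 : Fin k → ℝ} (hv0 : ∀ i, 0 ≤ v0 i)
    (hv1 : ∀ i, 0 ≤ v1 i) (i : Fin k) : 0 ≤ mix l v0 v1 i :=
  add_nonneg (mul_nonneg (by linarith) (hv0 i)) (mul_nonneg h0 (hv1 i))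

theorem mix_update0 (l : ℝ) (v0 v1 : Fin k → ℝ) (i : Fin k) (η : ℝ) :
    mix l (Function.update v0 i (v0 i - η)) v1 =
      Function.update (mix l v0 v1) i (mix l v0 v1 i - (1 - l) * η) := by
  funext j
  by_cases h : j = i
  · subst h; simp only [mix, Function.update_self]; ring
  · simp only [mix, Function.update_of_ne h]

theorem mix_update1 (l : ℝ) (v0 v1 : Fin k → ℝ) (i : Fin k) (η : ℝ) :
    mix l v0 (Function.update v1 i (v1 i - η)) =
      Function.update (mix l v0 v1) i (mix l v0 v1 i - l * η) := by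
  funext j
  by_cases h : j = i
  · subst h; simp only [mix, Function.update_self]; ring
  · simp only [mix, Function.update_of_ne h]

theorem sum_update (v : Fin k → ℝ) (i : Fin k) (a : ℝ) :
    ∑ j, Function.update v i (v i - a) j = ∑ j, v j - a := by
  rw [Finset.sum_update_of_mem (Finset.mem_univ i), Finset.sdiff_singleton_eq_erase,
    ← Finset.add_sum_erase _ _ (Finset.mem_univ i)]
  ring

/-- the penalised defect -/
def Df (ζ : Fin k → ℝ) (l δ : ℝ) (v0 v1 : Fin k → ℝ) (y : ℝ) : ℝ :=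
  U (Phi k ζ (mix l v0 v1)) y - (1 - l) * U (Phi k ζ v0) y - l * U (Phi k ζ v1) y -
    δ * ∑ i, mix l v0 v1 i

theorem Df_cont (h : Adm ζ) {l : ℝ} (h0 : 0 ≤ l) (h1 : l ≤ 1) (δ : ℝ) : ContinuousOn
    (fun p : (Fin k → ℝ) × (Fin k → ℝ) × ℝ => Df ζ l δ p.1 p.2.1 p.2.2)
    ({v | ∀ i, 0 ≤ v i} ×ˢ {v | ∀ i, 0 ≤ v i} ×ˢ Icc (-1) 1) := by
  have hj := U_jointCont (ζ := ζ) h
  have cm : Continuous fun p : (Fin k → ℝ) × (Fin k → ℝ) × ℝ => mix l p.1 p.2.1 := by
    unfold mix
    fun_prop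
  have c1 : ContinuousOn (fun p : (Fin k → ℝ) × (Fin k → ℝ) × ℝ =>
      U (Phi k ζ (mix l p.1 p.2.1)) p.2.2)
      ({v | ∀ i, 0 ≤ v i} ×ˢ {v | ∀ i, 0 ≤ v i} ×ˢ Icc (-1) 1) :=
    hj.comp (f := fun p : (Fin k → ℝ) × (Fin k → ℝ) × ℝ => (mix l p.1 p.2.1, p.2.2))
      (by fun_prop) (fun p hp => ⟨mix_nonneg h0 h1 hp.1 hp.2.1, hp.2.2⟩)
  have c2 : ContinuousOn (fun p : (Fin k → ℝ) × (Fin k → ℝ) × ℝ =>
      U (Phi k ζ p.1) p.2.2)
      ({v | ∀ i, 0 ≤ v i} ×ˢ {v | ∀ i, 0 ≤ v i} ×ˢ Icc (-1) 1) :=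
    hj.comp (f := fun p : (Fin k → ℝ) × (Fin k → ℝ) × ℝ => (p.1, p.2.2))
      (by fun_prop) (fun p hp => ⟨hp.1, hp.2.2⟩)
  have c3 : ContinuousOn (fun p : (Fin k → ℝ) × (Fin k → ℝ) × ℝ =>
      U (Phi k ζ p.2.1) p.2.2)
      ({v | ∀ i, 0 ≤ v i} ×ˢ {v | ∀ i, 0 ≤ v i} ×ˢ Icc (-1) 1) :=
    hj.comp (f := fun p : (Fin k → ℝ) × (Fin k → ℝ) × ℝ => (p.2.1, p.2.2))
      (by fun_prop) (fun p hp => ⟨hp.2.1, hp.2.2⟩)
  have c4 : Continuous fun p : (Fin k → ℝ) × (Fin k → ℝ) × ℝ => ∑ i, mix l p.1 p.2.1 i := by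
    unfold mix
    fun_prop
  exact ((c1.sub (c2.const_mul _)).sub (c3.const_mul _)).sub (c4.continuousOn.const_mul _)

/-- one end point: the second derivative is at least that of the mixture, strictly more if the end
point is not zero -/
theorem endpoint (h : Adm ζ) {μ : ℝ} (hμ : 0 < μ) (hμ1 : μ ≤ 1) {va ve : Fin k → ℝ}
    (hva : ∀ i, 0 ≤ va i) (hve : ∀ i, 0 ≤ ve i) (hai : ∀ i, μ * ve i ≤ va i) {y δ : ℝ}
    (hy : |y| < 1) (hδ : 0 < δ)
    (hmax : ∀ i, ∀ η, 0 ≤ η → η ≤ ve i →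
      U (Phi k ζ (Function.update va i (va i - μ * η))) y -
        μ * U (Phi k ζ (Function.update ve i (ve i - η))) y + δ * (μ * η) ≤
      U (Phi k ζ va) y - μ * U (Phi k ζ ve) y) :
    deriv (deriv (Phi k ζ va)) (X (Phi k ζ va) y) ≤
      deriv (deriv (Phi k ζ ve)) (X (Phi k ζ ve) y) ∧
    (ve ≠ (fun _ => 0) → deriv (deriv (Phi k ζ va)) (X (Phi k ζ va) y) <
      deriv (deriv (Phi k ζ ve)) (X (Phi k ζ ve) y)) := by
  by_cases hz : ve = fun _ => 0
  · refine ⟨?_, fun h => absurd hz h⟩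
    rw [hz, Phi_v0, d2_lc hy]
    exact d2_le (cls_Phi k ζ va h) (asy_Phi k ζ va h hva) hy
  · have hne : ∃ i, 0 < ve i := by
      by_contra hcon
      push Not at hcon
      exact hz (funext fun i => le_antisymm (hcon i) (hve i))
    obtain ⟨i, hi, hmin⟩ := wellFounded_lt.has_min {i : Fin k | 0 < ve i} hne
    have hf := foc h hμ hμ1 hva hve hi (fun j hj => le_antisymm
      (not_lt.1 fun hjp => hmin j hjp hj) (hve j)) (hai i) hy (δ := δ) (hmax i)
    refine ⟨by linarith, fun _ => by linarith⟩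

theorem U_convex_aux (h : Adm ζ) {l : ℝ} (hl0 : 0 < l) (hl1 : l < 1) {w0 w1 : Fin k → ℝ}
    (hw0 : ∀ i, 0 ≤ w0 i) (hw1 : ∀ i, 0 ≤ w1 i) {y' : ℝ} (hy' : |y'| < 1) :
    U (Phi k ζ (mix l w0 w1)) y' ≤ (1 - l) * U (Phi k ζ w0) y' + l * U (Phi k ζ w1) y' := by
  by_contra hcon
  push Not at hcon
  have cls : ∀ v : Fin k → ℝ, Cls (2 + 8 * k) (Phi k ζ v) := fun v => cls_Phi k ζ v h
  have asy : ∀ v : Fin k → ℝ, (∀ i, 0 ≤ v i) → Asy (Phi k ζ v) (cc ζ v) := fun v hv =>
    asy_Phi k ζ v h hv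
  set D := U (Phi k ζ (mix l w0 w1)) y' - (1 - l) * U (Phi k ζ w0) y' -
    l * U (Phi k ζ w1) y' with hD
  have hDp : 0 < D := by rw [hD]; linarith
  set S := ∑ i, mix l w0 w1 i with hS
  have hSn : 0 ≤ S := Finset.sum_nonneg fun i _ => mix_nonneg hl0.le hl1.le hw0 hw1 i
  set δ := D / (2 * (S + 1)) with hδ
  have hδp : 0 < δ := by positivity
  have hδS : δ * S < D := by
    have : δ * (S + 1) = D / 2 := by rw [hδ]; field_simp
    nlinarith
  set V := ∑ i, w0 i + ∑ i, w1 i with hV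
  have hV0 : ∀ i, w0 i ≤ V := fun i => by
    have a1 := Finset.single_le_sum (f := w0) (fun j _ => hw0 j) (Finset.mem_univ i)
    have a2 : 0 ≤ ∑ i, w1 i := Finset.sum_nonneg fun i _ => hw1 i
    linarith
  have hV1 : ∀ i, w1 i ≤ V := fun i => by
    have a1 := Finset.single_le_sum (f := w1) (fun j _ => hw1 j) (Finset.mem_univ i)
    have a2 : 0 ≤ ∑ i, w0 i := Finset.sum_nonneg fun i _ => hw0 i
    linarith
  set B : Set (Fin k → ℝ) := Icc (fun _ => 0) (fun _ => V) with hB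
  have hcomp : IsCompact (B ×ˢ B ×ˢ Icc (-1 : ℝ) 1) :=
    isCompact_Icc.prod (isCompact_Icc.prod isCompact_Icc)
  have hcont : ContinuousOn (fun p : (Fin k → ℝ) × (Fin k → ℝ) × ℝ => Df ζ l δ p.1 p.2.1 p.2.2)
      (B ×ˢ B ×ˢ Icc (-1 : ℝ) 1) := (Df_cont h hl0.le hl1.le δ).mono
    (fun p hp => ⟨hp.1.1, hp.2.1.1, hp.2.2⟩)
  have hmem : (w0, w1, y') ∈ B ×ˢ B ×ˢ Icc (-1 : ℝ) 1 :=
    ⟨⟨hw0, hV0⟩, ⟨hw1, hV1⟩, ⟨(abs_lt.1 hy').1.le, (abs_lt.1 hy').2.le⟩⟩
  obtain ⟨⟨v0, v1, y⟩, ⟨hv0, hv1, hy⟩, hmax⟩ := hcomp.exists_isMaxOn ⟨_, hmem⟩ hcont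
  simp only at hv0 hv1 hy
  have hmax' : ∀ u0 u1 z, u0 ∈ B → u1 ∈ B → z ∈ Icc (-1 : ℝ) 1 →
      Df ζ l δ u0 u1 z ≤ Df ζ l δ v0 v1 y := fun u0 u1 z a b c =>
    hmax (a := (u0, u1, z)) ⟨a, b, c⟩
  have hpos : 0 < Df ζ l δ v0 v1 y := by
    refine lt_of_lt_of_le ?_ (hmax' w0 w1 y' hmem.1 hmem.2.1 hmem.2.2)
    unfold Df
    rw [← hD, ← hS]
    linarith
  have nv0 : ∀ i, 0 ≤ v0 i := hv0.1
  have nv1 : ∀ i, 0 ≤ v1 i := hv1.1
  have nm := mix_nonneg hl0.le hl1.le nv0 nv1
  have nS : 0 ≤ δ * ∑ i, mix l v0 v1 i :=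
    mul_nonneg hδp.le (Finset.sum_nonneg fun i _ => nm i)
  -- the boundary in `y`
  have hcc : cc ζ (mix l v0 v1) = (1 - l) * cc ζ v0 + l * cc ζ v1 := by
    unfold cc mix
    have : ∑ i, ζ i * ((1 - l) * v0 i + l * v1 i) =
        (1 - l) * ∑ i, ζ i * v0 i + l * ∑ i, ζ i * v1 i := by
      rw [Finset.mul_sum, Finset.mul_sum, ← Finset.sum_add_distrib]
      exact Finset.sum_congr rfl fun i _ => by ring
    rw [this]; ring
  have hy1 : |y| < 1 := by
    rw [abs_lt]
    constructor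
    · refine lt_of_le_of_ne hy.1 fun he => ?_
      rw [← he] at hpos
      unfold Df at hpos
      rw [U_neg_one (cls _) (asy _ nm), U_neg_one (cls _) (asy _ nv0),
        U_neg_one (cls _) (asy _ nv1), hcc] at hpos
      linarith
    · refine lt_of_le_of_ne hy.2 fun he => ?_
      rw [he] at hpos
      unfold Df at hpos
      rw [U_one (cls _) (asy _ nm), U_one (cls _) (asy _ nv0),
        U_one (cls _) (asy _ nv1), hcc] at hpos
      linarith
  have updB : ∀ v : Fin k → ℝ, v ∈ B → ∀ i η, 0 ≤ η → η ≤ v i →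
      Function.update v i (v i - η) ∈ B := by
    intro v hv i η h0 h1
    refine ⟨update_nonneg hv.1 (by linarith), fun j => ?_⟩
    by_cases hj : j = i
    · subst hj
      rw [Function.update_self]
      have := hv.2 j
      simp only at this
      linarith
    · rw [Function.update_of_ne hj]; exact hv.2 j
  -- the two end points
  have e0 := endpoint h (μ := 1 - l) (by linarith) (by linarith) nm nv0
    (fun i => by unfold mix; nlinarith [nv1 i, nv0 i]) hy1 hδp (fun i η h0 h1 => by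
      have hq := hmax' (Function.update v0 i (v0 i - η)) v1 y (updB v0 hv0 i η h0 h1) hv1 hy
      unfold Df at hq
      rw [mix_update0, sum_update] at hq
      linarith)
  have e1 := endpoint h (μ := l) (by linarith) (by linarith) nm nv1
    (fun i => by unfold mix; nlinarith [nv1 i, nv0 i]) hy1 hδp (fun i η h0 h1 => by
      have hq := hmax' v0 (Function.update v1 i (v1 i - η)) y hv0 (updB v1 hv1 i η h0 h1) hy
      unfold Df at hq
      rw [mix_update1, sum_update] at hq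
      linarith)
  have hs := soc (cls _) (asy _ nm) (cls _) (asy _ nv0) (cls _) (asy _ nv1) (l0 := 1 - l)
    (l1 := l) hy1 (fun z hz => by
      have hq := hmax' v0 v1 z hv0 hv1 ⟨(abs_lt.1 hz).1.le, (abs_lt.1 hz).2.le⟩
      unfold Df at hq
      linarith)
  -- not both end points vanish
  have hne : v0 ≠ (fun _ => 0) ∨ v1 ≠ (fun _ => 0) := by
    by_contra hcon
    push Not at hcon
    obtain ⟨z0, z1⟩ := hcon
    have hm : mix l v0 v1 = fun _ => 0 := by
      rw [z0, z1]; funext i; simp [mix]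
    unfold Df at hpos
    rw [hm, z0, z1, Phi_v0] at hpos
    simp only [Finset.sum_const_zero, mul_zero] at hpos
    linarith
  set A := deriv (deriv (Phi k ζ (mix l v0 v1))) (X (Phi k ζ (mix l v0 v1)) y) with hA
  set B0 := deriv (deriv (Phi k ζ v0)) (X (Phi k ζ v0) y) with hB0
  set B1 := deriv (deriv (Phi k ζ v1)) (X (Phi k ζ v1) y) with hB1
  have pA : 0 < A := (cls _).pos _
  have i0 : B0⁻¹ ≤ A⁻¹ := inv_anti₀ pA e0.1
  have i1 : B1⁻¹ ≤ A⁻¹ := inv_anti₀ pA e1.1
  rcases hne with hne | hne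
  · have s0 : B0⁻¹ < A⁻¹ := (inv_lt_inv₀ (pA.trans (e0.2 hne)) pA).2 (e0.2 hne)
    have := mul_lt_mul_of_pos_left s0 (by linarith : 0 < 1 - l)
    have := mul_le_mul_of_nonneg_left i1 hl0.le
    linarith
  · have s1 : B1⁻¹ < A⁻¹ := (inv_lt_inv₀ (pA.trans (e1.2 hne)) pA).2 (e1.2 hne)
    have := mul_lt_mul_of_pos_left s1 hl0
    have := mul_le_mul_of_nonneg_left i0 (by linarith : 0 ≤ 1 - l)
    linarith

/-- **Convexity of the dual function in the variances.** -/
theorem U_convex (h : Adm ζ) {l : ℝ} (hl0 : 0 ≤ l) (hl1 : l ≤ 1) {v0 v1 : Fin k → ℝ}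
    (hv0 : ∀ i, 0 ≤ v0 i) (hv1 : ∀ i, 0 ≤ v1 i) {y : ℝ} (hy : |y| < 1) :
    U (Phi k ζ (mix l v0 v1)) y ≤ (1 - l) * U (Phi k ζ v0) y + l * U (Phi k ζ v1) y := by
  rcases hl0.eq_or_lt with h0 | h0
  · have : mix l v0 v1 = v0 := by rw [← h0]; funext i; simp [mix]
    rw [this, ← h0]; linarith
  rcases hl1.eq_or_lt with h1 | h1
  · have : mix l v0 v1 = v1 := by rw [h1]; funext i; simp [mix]
    rw [this, h1]; linarith
  exact U_convex_aux h h0 h1 hv0 hv1 hy

end

end Crest.Agent.R164.Cv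
end

-- ▼ part R164/CvI
section

/-!
Row 164 (helper491), part I: concavity of the constrained one-site value along step fields
(`GC.Conc` of helper92).
-/

set_option autoImplicit false

namespace Crest.Agent.R164.Cv

open MeasureTheory Set Filter Topology ProbabilityTheory
open Crest.ProbabilityR.InvariantGlass

noncomputable section

theorem foldr_Phi : ∀ (k : ℕ) (ζ v : Fin k → ℝ),
    (List.finRange k).foldr (fun i acc => gaussOp (ζ i) (v i) acc) lc = Phi k ζ v
  | 0, _, _ => rfl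
  | (k + 1), ζ, v => by
      rw [List.finRange_succ, List.foldr_cons, List.foldr_map, Phi_succ,
        ← foldr_Phi k (Fin.tail ζ) (Fin.tail v)]
      rfl

/-- the last value -/
def lastV {k : ℕ} (hv : Fin k → ℝ) : ℝ := ∑ l : Fin k, if l.val + 1 = k then hv l else 0

theorem fieldValueAt_Phi {k : ℕ} (b : ℝ) (w hv : Fin k → ℝ) :
    fieldValueAt b w hv = Phi k (leftEnd w) (increment hv) b - lastV hv / 2 := by
  unfold fieldValueAt lastV
  rw [← foldr_Phi]
  rfl

theorem adm_leftEnd {k : ℕ} {w hv : Fin k → ℝ} (h : IsStepField w hv) : Adm (leftEnd w) := by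
  refine ⟨fun i => ?_, fun i => ?_, fun i j hij => ?_⟩
  · exact Finset.sum_nonneg fun l _ => by split_ifs <;> [exact (h.2.1 l).le; exact le_rfl]
  · rw [← h.2.2.1]
    exact Finset.sum_le_sum fun l _ => by split_ifs <;> [exact le_rfl; exact (h.2.1 l).le]
  · refine Finset.sum_le_sum fun l _ => ?_
    by_cases h1 : l < i
    · rw [if_pos h1, if_pos (lt_of_lt_of_le h1 hij)]
    · rw [if_neg h1]
      split_ifs <;> [exact (h.2.1 l).le; exact le_rfl]

theorem increment_nonneg' {k : ℕ} {hv : Fin k → ℝ} (hm : Monotone hv) (h0 : ∀ i, 0 ≤ hv i)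
    (i : Fin k) : 0 ≤ increment hv i := by
  unfold increment
  rw [sub_nonneg]
  by_cases hex : ∃ l : Fin k, l.val + 1 = i.val
  · obtain ⟨l, hl⟩ := hex
    rw [Finset.sum_eq_single l]
    · rw [if_pos hl]; exact hm (by rw [Fin.le_def]; omega)
    · intro l' _ hne
      rw [if_neg]
      intro h'
      exact hne (Fin.ext (by omega))
    · intro h; exact absurd (Finset.mem_univ l) h
  · rw [Finset.sum_eq_zero]
    · exact h0 i
    · intro l _
      rw [if_neg]
      exact fun h => hex ⟨l, h⟩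

theorem sum_mix {k : ℕ} (p : Fin k → Prop) [DecidablePred p] (l : ℝ) (h0 h1 : Fin k → ℝ) :
    ∑ j : Fin k, (if p j then (1 - l) * h0 j + l * h1 j else 0) =
      (1 - l) * ∑ j : Fin k, (if p j then h0 j else 0) +
        l * ∑ j : Fin k, (if p j then h1 j else 0) := by
  rw [Finset.mul_sum, Finset.mul_sum, ← Finset.sum_add_distrib]
  refine Finset.sum_congr rfl fun j _ => ?_
  split_ifs <;> ring

theorem increment_mix {k : ℕ} (l : ℝ) (h0 h1 : Fin k → ℝ) :
    increment (fun i => (1 - l) * h0 i + l * h1 i) = mix l (increment h0) (increment h1) := by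
  funext i
  unfold increment mix
  rw [sum_mix]
  ring

theorem lastV_mix {k : ℕ} (l : ℝ) (h0 h1 : Fin k → ℝ) :
    lastV (fun i => (1 - l) * h0 i + l * h1 i) = (1 - l) * lastV h0 + l * lastV h1 := by
  unfold lastV
  rw [sum_mix]

/-- **Concavity of the constrained one-site value** in the field path. -/
theorem conc : GC.Conc := by
  intro k w h0 h1 hs0 hs1 s hs l hl0 hl1 A0 A1 hA0 hA1 b
  have hadm := adm_leftEnd hs0
  have n0 := increment_nonneg' hs0.2.2.2.1 hs0.2.2.2.2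
  have n1 := increment_nonneg' hs1.2.2.2.1 hs1.2.2.2.2
  have hU := U_convex hadm hl0 hl1 n0 n1 hs
  have u0 : U (Phi k (leftEnd w) (increment h0)) s ≤ -A0 - lastV h0 / 2 :=
    ciSup_le fun x => by
      have := hA0 x
      rw [fieldValueAt_Phi] at this
      linarith
  have u1 : U (Phi k (leftEnd w) (increment h1)) s ≤ -A1 - lastV h1 / 2 :=
    ciSup_le fun x => by
      have := hA1 x
      rw [fieldValueAt_Phi] at this
      linarith
  have um := le_U (cls_Phi k _ (mix l (increment h0) (increment h1)) hadm)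
    (asy_Phi k _ _ hadm (mix_nonneg hl0 hl1 n0 n1)) hs.le b
  rw [fieldValueAt_Phi, increment_mix, lastV_mix]
  have e0 := mul_le_mul_of_nonneg_left u0 (by linarith : 0 ≤ 1 - l)
  have e1 := mul_le_mul_of_nonneg_left u1 hl0
  nlinarith

end

end Crest.Agent.R164.Cv
end

-- ▼ part R164/LEnd

/-!
Row 164, L side (helper893): from an approximately critical structure to a contradiction with the
hypothesis of `Mag.LBP`.
-/

set_option autoImplicit false

namespace Crest.Agent.R164.LF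

open MeasureTheory Set Filter Topology
open Crest.ProbabilityR.InvariantGlass
open Crest.Agent.R164.GC Crest.Agent.R164.PAlg Crest.Agent.R164.Mag
open Crest.Agent.R164.RTrans Crest.Agent.R164.Atomic

noncomputable section

theorem magAt_zero' {k : ℕ} {w hv : Fin k → ℝ} (h : IsStepField w hv) : magAt 0 w hv = 0 := by
  have h1 := hasDerivAt_fieldValueAt h 0
  have h2 : HasDerivAt (fun b => fieldValueAt (-b) w hv) (magAt (-0) w hv * (-1)) 0 := by
    have h3 : HasDerivAt (fun b => fieldValueAt b w hv) (magAt (-0) w hv) (-0) :=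
      hasDerivAt_fieldValueAt h (-0)
    exact h3.comp (0:ℝ) (hasDerivAt_neg (0:ℝ))
  have e : (fun b => fieldValueAt (-b) w hv) = fun b => fieldValueAt b w hv :=
    funext fun b => Mag.fieldValueAt_neg b w hv
  rw [e, neg_zero] at h2
  have := h1.unique h2
  linarith

/-- the constant in front of the `ℓ¹` error -/
def CF {K : ℕ} (w val : Fin (K + 1) → ℝ) {m : ℕ} (wd p : Fin (m + 1) → ℝ) : ℝ :=
  1 / 2 * hh w val wd p (Fin.last m) +
    (1 / 2) * ((val (Fin.last K) - val 0) ^ 2 * (1 + (val (Fin.last K) - val 0)))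

/-- **The contradiction.** -/
theorem contra {K m J : ℕ} {w val : Fin (K + 1) → ℝ} (hv : StrictMono val)
    (hw : ∀ k, 0 < w k) (hs : ∑ k, w k = 1) {γ : Fin J → ℚ} (hγ : ∀ j, 0 < γ j)
    (hγs : ∑ j, γ j = 1) {c t : Fin J → ℝ} {ε0 r : ℝ}
    (hr : ∀ m' : Fin J → ℝ, (∀ j, |m' j - t j| ≤ ε0) → (∀ j, t j = 0 → m' j = 0) →
      (r : EReal) ≤ ((∑ j : Fin J, ((γ j : ℚ) : ℝ) * c j * m' j : ℝ) : EReal) +
        VR (atomic w val) (val (Fin.last K)) γ m')
    {wd p : Fin (m + 1) → ℝ} (hwd : ∀ i, 0 < wd i) (hwds : ∑ i, wd i = 1)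
    (hp : Monotone p) (hp0 : ∀ i, 0 ≤ p i) (hp1 : ∀ i, p i ≤ 1) (hD : 0 < Dd wd p 0)
    {V : Fin J → Fin (m + 1) → ℝ} (hV : ∀ j, Monotone (V j)) (hV0 : ∀ j i, 0 ≤ V j i)
    {Kp E δ e ε1 : ℝ} (hKp : 0 ≤ Kp) {el mb b : Fin J → ℝ} (hel : ∀ j, |el j| ≤ E)
    (hE : 0 ≤ E) (hδ0 : 0 ≤ δ)
    (hmb : ∀ j, |mb j| ≤ 1) (ht : ∀ j, |t j| < 1)
    (hb : ∀ j, b j = if t j = 0 then 0 else c j - 2 * Kp * (mb j - t j) + el j)
    (hQ : ∀ j, t j ≠ 0 → |mb j - t j| ≤ ε0 / 2) (hε0 : 0 ≤ ε0)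
    (hmag : ∀ j, t j ≠ 0 → |mb j - magAt (b j) wd (fun i => hh w val wd p i + V j i)| ≤ δ)
    (hδ : δ ≤ ε0 / 2)
    (hval : ∑ j, ((γ j : ℚ) : ℝ) * ((if t j = 0 then 0 else Kp * (mb j ^ 2 - t j ^ 2)) +
        (fieldValueAt (b j) wd (fun i => hh w val wd p i + V j i) +
        1 / 2 * (hh w val wd p (Fin.last m) + V j (Fin.last m)))) -
        1 / 2 * hh w val wd p (Fin.last m) + 1 / 2 * ∑ i, wd i * (p i * hh w val wd p i) +
        spectralPart (atomic w val) (val (Fin.last K)) (stepFn wd p) +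
        Kp * ∑ j, ((γ j : ℚ) : ℝ) * (if t j = 0 then 0 else (mb j - t j) ^ 2) ≤ r - ε1)
    (hP : ∑ i, wd i * |gP γ b wd (fun j i => hh w val wd p i + V j i) i - p i| ≤ e)
    (hbad : 4 * Kp * δ + E + CF w val wd p * e < ε1) : False := by
  have hhs := hh_stepField hv hw hs hwd hwds hp hp0 hp1 hD
  set hj : Fin J → Fin (m + 1) → ℝ := fun j i => hh w val wd p i + V j i with hjdef
  have hstep : ∀ j, IsStepField wd (hj j) := fun j =>
    ⟨hhs.1, hhs.2.1, hhs.2.2.1, hhs.2.2.2.1.add (hV j), fun i =>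
      add_nonneg (hhs.2.2.2.2 i) (hV0 j i)⟩
  have hγ' : ∀ j, (0:ℝ) ≤ ((γ j : ℚ) : ℝ) := fun j => by exact_mod_cast (hγ j).le
  have hγs' : ∑ j, ((γ j : ℚ) : ℝ) = 1 := by exact_mod_cast hγs
  set mh : Fin J → ℝ := fun j => magAt (b j) wd (hj j) with hmh
  have hmh0 : ∀ j, t j = 0 → mh j = 0 := by
    intro j hj0
    have : b j = 0 := by rw [hb, if_pos hj0]
    show magAt (b j) wd (hj j) = 0
    rw [this]
    exact magAt_zero' (hstep j)
  have hnear : ∀ j, |mh j - t j| ≤ ε0 := by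
    intro j
    by_cases h0 : t j = 0
    · rw [hmh0 j h0, h0]; simpa using hε0
    · have h1 := hQ j h0
      have h2 := hmag j h0
      have h3 : |mh j - t j| ≤ |mb j - mh j| + |mb j - t j| := by
        have : mh j - t j = -(mb j - mh j) + (mb j - t j) := by ring
        rw [this]
        refine (abs_add_le _ _).trans ?_
        rw [abs_neg]
      linarith
  have hR := hr mh hnear hmh0
  set X : ℝ := r - ε1 - Kp * ∑ j, ((γ j : ℚ) : ℝ) * (if t j = 0 then 0 else (mb j - t j) ^ 2) -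
    ∑ j, ((γ j : ℚ) : ℝ) * (if t j = 0 then 0 else Kp * (mb j ^ 2 - t j ^ 2)) with hXdef
  have hX : ∑ j, ((γ j : ℚ) : ℝ) * (fieldValueAt (b j) wd (fun i => hh w val wd p i + V j i) +
        1 / 2 * (hh w val wd p (Fin.last m) + V j (Fin.last m))) -
        1 / 2 * hh w val wd p (Fin.last m) + 1 / 2 * ∑ i, wd i * (p i * hh w val wd p i) +
        spectralPart (atomic w val) (val (Fin.last K)) (stepFn wd p) ≤ X := by
    simp only [mul_add (((γ _ : ℚ) : ℝ)) (ite _ _ _) _, Finset.sum_add_distrib] at hval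
    rw [hXdef]
    linarith
  have hF := final Cv.conc hv hw hs hγ hγs hwd hwds hp hp0 hp1 hD hV hV0 b hX hP
  have hF' : VR (atomic w val) (val (Fin.last K)) γ mh ≤
      ((X - ∑ j, ((γ j : ℚ) : ℝ) * (b j * mh j) + CF w val wd p * e : ℝ) : EReal) := hF
  have hfin := hR.trans (add_le_add le_rfl hF')
  rw [← EReal.coe_add, EReal.coe_le_coe_iff] at hfin
  -- the pointwise identity
  have hpt : ∀ j, ((γ j : ℚ) : ℝ) * c j * mh j -
      Kp * (((γ j : ℚ) : ℝ) * (if t j = 0 then 0 else (mb j - t j) ^ 2)) -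
      ((γ j : ℚ) : ℝ) * (if t j = 0 then 0 else Kp * (mb j ^ 2 - t j ^ 2)) -
      ((γ j : ℚ) : ℝ) * (b j * mh j) ≤ ((γ j : ℚ) : ℝ) * (4 * Kp * δ + E) := by
    intro j
    by_cases h0 : t j = 0
    · rw [hmh0 j h0, if_pos h0, if_pos h0]
      have : 0 ≤ ((γ j : ℚ) : ℝ) * (4 * Kp * δ + E) := mul_nonneg (hγ' j) (by positivity)
      simpa using this
    · rw [if_neg h0, if_neg h0, hb, if_neg h0]
      have e1 : ((γ j : ℚ) : ℝ) * c j * mh j - Kp * (((γ j : ℚ) : ℝ) * (mb j - t j) ^ 2) -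
          ((γ j : ℚ) : ℝ) * (Kp * (mb j ^ 2 - t j ^ 2)) -
          ((γ j : ℚ) : ℝ) * ((c j - 2 * Kp * (mb j - t j) + el j) * mh j) =
          ((γ j : ℚ) : ℝ) * (-(2 * Kp * ((mb j - t j) * (mb j - mh j))) - el j * mh j) := by ring
      rw [e1]
      refine mul_le_mul_of_nonneg_left ?_ (hγ' j)
      have a1 : |(mb j - t j) * (mb j - mh j)| ≤ 2 * δ := by
        rw [abs_mul]
        have b1 : |mb j - t j| ≤ 2 := by
          refine (abs_sub _ _).trans ?_
          linarith [hmb j, (ht j).le]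
        exact mul_le_mul b1 (hmag j h0) (abs_nonneg _) (by norm_num)
      have a2 : |el j * mh j| ≤ E := by
        rw [abs_mul]
        have b1 : |mh j| ≤ 1 := (abs_magAt_lt (hstep j) (b j)).le
        calc |el j| * |mh j| ≤ E * 1 := mul_le_mul (hel j) b1 (abs_nonneg _) hE
          _ = E := mul_one _
      have a3 := (abs_le.1 a1).1
      have a4 := (abs_le.1 a2).1
      nlinarith
  have hsum := Finset.sum_le_sum fun j (_ : j ∈ Finset.univ) => hpt j
  rw [← Finset.sum_mul, hγs', one_mul, Finset.sum_sub_distrib, Finset.sum_sub_distrib,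
    Finset.sum_sub_distrib, ← Finset.mul_sum] at hsum
  rw [hXdef] at hfin
  linarith

end

end Crest.Agent.R164.LF
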