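import Mathlib
import Crest.Agent.R164.LabAvg

-- ▼ part R164/LSel
section

/-!
Row 164 (helper436): abstract tools of the L side.

* `LSel.sd_grid`: on a finite grid of parameters the average of the second differences of a
  coordinatewise Lipschitz function is small;
* `LSel.deriv_close`: derivatives of two convex functions which are close at three points;
* `LSel.select`: selection of a good parameter.
-/

set_option autoImplicit false

namespace Crest.Agent.R164.LSel

open Finset

noncomputable section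

/-! ### Second differences in one variable -/






/-! ### Second differences on a grid -/

section grid

variable {C : Type*} [Fintype C] [DecidableEq C]








end grid

/-! ### Comparison of derivatives -/



/-! ### Selection -/

/-- **Selection lemma.** -/
theorem select {Ξ : Type*} [Fintype Ξ] {w X Y : Ξ → ℝ} (hw : ∀ i, 0 ≤ w i) (hw1 : ∑ i, w i = 1)
    {x C δ ε : ℝ} (hε : 0 < ε) (hδ : 0 < δ) (hX : ∑ i, w i * X i ≤ x) (hXC : ∀ i, -C ≤ X i)
    (hY : ∑ i, w i * Y i ≤ δ) (hY0 : ∀ i, 0 ≤ Y i) :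
    ∃ i, 0 < w i ∧ X i ≤ x + ε ∧ Y i ≤ δ / ε * (x + ε + C) := by
  have h1 : ∃ i, 0 < w i ∧ X i + ε / δ * Y i ≤ x + ε := by
    by_contra hcon
    push Not at hcon
    have h2 : ∀ i, w i * (x + ε) ≤ w i * (X i + ε / δ * Y i) := by
      intro i
      rcases (hw i).eq_or_lt with h | h
      · rw [← h]; simp
      · exact mul_le_mul_of_nonneg_left (hcon i h).le h.le
    obtain ⟨i0, hi0⟩ : ∃ i, 0 < w i := by
      by_contra hh
      push Not at hh
      have : ∑ i, w i ≤ 0 := Finset.sum_nonpos fun i _ => hh i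
      linarith
    have h3 : ∑ i, w i * (x + ε) < ∑ i, w i * (X i + ε / δ * Y i) :=
      Finset.sum_lt_sum (fun i _ => h2 i)
        ⟨i0, Finset.mem_univ _, mul_lt_mul_of_pos_left (hcon i0 hi0) hi0⟩
    rw [← Finset.sum_mul, hw1, one_mul] at h3
    have h4 : ∑ i, w i * (X i + ε / δ * Y i) = ∑ i, w i * X i + ε / δ * ∑ i, w i * Y i := by
      rw [Finset.mul_sum, ← Finset.sum_add_distrib]
      exact Finset.sum_congr rfl fun i _ => by ring
    rw [h4] at h3
    have h5 : ε / δ * ∑ i, w i * Y i ≤ ε / δ * δ := mul_le_mul_of_nonneg_left hY (by positivity)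
    have h6 : ε / δ * δ = ε := by field_simp
    linarith
  obtain ⟨i, hi, hi2⟩ := h1
  refine ⟨i, hi, ?_, ?_⟩
  · have : 0 ≤ ε / δ * Y i := mul_nonneg (by positivity) (hY0 i)
    linarith
  · have h2 : ε / δ * Y i ≤ x + ε + C := by linarith [hXC i]
    have h3 : Y i = δ / ε * (ε / δ * Y i) := by field_simp
    rw [h3]
    exact mul_le_mul_of_nonneg_left h2 (by positivity)

end

end Crest.Agent.R164.LSel
end

-- ▼ part R164/LSel2

/-!
Row 164 (helper436): selection of `(N, θ, K, labels)` for the lower bound.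
-/

set_option autoImplicit false

namespace Crest.Agent.R164.LSel

open Finset Filter
open Crest.Agent.R164.LabAvg

noncomputable section

variable {κ : Type*} [Fintype κ] [DecidableEq κ] {α : κ → ℝ}

/-! ### Fourth moments of the counts -/

theorem cnt_mean (hs : ∑ k, α k = 1) (k : κ) (N : ℕ) :
    Psi α (fun lab : Fin N → κ => (cnt lab k : ℝ) - N * α k) = 0 := by
  induction N with
  | zero => simp [Psi, wt, cnt]
  | succ N ih =>
    rw [Psi_succ]
    have h1 : ∀ lab : Fin N → κ, ∑ j, α j * ((cnt (Fin.snoc lab j : Fin (N + 1) → κ) k : ℝ) -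
        ((N + 1 : ℕ) : ℝ) * α k) = (cnt lab k : ℝ) - N * α k := by
      intro lab
      have h2 : ∀ j, α j * ((cnt (Fin.snoc lab j : Fin (N + 1) → κ) k : ℝ) -
          ((N + 1 : ℕ) : ℝ) * α k) = α j * ((cnt lab k : ℝ) - N * α k - α k) +
          (if j = k then α j else 0) := by
        intro j
        rw [cnt_snoc]
        push_cast
        split_ifs <;> ring
      simp only [h2]
      rw [Finset.sum_add_distrib, ← Finset.sum_mul, hs, Finset.sum_ite_eq' univ k α,
        if_pos (Finset.mem_univ _)]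
      ring
    simp only [h1]
    exact ih

theorem cnt_fourth (hα : ∀ k, 0 ≤ α k) (hs : ∑ k, α k = 1) (k : κ) (N : ℕ) :
    Psi α (fun lab : Fin N → κ => ((cnt lab k : ℝ) - N * α k) ^ 4) ≤ 4 * (N : ℝ) ^ 2 := by
  induction N with
  | zero => simp [Psi, wt, cnt]
  | succ N ih =>
    rw [Psi_succ]
    have hk1 : α k ≤ 1 := by
      rw [← hs]; exact Finset.single_le_sum (fun j _ => hα j) (Finset.mem_univ k)
    have hk0 := hα k
    -- third moment of one step
    set m3 : ℝ := ∑ j, α j * ((if j = k then (1:ℝ) else 0) - α k) ^ 3 with hm3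
    have h1 : ∀ lab : Fin N → κ, ∑ j, α j * ((cnt (Fin.snoc lab j : Fin (N + 1) → κ) k : ℝ) -
        ((N + 1 : ℕ) : ℝ) * α k) ^ 4 ≤ ((cnt lab k : ℝ) - N * α k) ^ 4 +
          6 * ((cnt lab k : ℝ) - N * α k) ^ 2 + 4 * m3 * ((cnt lab k : ℝ) - N * α k) + 1 := by
      intro lab
      have h2 : ∀ j, α j * ((cnt (Fin.snoc lab j : Fin (N + 1) → κ) k : ℝ) -
          ((N + 1 : ℕ) : ℝ) * α k) ^ 4 =
          α j * ((cnt lab k : ℝ) - N * α k) ^ 4 +
          4 * ((cnt lab k : ℝ) - N * α k) ^ 3 * (α j * ((if j = k then 1 else 0) - α k)) +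
          6 * ((cnt lab k : ℝ) - N * α k) ^ 2 *
            (α j * ((if j = k then (1:ℝ) else 0) - α k) ^ 2) +
          4 * ((cnt lab k : ℝ) - N * α k) * (α j * ((if j = k then (1:ℝ) else 0) - α k) ^ 3) +
          α j * ((if j = k then (1:ℝ) else 0) - α k) ^ 4 := by
        intro j
        rw [cnt_snoc]
        push_cast
        ring
      simp only [h2]
      rw [Finset.sum_add_distrib, Finset.sum_add_distrib, Finset.sum_add_distrib,
        Finset.sum_add_distrib, ← Finset.sum_mul, hs, one_mul,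
        ← Finset.mul_sum, ← Finset.mul_sum, ← Finset.mul_sum, ← hm3]
      have h3 : ∑ j, α j * ((if j = k then (1:ℝ) else 0) - α k) = 0 := by
        simp only [mul_sub, Finset.sum_sub_distrib, mul_ite, mul_one, mul_zero]
        rw [Finset.sum_ite_eq' univ k α, if_pos (Finset.mem_univ _), ← Finset.sum_mul, hs]
        ring
      rw [h3, mul_zero, add_zero]
      have h4 : ∑ j, α j * ((if j = k then (1:ℝ) else 0) - α k) ^ 2 ≤ ∑ j, α j := by
        refine Finset.sum_le_sum fun j _ => ?_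
        have h5 : ((if j = k then (1:ℝ) else 0) - α k) ^ 2 ≤ 1 := by
          split_ifs <;> nlinarith
        nlinarith [hα j]
      have h6 : ∑ j, α j * ((if j = k then (1:ℝ) else 0) - α k) ^ 4 ≤ ∑ j, α j := by
        refine Finset.sum_le_sum fun j _ => ?_
        have h5 : ((if j = k then (1:ℝ) else 0) - α k) ^ 2 ≤ 1 := by
          split_ifs <;> nlinarith
        have h7 : ((if j = k then (1:ℝ) else 0) - α k) ^ 4 ≤ 1 := by
          have : ((if j = k then (1:ℝ) else 0) - α k) ^ 4 =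
            (((if j = k then (1:ℝ) else 0) - α k) ^ 2) ^ 2 := by ring
          rw [this]
          exact pow_le_one₀ (sq_nonneg _) h5
        nlinarith [hα j]
      rw [hs] at h4 h6
      have h8 := mul_le_mul_of_nonneg_left h4
        (by positivity : (0:ℝ) ≤ 6 * ((cnt lab k : ℝ) - N * α k) ^ 2)
      linarith
    have h2 : ∑ lab : Fin N → κ, wt α lab * ∑ j, α j *
        ((cnt (Fin.snoc lab j : Fin (N + 1) → κ) k : ℝ) - ((N + 1 : ℕ) : ℝ) * α k) ^ 4 ≤
        Psi α (fun lab : Fin N → κ => ((cnt lab k : ℝ) - N * α k) ^ 4 +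
          6 * ((cnt lab k : ℝ) - N * α k) ^ 2 + 4 * m3 * ((cnt lab k : ℝ) - N * α k) + 1) :=
      Finset.sum_le_sum fun lab _ => mul_le_mul_of_nonneg_left (h1 lab) (wt_nonneg hα lab)
    rw [Psi_add, Psi_add, Psi_add, Psi_smul, Psi_smul, Psi_const hs, cnt_mean hs] at h2
    have h3 := cnt_var hα hs k N
    refine h2.trans ?_
    push_cast
    have hN : (0:ℝ) ≤ N := Nat.cast_nonneg _
    nlinarith

open scoped Classical in
/-- the mass of the label vectors with wrong proportions (fourth moment bound) -/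
theorem bad_mass4 (hα : ∀ k, 0 ≤ α k) (hs : ∑ k, α k = 1) {δ : ℝ} (hδ : 0 < δ) {N : ℕ}
    (hN : 0 < N) :
    Psi α (fun lab : Fin N → κ => if Good α δ lab then 0 else 1) ≤
      4 * (Fintype.card κ : ℝ) / (δ ^ 4 * (N : ℝ) ^ 2) := by
  have hN' : (0 : ℝ) < N := by exact_mod_cast hN
  have h1 : ∀ lab : Fin N → κ, (if Good α δ lab then (0:ℝ) else 1) ≤
      (δ * N)⁻¹ ^ 4 * ∑ k, ((cnt lab k : ℝ) - N * α k) ^ 4 := by
    intro lab
    have h40 : ∀ x : ℝ, 0 ≤ x ^ 4 := fun x => by positivity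
    split_ifs with h
    · exact mul_nonneg (by positivity) (Finset.sum_nonneg fun k _ => h40 _)
    · unfold Good at h
      push Not at h
      obtain ⟨k, hk⟩ := h
      have h2 : ((cnt lab k : ℝ) - N * α k) ^ 4 ≤ ∑ k, ((cnt lab k : ℝ) - N * α k) ^ 4 :=
        Finset.single_le_sum (f := fun k => ((cnt lab k : ℝ) - N * α k) ^ 4)
          (fun j _ => h40 _) (Finset.mem_univ k)
      have h3 : (δ * N) ^ 4 ≤ ((cnt lab k : ℝ) - N * α k) ^ 4 := by
        have e : ((cnt lab k : ℝ) - N * α k) ^ 4 = |(cnt lab k : ℝ) - N * α k| ^ 4 := by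
          rw [← abs_pow, abs_of_nonneg (h40 _)]
        rw [e]
        exact pow_le_pow_left₀ (by positivity) hk.le 4
      calc (1:ℝ) = (δ * N)⁻¹ ^ 4 * (δ * N) ^ 4 := by
            rw [← mul_pow, inv_mul_cancel₀ (by positivity), one_pow]
        _ ≤ _ := mul_le_mul_of_nonneg_left (h3.trans h2) (by positivity)
  refine (Psi_mono hα h1).trans ?_
  rw [Psi_smul]
  have h4 : Psi α (fun lab : Fin N → κ => ∑ k, ((cnt lab k : ℝ) - N * α k) ^ 4) ≤
      (Fintype.card κ : ℝ) * (4 * (N : ℝ) ^ 2) := by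
    have : Psi α (fun lab : Fin N → κ => ∑ k, ((cnt lab k : ℝ) - N * α k) ^ 4) =
        ∑ k, Psi α (fun lab : Fin N → κ => ((cnt lab k : ℝ) - N * α k) ^ 4) := by
      unfold Psi
      simp only [Finset.mul_sum]
      rw [Finset.sum_comm]
    rw [this]
    calc _ ≤ ∑ _k : κ, 4 * (N : ℝ) ^ 2 := Finset.sum_le_sum fun k _ => cnt_fourth hα hs k N
      _ = _ := by rw [Finset.sum_const, Finset.card_univ, nsmul_eq_mul]
  calc _ ≤ (δ * N)⁻¹ ^ 4 * ((Fintype.card κ : ℝ) * (4 * (N : ℝ) ^ 2)) :=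
        mul_le_mul_of_nonneg_left h4 (by positivity)
    _ = _ := by field_simp

/-! ### The halving argument -/


/-! ### The main selection -/

/-- averaged increment -/
def Inc (α : κ → ℝ) {N : ℕ} (F : (Fin N → κ) → ℝ) (F' : (Fin (N + 1) → κ) → ℝ)
    (lab : Fin N → κ) : ℝ :=
  ∑ k, α k * (F' (Fin.snoc lab k) - F lab)

theorem Psi_Inc (hs : ∑ k, α k = 1) {N : ℕ} (F : (Fin N → κ) → ℝ)
    (F' : (Fin (N + 1) → κ) → ℝ) : Psi α (Inc α F F') = Psi α F' - Psi α F := by
  rw [Psi_succ]
  unfold Psi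
  rw [← Finset.sum_sub_distrib]
  refine Finset.sum_congr rfl fun lab _ => ?_
  unfold Inc
  simp only [mul_sub, Finset.sum_sub_distrib]
  rw [← Finset.sum_mul, hs]; ring

variable {Θ : Type*} [Fintype Θ]

/-- the size of the averaged structure errors which is sufficient for the selection; it does not
depend on the grid. -/
def dsel (r e1 C Cq : ℝ) (I : ℕ) (δ : ℝ) : ℝ :=
  (δ / 8) * min (1 / 2) δ / (|r + 3 * e1 + Cq / I + 6 * (δ / 8)| + δ / 8 + C + 1) / 2

theorem dsel_pos (r e1 : ℝ) {C : ℝ} (Cq : ℝ) (I : ℕ) {δ : ℝ} (hC : 0 ≤ C) (hδ : 0 < δ) :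
    0 < dsel r e1 C Cq I δ := by
  unfold dsel
  have := abs_nonneg (r + 3 * e1 + Cq / I + 6 * (δ / 8))
  have h2 : 0 < min (1 / 2) δ := lt_min (by norm_num) hδ
  positivity



end

end Crest.Agent.R164.LSel
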