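import Crest.Agent.R164.LEnd
import Crest.Agent.R164.LL1
import Crest.Agent.R164.FieldGroup
import Crest.Agent.R164.LDef
import Crest.Agent.R164.CavG9
import Crest.Agent.R164.EDb
import Crest.Agent.R164.LabTr
import Crest.Agent.R164.LStruct2D
import Crest.Agent.R164.LSel2
import Crest.Agent.R164.LLimB

-- ▼ part R164/LCrit
section

/-!
Row 164, L side (helper893): from the numbers of the selected system (truncated cavity free
energies, derivatives, overlaps) to the critical structure, and to the contradiction.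
-/

set_option autoImplicit false

namespace Crest.Agent.R164.LF

open MeasureTheory Set Filter Topology
open Crest.ProbabilityR.InvariantGlass
open Crest.Agent.R164.GC Crest.Agent.R164.PAlg Crest.Agent.R164.Mag
open Crest.Agent.R164.RTrans Crest.Agent.R164.Atomic

noncomputable section


/-- chain value: `ℓ_b(h) + h_last / 2` for `h = hh + V` -/
def ch {m : ℕ} (wd h : Fin (m + 1) → ℝ) (b : ℝ) (V : Fin (m + 1) → ℝ) : ℝ :=
  fieldValueAt b wd (fun i => h i + V i) + 1 / 2 * (h (Fin.last m) + V (Fin.last m))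






end

end Crest.Agent.R164.LF
end

-- ▼ part R164/LGDef

/-!
Row 164, L side (helper893): THE INTERFACES OF THE L-SIDE GLUE (version 3), as exact Props.
Nothing is proved here; every `def ... : Prop` is the statement of a module.

Version 3: `EDIFF` has `d1` (labels good up to `d0 ≤ d1(tr)`); the auxiliary names of version 1 used
by landed files (`Wg`, `LLIMB`, `IBPM`, `Co`, `prm`, `Vd`, `Ce`, `Me`, `Err`) are back.
Changes of version 2: the constant `cc` of the weight is OUTSIDE of `cavF`; `bb` contains `el j` for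
every group (also `t j = 0`); parameters, directions and errors are helper20's (`LS2`).
-/

set_option autoImplicit false

namespace Crest.Agent.R164.LG

open Finset MeasureTheory Filter Topology Crest.Agent.R141 Crest.Agent.R164 Crest.Agent.R164.Haar
open Crest.ProbabilityR.InvariantGlass (spinVec)
open Crest.Agent.R164.LD (Prm HL EPh EO PL TO RJ MO)
open Crest.Agent.R164.ED (psi zl stP stF LS)

noncomputable section

/-- Fixed data of the L side. -/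
structure Glob where
  K : ℕ
  J : ℕ
  w : Fin (K + 1) → ℝ
  val : Fin (K + 1) → ℝ
  hv : StrictMono val
  hw : ∀ k, 0 < w k
  hs : ∑ k, w k = 1
  γ : Fin J → ℚ
  hγ : ∀ j, 0 < γ j
  hγs : ∑ j, γ j = 1
  c : Fin J → ℝ
  t : Fin J → ℝ
  ht : ∀ j, |t j| < 1
  nu : (N : ℕ) → Measure (Mat (Fin N))
  hnu : ∀ N, IsProbabilityMeasure (nu N)
  hR : ∀ N, RHaar (nu N)

namespace Glob

variable (X : Glob)

/-- label type -/
abbrev LB : Type := Fin (X.K + 1) × Fin X.J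

/-- proportions of the labels -/
def al : X.LB → ℝ := LabTr.pr X.w (fun j => ((X.γ j : ℚ) : ℝ))

variable {X}

/-- the labels of the eigenvalues -/
def kap {N : ℕ} (L : Fin N → X.LB) (i : Fin N) : Fin (X.K + 1) := (L i).1
/-- the groups -/
def lab {N : ℕ} (L : Fin N → X.LB) (i : Fin N) : Fin X.J := (L i).2

end Glob

variable (X : Glob)

/-- `d0` is small compared with the proportions -/
def Small (d0 : ℝ) : Prop := 0 < d0 ∧ ∀ x, 2 * d0 ≤ X.al x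

/-- bounds for the parameters: linear fields `≤ E`, main strengths with square sum `≤ A ^ 2`,
small strengths with square sum `≤ S` -/
structure Bd {p : Par} (E A S : ℝ) (θ : Prm p X.K X.J) : Prop where
  el : ∀ j, |θ.el j| ≤ E
  am : ∀ j, ∑ g, θ.am j g ^ 2 ≤ A ^ 2
  lm : ∀ k, ∑ g, θ.lm k g ^ 2 ≤ S

variable {p : Par} {N : ℕ}

/-- enriched free energy of the labelled system (not divided by `N`) -/
def Ph (n : ℕ) (Kp : ℝ) (θ : Prm p X.K X.J) (L : Fin N → X.LB) : ℝ :=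
  EPh (X.nu N) n X.val X.c X.t Kp θ (Glob.kap L) (Glob.lab L)

/-- Hamiltonian of the labelled system -/
def Hm (n : ℕ) (Kp : ℝ) (θ : Prm p X.K X.J) (L : Fin N → X.LB)
    (U : Mat (Fin N)) : (LD.B p N n).S → ℝ :=
  HL n X.val X.c X.t Kp θ (Glob.kap L) (Glob.lab L) U

/-- tilted law of the labelled system -/
def Pl (n : ℕ) (Kp : ℝ) (θ : Prm p X.K X.J) (L : Fin N → X.LB)
    (U : Mat (Fin N)) (d : DD p N) : G.Om (LD.B p N n) → ℝ :=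
  PL n X.val X.c X.t Kp θ (Glob.kap L) (Glob.lab L) U d

/-- average over `U`, `d` and the tilted law -/
def Eo (n : ℕ) (Kp : ℝ) (θ : Prm p X.K X.J) (L : Fin N → X.LB)
    (O : Mat (Fin N) → DD p N → G.Om (LD.B p N n) → ℝ) : ℝ :=
  EO (X.nu N) n X.val X.c X.t Kp θ (Glob.kap L) (Glob.lab L) O

/-- plain expected pressure -/
def Gp (Kp : ℝ) (L : Fin N → X.LB) : ℝ :=
  LabTr.EP (X.nu N) X.val (Glob.kap L) (Mag.PEN X.c X.t Kp (Glob.lab L))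

/-! ### GL2 (helper491): the average over the penalty strengths -/

/-- squared distance of the magnetisations, `Σ_j (r_j / N) E (m_j - t_j)²` -/
def Qd (n : ℕ) (Kp : ℝ) (θ : Prm p X.K X.J) (L : Fin N → X.LB) : ℝ :=
  ∑ j, if X.t j = 0 then 0 else (Mag.rJ (Glob.lab L) j / N) *
    Eo X n Kp θ L (fun _ _ ω => (MO n (Glob.lab L) j ω - X.t j) ^ 2)

def KAVG : Prop := ∀ E A S : ℝ, ∃ Cq : ℝ, 0 ≤ Cq ∧ ∀ (K0 : ℝ), 0 < K0 → ∀ (I : ℕ) (p : Par),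
  p.nb = 0 → ∃ Na : ℕ, ∀ (N : ℕ), Na ≤ N → ∀ n : ℕ, 0 < n → ∀ θ : Prm p X.K X.J, Bd X E A S θ →
  ∀ L : Fin N → X.LB,
  ∑ i : Fin I, (K0 * 2 ^ ((i : ℕ) + 1)) * Qd X n (K0 * 2 ^ ((i : ℕ) + 1)) θ L ≤ Cq

/-! ### GL3 (helper60): lower bound of the increment, uniform in the penalty -/

def LOWB : Prop := ∀ E A S : ℝ, ∃ C0 : ℝ, 0 ≤ C0 ∧ ∀ (d0 Kmax : ℝ), Small X d0 → ∀ (p : Par),
  p.nb = 0 → ∃ Na : ℕ, ∀ (N : ℕ), Na ≤ N → ∃ n0 : ℕ, ∀ n : ℕ, n0 ≤ n → ∀ Kp : ℝ, 0 ≤ Kp →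
  Kp ≤ Kmax → ∀ θ : Prm p X.K X.J, Bd X E A S θ → ∀ L : Fin N → X.LB, LabAvg.Good X.al d0 L →
  (∑ j, if X.t j = 0 then 0 else ((X.γ j : ℚ) : ℝ) *
    (Kp * Eo X n Kp θ L (fun _ _ ω => (MO n (Glob.lab L) j ω - X.t j) ^ 2))) - C0 ≤
    LSel.Inc X.al (Ph X n Kp θ : (Fin N → X.LB) → ℝ) (Ph X n Kp θ) L

/-- (GL3', helper60 / helper278) two-sided bound of the increment (upper bound:
`A_0[X] ≤ E^{P_{N+1}}[X]` and exchangeability); consumed by `LS2.grid_err`. -/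
def INCB : Prop := ∀ (E A S Kmax d0 : ℝ), Small X d0 → ∀ (p : Par), p.nb = 0 → ∃ (C : ℝ) (Na : ℕ),
  ∀ (N : ℕ), Na ≤ N → ∃ n0 : ℕ, ∀ n : ℕ, n0 ≤ n → ∀ Kp : ℝ, 0 ≤ Kp → Kp ≤ Kmax →
  ∀ θ : Prm p X.K X.J, Bd X E A S θ → ∀ L : Fin N → X.LB, LabAvg.Good X.al d0 L → ∀ l : X.LB,
  |Ph X n Kp θ (Fin.snoc L l : Fin (N + 1) → X.LB) - Ph X n Kp θ L| ≤ C

/-! ### GL7 (helper562): E-DIFF -/

/-- scaled application `x = N^{-1/2} U s` -/
def xn (n : ℕ) (U : Mat (Fin N)) (ω : G.Om (LD.B p N n)) (i : Fin N) : ℝ :=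
  (Real.sqrt N)⁻¹ * SY.xU (Matrix.of U) ω.1.1.1 i

/-- **the truncated cavity functional** `f^{tr}_k(a, b)` (helper562's `f_N^K`, without the additive
constant); `tr` = truncation level, `k` = eigenvalue label of the new row, `a` = main strengths of
the new site, `b` = linear field. -/
def cavF (n : ℕ) (Kp : ℝ) (θ : Prm p X.K X.J) (L : Fin N → X.LB) (tr : ℝ)
    (k : Fin (X.K + 1)) (b : ℝ) (a : Fin p.nc → ℝ) : ℝ :=
  ∫ U, Ed p N (fun d => ∫ ζ, ED.aE (stP p N n (Hm X n Kp θ L U) d) (stF p N n) p.xs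
    (fun q => psi tr (LLimB.WS X.w X.val b k (CavG.cmb (∑ g, a g * zl q.2.1 g)
      (CavG.zf (Glob.kap L) (xn n U q.1) ζ)))) ∂(CavG.gm (Fin N))) ∂(X.nu N)

/-- effective linear field of the group `j` -/
def bb (Kp : ℝ) (el mb : Fin X.J → ℝ) (j : Fin X.J) : ℝ :=
  (if X.t j = 0 then 0 else X.c j - 2 * Kp * (mb j - X.t j)) + el j

/-- effective constant of the group `j` -/
def cc (Kp : ℝ) (mb : Fin X.J → ℝ) (j : Fin X.J) : ℝ :=
  if X.t j = 0 then 0 else Kp * (mb j ^ 2 - X.t j ^ 2)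

/-- group average of the main field observable in the `(N+1)`-system with new labels `(k,j)` -/
def T1 (n : ℕ) (Kp : ℝ) (θ : Prm p X.K X.J) (L : Fin N → X.LB) (k : Fin (X.K + 1))
    (j : Fin X.J) (g : Fin p.nc) : ℝ :=
  Eo X n Kp θ (Fin.snoc L (k, j) : Fin (N + 1) → X.LB)
    (fun _ _ ω => TO n (Glob.lab (Fin.snoc L (k, j) : Fin (N + 1) → X.LB)) j g ω)

/-- group magnetisation in the `(N+1)`-system with new labels `(k,j)` -/
def M1 (n : ℕ) (Kp : ℝ) (θ : Prm p X.K X.J) (L : Fin N → X.LB) (k : Fin (X.K + 1))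
    (j : Fin X.J) : ℝ :=
  Eo X n Kp θ (Fin.snoc L (k, j) : Fin (N + 1) → X.LB)
    (fun _ _ ω => MO n (Glob.lab (Fin.snoc L (k, j) : Fin (N + 1) → X.LB)) j ω)

def EDIFF : Prop := ∀ E A Kmax : ℝ, ∃ Cd : ℝ, 0 ≤ Cd ∧ ∀ ε : ℝ, 0 < ε → ∃ tr0 : ℝ,
  ∀ tr : ℝ, tr0 ≤ tr → ∃ η d1 : ℝ, 0 < η ∧ 0 < d1 ∧ ∀ (d0 : ℝ), Small X d0 → d0 ≤ d1 →
  ∀ p : Par, p.nb = 0 → ∃ dc : ℝ, 0 < dc ∧ ∃ Na : ℕ, ∀ N : ℕ, Na ≤ N → ∃ n0 : ℕ, ∀ n : ℕ, n0 ≤ n → ∀ Kp : ℝ, 0 ≤ Kp →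
  Kp ≤ Kmax → ∀ θ : Prm p X.K X.J, Bd X E A η θ → ∀ L : Fin N → X.LB, LabAvg.Good X.al d0 L →
  ∀ mb : Fin X.J → ℝ, (∀ j, |mb j| ≤ 1) →
  (∀ j, X.t j ≠ 0 → Eo X n Kp θ L (fun _ _ ω => |MO n (Glob.lab L) j ω - mb j|) ≤ dc) →
  ∀ (k : Fin (X.K + 1)) (j : Fin X.J),
  (cc X Kp mb j + cavF X n Kp θ L tr k (bb X Kp θ.el mb j) (θ.am j) ≤
    Ph X n Kp θ (Fin.snoc L (k, j) : Fin (N + 1) → X.LB) - Ph X n Kp θ L + ε) ∧
  (∀ (g : Fin p.nc) (s : ℝ), |s| ≤ 1 →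
    |cavF X n Kp θ L tr k (bb X Kp θ.el mb j) (Function.update (θ.am j) g (θ.am j g + s)) -
      cavF X n Kp θ L tr k (bb X Kp θ.el mb j) (θ.am j) -
      s * T1 X n Kp θ L k j g| ≤ Cd * (|s| * Real.sqrt |s|) + |s| * ε) ∧
  (∀ s : ℝ, |s| ≤ 1 →
    |cavF X n Kp θ L tr k (bb X Kp θ.el mb j + s) (θ.am j) -
      cavF X n Kp θ L tr k (bb X Kp θ.el mb j) (θ.am j) -
      s * M1 X n Kp θ L k j| ≤ Cd * (|s| * Real.sqrt |s|) + |s| * ε)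

/-! ### GL8 (helper867, helper888): structure -/

/-- uniform levels -/
def mu (n' : ℕ) (b : ℕ) : ℝ := (b : ℝ) / ((n' : ℝ) + 1)

/-- spin overlap at level `l` -/
def Rs (n : ℕ) (P : G.Om (LD.B p N n) → ℝ) (l : ℕ) (ω : G.Om (LD.B p N n)) : ℝ :=
  (N : ℝ)⁻¹ * ∑ i, (cE P ((G.fil (LD.B p N n)).F l) (fun ω => sv (ω.1.1.1 i)) ω) ^ 2

/-- **structure data** of a system: `n' + 1` windows of `wc` cells, level `lv d i` in the window
`i ≤ n'`, `lv d (n'+1) = L`; path `P` (`P (n'+1) = 1`); block overlaps close to `w_k Ghat^k_i(P)`. -/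
structure StrD (n : ℕ) (Kp : ℝ) (θ : Prm p X.K X.J) (L : Fin N → X.LB) (n' wc : ℕ) (es : ℝ)
    (lv : DD p N → ℕ → ℕ) (P : ℕ → ℝ) : Prop where
  hp : p.nc = (n' + 1) * wc
  cell : ∀ d i, i ≤ n' → ∃ g t, i * wc ≤ g ∧ g < (i + 1) * wc ∧ t < p.T ∧ lv d i = p.ct g t
  top : ∀ d, lv d (n' + 1) = p.L
  step : SDAlg.StepD (n' + 1) (mu n') P
  lt1 : P 0 < 1
  Peq : ∀ i, i ≤ n' → P i = Eo X n Kp θ L (fun U d ω => Rs n (Pl X n Kp θ L U d) (lv d i) ω)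
  ov : ∀ i, i ≤ n' + 1 → ∀ k, Eo X n Kp θ L (fun U d ω =>
    |CavG.ip (Glob.kap L) k
        (CavG.cEv (Pl X n Kp θ L U d) ((G.fil (LD.B p N n)).F (lv d i)) (xn n U) ω)
        (CavG.cEv (Pl X n Kp θ L U d) ((G.fil (LD.B p N n)).F (lv d i)) (xn n U) ω) -
      X.w k * SDAlg.Ghat X.w (SDAlg.gap X.val 1) (n' + 1) (mu n') P k i|) ≤ es
  pu : ∀ i, i ≤ n' → ∫ U, Ed p N (fun d => CavG.pur (Pl X n Kp θ L U d)
    ((G.fil (LD.B p N n)).F (lv d i)) (xn n U)) ∂(X.nu N) ≤ es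

/-- structure error (helper20) -/
def Er {act : Finset (Fin p.nc)} (n : ℕ) (Kp : ℝ) (θ : LS2.Cd X.K X.J act → ℝ)
    (L : Fin N → X.LB) : ℝ :=
  LS2.Err n X.val X.c X.t Kp (Glob.kap L) (Glob.lab L) (X.nu N) (X.nu (N + 1)) θ

/-- (GL8) structure -/
def STRUCT : Prop := ∀ (E A Kmax : ℝ) (es : ℝ), 0 < es → ∃ n1 : ℕ, ∀ n' : ℕ, n1 ≤ n' →
  ∃ wc : ℕ, 0 < wc ∧ ∃ p : Par, p.nb = 0 ∧ p.nc = (n' + 1) * wc ∧ ∃ himax : ℝ, 0 < himax ∧
  ∀ (lo : ℝ), 0 < lo → lo ≤ himax → ∀ (act : Finset (Fin p.nc)), ∃ dD : ℝ, 0 < dD ∧ ∃ Na : ℕ,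
  ∀ N : ℕ, Na ≤ N → ∃ n0 : ℕ, ∀ n : ℕ, n0 ≤ n → ∀ Kp : ℝ, 0 ≤ Kp → Kp ≤ Kmax →
  ∀ θ : LS2.Cd X.K X.J act → ℝ,
  (∀ j, |(LS2.prm act θ).el j| ≤ E) → (∀ j g, |(LS2.prm act θ).am j g| ≤ A) →
  (∀ k g, lo ≤ θ (Sum.inr (Sum.inr (k, g))) ∧ θ (Sum.inr (Sum.inr (k, g))) ≤ 2 * lo) →
  ∀ L : Fin N → X.LB, LabAvg.Good X.al dD L → Er X n Kp θ L ≤ dD →
  ∃ (lv : DD p N → ℕ → ℕ) (P : ℕ → ℝ), StrD X n Kp (LS2.prm act θ) L n' wc es lv P

/-! ### GL11 (helper275): group overlaps at the label steps and the path -/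

/-- cell of the main field `q` (`q = 0, …, M-1`), `B` = distance of the active cells -/
def cellA (B q : ℕ) : ℕ := (q + 1) * B - 1

def MTAIL : Prop := ∀ (d0 : ℝ), Small X d0 → ∀ (p : Par) (N n n' wc : ℕ) (Kp : ℝ)
  (θ : Prm p X.K X.J) (L : Fin N → X.LB) (es : ℝ) (lv : DD p N → ℕ → ℕ) (P : ℕ → ℝ),
  0 < N → LabAvg.Good X.al d0 L → StrD X n Kp θ L n' wc es lv P → ∀ q r : ℕ, 0 < r → 0 < wc →
  (q + 1) * r ≤ n' →
  |∑ j, ((X.γ j : ℚ) : ℝ) * (((p.nc : ℝ) + 1)⁻¹ * ∑ g' ∈ Finset.Ico (cellA (r * wc) q) p.nc,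
        Eo X n Kp θ L (fun U d ω => RJ n (Pl X n Kp θ L U d) (Glob.lab L) j (p.mt g') ω)) -
      ((n' : ℝ) + 1)⁻¹ * ∑ i ∈ Finset.Ico ((q + 1) * r) (n' + 1), P i| ≤
    2 / ((n' : ℝ) + 1) + 2 * ((X.K : ℝ) + 1) * X.J * d0

/-! ### GL6 (helper639): the limit of the truncated cavity functional -/

/-- strengths of one site from the active ones -/
def amF (p : Par) {M : ℕ} (B : ℕ) (a : Fin M → ℝ) (g : Fin p.nc) : ℝ :=
  ∑ q : Fin M, if (g : ℕ) = cellA B q then a q else 0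

/-- fine label variances in the depth convention: `a q ^ 2` enters at the level `(q+1) r` -/
def bvf {M : ℕ} (n' r : ℕ) (a : Fin M → ℝ) (m : ℕ) : ℝ :=
  ∑ q : Fin M, if m = n' + 1 - ((q : ℕ) + 1) * r then a q ^ 2 else 0

/-- (GL6) from the system to the coarse Gaussian functional -/
def LLIMA : Prop := ∀ (M : ℕ) (A Bm ε : ℝ), 0 < ε → ∀ (tr : ℝ), 0 ≤ tr → ∃ J0 : ℕ, ∀ J : ℕ,
  J0 ≤ J → ∀ s : ℕ, J + 1 = (M + 1) * s → ∃ es : ℝ, 0 < es ∧ ∃ q0 : ℕ, ∀ q : ℕ, q0 ≤ q →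
  ∀ (n' wc : ℕ), n' + 1 = q * (J + 1) → 0 < wc → ∀ p : Par, p.nb = 0 → ∃ Na : ℕ, ∀ N : ℕ,
  Na ≤ N → ∃ n0 : ℕ, ∀ n : ℕ, n0 ≤ n → ∀ (Kp : ℝ) (θ : Prm p X.K X.J) (L : Fin N → X.LB)
  (lv : DD p N → ℕ → ℕ) (P : ℕ → ℝ), StrD X n Kp θ L n' wc es lv P →
  ∀ (k : Fin (X.K + 1)) (b : ℝ) (a : Fin M → ℝ), |b| ≤ Bm → (∀ i, 0 ≤ a i ∧ a i ≤ A) →
  |cavF X n Kp θ L tr k b (amF p (q * s * wc) a) -
    CavG.gval J (Fact.ySk J) (CavG.vC J (LLimB.Qc X.w X.val n' q P)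
      (GEx.cb J q (bvf n' (q * s) a))) (fun z => psi tr (LLimB.WS X.w X.val b k z))| ≤ ε

/-! ### Auxiliary names of version 1 (used by landed files) -/




/-- index set of the parameters -/
abbrev Co (p : Par) (M : ℕ) : Type := Fin X.J ⊕ (Fin X.J × Fin M) ⊕ (Fin (X.K + 1) × Fin p.nc)

/-- parameters of the system from a vector `θ` -/
def prm (p : Par) (M B : ℕ) (θ : Co X p M → ℝ) : Prm p X.K X.J where
  el := fun j => if X.t j = 0 then 0 else θ (Sum.inl j)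
  am := fun j => amF p B (fun q => θ (Sum.inr (Sum.inl (j, q))))
  lm := fun k g => θ (Sum.inr (Sum.inr (k, g)))






end

end Crest.Agent.R164.LG
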