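import Crest.Agent.R164.FieldGroup2
import Crest.Agent.R164.CvE
import Crest.Agent.R164.Mag1
import Crest.Agent.R164.FieldGroup
import Crest.Agent.R164.LEnd
import Crest.Agent.R164.LL1
import Crest.Agent.R164.LLimB
import Mathlib
import Crest.Agent.R164.LGDef
import Crest.Agent.R164.LIbp

-- ▼ part R164/LDeriv
section

/-!
Row 164, L side (helper275): the explicit side of contact.

For a step field `hv` and a nondecreasing nonnegative `c : Fin k → ℝ`, the function
`β ↦ fieldValueAt b w (hv + β² c) + β² c_last / 2` is convex and differentiable with derivative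
`β (c_last - Σ w_i c_i pAt_i)`; `b ↦ fieldValueAt b w hv` is convex and differentiable with
derivative `magAt`.  Also the elementary contact lemma.
-/

set_option autoImplicit false

namespace Crest.Agent.R164.LDeriv

open MeasureTheory Set Filter Topology ProbabilityTheory
open Crest.ProbabilityR.InvariantGlass
open Crest.Agent.R164.GC

noncomputable section

/-! ### contact lemma -/

/-- **Contact lemma** (one sided bounds). `g` is above its tangent with slope `D`;
`g ≤ f + dl` at `±y`, `f ≤ g + dl` at `0`, `f (±y) ≤ f 0 ± y T + e`. -/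
theorem contact {f g : ℝ → ℝ} {T D y dl e : ℝ} (hy : 0 < y)
    (hg : ∀ x, g 0 + D * x ≤ g x) (h1 : g y ≤ f y + dl) (h2 : g (-y) ≤ f (-y) + dl)
    (h0 : f 0 ≤ g 0 + dl) (f1 : f y ≤ f 0 + y * T + e) (f2 : f (-y) ≤ f 0 - y * T + e) :
    |T - D| ≤ (2 * dl + e) / y := by
  have a1 := hg y
  have a2 := hg (-y)
  rw [abs_le, neg_le, le_div_iff₀ hy, le_div_iff₀ hy]
  constructor <;> nlinarith

/-- contact lemma at a general base point -/
theorem contact_at {f g : ℝ → ℝ} {x0 T D y dl e : ℝ} (hy : 0 < y)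
    (hg : ∀ x, g x0 + D * (x - x0) ≤ g x) (h1 : g (x0 + y) ≤ f (x0 + y) + dl)
    (h2 : g (x0 - y) ≤ f (x0 - y) + dl)
    (h0 : f x0 ≤ g x0 + dl) (f1 : f (x0 + y) ≤ f x0 + y * T + e)
    (f2 : f (x0 - y) ≤ f x0 - y * T + e) :
    |T - D| ≤ (2 * dl + e) / y := by
  have := contact (f := fun x => f (x0 + x)) (g := fun x => g (x0 + x)) (T := T) (D := D)
    (y := y) (dl := dl) (e := e) hy (fun x => by
      have := hg (x0 + x)
      rw [add_sub_cancel_left] at this
      simpa using this) h1 (by simpa [sub_eq_add_neg] using h2) (by simpa using h0)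
      (by simpa using f1) (by simpa [sub_eq_add_neg] using f2)
  exact this

/-- convex differentiable functions are above their tangents -/
theorem tangent_of_convex {g : ℝ → ℝ} (hg : ConvexOn ℝ univ g) {x0 D : ℝ}
    (hd : HasDerivAt g D x0) (x : ℝ) : g x0 + D * (x - x0) ≤ g x := by
  rcases lt_trichotomy x x0 with h | h | h
  · have h1 := hg.slope_le_deriv (mem_univ x) (mem_univ x0) h hd.differentiableAt
    rw [hd.deriv, slope_def_field, div_le_iff₀ (by linarith)] at h1
    nlinarith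
  · rw [h]; simp
  · have h1 := hg.deriv_le_slope (mem_univ x0) (mem_univ x) h hd.differentiableAt
    rw [hd.deriv, slope_def_field, le_div_iff₀ (by linarith)] at h1
    nlinarith

/-! ### joint convexity of the recursion -/

/-- one Gaussian step as a functional of the integrand -/
def OP (a : ℝ) (φ : ℝ → ℝ) : ℝ :=
  if a = 0 then ∫ g, φ g ∂gaussianReal 0 1
  else a⁻¹ * Real.log (∫ g, Real.exp (a * φ g) ∂gaussianReal 0 1)

theorem gaussOp_eq_OP (a v : ℝ) (f : ℝ → ℝ) (x : ℝ) :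
    gaussOp a v f x = OP a (fun g => f (x + Real.sqrt v * g)) := rfl

/-- log-sum-exp is monotone and convex -/
theorem OP_conv {a : ℝ} (ha : 0 ≤ a) {φ0 φ1 φ : ℝ → ℝ} {t : ℝ} (ht0 : 0 ≤ t) (ht1 : t ≤ 1)
    (i0 : Integrable φ0 (gaussianReal 0 1)) (i1 : Integrable φ1 (gaussianReal 0 1))
    (i : Integrable φ (gaussianReal 0 1))
    (e0 : Integrable (fun g => Real.exp (a * φ0 g)) (gaussianReal 0 1))
    (e1 : Integrable (fun g => Real.exp (a * φ1 g)) (gaussianReal 0 1))
    (e : Integrable (fun g => Real.exp (a * φ g)) (gaussianReal 0 1))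
    (h : ∀ g, φ g ≤ (1 - t) * φ0 g + t * φ1 g) :
    OP a φ ≤ (1 - t) * OP a φ0 + t * OP a φ1 := by
  unfold OP
  rcases ha.eq_or_lt with h0 | hpos
  · rw [if_pos h0.symm, if_pos h0.symm, if_pos h0.symm, ← integral_const_mul,
      ← integral_const_mul, ← integral_add (i0.const_mul _) (i1.const_mul _)]
    exact integral_mono i ((i0.const_mul _).add (i1.const_mul _)) h
  · rw [if_neg hpos.ne', if_neg hpos.ne', if_neg hpos.ne']
    set Z0 := ∫ g, Real.exp (a * φ0 g) ∂gaussianReal 0 1 with hZ0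
    set Z1 := ∫ g, Real.exp (a * φ1 g) ∂gaussianReal 0 1 with hZ1
    have p0 : 0 < Z0 := integral_exp_pos e0
    have p1 : 0 < Z1 := integral_exp_pos e1
    have p : 0 < ∫ g, Real.exp (a * φ g) ∂gaussianReal 0 1 := integral_exp_pos e
    have key : ∀ g, Real.exp (a * φ g) ≤ Real.exp ((1 - t) * Real.log Z0 + t * Real.log Z1) *
        ((1 - t) * (Real.exp (a * φ0 g) / Z0) + t * (Real.exp (a * φ1 g) / Z1)) := by
      intro g
      have c1 : Real.exp ((1 - t) * (a * φ0 g - Real.log Z0) + t * (a * φ1 g - Real.log Z1)) ≤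
          (1 - t) * Real.exp (a * φ0 g - Real.log Z0) + t * Real.exp (a * φ1 g - Real.log Z1) := by
        have := convexOn_exp.2 (mem_univ (a * φ0 g - Real.log Z0))
          (mem_univ (a * φ1 g - Real.log Z1)) (sub_nonneg.2 ht1) ht0 (by ring)
        simpa [smul_eq_mul] using this
      rw [Real.exp_sub, Real.exp_sub, Real.exp_log p0, Real.exp_log p1] at c1
      have c2 : Real.exp (a * φ g) ≤ Real.exp ((1 - t) * Real.log Z0 + t * Real.log Z1) *
          Real.exp ((1 - t) * (a * φ0 g - Real.log Z0) + t * (a * φ1 g - Real.log Z1)) := by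
        rw [← Real.exp_add]
        refine Real.exp_le_exp.2 ?_
        have := mul_le_mul_of_nonneg_left (h g) ha
        nlinarith
      exact c2.trans (mul_le_mul_of_nonneg_left c1 (Real.exp_pos _).le)
    have hint : ∫ g, Real.exp (a * φ g) ∂gaussianReal 0 1 ≤
        Real.exp ((1 - t) * Real.log Z0 + t * Real.log Z1) := by
      have j0 := (e0.div_const Z0).const_mul (1 - t)
      have j1 := (e1.div_const Z1).const_mul t
      refine (integral_mono e ((j0.add j1).const_mul _) key).trans (le_of_eq ?_)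
      rw [integral_const_mul]
      have : ∫ g, ((1 - t) * (Real.exp (a * φ0 g) / Z0) + t * (Real.exp (a * φ1 g) / Z1))
          ∂gaussianReal 0 1 = 1 := by
        rw [integral_add j0 j1, integral_const_mul, integral_const_mul, integral_div,
          integral_div, ← hZ0, ← hZ1, div_self p0.ne', div_self p1.ne']
        ring
      show _ * (∫ g, ((1 - t) * (Real.exp (a * φ0 g) / Z0) + t * (Real.exp (a * φ1 g) / Z1))
          ∂gaussianReal 0 1) = _
      rw [this, mul_one]
    have hlog := Real.log_le_log p hint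
    rw [Real.log_exp] at hlog
    have := mul_le_mul_of_nonneg_left hlog (inv_nonneg.2 ha)
    refine this.trans (le_of_eq ?_)
    ring

/-- joint convexity -/
def JC (F : ℝ → ℝ → ℝ) : Prop :=
  ∀ β0 β1 x0 x1 t : ℝ, 0 ≤ t → t ≤ 1 →
    F ((1 - t) * β0 + t * β1) ((1 - t) * x0 + t * x1) ≤ (1 - t) * F β0 x0 + t * F β1 x1

theorem OP_int {f : ℝ → ℝ} (hf : Lip1 f) (x c : ℝ) :
    Integrable (fun g => f (x + c * g)) (gaussianReal 0 1) := (EG.lip hf).int c x

theorem OP_int_exp {f : ℝ → ℝ} (hf : Lip1 f) (a x c : ℝ) :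
    Integrable (fun g => Real.exp (a * f (x + c * g))) (gaussianReal 0 1) :=
  (EG.exp_lip hf a).int c x

/-- a Gaussian step with `β`-dependent scale keeps joint convexity -/
theorem JC.step {a : ℝ} (ha : 0 ≤ a) {F : ℝ → ℝ → ℝ} (hF : JC F) (hl : ∀ β, Lip1 (F β))
    (s r : ℝ) : JC (fun β x => OP a (fun g => F β (x + (s + r * β) * g))) := by
  intro β0 β1 x0 x1 t ht0 ht1
  refine OP_conv ha ht0 ht1 (OP_int (hl _) _ _) (OP_int (hl _) _ _) (OP_int (hl _) _ _)
    (OP_int_exp (hl _) _ _ _) (OP_int_exp (hl _) _ _ _) (OP_int_exp (hl _) _ _ _) fun g => ?_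
  have := hF β0 β1 (x0 + (s + r * β0) * g) (x1 + (s + r * β1) * g) t ht0 ht1
  refine le_trans (le_of_eq ?_) this
  congr 1
  ring

theorem OP_neg (a : ℝ) (φ : ℝ → ℝ) : OP a (fun g => φ (-g)) = OP a φ := by
  unfold OP
  split_ifs
  · exact Mag.gauss_neg φ
  · rw [Mag.gauss_neg (fun g => Real.exp (a * φ g))]

theorem OP_sqrt (a c β : ℝ) (hc : 0 ≤ c) (f : ℝ → ℝ) (x : ℝ) :
    gaussOp a (c * β ^ 2) f x = OP a (fun g => f (x + (0 + Real.sqrt c * β) * g)) := by
  rw [gaussOp_eq_OP, Real.sqrt_mul hc, Real.sqrt_sq_eq_abs, zero_add]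
  rcases abs_cases β with ⟨h, _⟩ | ⟨h, _⟩
  · rw [h]
  · rw [h, ← OP_neg a (fun g => f (x + (Real.sqrt c * β) * g))]
    congr 1
    funext g
    ring_nf

/-- the moved list: `(v, w, c)` becomes `(v + c β², w)` -/
def bq (β : ℝ) (q : ℝ × ℝ × ℝ) : ℝ × ℝ := (q.1 + q.2.2 * β ^ 2, q.2.1)

theorem cls_chain : ∀ (L : List (ℝ × ℝ)) (a : ℝ), Adm a L → ∃ C, Cv.Cls C (chain a L)
  | [], _, _ => ⟨2, Cv.cls_lc⟩
  | (v, w) :: L, a, h => by
      obtain ⟨C, hC⟩ := cls_chain L (a + w) h.2.2.2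
      exact ⟨C + 8, hC.gop h.1 h.le_one v⟩

theorem adm_bq : ∀ (L : List (ℝ × ℝ × ℝ)) (a : ℝ), Adm a (L.map pr) → (∀ q ∈ L, 0 ≤ q.2.2) →
    ∀ β, Adm a (L.map (bq β))
  | [], _, h, _, _ => h
  | (v, w, c) :: L, a, h, h1, β => by
      refine ⟨h.1, ?_, h.2.2.1, adm_bq L (a + w) h.2.2.2
        (fun q hq => h1 q (List.mem_cons_of_mem _ hq)) β⟩
      have h2 : 0 ≤ c := h1 (v, w, c) List.mem_cons_self
      have h3 : 0 ≤ v := h.2.1
      show 0 ≤ v + c * β ^ 2
      positivity

/-- **joint convexity of the recursion in the starting point and in `β`** -/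
theorem chain_JC : ∀ (L : List (ℝ × ℝ × ℝ)) (a : ℝ), Adm a (L.map pr) → (∀ q ∈ L, 0 ≤ q.2.2) →
    JC (fun β => chain a (L.map (bq β)))
  | [], _, _, _ => by
      intro β0 β1 x0 x1 t ht0 ht1
      have := Cv.cls_lc.convexOn.2 (mem_univ x0) (mem_univ x1) (sub_nonneg.2 ht1) ht0 (by ring)
      rw [smul_eq_mul, smul_eq_mul, smul_eq_mul, smul_eq_mul] at this
      exact this
  | (v, w, c) :: L, a, h, h1 => by
      have h1' : ∀ q ∈ L, 0 ≤ q.2.2 := fun q hq => h1 q (List.mem_cons_of_mem _ hq)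
      have ih := chain_JC L (a + w) h.2.2.2 h1'
      have hc : 0 ≤ c := h1 (v, w, c) List.mem_cons_self
      have hv : 0 ≤ v := h.2.1
      have hl : ∀ β, Lip1 (chain (a + w) (L.map (bq β))) := fun β =>
        (chain_sm _ _ (adm_bq L (a + w) h.2.2.2 h1' β)).lip
      have s1 := ih.step h.1 hl 0 (Real.sqrt c)
      have e1 : (fun β x => OP a (fun g => chain (a + w) (L.map (bq β))
          (x + (0 + Real.sqrt c * β) * g))) =
          fun β => gaussOp a (c * β ^ 2) (chain (a + w) (L.map (bq β))) := by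
        funext β x
        exact (OP_sqrt a c β hc _ x).symm
      rw [e1] at s1
      have hl2 : ∀ β, Lip1 (gaussOp a (c * β ^ 2) (chain (a + w) (L.map (bq β)))) := fun β => by
        have hA := adm_bq L (a + w) h.2.2.2 h1' β
        exact (gaussOp_sm (chain_sm _ _ hA) h.1 h.le_one (c * β ^ 2)).lip
      have s2 := s1.step h.1 hl2 (Real.sqrt v) 0
      have e2 : (fun β x => OP a (fun g => gaussOp a (c * β ^ 2) (chain (a + w) (L.map (bq β)))
          (x + (Real.sqrt v + 0 * β) * g))) =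
          fun β => chain a (((v, w, c) :: L).map (bq β)) := by
        funext β x
        obtain ⟨C, hC⟩ := cls_chain _ _ (adm_bq L (a + w) h.2.2.2 h1' β)
        show _ = gaussOp a (v + c * β ^ 2) (chain (a + w) (L.map (bq β))) x
        rw [Cv.gaussOp_add hC h.1 h.le_one hv (mul_nonneg hc (sq_nonneg β)), gaussOp_eq_OP,
          zero_mul, add_zero]
      rw [e2] at s2
      exact s2

/-! ### the field value along a segment of step fields -/

theorem PG_SL {k : ℕ} {w hv : Fin k → ℝ} (h : IsStepField w hv) (b : ℝ) (hv' : Fin k → ℝ) :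
    PG 0 (inc 0 (toL w hv)) (SL 0 (toL w hv')) b = ∑ i, w i * (pAt b w hv i * hv' i) := by
  have hSLi : IntegrableOn (SL 0 (toL w hv')) (Ioo 0 1) := by
    have h1 := (SL_int (toL w hv') 0 0 1)
    rwa [intervalIntegrable_iff_integrableOn_Ioo_of_le zero_le_one] at h1
  rw [← integral_pathP h b hSLi, ← integral_pathP_stepFn h b hv']
  refine setIntegral_congr_fun measurableSet_Ioo fun u hu => ?_
  show pathP b w hv u * _ = pathP b w hv u * stepFn w hv' u
  rw [stepFn_eq_SL h.2.1 hv' hu.1]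

/-- **right derivative along a segment** -/
theorem path_right {k : ℕ} {w h0 h1 : Fin k → ℝ} (H0 : IsStepField w h0) (H1 : IsStepField w h1)
    (b : ℝ) {t : ℕ → ℝ} (ht : ∀ n, 0 < t n ∧ t n ≤ 1) (ht0 : Tendsto t atTop (𝓝 0)) :
    Tendsto (fun n => (fieldValueAt b w (fun i => (1 - t n) * h0 i + t n * h1 i) -
      fieldValueAt b w h0) / t n) atTop
      (𝓝 (-(1 / 2) * ∑ i, w i * (pAt b w h0 i * (h1 i - h0 i)))) := by
  set M : List (ℝ × ℝ × ℝ) := List.ofFn (fun i => (w i, h0 i, h1 i)) with hM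
  have L0 : toL w h0 = M.map p1 := by
    unfold toL; rw [hM, List.map_ofFn]; rfl
  have L1 : toL w h1 = M.map p2 := by
    unfold toL; rw [hM, List.map_ofFn]; rfl
  have Lt : ∀ t : ℝ, toL w (fun i => (1 - t) * h0 i + t * h1 i) = M.map (ipl t) := fun t => by
    unfold toL; rw [hM, List.map_ofFn]; rfl
  have hMpos : ∀ q ∈ M, 0 < q.1 := by
    intro q hq
    rw [hM, List.mem_ofFn] at hq
    obtain ⟨i, rfl⟩ := hq
    exact H0.2.1 i
  have hP : PosW (M.map p1) := by rw [← L0]; exact posW_toL H0.2.1 h0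
  have hm1 : Mono 0 (M.map p1) := by
    rw [← L0]; exact mono_toL k 0 w h0 H0.2.2.2.2 H0.2.2.2.1
  have hm2 : Mono 0 (M.map p2) := by
    rw [← L1]; exact mono_toL k 0 w h1 H1.2.2.2.2 H1.2.2.2.1
  have hs1 : sumw (M.map p1) = 1 := by rw [← L0, sumw_toL, H0.2.2.1]
  set T := tri 0 0 M with hT
  have hTA : Adm 0 (T.map pr) := by
    rw [hT, tri_pr]
    exact adm_inc _ 0 0 le_rfl hP hm1 (by rw [hs1, zero_add])
  obtain ⟨_, hcc⟩ := chain_path T 0 hTA (tri_nonneg M 0 0 hm2)
  have hval : ∀ t : ℝ, fieldValueAt b w (fun i => (1 - t) * h0 i + t * h1 i) =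
      chain 0 (T.map (sh t)) b - ((1 - t) * lastV 0 (M.map p1) + t * lastV 0 (M.map p2)) / 2 := by
    intro t
    have e1 := inc_ipl t M 0 0
    have e2 := lastV_ipl t M 0 0
    rw [mul_zero, mul_zero, add_zero] at e1 e2
    rw [fieldValueAt_eq, Lt]
    unfold fvL
    rw [e1, e2]
  have hv0 : fieldValueAt b w h0 = chain 0 (T.map (sh 0)) b - lastV 0 (M.map p1) / 2 := by
    have h2 := hval 0
    have e : (fun i => (1 - 0) * h0 i + 0 * h1 i) = h0 := by
      funext i
      ring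
    rw [e] at h2
    rw [h2]
    ring
  have hlim := hcc t (fun _ => b) b ht ht0 tendsto_const_nhds
  have hd : dsum T = lastV 0 (M.map p2) - lastV 0 (M.map p1) := by
    rw [hT, dsum_tri]
    ring
  have hWQ : WQ 0 T 0 b = (∑ i, w i * (pAt b w h0 i * h1 i)) -
      ∑ i, w i * (pAt b w h0 i * h0 i) := by
    have e1 := WQ_tri M 0 0 0 hMpos
    rw [sub_zero] at e1
    have hAm : Adm 0 (inc 0 (M.map p1)) := by
      rw [← tri_pr M 0 0]
      exact hTA
    rw [hT, e1, PG_sub (fun a b => SL_int _ _ a b) (fun a b => SL_int _ _ a b) _ _ _ hAm,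
      ← L0, ← L1, PG_SL H0, PG_SL H0]
  have h3 := hlim.sub_const ((lastV 0 (M.map p2) - lastV 0 (M.map p1)) / 2)
  have e : 1 / 2 * dsum T - 1 / 2 * WQ 0 T 0 b - (lastV 0 (M.map p2) - lastV 0 (M.map p1)) / 2 =
      -(1 / 2) * ∑ i, w i * (pAt b w h0 i * (h1 i - h0 i)) := by
    rw [hd, hWQ, ← Finset.sum_sub_distrib]
    have : ∀ i, w i * (pAt b w h0 i * h1 i) - w i * (pAt b w h0 i * h0 i) =
        w i * (pAt b w h0 i * (h1 i - h0 i)) := fun i => by ring
    simp only [this]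
    ring
  rw [e] at h3
  refine h3.congr fun n => ?_
  have hn := (ht n).1.ne'
  rw [hval (t n), hv0]
  field_simp
  ring

/-- right derivative along a segment, as a limit at `0+` -/
theorem path_right' {k : ℕ} {w h0 h1 : Fin k → ℝ} (H0 : IsStepField w h0)
    (H1 : IsStepField w h1) (b : ℝ) :
    Tendsto (fun t => (fieldValueAt b w (fun i => (1 - t) * h0 i + t * h1 i) -
      fieldValueAt b w h0) / t) (𝓝[>] 0)
      (𝓝 (-(1 / 2) * ∑ i, w i * (pAt b w h0 i * (h1 i - h0 i)))) := by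
  refine tendsto_of_seq_tendsto fun x hx => ?_
  set t : ℕ → ℝ := fun n => if 0 < x n ∧ x n ≤ 1 then x n else 1 / ((n : ℝ) + 1) with ht
  have hev : ∀ᶠ n in atTop, 0 < x n ∧ x n ≤ 1 := by
    have h1 : ∀ᶠ y in 𝓝[>] (0 : ℝ), 0 < y ∧ y ≤ 1 := by
      have : Ioc (0 : ℝ) 1 ∈ 𝓝[>] (0 : ℝ) := Ioc_mem_nhdsGT one_pos
      exact this
    exact hx.eventually h1
  have hxt : x =ᶠ[atTop] t := by
    filter_upwards [hev] with n hn
    rw [ht]
    simp only
    rw [if_pos hn]
  have hpos : ∀ n, 0 < t n ∧ t n ≤ 1 := by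
    intro n
    rw [ht]
    simp only
    split_ifs with h
    · exact h
    · constructor
      · positivity
      · rw [div_le_one (by positivity)]
        have : (0 : ℝ) ≤ n := Nat.cast_nonneg n
        linarith
  have ht0 : Tendsto t atTop (𝓝 0) := (hx.mono_right nhdsWithin_le_nhds).congr' hxt
  refine (path_right H0 H1 b hpos ht0).congr' ?_
  filter_upwards [hxt] with n hn
  show _ = (fieldValueAt b w (fun i => (1 - x n) * h0 i + x n * h1 i) -
      fieldValueAt b w h0) / x n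
  rw [hn]

/-! ### adding `v c` to the field -/

section add

variable {k : ℕ} {w hv c : Fin k → ℝ}

/-- the moved field -/
def hC (hv c : Fin k → ℝ) (v : ℝ) (i : Fin k) : ℝ := hv i + v * c i

theorem hC_step (h : IsStepField w hv) (hc : Monotone c) (hc0 : ∀ i, 0 ≤ c i) {v : ℝ}
    (hv0 : 0 ≤ v) : IsStepField w (hC hv c v) := by
  refine ⟨h.1, h.2.1, h.2.2.1, ?_, fun i => ?_⟩
  · intro i j hij
    exact add_le_add (h.2.2.2.1 hij) (mul_le_mul_of_nonneg_left (hc hij) hv0)
  · exact add_nonneg (h.2.2.2.2 i) (mul_nonneg hv0 (hc0 i))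

/-- derivative in the variance `v`, from the right at `v = 0` -/
theorem hasDeriv_v (h : IsStepField w hv) (hc : Monotone c) (hc0 : ∀ i, 0 ≤ c i) (b : ℝ) {v : ℝ}
    (hv0 : 0 ≤ v) : HasDerivWithinAt (fun v => fieldValueAt b w (hC hv c v))
      (-(1 / 2) * ∑ i, w i * (pAt b w (hC hv c v) i * c i)) (Ici 0) v := by
  have H0 := hC_step h hc hc0 hv0
  -- right derivative
  have hR : HasDerivWithinAt (fun v => fieldValueAt b w (hC hv c v))
      (-(1 / 2) * ∑ i, w i * (pAt b w (hC hv c v) i * c i)) (Ici v) v := by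
    rw [← hasDerivWithinAt_Ioi_iff_Ici, hasDerivWithinAt_iff_tendsto_slope' (by simp)]
    have H1 := hC_step h hc hc0 (v := v + 1) (by linarith)
    have hp := path_right' H0 H1 b
    have e1 : ∀ i, hC hv c (v + 1) i - hC hv c v i = c i := fun i => by unfold hC; ring
    simp only [e1] at hp
    have hm : Tendsto (fun x : ℝ => x - v) (𝓝[>] v) (𝓝[>] 0) := by
      refine tendsto_nhdsWithin_of_tendsto_nhds_of_eventually_within _ ?_ ?_
      · have : Tendsto (fun x : ℝ => x - v) (𝓝 v) (𝓝 (v - v)) :=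
          (continuous_id.sub continuous_const).tendsto v
        rw [sub_self] at this
        exact this.mono_left nhdsWithin_le_nhds
      · filter_upwards [self_mem_nhdsWithin] with x hx
        exact sub_pos.2 (show v < x from hx)
    refine (hp.comp hm).congr fun x => ?_
    show _ = slope (fun v => fieldValueAt b w (hC hv c v)) v x
    rw [slope_def_field]
    show (fieldValueAt b w (fun i => (1 - (x - v)) * hC hv c v i + (x - v) * hC hv c (v + 1) i) -
      _) / (x - v) = _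
    congr 3
    funext i
    unfold hC
    ring
  rcases hv0.eq_or_lt with h0 | hpos
  · rw [← h0] at hR ⊢
    exact hR
  -- left derivative
  have hL : HasDerivWithinAt (fun v => fieldValueAt b w (hC hv c v))
      (-(1 / 2) * ∑ i, w i * (pAt b w (hC hv c v) i * c i)) (Iic v) v := by
    rw [← hasDerivWithinAt_Iio_iff_Iic, hasDerivWithinAt_iff_tendsto_slope' (by simp)]
    have H1 := hC_step h hc hc0 (v := 0) le_rfl
    have hp := path_right' H0 H1 b
    have e1 : ∀ i, hC hv c 0 i - hC hv c v i = -(v * c i) := fun i => by unfold hC; ring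
    simp only [e1] at hp
    have hm : Tendsto (fun x : ℝ => (v - x) / v) (𝓝[<] v) (𝓝[>] 0) := by
      refine tendsto_nhdsWithin_of_tendsto_nhds_of_eventually_within _ ?_ ?_
      · have : Tendsto (fun x : ℝ => (v - x) / v) (𝓝 v) (𝓝 ((v - v) / v)) :=
          ((continuous_const.sub continuous_id).div_const v).tendsto v
        rw [sub_self, zero_div] at this
        exact this.mono_left nhdsWithin_le_nhds
      · filter_upwards [self_mem_nhdsWithin] with x hx
        exact div_pos (sub_pos.2 (show x < v from hx)) hpos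
    have h5 := (hp.comp hm).const_mul (-(1 / v))
    have e2 : -(1 / v) * (-(1 / 2) * ∑ i, w i * (pAt b w (hC hv c v) i * -(v * c i))) =
        -(1 / 2) * ∑ i, w i * (pAt b w (hC hv c v) i * c i) := by
      have e3 : ∀ i, w i * (pAt b w (hC hv c v) i * -(v * c i)) =
          (-v) * (w i * (pAt b w (hC hv c v) i * c i)) := fun i => by ring
      simp only [e3]
      rw [← Finset.mul_sum]
      field_simp
    rw [e2] at h5
    refine h5.congr' ?_
    filter_upwards [self_mem_nhdsWithin] with x hx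
    have hx : x < v := hx
    show _ = slope (fun v => fieldValueAt b w (hC hv c v)) v x
    rw [slope_def_field]
    show -(1 / v) * ((fieldValueAt b w (fun i => (1 - (v - x) / v) * hC hv c v i +
      (v - x) / v * hC hv c 0 i) - _) / ((v - x) / v)) = _
    have e4 : (fun i => (1 - (v - x) / v) * hC hv c v i + (v - x) / v * hC hv c 0 i) =
        hC hv c x := by
      funext i
      unfold hC
      field_simp
      ring
    rw [e4]
    have hxv : x - v ≠ 0 := by linarith
    have hxv' : v - x ≠ 0 := by linarith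
    field_simp
    ring
  have hU : HasDerivWithinAt (fun v => fieldValueAt b w (hC hv c v))
      (-(1 / 2) * ∑ i, w i * (pAt b w (hC hv c v) i * c i)) (Iic v ∪ Ici v) v := hL.union hR
  exact hU.mono (by rw [Iic_union_Ici]; exact subset_univ _)

theorem incr_hC (hv c : Fin k → ℝ) (v : ℝ) (i : Fin k) :
    incr 0 (hC hv c v) i = incr 0 hv i + incr 0 c i * v := by
  unfold incr hC
  have e : ∑ l : Fin k, (if l.val + 1 = i.val then hv l + v * c l else 0) =
      (∑ l : Fin k, if l.val + 1 = i.val then hv l else 0) +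
      v * ∑ l : Fin k, if l.val + 1 = i.val then c l else 0 := by
    rw [Finset.mul_sum, ← Finset.sum_add_distrib]
    refine Finset.sum_congr rfl fun l _ => ?_
    split_ifs <;> ring
  rw [e]
  split_ifs <;> ring

theorem adm_mem_nonneg : ∀ (L : List (ℝ × ℝ)) (a : ℝ), Adm a L → ∀ q ∈ L, 0 ≤ q.1
  | [], _, _, q, hq => by simp at hq
  | (v, w) :: L, a, h, q, hq => by
      rcases List.mem_cons.1 hq with rfl | hq
      · exact h.2.1
      · exact adm_mem_nonneg L (a + w) h.2.2.2 q hq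

theorem incr_nonneg (hw : ∀ i, 0 < w i) (hs : ∑ i, w i = 1) (hc : Monotone c)
    (hc0 : ∀ i, 0 ≤ c i) (i : Fin k) : 0 ≤ incr 0 c i := by
  have hk : 0 < k := lt_of_le_of_lt (Nat.zero_le _) i.2
  have h : IsStepField w c := ⟨hk, hw, hs, hc, hc0⟩
  have hA := adm_of_step h
  rw [inc_toL] at hA
  refine adm_mem_nonneg _ _ hA (incr 0 c i, w i) ?_
  rw [List.mem_ofFn]
  exact ⟨i, rfl⟩

/-- the list of the triples `(v, w, c)` -/
def triL (w hv c : Fin k → ℝ) : List (ℝ × ℝ × ℝ) :=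
  List.ofFn (fun i => (incr 0 hv i, w i, incr 0 c i))

theorem inc_hC (w hv c : Fin k → ℝ) (β : ℝ) :
    inc 0 (toL w (hC hv c (β ^ 2))) = (triL w hv c).map (bq β) := by
  rw [inc_toL]
  unfold triL
  rw [List.map_ofFn]
  congr 1
  funext i
  rw [incr_hC]
  rfl

theorem triL_pr (w hv c : Fin k → ℝ) : (triL w hv c).map pr = inc 0 (toL w hv) := by
  rw [inc_toL]
  unfold triL
  rw [List.map_ofFn]
  rfl

theorem lastV_hC (w hv c : Fin k → ℝ) (v : ℝ) :
    lastV 0 (toL w (hC hv c v)) = lastV 0 (toL w hv) + v * lastV 0 (toL w c) := by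
  rw [lastV_toL, lastV_toL, lastV_toL]
  unfold hC
  have e0 : (if k = 0 then (0 : ℝ) else 0) = 0 := by split_ifs <;> rfl
  have e : ∑ l : Fin k, (if l.val + 1 = k then hv l + v * c l else 0) =
      (∑ l : Fin k, if l.val + 1 = k then hv l else 0) +
      v * ∑ l : Fin k, if l.val + 1 = k then c l else 0 := by
    rw [Finset.mul_sum, ← Finset.sum_add_distrib]
    refine Finset.sum_congr rfl fun l _ => ?_
    split_ifs <;> ring
  rw [e, e0]
  ring

theorem value_hC (b : ℝ) (w hv c : Fin k → ℝ) (β : ℝ) :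
    fieldValueAt b w (hC hv c (β ^ 2)) + β ^ 2 * lastV 0 (toL w c) / 2 =
      chain 0 ((triL w hv c).map (bq β)) b - lastV 0 (toL w hv) / 2 := by
  rw [fieldValueAt_eq]
  unfold fvL
  rw [inc_hC, lastV_hC]
  ring

/-- joint convexity of the value in `(b, β)` -/
theorem value_JC (h : IsStepField w hv) (hc : Monotone c) (hc0 : ∀ i, 0 ≤ c i) :
    JC (fun β b => fieldValueAt b w (hC hv c (β ^ 2)) + β ^ 2 * lastV 0 (toL w c) / 2) := by
  have hJ := chain_JC (triL w hv c) 0 (by rw [triL_pr]; exact adm_of_step h) (by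
    intro q hq
    unfold triL at hq
    rw [List.mem_ofFn] at hq
    obtain ⟨i, rfl⟩ := hq
    exact incr_nonneg h.2.1 h.2.2.1 hc hc0 i)
  intro β0 β1 b0 b1 t ht0 ht1
  simp only [value_hC]
  have := hJ β0 β1 b0 b1 t ht0 ht1
  simp only at this
  nlinarith

end add

/-! ### final form for `Fin (m + 1)` -/

section fin

variable {m : ℕ} {w hv c : Fin (m + 1) → ℝ}

theorem lastV_last (w c : Fin (m + 1) → ℝ) : lastV 0 (toL w c) = c (Fin.last m) := by
  rw [lastV_toL, if_neg (by omega), zero_add, Finset.sum_eq_single (Fin.last m)]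
  · rw [if_pos (by simp)]
  · intro l _ hl
    refine if_neg fun hc => hl ?_
    apply Fin.ext
    rw [Fin.val_last]
    omega
  · intro hn
    exact absurd (Finset.mem_univ _) hn

/-- the explicit functional of contact -/
def Gc (w hv c : Fin (m + 1) → ℝ) (b β : ℝ) : ℝ :=
  fieldValueAt b w (fun i => hv i + β ^ 2 * c i) + β ^ 2 * c (Fin.last m) / 2

theorem Gc_eq (w hv c : Fin (m + 1) → ℝ) (b β : ℝ) :
    Gc w hv c b β = fieldValueAt b w (hC hv c (β ^ 2)) + β ^ 2 * lastV 0 (toL w c) / 2 := by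
  rw [lastV_last]
  rfl

theorem Gc_JC (h : IsStepField w hv) (hc : Monotone c) (hc0 : ∀ i, 0 ≤ c i) :
    JC (fun β b => Gc w hv c b β) := by
  have := value_JC h hc hc0
  simp only [Gc_eq]
  exact this

/-- **convexity in `β`** -/
theorem Gc_convex_beta (h : IsStepField w hv) (hc : Monotone c) (hc0 : ∀ i, 0 ≤ c i) (b : ℝ) :
    ConvexOn ℝ univ (Gc w hv c b) := by
  refine ⟨convex_univ, fun x _ y _ s t hs ht hst => ?_⟩
  have hs' : s = 1 - t := by linarith
  subst hs'
  have := Gc_JC h hc hc0 x y b b t ht (by linarith)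
  simp only at this
  rw [show (1 - t) * b + t * b = b by ring] at this
  simpa [smul_eq_mul] using this


/-- **derivative in `β`** -/
theorem Gc_deriv_beta (h : IsStepField w hv) (hc : Monotone c) (hc0 : ∀ i, 0 ≤ c i) (b β : ℝ) :
    HasDerivAt (Gc w hv c b) (β * (c (Fin.last m) -
      ∑ i, w i * (pAt b w (fun i => hv i + β ^ 2 * c i) i * c i))) β := by
  have h1 := hasDeriv_v h hc hc0 b (sq_nonneg β)
  have h2 : HasDerivAt (fun β : ℝ => β ^ 2) (2 * β) β := by
    have := hasDerivAt_pow 2 β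
    simpa using this
  have h3 : HasDerivAt (fun β : ℝ => fieldValueAt b w (hC hv c (β ^ 2)))
      ((-(1 / 2) * ∑ i, w i * (pAt b w (hC hv c (β ^ 2)) i * c i)) * (2 * β)) β :=
    HasDerivWithinAt.comp_hasDerivAt (h₂ := fun v => fieldValueAt b w (hC hv c v))
      (h := fun β : ℝ => β ^ 2) β h1 h2 (Eventually.of_forall fun x => sq_nonneg x)
  have h4 := h3.add ((h2.mul_const (c (Fin.last m))).div_const 2)
  refine h4.congr_deriv ?_
  show (-(1 / 2) * ∑ i, w i * (pAt b w (fun i => hv i + β ^ 2 * c i) i * c i)) * (2 * β) + _ = _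
  ring


/-- tangent inequality in `β` -/
theorem Gc_tangent_beta (h : IsStepField w hv) (hc : Monotone c) (hc0 : ∀ i, 0 ≤ c i)
    (b β x : ℝ) : Gc w hv c b β + β * (c (Fin.last m) -
      ∑ i, w i * (pAt b w (fun i => hv i + β ^ 2 * c i) i * c i)) * (x - β) ≤ Gc w hv c b x :=
  tangent_of_convex (Gc_convex_beta h hc hc0 b) (Gc_deriv_beta h hc hc0 b β) x


end fin

/-! ### contact for the explicit functional -/

section cont

variable {m : ℕ} {w hv : Fin (m + 1) → ℝ}

/-- indicator of the levels `≥ iq` -/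
def ind (iq : Fin (m + 1)) (i : Fin (m + 1)) : ℝ := if iq ≤ i then 1 else 0

theorem ind_mono (iq : Fin (m + 1)) : Monotone (ind iq) := by
  intro i j hij
  unfold ind
  split_ifs with h1 h2
  · exact le_rfl
  · exact absurd (h1.trans hij) h2
  · exact zero_le_one
  · exact le_rfl

theorem ind_nonneg (iq i : Fin (m + 1)) : 0 ≤ ind iq i := by
  unfold ind
  split_ifs
  · exact zero_le_one
  · exact le_rfl

theorem ind_last (iq : Fin (m + 1)) : ind iq (Fin.last m) = 1 := if_pos (Fin.le_last iq)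

/-- **contact in `β`** at the active level `iq`: `f` is the (limiting) increment as a function of
the strength of the new site at `iq`, `T` its derivative at `β0`. -/
theorem contact_beta (h : IsStepField w hv) (iq : Fin (m + 1)) (b β0 : ℝ) {f : ℝ → ℝ}
    {C0 T y dl e : ℝ} (hy : 0 < y)
    (h1 : C0 + Gc w hv (ind iq) b (β0 + y) ≤ f (β0 + y) + dl)
    (h2 : C0 + Gc w hv (ind iq) b (β0 - y) ≤ f (β0 - y) + dl)
    (h0 : f β0 ≤ C0 + Gc w hv (ind iq) b β0 + dl)
    (f1 : f (β0 + y) ≤ f β0 + y * T + e) (f2 : f (β0 - y) ≤ f β0 - y * T + e) :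
    |T - β0 * (1 - ∑ i, if iq ≤ i then
      w i * pAt b w (fun i => hv i + β0 ^ 2 * ind iq i) i else 0)| ≤ (2 * dl + e) / y := by
  have hD : β0 * (ind iq (Fin.last m) -
      ∑ i, w i * (pAt b w (fun i => hv i + β0 ^ 2 * ind iq i) i * ind iq i)) =
      β0 * (1 - ∑ i, if iq ≤ i then
        w i * pAt b w (fun i => hv i + β0 ^ 2 * ind iq i) i else 0) := by
    rw [ind_last]
    congr 2
    refine Finset.sum_congr rfl fun i _ => ?_
    conv_lhs => rw [ind]
    split_ifs <;> ring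
  rw [← hD]
  refine contact_at (g := fun x => C0 + Gc w hv (ind iq) b x) hy (fun x => ?_) h1 h2 h0 f1 f2
  have := Gc_tangent_beta h (ind_mono iq) (ind_nonneg iq) b β0 x
  linarith

/-- **contact in `b`** (for any fixed moved field): `T` the derivative of `f` at `b0`. -/
theorem contact_b (h : IsStepField w hv) (b0 : ℝ) {f : ℝ → ℝ} {C0 T y dl e : ℝ} (hy : 0 < y)
    (h1 : C0 + fieldValueAt (b0 + y) w hv ≤ f (b0 + y) + dl)
    (h2 : C0 + fieldValueAt (b0 - y) w hv ≤ f (b0 - y) + dl)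
    (h0 : f b0 ≤ C0 + fieldValueAt b0 w hv + dl)
    (f1 : f (b0 + y) ≤ f b0 + y * T + e) (f2 : f (b0 - y) ≤ f b0 - y * T + e) :
    |T - magAt b0 w hv| ≤ (2 * dl + e) / y := by
  refine contact_at (g := fun x => C0 + fieldValueAt x w hv) hy (fun x => ?_) h1 h2 h0 f1 f2
  have := fieldValueAt_tangent h b0 x
  show C0 + _ + _ ≤ _
  linarith

end cont

end

end Crest.Agent.R164.LDeriv
end

-- ▼ part R164/LDeriv2
section

/-!
Row 164, L side (helper275): (TB), (M0), (M1) of helper893.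

(TB): tangent inequality in one main-field strength, in terms of the full field `hv`.
(M0): `magAt 0 = 0`.  (M1): Lipschitz in `b`.
-/

set_option autoImplicit false

namespace Crest.Agent.R164.LDeriv

open MeasureTheory Set Filter Topology ProbabilityTheory
open Crest.ProbabilityR.InvariantGlass
open Crest.Agent.R164.GC

noncomputable section

section gen

variable {k : ℕ} {w hv : Fin k → ℝ}













/-- **(M1)** `fieldValueAt` is 1-Lipschitz in `b` -/
theorem fieldValueAt_lip (h : IsStepField w hv) (b b' : ℝ) :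
    |fieldValueAt b w hv - fieldValueAt b' w hv| ≤ |b - b'| := by
  have hl := (chain_sm _ _ (adm_of_step h)).lip
  rw [fieldValueAt_eq, fieldValueAt_eq]
  unfold fvL
  have h1 := hl b b'
  have h2 := hl b' b
  rw [abs_sub_comm b' b] at h2
  rw [abs_le]
  constructor <;> linarith



end gen

end

end Crest.Agent.R164.LDeriv
end

-- ▼ part R164/LHh
section

/-!
Row 164 (helper275), GL10 of helper893: uniform bound of the last field value,
`hh w val wd p (Fin.last m) ≤ LR val`, for all step paths, and of `LF.CF`.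
-/

set_option autoImplicit false

namespace Crest.Agent.R164.LF

open MeasureTheory Set Filter Topology
open Crest.ProbabilityR.InvariantGlass
open Crest.Agent.R164.PAlg Crest.Agent.R164.RTrans Crest.Agent.R164.Atomic

noncomputable section

variable {K m : ℕ} {w val : Fin (K + 1) → ℝ} {wd p : Fin (m + 1) → ℝ}

/-- the Lipschitz constant of `R` on `[0,1]` -/
def LR {K : ℕ} (val : Fin (K + 1) → ℝ) : ℝ :=
  (val (Fin.last K) - val 0) ^ 2 * (1 + (val (Fin.last K) - val 0))

section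

variable (hv : StrictMono val) (hw : ∀ k, 0 < w k) (hs : ∑ k, w k = 1)

include hv in
theorem LR_nonneg : 0 ≤ LR val := by
  have : 0 ≤ val (Fin.last K) - val 0 := by
    have := hv.monotone (Fin.zero_le (Fin.last K)); linarith
  unfold LR
  positivity

include hv hw hs

theorem RR_lip_one {x y : ℝ} (hx : 0 ≤ x) (hxy : x ≤ y) (hy : y ≤ 1) :
    RR w val y - RR w val x ≤ LR val * (y - x) := by
  refine (RR_lip hv hw hs hx hxy).trans ?_
  have hL : 0 ≤ val (Fin.last K) - val 0 := by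
    have := hv.monotone (Fin.zero_le (Fin.last K)); linarith
  unfold LR
  refine mul_le_mul_of_nonneg_right ?_ (by linarith)
  refine mul_le_mul_of_nonneg_left ?_ (sq_nonneg _)
  nlinarith

theorem RD_le {x : ℝ} (hx : 0 < x) (hx1 : x ≤ 1) : RD w val x ≤ LR val := by
  have hd := (RR_deriv hv hw hs hx).hasDerivWithinAt (s := Iio x)
  rw [hasDerivWithinAt_iff_tendsto_slope' (by simp)] at hd
  refine le_of_tendsto hd ?_
  filter_upwards [Ioo_mem_nhdsLT hx] with y hy
  rw [slope_def_field, ← neg_div_neg_eq, neg_sub, neg_sub, div_le_iff₀ (by linarith [hy.2])]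
  exact RR_lip_one hv hw hs hy.1.le hy.2.le hx1

variable (hwd : ∀ i, 0 < wd i) (hwds : ∑ i, wd i = 1) (hp : Monotone p)
  (hp0 : ∀ i, 0 ≤ p i) (hp1 : ∀ i, p i ≤ 1)

include hwd hwds hp hp0 hp1

omit hv hw hs hp1 in
theorem Dd_le_one (j : Fin (m + 1)) : Dd wd p j ≤ 1 := by
  rw [Dd_eq hwd hwds hp]
  have h1 : 0 ≤ tailS wd p j := by
    unfold tailS
    refine Finset.sum_nonneg fun l _ => ?_
    split_ifs
    · exact le_rfl
    · exact mul_nonneg (hwd l).le (hp0 l)
  have h2 := mul_nonneg (ze_nonneg hwd j) (hp0 j)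
  linarith

/-- **uniform bound of the last field value** -/
theorem hh_last_le (hD : 0 < Dd wd p 0) : hh w val wd p (Fin.last m) ≤ LR val * p (Fin.last m) := by
  rw [hh_last]
  have h1 : p 0 * RD w val (Dd wd p 0) ≤ LR val * p 0 := by
    rw [mul_comm (LR val)]
    exact mul_le_mul_of_nonneg_left (RD_le hv hw hs hD (Dd_le_one hwd hwds hp hp0 0)) (hp0 0)
  have h2 : ∀ j : Fin m, (leftEnd wd j.succ)⁻¹ *
      (RR w val (Dd wd p j.castSucc) - RR w val (Dd wd p j.succ)) ≤
      LR val * (p j.succ - p j.castSucc) := by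
    intro j
    have hz := ze_pos hwd j
    rw [inv_mul_le_iff₀ hz]
    refine (RR_lip_one hv hw hs (Dd_nonneg hwd hwds hp1 j.succ) (Dd_anti hwd hwds hp j)
      (Dd_le_one hwd hwds hp hp0 _)).trans (le_of_eq ?_)
    rw [Dd_castSucc hwd hwds hp j]
    ring
  have h3 := Finset.sum_le_sum fun j (_ : j ∈ Finset.univ) => h2 j
  rw [← Finset.mul_sum] at h3
  have h4 := tele p
  rw [h4] at h3
  nlinarith

theorem hh_le (hD : 0 < Dd wd p 0) (i : Fin (m + 1)) : hh w val wd p i ≤ LR val := by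
  refine (hh_mono hv hw hs hwd hwds hp hp1 (Fin.le_last i)).trans ?_
  refine (hh_last_le hv hw hs hwd hwds hp hp0 hp1 hD).trans ?_
  have := mul_le_mul_of_nonneg_left (hp1 (Fin.last m)) (LR_nonneg hv)
  linarith

/-- **uniform bound of the constant `CF`** -/
theorem CF_le (hD : 0 < Dd wd p 0) : CF w val wd p ≤ LR val := by
  unfold CF
  have := hh_le hv hw hs hwd hwds hp hp0 hp1 hD (Fin.last m)
  have e : (val (Fin.last K) - val 0) ^ 2 * (1 + (val (Fin.last K) - val 0)) = LR val := rfl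
  rw [e]
  linarith


end

end

end Crest.Agent.R164.LF
end

-- ▼ part R164/LCrit2
section

/-!
Row 164, L side (helper893): from the numbers of the selected system (truncated cavity functional,
derivatives, overlaps) to the critical structure, and to the contradiction.
-/

set_option autoImplicit false

namespace Crest.Agent.R164.LF

open MeasureTheory Set Filter Topology
open Crest.ProbabilityR.InvariantGlass
open Crest.Agent.R164.GC Crest.Agent.R164.PAlg Crest.Agent.R164.Mag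
open Crest.Agent.R164.RTrans Crest.Agent.R164.Atomic
open Crest.Agent.R164.SDAlg (StepD wdOf pOf)
open Crest.Agent.R164.EG (CC sum_CC)
open Crest.Agent.R164.LDeriv (Gc ind ind_mono ind_nonneg ind_last contact_beta contact_b
  fieldValueAt_lip)

noncomputable section

/-- the field path of the main fields with strengths `a q`, placed at the levels `(q + 1) r` -/
def VF (r : ℕ) {M m : ℕ} (a : Fin M → ℝ) (i : Fin (m + 1)) : ℝ :=
  ∑ q : Fin M, if ((q : ℕ) + 1) * r ≤ (i : ℕ) then a q ^ 2 else 0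

/-- exact value of the truncated functional (without `cc`): `ℓ_b(h + V) + (h + V)_last / 2` -/
def cv {m : ℕ} (wd h : Fin (m + 1) → ℝ) (b : ℝ) (V : Fin (m + 1) → ℝ) : ℝ :=
  fieldValueAt b wd (fun i => h i + V i) + 1 / 2 * (h (Fin.last m) + V (Fin.last m))

theorem VF_mono (r : ℕ) {M m : ℕ} (a : Fin M → ℝ) :
    Monotone (VF r a : Fin (m + 1) → ℝ) := by
  intro i i' hi
  unfold VF
  refine Finset.sum_le_sum fun q _ => ?_
  have : (i : ℕ) ≤ (i' : ℕ) := hi
  split_ifs with h1 h2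
  · exact le_rfl
  · omega
  · exact sq_nonneg _
  · exact le_rfl

theorem VF_nonneg (r : ℕ) {M m : ℕ} (a : Fin M → ℝ) (i : Fin (m + 1)) : 0 ≤ VF r a i := by
  unfold VF
  refine Finset.sum_nonneg fun q _ => ?_
  split_ifs
  · exact sq_nonneg _
  · exact le_rfl

theorem VF_update (r : ℕ) {M m : ℕ} (a : Fin M → ℝ) (q : Fin M) (x : ℝ) (i : Fin (m + 1)) :
    VF r (Function.update a q x) i =
      VF r (Function.update a q 0) i + if ((q : ℕ) + 1) * r ≤ (i : ℕ) then x ^ 2 else 0 := by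
  unfold VF
  rw [← Finset.add_sum_erase _ _ (Finset.mem_univ q),
    ← Finset.add_sum_erase Finset.univ (fun q' : Fin M => if ((q' : ℕ) + 1) * r ≤ (i : ℕ) then
      Function.update a q 0 q' ^ 2 else 0) (Finset.mem_univ q),
    Function.update_self, Function.update_self]
  have : ∀ q' ∈ (Finset.univ : Finset (Fin M)).erase q, (if ((q' : ℕ) + 1) * r ≤ (i : ℕ) then
      Function.update a q x q' ^ 2 else 0) =
      if ((q' : ℕ) + 1) * r ≤ (i : ℕ) then Function.update a q 0 q' ^ 2 else 0 := by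
    intro q' hq'
    rw [Function.update_of_ne (Finset.ne_of_mem_erase hq'),
      Function.update_of_ne (Finset.ne_of_mem_erase hq')]
  rw [Finset.sum_congr rfl this]
  split_ifs <;> ring

/-- the value as helper275's `Gc` -/
theorem cv_update {m M : ℕ} {wd h : Fin (m + 1) → ℝ} (b : ℝ) (r : ℕ) (a : Fin M → ℝ) (q : Fin M)
    (hq : ((q : ℕ) + 1) * r < m + 1) (x : ℝ) :
    cv wd h b (VF r (Function.update a q x)) =
      1 / 2 * (h (Fin.last m) + VF r (Function.update a q 0) (Fin.last m)) +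
      Gc wd (fun i => h i + VF r (Function.update a q 0) i) (ind ⟨((q : ℕ) + 1) * r, hq⟩) b x := by
  have hV : ∀ i : Fin (m + 1), VF r (Function.update a q x) i =
      VF r (Function.update a q 0) i + x ^ 2 * ind ⟨((q : ℕ) + 1) * r, hq⟩ i := by
    intro i
    rw [VF_update]
    congr 1
    unfold ind
    have : ((⟨((q : ℕ) + 1) * r, hq⟩ : Fin (m + 1)) ≤ i) ↔ ((q : ℕ) + 1) * r ≤ (i : ℕ) := Iff.rfl
    by_cases hh : ((q : ℕ) + 1) * r ≤ (i : ℕ)
    · rw [if_pos hh, if_pos (this.2 hh), mul_one]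
    · rw [if_neg hh, if_neg (fun h' => hh (this.1 h')), mul_zero]
  unfold cv Gc
  have e1 : (fun i => h i + VF r (Function.update a q x) i) =
      fun i => h i + VF r (Function.update a q 0) i +
        x ^ 2 * ind ⟨((q : ℕ) + 1) * r, hq⟩ i := by
    funext i; rw [hV i, add_assoc]
  rw [e1, hV (Fin.last m), ind_last]
  ring

theorem sum_Ico_fin (n lo : ℕ) (f : ℕ → ℝ) :
    ∑ i ∈ Finset.Ico lo (n + 1), f i = ∑ i : Fin (n + 1), if lo ≤ (i : ℕ) then f i else 0 := by
  rw [Fin.sum_univ_eq_sum_range (fun i => if lo ≤ i then f i else 0) (n + 1), ← Finset.sum_filter]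
  refine Finset.sum_congr ?_ fun _ _ => rfl
  ext i
  simp only [Finset.mem_Ico, Finset.mem_filter, Finset.mem_range]
  tauto

/-- uniform levels -/
abbrev mm (n : ℕ) : ℕ → ℝ := fun a => (a : ℝ) / ((n : ℝ) + 1)

theorem wd_eq (n : ℕ) (i : Fin (n + 1)) : wdOf n (mm n) i = ((n : ℝ) + 1)⁻¹ := by
  unfold wdOf mm
  have : (0:ℝ) < (n:ℝ) + 1 := by positivity
  push_cast
  field_simp
  ring

/-- effective linear fields used in the explicit functional (zero where `t j = 0`) -/
def b0 {J : ℕ} (c t : Fin J → ℝ) (Kp : ℝ) (el mb : Fin J → ℝ) (j : Fin J) : ℝ :=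
  if t j = 0 then 0 else c j - 2 * Kp * (mb j - t j) + el j

/-- effective linear fields of the system -/
def b1 {J : ℕ} (c t : Fin J → ℝ) (Kp : ℝ) (el mb : Fin J → ℝ) (j : Fin J) : ℝ :=
  (if t j = 0 then 0 else c j - 2 * Kp * (mb j - t j)) + el j

theorem b0_b1 {J : ℕ} (c t : Fin J → ℝ) (Kp : ℝ) (el mb : Fin J → ℝ) {E : ℝ}
    (hel : ∀ j, |el j| ≤ E) (j : Fin J) : |b1 c t Kp el mb j - b0 c t Kp el mb j| ≤ E := by
  unfold b1 b0
  split_ifs
  · simpa using hel j
  · rw [sub_self, abs_zero]; exact (abs_nonneg _).trans (hel j)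

theorem b0_of_ne {J : ℕ} (c t : Fin J → ℝ) (Kp : ℝ) (el mb : Fin J → ℝ) {j : Fin J}
    (h : t j ≠ 0) : b0 c t Kp el mb j = b1 c t Kp el mb j := by
  unfold b1 b0
  rw [if_neg h, if_neg h]

set_option maxHeartbeats 1000000 in
/-- **From the numbers of the selected system to `False`.** -/
theorem crit {K n J M r0 : ℕ} (hn : n + 1 = (M + 1) * r0) {w val : Fin (K + 1) → ℝ}
    (hv : StrictMono val) (hw : ∀ k, 0 < w k) (hs : ∑ k, w k = 1) {γ : Fin J → ℚ}
    (hγ : ∀ j, 0 < γ j) (hγs : ∑ j, γ j = 1) {c t : Fin J → ℝ} (ht : ∀ j, |t j| < 1) {ε0 r : ℝ}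
    (hr : ∀ m' : Fin J → ℝ, (∀ j, |m' j - t j| ≤ ε0) → (∀ j, t j = 0 → m' j = 0) →
      (r : EReal) ≤ ((∑ j : Fin J, ((γ j : ℚ) : ℝ) * c j * m' j : ℝ) : EReal) +
        VR (atomic w val) (val (Fin.last K)) γ m')
    {P : ℕ → ℝ} (hP : StepD (n + 1) (mm n) P) (hP0 : P 0 < 1)
    {Kp : ℝ} (hKp : 0 ≤ Kp) {el mb : Fin J → ℝ} {E : ℝ} (hel : ∀ j, |el j| ≤ E) (hE : 0 ≤ E)
    (hmb : ∀ j, |mb j| ≤ 1) (hQ : ∀ j, t j ≠ 0 → |mb j - t j| ≤ ε0 / 2) (hε0 : 0 ≤ ε0)
    {a : Fin J → Fin M → ℝ} {amin y : ℝ} (hy : 0 < y) (hya : y ≤ amin)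
    (ha : ∀ j q, amin ≤ a j q)
    {F : Fin (K + 1) → ℝ → (Fin M → ℝ) → ℝ} {dl e1 e2 e3 e4 e5 Inc R : ℝ}
    (he2 : 0 ≤ e2) (he3 : 0 ≤ e3) (he4 : 0 ≤ e4) (he5 : 0 ≤ e5) (hdl : 0 ≤ dl)
    (h1 : ∀ (k : Fin (K + 1)) (j : Fin J) (b' : ℝ) (a' : Fin M → ℝ),
      |b' - b1 c t Kp el mb j| ≤ y → (∀ q, |a' q - a j q| ≤ y) →
      |F k b' a' - (CC w val (wdOf n (mm n)) (pOf n P) k +
        cv (wdOf n (mm n)) (hh w val (wdOf n (mm n)) (pOf n P)) b' (VF r0 a'))| ≤ dl)
    {T1 : Fin (K + 1) → Fin J → Fin M → ℝ} {M1 : Fin (K + 1) → Fin J → ℝ}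
    {TN RR : Fin J → Fin M → ℝ}
    (h2 : ∀ k j q (s : ℝ), |s| = y →
      |F k (b1 c t Kp el mb j) (Function.update (a j) q (a j q + s)) -
        F k (b1 c t Kp el mb j) (a j) - s * T1 k j q| ≤ e2)
    (h2' : ∀ k j (s : ℝ), |s| = y → |F k (b1 c t Kp el mb j + s) (a j) -
        F k (b1 c t Kp el mb j) (a j) - s * M1 k j| ≤ e2)
    (h3 : ∀ k j q, |T1 k j q - TN j q| ≤ e3) (h3' : ∀ k j, t j ≠ 0 → |M1 k j - mb j| ≤ e3)
    (h4 : ∀ j q, |TN j q - a j q * (1 - RR j q)| ≤ e4)
    (h5 : ∀ q : Fin M, |∑ j, ((γ j : ℚ) : ℝ) * RR j q -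
      ((n : ℝ) + 1)⁻¹ * ∑ i ∈ Finset.Ico (((q : ℕ) + 1) * r0) (n + 1), P i| ≤ e5)
    (h6 : ∑ k, ∑ j, w k * ((γ j : ℚ) : ℝ) *
      ((if t j = 0 then 0 else Kp * (mb j ^ 2 - t j ^ 2)) + F k (b1 c t Kp el mb j) (a j)) ≤
      Inc + e1)
    (h7 : Inc + Kp * ∑ j, ((γ j : ℚ) : ℝ) * (if t j = 0 then 0 else (mb j - t j) ^ 2) ≤ R)
    (hs1 : (2 * dl + e2) / y + e3 ≤ ε0 / 2)
    (hs2 : 4 * Kp * ((2 * dl + e2) / y + e3) + E + LR val *
      (2 * ((M + 1 : ℕ) : ℝ) * (e5 + ((2 * (dl + E) + e2) / y + e3 + e4) / amin) +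
        3 / ((M + 1 : ℕ) : ℝ)) < r - (R + e1 + dl + E)) : False := by
  have hwd := SDAlg.wdOf_pos hP
  have hwds := SDAlg.wdOf_sum hP
  have hpm := SDAlg.pOf_mono hP
  have hp0 := SDAlg.pOf_nonneg hP
  have hp1 := SDAlg.pOf_le_one hP
  have hD : 0 < Dd (wdOf n (mm n)) (pOf n P) 0 :=
    Dd_pos hwd hwds hpm hp1 (by simpa [pOf] using hP0)
  set wd := wdOf n (mm n) with hwddef
  set pp := pOf n P with hppdef
  set h := hh w val wd pp with hhdef
  have hhs : IsStepField wd h := hh_stepField hv hw hs hwd hwds hpm hp0 hp1 hD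
  have hstep : ∀ a' : Fin M → ℝ, IsStepField wd (fun i => h i + VF r0 a' i) := fun a' =>
    ⟨hhs.1, hhs.2.1, hhs.2.2.1, hhs.2.2.2.1.add (VF_mono r0 a'), fun i =>
      add_nonneg (hhs.2.2.2.2 i) (VF_nonneg r0 a' i)⟩
  have hγ' : ∀ j, (0:ℝ) ≤ ((γ j : ℚ) : ℝ) := fun j => by exact_mod_cast (hγ j).le
  have hγs' : ∑ j, ((γ j : ℚ) : ℝ) = 1 := by exact_mod_cast hγs
  have hr0 : 0 < r0 := by
    rcases Nat.eq_zero_or_pos r0 with h0 | h0
    · rw [h0, mul_zero] at hn; omega
    · exact h0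
  have hqlt : ∀ q : Fin M, ((q : ℕ) + 1) * r0 < n + 1 := by
    intro q
    rw [hn]
    exact Nat.mul_lt_mul_of_pos_right (by have := q.2; omega) hr0
  set bt := b1 c t Kp el mb with hbt
  set bz := b0 c t Kp el mb with hbz
  have hamin : 0 < amin := lt_of_lt_of_le hy hya
  -- the values at `bz`
  have hval : ∀ (k : Fin (K + 1)) (j : Fin J) (a' : Fin M → ℝ), (∀ q, |a' q - a j q| ≤ y) →
      |F k (bt j) a' - (CC w val wd pp k + cv wd h (bz j) (VF r0 a'))| ≤ dl + E := by
    intro k j a' ha'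
    have g1 := h1 k j (bt j) a' (by rw [sub_self, abs_zero]; exact hy.le) ha'
    have g2 := fieldValueAt_lip (hstep a') (bt j) (bz j)
    have g3 := b0_b1 c t Kp el mb hel j
    have e : F k (bt j) a' - (CC w val wd pp k + cv wd h (bz j) (VF r0 a')) =
        (F k (bt j) a' - (CC w val wd pp k + cv wd h (bt j) (VF r0 a'))) +
        (fieldValueAt (bt j) wd (fun i => h i + VF r0 a' i) -
          fieldValueAt (bz j) wd (fun i => h i + VF r0 a' i)) := by
      unfold cv; ring
    rw [e]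
    refine (abs_add_le _ _).trans (add_le_add g1 (g2.trans g3))
  -- main-field contact
  have hcT : ∀ (j : Fin J) (q : Fin M), |T1 0 j q - a j q * (1 - ∑ i : Fin (n + 1),
      if ((q : ℕ) + 1) * r0 ≤ (i : ℕ) then wd i * pAt (bz j) wd (fun i => h i + VF r0 (a j) i) i
        else 0)| ≤ (2 * (dl + E) + e2) / y := by
    intro j q
    have hupd : ∀ s : ℝ, |s| ≤ y → ∀ q', |Function.update (a j) q (a j q + s) q' - a j q'| ≤ y := by
      intro s hs' q'
      by_cases hq : q' = q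
      · subst hq; rw [Function.update_self, add_sub_cancel_left]; exact hs'
      · rw [Function.update_of_ne hq, sub_self, abs_zero]; exact hy.le
    have hself : Function.update (a j) q (a j q) = a j := Function.update_eq_self q (a j)
    have key := contact_beta (m := n) (w := wd)
      (hv := fun i => h i + VF r0 (Function.update (a j) q 0) i)
      (hstep (Function.update (a j) q 0)) ⟨((q : ℕ) + 1) * r0, hqlt q⟩ (bz j) (a j q)
      (f := fun x => F 0 (bt j) (Function.update (a j) q x))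
      (C0 := CC w val wd pp 0 +
        1 / 2 * (h (Fin.last n) + VF r0 (Function.update (a j) q 0) (Fin.last n)))
      (T := T1 0 j q) (y := y) (dl := dl + E) (e := e2) hy ?_ ?_ ?_ ?_ ?_
    · have e : ∀ i : Fin (n + 1), (h i + VF r0 (Function.update (a j) q 0) i +
          (a j q) ^ 2 * ind ⟨((q : ℕ) + 1) * r0, hqlt q⟩ i) = h i + VF r0 (a j) i := by
        intro i
        have h' := VF_update r0 (a j) q (a j q) i
        rw [hself] at h'
        rw [h', add_assoc]
        congr 2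
        unfold ind
        have : ((⟨((q : ℕ) + 1) * r0, hqlt q⟩ : Fin (n + 1)) ≤ i) ↔
            ((q : ℕ) + 1) * r0 ≤ (i : ℕ) := Iff.rfl
        by_cases hh' : ((q : ℕ) + 1) * r0 ≤ (i : ℕ)
        · rw [if_pos hh', if_pos (this.2 hh'), mul_one]
        · rw [if_neg hh', if_neg (fun h'' => hh' (this.1 h'')), mul_zero]
      simp only [e] at key
      exact key
    · have g := hval 0 j (Function.update (a j) q (a j q + y)) (hupd y (abs_of_pos hy).le)
      rw [cv_update (bz j) r0 (a j) q (hqlt q) (a j q + y)] at g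
      have := (abs_le.1 g).1
      linarith
    · have g := hval 0 j (Function.update (a j) q (a j q + -y)) (hupd (-y) (by
        rw [abs_neg, abs_of_pos hy]))
      rw [cv_update (bz j) r0 (a j) q (hqlt q) (a j q + -y)] at g
      have := (abs_le.1 g).1
      simp only [sub_eq_add_neg]
      linarith
    · have g := hval 0 j (a j) (fun q => by rw [sub_self, abs_zero]; exact hy.le)
      rw [← hself, cv_update (bz j) r0 (a j) q (hqlt q) (a j q)] at g
      have := (abs_le.1 g).2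
      linarith
    · have g := h2 0 j q y (abs_of_pos hy)
      have := (abs_le.1 g).2
      simp only [hself]
      linarith
    · have g := h2 0 j q (-y) (by rw [abs_neg, abs_of_pos hy])
      have := (abs_le.1 g).2
      simp only [hself, sub_eq_add_neg]
      linarith
  -- magnetisation contact
  have hmag : ∀ j, t j ≠ 0 → |mb j - magAt (bz j) wd (fun i => h i + VF r0 (a j) i)| ≤
      (2 * dl + e2) / y + e3 := by
    intro j hj
    have hbj : bz j = bt j := b0_of_ne c t Kp el mb hj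
    have hz : ∀ q, |a j q - a j q| ≤ y := fun q => by rw [sub_self, abs_zero]; exact hy.le
    have key := contact_b (m := n) (w := wd) (hv := fun i => h i + VF r0 (a j) i)
      (hstep (a j)) (bt j) (f := fun x => F 0 x (a j))
      (C0 := CC w val wd pp 0 + 1 / 2 * (h (Fin.last n) + VF r0 (a j) (Fin.last n)))
      (T := M1 0 j) (y := y) (dl := dl) (e := e2) hy ?_ ?_ ?_ ?_ ?_
    · rw [hbj]
      have g := h3' 0 j hj
      have e : mb j - magAt (bt j) wd (fun i => h i + VF r0 (a j) i) =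
          (M1 0 j - magAt (bt j) wd (fun i => h i + VF r0 (a j) i)) + -(M1 0 j - mb j) := by ring
      rw [e]
      refine (abs_add_le _ _).trans ?_
      rw [abs_neg]
      exact add_le_add key g
    · have g := h1 0 j (bt j + y) (a j) (by rw [add_sub_cancel_left, abs_of_pos hy]) hz
      unfold cv at g
      have := (abs_le.1 g).1
      linarith
    · have g := h1 0 j (bt j - y) (a j) (by
        rw [sub_sub_cancel_left, abs_neg, abs_of_pos hy]) hz
      unfold cv at g
      have := (abs_le.1 g).1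
      linarith
    · have g := h1 0 j (bt j) (a j) (by rw [sub_self, abs_zero]; exact hy.le) hz
      unfold cv at g
      have := (abs_le.1 g).2
      linarith
    · have g := h2' 0 j y (abs_of_pos hy)
      have := (abs_le.1 g).2
      linarith
    · have g := h2' 0 j (-y) (by rw [abs_neg, abs_of_pos hy])
      have := (abs_le.1 g).2
      simp only [sub_eq_add_neg]
      linarith
  -- tails
  set eT := e5 + ((2 * (dl + E) + e2) / y + e3 + e4) / amin with heT
  have heT0 : 0 ≤ eT := by positivity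
  have hP' : ∑ i, wd i * |gP γ bz wd (fun j i => h i + VF r0 (a j) i) i - pp i| ≤
      2 * ((M + 1 : ℕ) : ℝ) * eT + 3 / ((M + 1 : ℕ) : ℝ) := by
    have hst : ∀ j, IsStepField wd (fun i => h i + VF r0 (a j) i) := fun j => hstep (a j)
    have hgm : Monotone (gP γ bz wd (fun j i => h i + VF r0 (a j) i)) := by
      intro i i' hi
      unfold gP
      exact Finset.sum_le_sum fun j _ =>
        mul_le_mul_of_nonneg_left (pAt_mono (hst j) (bz j) hi) (hγ' j)
    have hg0 : ∀ i, 0 ≤ gP γ bz wd (fun j i => h i + VF r0 (a j) i) i := fun i =>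
      Finset.sum_nonneg fun j _ => mul_nonneg (hγ' j) (pAt_nonneg (hst j) _ _)
    have hg1 : ∀ i, gP γ bz wd (fun j i => h i + VF r0 (a j) i) i ≤ 1 := fun i => by
      unfold gP
      calc ∑ j, ((γ j : ℚ) : ℝ) * pAt (bz j) wd (fun i => h i + VF r0 (a j) i) i ≤
          ∑ j, ((γ j : ℚ) : ℝ) * 1 := Finset.sum_le_sum fun j _ =>
            mul_le_mul_of_nonneg_left (pAt_le_one (hst j) _ _) (hγ' j)
        _ = 1 := by simp only [mul_one]; exact hγs'
    have key := LL1.l1_fin (M := M + 1) (r := r0) hn hgm hpm hg0 hg1 hp0 hp1 heT0 ?_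
    · refine le_trans (le_of_eq (Finset.sum_congr rfl fun i _ => ?_)) key
      rw [hwddef, wd_eq]
    · intro q hq1 hq2
      obtain ⟨x, hx⟩ : ∃ x : Fin M, (x : ℕ) + 1 = q := ⟨⟨q - 1, by omega⟩, by simp only; omega⟩
      have hsplit : (∑ i : Fin (n + 1), if q * r0 ≤ (i : ℕ) then ((n : ℝ) + 1)⁻¹ *
          (gP γ bz wd (fun j i => h i + VF r0 (a j) i) i - pp i) else 0) =
          (∑ j, ((γ j : ℚ) : ℝ) * ((∑ i : Fin (n + 1), if ((x : ℕ) + 1) * r0 ≤ (i : ℕ) then
            wd i * pAt (bz j) wd (fun i => h i + VF r0 (a j) i) i else 0) - RR j x)) +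
          (∑ j, ((γ j : ℚ) : ℝ) * RR j x -
            ((n : ℝ) + 1)⁻¹ * ∑ i ∈ Finset.Ico (((x : ℕ) + 1) * r0) (n + 1), P i) := by
        rw [sum_Ico_fin n _ P, hx]
        have e1 : ∀ i : Fin (n + 1), (if q * r0 ≤ (i : ℕ) then ((n : ℝ) + 1)⁻¹ *
            (gP γ bz wd (fun j i => h i + VF r0 (a j) i) i - pp i) else 0) =
            (∑ j, ((γ j : ℚ) : ℝ) * if q * r0 ≤ (i : ℕ) then
              wd i * pAt (bz j) wd (fun i => h i + VF r0 (a j) i) i else 0) -
            ((n : ℝ) + 1)⁻¹ * if q * r0 ≤ (i : ℕ) then P i else 0 := by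
          intro i
          split_ifs with hc
          · unfold gP
            rw [mul_sub, Finset.mul_sum]
            congr 1
            refine Finset.sum_congr rfl fun j _ => ?_
            rw [hwddef, wd_eq]; ring
          · simp
        rw [Finset.sum_congr rfl fun i _ => e1 i, Finset.sum_sub_distrib, Finset.sum_comm,
          ← Finset.mul_sum]
        simp only [mul_sub, Finset.sum_sub_distrib, ← Finset.mul_sum]
        ring
      rw [hsplit]
      refine (abs_add_le _ _).trans ?_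
      have hb2 := h5 x
      have hb1 : |∑ j, ((γ j : ℚ) : ℝ) * ((∑ i : Fin (n + 1),
          if ((x : ℕ) + 1) * r0 ≤ (i : ℕ) then
            wd i * pAt (bz j) wd (fun i => h i + VF r0 (a j) i) i else 0) - RR j x)| ≤
          ((2 * (dl + E) + e2) / y + e3 + e4) / amin := by
        have hj : ∀ j, |(∑ i : Fin (n + 1), if ((x : ℕ) + 1) * r0 ≤ (i : ℕ) then
            wd i * pAt (bz j) wd (fun i => h i + VF r0 (a j) i) i else 0) - RR j x| ≤
            ((2 * (dl + E) + e2) / y + e3 + e4) / amin := by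
          intro j
          set S := ∑ i : Fin (n + 1), if ((x : ℕ) + 1) * r0 ≤ (i : ℕ) then
            wd i * pAt (bz j) wd (fun i => h i + VF r0 (a j) i) i else 0 with hS
          have g1 := hcT j x
          have g2 := h3 0 j x
          have g3 := h4 j x
          have hpos : 0 < a j x := lt_of_lt_of_le hamin (ha j x)
          have e : a j x * (S - RR j x) = (T1 0 j x - a j x * (1 - S)) + -(T1 0 j x - TN j x) +
              -(TN j x - a j x * (1 - RR j x)) := by ring
          have g4 : |a j x * (S - RR j x)| ≤ (2 * (dl + E) + e2) / y + e3 + e4 := by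
            rw [e]
            refine (abs_add_le _ _).trans ?_
            rw [abs_neg]
            refine add_le_add ((abs_add_le _ _).trans ?_) g3
            rw [abs_neg]
            exact add_le_add g1 g2
          rw [abs_mul, abs_of_pos hpos] at g4
          rw [le_div_iff₀ hamin]
          calc |S - RR j x| * amin ≤ |S - RR j x| * a j x :=
                mul_le_mul_of_nonneg_left (ha j x) (abs_nonneg _)
            _ = a j x * |S - RR j x| := mul_comm _ _
            _ ≤ _ := g4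
        refine (Finset.abs_sum_le_sum_abs _ _).trans ?_
        calc ∑ j, |((γ j : ℚ) : ℝ) * ((∑ i : Fin (n + 1),
              if ((x : ℕ) + 1) * r0 ≤ (i : ℕ) then
                wd i * pAt (bz j) wd (fun i => h i + VF r0 (a j) i) i else 0) - RR j x)| ≤
              ∑ j, ((γ j : ℚ) : ℝ) * (((2 * (dl + E) + e2) / y + e3 + e4) / amin) :=
            Finset.sum_le_sum fun j _ => by
              rw [abs_mul, abs_of_nonneg (hγ' j)]
              exact mul_le_mul_of_nonneg_left (hj j) (hγ' j)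
          _ = _ := by rw [← Finset.sum_mul, hγs', one_mul]
      rw [heT, add_comm e5]
      exact add_le_add hb1 hb2
  -- the value
  have hvalue : ∑ j, ((γ j : ℚ) : ℝ) * ((if t j = 0 then 0 else Kp * (mb j ^ 2 - t j ^ 2)) +
        (fieldValueAt (bz j) wd (fun i => h i + VF r0 (a j) i) +
        1 / 2 * (h (Fin.last n) + VF r0 (a j) (Fin.last n)))) -
        1 / 2 * h (Fin.last n) + 1 / 2 * ∑ i, wd i * (pp i * h i) +
        spectralPart (atomic w val) (val (Fin.last K)) (stepFn wd pp) +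
        Kp * ∑ j, ((γ j : ℚ) : ℝ) * (if t j = 0 then 0 else (mb j - t j) ^ 2) ≤
      r - (r - (R + e1 + dl + E)) := by
    have hCC := sum_CC hv hw hs hwd hwds hpm hp0 hp1 hD
    have hz : ∀ j q, |a j q - a j q| ≤ y := fun j q => by rw [sub_self, abs_zero]; exact hy.le
    have hlow : ∀ k j, CC w val wd pp k + cv wd h (bz j) (VF r0 (a j)) - (dl + E) ≤
        F k (bt j) (a j) := by
      intro k j
      have := (abs_le.1 (hval k j (a j) (hz j))).1
      linarith
    have hsum : ∑ k, ∑ j, w k * ((γ j : ℚ) : ℝ) *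
        ((if t j = 0 then 0 else Kp * (mb j ^ 2 - t j ^ 2)) +
          (CC w val wd pp k + cv wd h (bz j) (VF r0 (a j)) - (dl + E))) ≤ Inc + e1 := by
      refine le_trans (Finset.sum_le_sum fun k _ => Finset.sum_le_sum fun j _ => ?_) h6
      exact mul_le_mul_of_nonneg_left (add_le_add le_rfl (hlow k j))
        (mul_nonneg (hw k).le (hγ' j))
    have e1' : ∑ k, ∑ j, w k * ((γ j : ℚ) : ℝ) *
        ((if t j = 0 then 0 else Kp * (mb j ^ 2 - t j ^ 2)) +
          (CC w val wd pp k + cv wd h (bz j) (VF r0 (a j)) - (dl + E))) =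
        ∑ j, ((γ j : ℚ) : ℝ) * ((if t j = 0 then 0 else Kp * (mb j ^ 2 - t j ^ 2)) +
          cv wd h (bz j) (VF r0 (a j))) + ∑ k, w k * CC w val wd pp k - (dl + E) := by
      have e2' : ∀ k j, w k * ((γ j : ℚ) : ℝ) *
        ((if t j = 0 then 0 else Kp * (mb j ^ 2 - t j ^ 2)) +
          (CC w val wd pp k + cv wd h (bz j) (VF r0 (a j)) - (dl + E))) =
          w k * (((γ j : ℚ) : ℝ) * ((if t j = 0 then 0 else Kp * (mb j ^ 2 - t j ^ 2)) +
            cv wd h (bz j) (VF r0 (a j)))) + (w k * (CC w val wd pp k - (dl + E))) *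
            ((γ j : ℚ) : ℝ) := by
        intro k j; ring
      have e3' : ∀ k, ∑ j, w k * ((γ j : ℚ) : ℝ) *
        ((if t j = 0 then 0 else Kp * (mb j ^ 2 - t j ^ 2)) +
          (CC w val wd pp k + cv wd h (bz j) (VF r0 (a j)) - (dl + E))) =
          w k * (∑ j, ((γ j : ℚ) : ℝ) * ((if t j = 0 then 0 else Kp * (mb j ^ 2 - t j ^ 2)) +
            cv wd h (bz j) (VF r0 (a j)))) + (w k * CC w val wd pp k - w k * (dl + E)) := by
        intro k
        rw [Finset.sum_congr rfl fun j _ => e2' k j, Finset.sum_add_distrib, ← Finset.mul_sum,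
          ← Finset.mul_sum, hγs', mul_one, mul_sub]
      rw [Finset.sum_congr rfl fun k _ => e3' k, Finset.sum_add_distrib, ← Finset.sum_mul, hs,
        one_mul, Finset.sum_sub_distrib, ← Finset.sum_mul, hs, one_mul]
      ring
    rw [e1', hCC] at hsum
    simp only [cv] at hsum
    linarith
  have hCF := CF_le hv hw hs hwd hwds hpm hp0 hp1 hD
  have hLR := LR_nonneg hv
  have he' : 0 ≤ 2 * ((M + 1 : ℕ) : ℝ) * eT + 3 / ((M + 1 : ℕ) : ℝ) := by positivity
  refine contra hv hw hs hγ hγs hr hwd hwds hpm hp0 hp1 hD (V := fun j => VF r0 (a j))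
    (fun j => VF_mono r0 (a j)) (fun j i => VF_nonneg r0 (a j) i) hKp hel hE
    (δ := (2 * dl + e2) / y + e3) (by positivity) hmb ht (b := bz) (fun j => rfl) hQ hε0 hmag hs1
    hvalue hP' ?_
  have : CF w val wd pp * (2 * ((M + 1 : ℕ) : ℝ) * eT + 3 / ((M + 1 : ℕ) : ℝ)) ≤
      LR val * (2 * ((M + 1 : ℕ) : ℝ) * eT + 3 / ((M + 1 : ℕ) : ℝ)) :=
    mul_le_mul_of_nonneg_right hCF he'
  linarith

end

end Crest.Agent.R164.LF
end

-- ▼ part R164/LTail
section

/-!
Row 164 (helper275): MONO-TAIL.  Tail sums of a monotone quantity over the cells versus tail sums of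
its values at one level per window.
-/

set_option autoImplicit false

namespace Crest.Agent.R164.LTail

open Finset

/-- blocks of cells -/
theorem sum_blocks (wc : ℕ) (f : ℕ → ℝ) {a b : ℕ} (hab : a ≤ b) :
    ∑ g ∈ Ico (a * wc) (b * wc), f g =
      ∑ i ∈ Ico a b, ∑ g ∈ Ico (i * wc) ((i + 1) * wc), f g := by
  induction b, hab using Nat.le_induction with
  | base => simp
  | succ b hab ih =>
    rw [Finset.sum_Ico_succ_top hab, ← ih,
      Finset.sum_Ico_consecutive _ (Nat.mul_le_mul_right _ hab)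
        (Nat.mul_le_mul_right _ (Nat.le_succ b))]

/-- abstract form: `Rm g` = value at the label step of the cell `g`, `P i` = value at the level of
the window `i`. -/
theorem mono_tail_abs {n wc : ℕ} (hw : 0 < wc) (Rm P : ℕ → ℝ)
    (hR0 : ∀ g, 0 ≤ Rm g) (hR1 : ∀ g, Rm g ≤ 1) (hP0 : ∀ i ≤ n, 0 ≤ P i) (hP1 : ∀ i ≤ n, P i ≤ 1)
    (hlo : ∀ i ≤ n, ∀ g, (i + 1) * wc ≤ g → P i ≤ Rm g)
    (hup : ∀ i ≤ n, ∀ g, g < i * wc → Rm g ≤ P i)
    {iq : ℕ} (h1 : 1 ≤ iq) (h2 : iq ≤ n + 1) :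
    |(1 / ((((n + 1) * wc : ℕ) : ℝ) + 1)) * ∑ g ∈ Ico (iq * wc - 1) ((n + 1) * wc), Rm g -
      (1 / ((n : ℝ) + 1)) * ∑ i ∈ Ico iq (n + 1), P i| ≤ 2 / ((n : ℝ) + 1) := by
  have hn : (0:ℝ) < (n:ℝ) + 1 := by positivity
  have hwR : (1:ℝ) ≤ wc := by exact_mod_cast hw
  set S : ℝ := ∑ i ∈ Ico iq (n + 1), P i with hS
  have hS0 : 0 ≤ S := Finset.sum_nonneg fun i hi => hP0 i (by
    have := (Finset.mem_Ico.1 hi).2; omega)
  have hS1 : S ≤ (n:ℝ) + 1 := by
    have h3 : S ≤ ∑ i ∈ Ico iq (n + 1), (1:ℝ) := Finset.sum_le_sum fun i hi => hP1 i (by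
      have := (Finset.mem_Ico.1 hi).2; omega)
    rw [Finset.sum_const, Nat.card_Ico, nsmul_eq_mul, mul_one] at h3
    have h4 : ((n + 1 - iq : ℕ) : ℝ) ≤ ((n + 1 : ℕ) : ℝ) := by
      exact_mod_cast Nat.sub_le _ _
    push_cast at h4
    linarith
  -- the block sums
  set T : ℝ := ∑ g ∈ Ico (iq * wc) ((n + 1) * wc), Rm g with hT
  have hsplit : ∑ g ∈ Ico (iq * wc - 1) ((n + 1) * wc), Rm g = Rm (iq * wc - 1) + T := by
    have h3 : iq * wc - 1 < (n + 1) * wc := by
      have := Nat.mul_le_mul_right wc h2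
      have : 0 < (n + 1) * wc := by positivity
      omega
    rw [Finset.sum_eq_sum_Ico_succ_bot h3]
    have h4 : iq * wc - 1 + 1 = iq * wc := by
      have : 0 < iq * wc := by positivity
      omega
    rw [h4]
  have hTb : T = ∑ i ∈ Ico iq (n + 1), ∑ g ∈ Ico (i * wc) ((i + 1) * wc), Rm g :=
    sum_blocks wc Rm h2
  have hcard : ∀ i : ℕ, ((i + 1) * wc - i * wc : ℕ) = wc := by
    intro i
    rw [Nat.add_mul, one_mul]; omega
  have hbu : ∀ (i : ℕ) (c : ℝ), (∀ g ∈ Ico (i * wc) ((i + 1) * wc), Rm g ≤ c) →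
      ∑ g ∈ Ico (i * wc) ((i + 1) * wc), Rm g ≤ wc * c := by
    intro i c h
    refine (Finset.sum_le_sum h).trans (le_of_eq ?_)
    rw [Finset.sum_const, Nat.card_Ico, hcard, nsmul_eq_mul]
  have hbl : ∀ (i : ℕ) (c : ℝ), (∀ g ∈ Ico (i * wc) ((i + 1) * wc), c ≤ Rm g) →
      wc * c ≤ ∑ g ∈ Ico (i * wc) ((i + 1) * wc), Rm g := by
    intro i c h
    refine le_trans (le_of_eq ?_) (Finset.sum_le_sum h)
    rw [Finset.sum_const, Nat.card_Ico, hcard, nsmul_eq_mul]
  -- upper bound of `T`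
  have hTu : T ≤ wc * (S + 1) := by
    rcases Nat.lt_or_ge n iq with hlt | hge
    · have : iq = n + 1 := by omega
      rw [hT, this, Finset.Ico_self, Finset.sum_empty]
      positivity
    · rw [hTb, Finset.sum_Ico_succ_top hge]
      have h3 : ∑ i ∈ Ico iq n, ∑ g ∈ Ico (i * wc) ((i + 1) * wc), Rm g ≤
          wc * ∑ i ∈ Ico iq n, P (i + 1) := by
        rw [Finset.mul_sum]
        refine Finset.sum_le_sum fun i hi => hbu i _ fun g hg => ?_
        have hi' := Finset.mem_Ico.1 hi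
        exact hup (i + 1) (by omega) g (Finset.mem_Ico.1 hg).2
      have h4 : ∑ g ∈ Ico (n * wc) ((n + 1) * wc), Rm g ≤ wc * 1 := hbu n 1 fun g _ => hR1 g
      have h5 : ∑ i ∈ Ico iq n, P (i + 1) ≤ S := by
        rw [Finset.sum_Ico_add' (fun i => P i) iq n 1, hS]
        refine Finset.sum_le_sum_of_subset_of_nonneg
          (Finset.Ico_subset_Ico (Nat.le_succ _) le_rfl) fun i hi _ => hP0 i (by
            have := (Finset.mem_Ico.1 hi).2; omega)
      have h6 : (wc:ℝ) * ∑ i ∈ Ico iq n, P (i + 1) ≤ wc * S :=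
        mul_le_mul_of_nonneg_left h5 (by positivity)
      linarith
  -- lower bound of `T`
  have hTl : wc * (S - 1) ≤ T := by
    rw [hTb]
    have h3 : wc * ∑ i ∈ Ico iq (n + 1), P (i - 1) ≤
        ∑ i ∈ Ico iq (n + 1), ∑ g ∈ Ico (i * wc) ((i + 1) * wc), Rm g := by
      rw [Finset.mul_sum]
      refine Finset.sum_le_sum fun i hi => hbl i _ fun g hg => ?_
      have hi' := Finset.mem_Ico.1 hi
      refine hlo (i - 1) (by omega) g ?_
      have : i - 1 + 1 = i := by omega
      rw [this]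
      exact (Finset.mem_Ico.1 hg).1
    have h4 : S - 1 ≤ ∑ i ∈ Ico iq (n + 1), P (i - 1) := by
      have e1 : ∑ i ∈ Ico iq (n + 1), P (i - 1) = ∑ i ∈ Ico (iq - 1) n, P i := by
        have := Finset.sum_Ico_add' (fun i => P (i - 1)) (iq - 1) n 1
        have e2 : iq - 1 + 1 = iq := by omega
        rw [e2] at this
        rw [← this]
        refine Finset.sum_congr rfl fun i _ => ?_
        simp
      rw [e1]
      rcases Nat.lt_or_ge n iq with hlt | hge
      · have : iq = n + 1 := by omega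
        have hS' : S = 0 := by rw [hS, this, Finset.Ico_self, Finset.sum_empty]
        have h5 : 0 ≤ ∑ i ∈ Ico (iq - 1) n, P i := Finset.sum_nonneg fun i hi => hP0 i (by
          have := (Finset.mem_Ico.1 hi).2; omega)
        linarith
      · rw [hS, Finset.sum_Ico_succ_top hge]
        have h5 : ∑ i ∈ Ico iq n, P i ≤ ∑ i ∈ Ico (iq - 1) n, P i :=
          Finset.sum_le_sum_of_subset_of_nonneg
            (Finset.Ico_subset_Ico (Nat.sub_le _ _) le_rfl) fun i hi _ => hP0 i (by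
              have := (Finset.mem_Ico.1 hi).2; omega)
        have h6 := hP1 n le_rfl
        linarith
    exact (mul_le_mul_of_nonneg_left h4 (by positivity)).trans h3
  -- conclusion
  have hD : (0:ℝ) < (((n + 1) * wc : ℕ) : ℝ) + 1 := by positivity
  have hDeq : (((n + 1) * wc : ℕ) : ℝ) + 1 = ((n:ℝ) + 1) * wc + 1 := by push_cast; ring
  rw [hsplit, abs_le]
  have hr0 := hR0 (iq * wc - 1)
  have hr1 := hR1 (iq * wc - 1)
  rw [hDeq] at hD ⊢
  constructor
  · have h3 : (1 / ((n:ℝ) + 1)) * S - 2 / ((n:ℝ) + 1) ≤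
        (1 / (((n:ℝ) + 1) * wc + 1)) * (wc * (S - 1)) := by
      rw [div_mul_eq_mul_div, div_mul_eq_mul_div, div_sub_div_same, div_le_div_iff₀ hn hD]
      nlinarith
    have h4 : (1 / (((n:ℝ) + 1) * wc + 1)) * (wc * (S - 1)) ≤
        (1 / (((n:ℝ) + 1) * wc + 1)) * (Rm (iq * wc - 1) + T) :=
      mul_le_mul_of_nonneg_left (by linarith) (by positivity)
    linarith
  · have h3 : (1 / (((n:ℝ) + 1) * wc + 1)) * (1 + wc * (S + 1)) ≤
        (1 / ((n:ℝ) + 1)) * S + 2 / ((n:ℝ) + 1) := by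
      rw [div_mul_eq_mul_div, div_mul_eq_mul_div, ← add_div, div_le_div_iff₀ hD hn]
      nlinarith
    have h4 : (1 / (((n:ℝ) + 1) * wc + 1)) * (Rm (iq * wc - 1) + T) ≤
        (1 / (((n:ℝ) + 1) * wc + 1)) * (1 + wc * (S + 1)) :=
      mul_le_mul_of_nonneg_left (by linarith) (by positivity)
    linarith



end Crest.Agent.R164.LTail
end

-- ▼ part R164/LMTail

/-!
Row 164 (helper275), GL11 of helper893: `MTAIL`, group overlaps at the label steps and the path.
-/

set_option autoImplicit false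

namespace Crest.Agent.R164.LG

open Finset MeasureTheory Filter Topology Crest.Agent.R141 Crest.Agent.R164 Crest.Agent.R164.Haar
open Crest.Agent.R164.LD (Prm HL EPh EO PL TO RJ MO)

noncomputable section

variable {p : Par} {N : ℕ}

theorem Rs_nonneg (n : ℕ) (P : G.Om (LD.B p N n) → ℝ) (l : ℕ) (ω : G.Om (LD.B p N n)) :
    0 ≤ Rs n P l ω := by
  unfold Rs
  exact mul_nonneg (by positivity) (Finset.sum_nonneg fun _ _ => sq_nonneg _)

theorem Rs_le_one (hN : 0 < N) {n : ℕ} {P : G.Om (LD.B p N n) → ℝ} (hP : IsProb P) (l : ℕ)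
    (ω : G.Om (LD.B p N n)) : Rs n P l ω ≤ 1 := by
  unfold Rs
  have hN' : (0:ℝ) < N := by exact_mod_cast hN
  rw [inv_mul_le_iff₀ hN', mul_one]
  calc ∑ i, (cE P ((G.fil (LD.B p N n)).F l) (fun ω => sv (ω.1.1.1 i)) ω) ^ 2
      ≤ ∑ _i : Fin N, (1:ℝ) := Finset.sum_le_sum fun i _ => LD.cE_sv_sq_le hP i _ ω
    _ = N := by simp

theorem eE_Rs_mono {n : ℕ} {P : G.Om (LD.B p N n) → ℝ} (hP : IsProb P) {l l' : ℕ} (h : l ≤ l') :
    eE P (Rs n P l) ≤ eE P (Rs n P l') := by
  have e : ∀ l, eE P (Rs n P l) = (N : ℝ)⁻¹ * ∑ i, eE P (fun ω =>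
      (cE P ((G.fil (LD.B p N n)).F l) (fun ω => sv (ω.1.1.1 i)) ω) ^ 2) := by
    intro l
    unfold Rs
    rw [eE_smul, eE_sum]
  rw [e, e]
  refine mul_le_mul_of_nonneg_left (Finset.sum_le_sum fun i _ => ?_) (by positivity)
  have hr : (G.fil (LD.B p N n)).F l' ≤ (G.fil (LD.B p N n)).F l :=
    (G.fil (LD.B p N n)).anti' h
  rw [← eE_cE hP ((G.fil (LD.B p N n)).F l) (fun ω => (cE P
    ((G.fil (LD.B p N n)).F l') (fun w => sv (w.1.1.1 i)) ω) ^ 2)]
  refine eE_mono hP fun w => ?_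
  have h1 := cE_sq_le hP ((G.fil (LD.B p N n)).F l)
    (cE P ((G.fil (LD.B p N n)).F l') (fun w => sv (w.1.1.1 i))) w
  rwa [cE_tower hP hr] at h1

variable (X : Glob) (n : ℕ) (Kp : ℝ) (θ : Prm p X.K X.J) (L : Fin N → X.LB)

theorem Pl_isProb (U : Mat (Fin N)) (d : DD p N) : IsProb (Pl X n Kp θ L U d) :=
  LD.PL_isProb X.val X.c X.t Kp θ (Glob.kap L) (Glob.lab L) U d

theorem adm_Rs (l : DD p N → ℕ) :
    LD.OAdm (X.nu N) (fun U d ω => Rs n (Pl X n Kp θ L U d) (l d) ω) where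
  meas d ω := by
    unfold Rs
    refine Measurable.const_mul (Finset.measurable_sum _ fun i _ => ?_) _
    exact (G.meas_cE (P := fun U => Pl X n Kp θ L U d)
      (f := fun _ w => sv (w.1.1.1 i))
      (fun ω => LD.meas_PL X.val X.c X.t Kp θ (Glob.kap L) (Glob.lab L) d ω)
      (fun _ => measurable_const) _ ω).pow_const 2
  bdd d := by
    rcases Nat.eq_zero_or_pos N with h0 | hN
    · subst h0
      refine ⟨0, Filter.Eventually.of_forall fun U ω => ?_⟩
      unfold Rs
      simp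
    · refine ⟨1, Filter.Eventually.of_forall fun U ω => ?_⟩
      rw [abs_of_nonneg (Rs_nonneg n _ _ ω)]
      exact Rs_le_one hN (Pl_isProb X n Kp θ L U d) _ ω

/-- averaged spin overlap at a level depending on `d` -/
def Rl (l : DD p N → ℕ) : ℝ := Eo X n Kp θ L (fun U d ω => Rs n (Pl X n Kp θ L U d) (l d) ω)

theorem Rl_mono {l l' : DD p N → ℕ} (h : ∀ d, l d ≤ l' d) :
    Rl X n Kp θ L l ≤ Rl X n Kp θ L l' := by
  have := X.hnu N
  exact LD.EO_mono X.val X.c X.t Kp θ (Glob.kap L) (Glob.lab L) (adm_Rs X n Kp θ L l)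
    (adm_Rs X n Kp θ L l') fun d => Filter.Eventually.of_forall fun U =>
      eE_Rs_mono (Pl_isProb X n Kp θ L U d) (h d)

theorem Rl_nonneg (hN : 0 < N) (l : DD p N → ℕ) : 0 ≤ Rl X n Kp θ L l := by
  have := X.hnu N
  have h := LD.EO_mono' X.val X.c X.t Kp θ (Glob.kap L) (Glob.lab L)
    (LD.OAdm.const (mu := X.nu N) (n := n) (fun (_ : DD p N) _ => (0 : ℝ)))
    (adm_Rs X n Kp θ L l) (fun d => Filter.Eventually.of_forall fun U ω =>
      Rs_nonneg n (Pl X n Kp θ L U d) (l d) ω)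
  rwa [LD.EO_const X.val X.c X.t Kp θ (Glob.kap L) (Glob.lab L) hN] at h

theorem Rl_le_one (hN : 0 < N) (l : DD p N → ℕ) : Rl X n Kp θ L l ≤ 1 := by
  have := X.hnu N
  have h := LD.EO_mono' X.val X.c X.t Kp θ (Glob.kap L) (Glob.lab L)
    (adm_Rs X n Kp θ L l)
    (LD.OAdm.const (mu := X.nu N) (n := n) (fun (_ : DD p N) _ => (1 : ℝ)))
    (fun d => Filter.Eventually.of_forall fun U ω =>
      Rs_le_one hN (Pl_isProb X n Kp θ L U d) (l d) ω)
  rwa [LD.EO_const X.val X.c X.t Kp θ (Glob.kap L) (Glob.lab L) hN] at h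

/-- averaged group overlap -/
def Rg (j : Fin X.J) (l : ℕ) : ℝ :=
  Eo X n Kp θ L (fun U d ω => RJ n (Pl X n Kp θ L U d) (Glob.lab L) j l ω)

theorem Rg_nonneg (hN : 0 < N) (j : Fin X.J) (l : ℕ) : 0 ≤ Rg X n Kp θ L j l := by
  have := X.hnu N
  have h := LD.EO_mono' X.val X.c X.t Kp θ (Glob.kap L) (Glob.lab L)
    (LD.OAdm.const (mu := X.nu N) (n := n) (fun (_ : DD p N) _ => (0 : ℝ)))
    (LD.adm_RJ X.val X.c X.t Kp θ (Glob.kap L) (Glob.lab L) j l)
    (fun d => Filter.Eventually.of_forall fun U ω => LD.RJ_nonneg n _ (Glob.lab L) j l ω)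
  rwa [LD.EO_const X.val X.c X.t Kp θ (Glob.kap L) (Glob.lab L) hN] at h

theorem Rg_le_one (hN : 0 < N) (j : Fin X.J) (l : ℕ) : Rg X n Kp θ L j l ≤ 1 := by
  have := X.hnu N
  have h := LD.EO_mono' X.val X.c X.t Kp θ (Glob.kap L) (Glob.lab L)
    (LD.adm_RJ X.val X.c X.t Kp θ (Glob.kap L) (Glob.lab L) j l)
    (LD.OAdm.const (mu := X.nu N) (n := n) (fun (_ : DD p N) _ => (1 : ℝ)))
    (fun d => Filter.Eventually.of_forall fun U ω =>
      LD.RJ_le_one (Pl_isProb X n Kp θ L U d) (Glob.lab L) j l ω)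
  rwa [LD.EO_const X.val X.c X.t Kp θ (Glob.kap L) (Glob.lab L) hN] at h

/-- the overlap is the weighted sum of the group overlaps -/
theorem sum_Rg (l : ℕ) : ∑ j, (Mag.rJ (Glob.lab L) j / (N : ℝ)) * Rg X n Kp θ L j l =
    Rl X n Kp θ L (fun _ => l) := by
  have := X.hnu N
  have h1 : ∀ j, (Mag.rJ (Glob.lab L) j / (N : ℝ)) * Rg X n Kp θ L j l =
      Eo X n Kp θ L (fun U d ω => (Mag.rJ (Glob.lab L) j / (N : ℝ)) *
        RJ n (Pl X n Kp θ L U d) (Glob.lab L) j l ω) := fun j =>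
    (LD.EO_smul X.val X.c X.t Kp θ (Glob.kap L) (Glob.lab L)
      (LD.adm_RJ X.val X.c X.t Kp θ (Glob.kap L) (Glob.lab L) j l) _).symm
  simp only [h1]
  have h2 := LD.EO_sum X.val X.c X.t Kp θ (Glob.kap L) (Glob.lab L) (n := n) (mu := X.nu N)
    Finset.univ (O := fun j U d ω => (Mag.rJ (Glob.lab L) j / (N : ℝ)) *
        RJ n (Pl X n Kp θ L U d) (Glob.lab L) j l ω)
    (fun j _ => (LD.adm_RJ X.val X.c X.t Kp θ (Glob.kap L) (Glob.lab L) j l).smul _)
  refine h2.symm.trans ?_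
  unfold Rl Eo
  congr 1
  funext U d ω
  exact LD.sum_RJ n (Pl X n Kp θ L U d) (Glob.lab L) l ω

variable {X n Kp θ L}

theorem good_ratio {d0 : ℝ} (hN : 0 < N) (hL : LabAvg.Good X.al d0 L) (j : Fin X.J) :
    |((X.γ j : ℚ) : ℝ) - Mag.rJ (Glob.lab L) j / (N : ℝ)| ≤ ((X.K : ℝ) + 1) * d0 := by
  have hN' : (0:ℝ) < N := by exact_mod_cast hN
  have h := LabTr.Good_snd (α := X.w) (γ := fun j => ((X.γ j : ℚ) : ℝ)) X.hs hL j
  rw [Fintype.card_fin] at h
  have e : ((X.γ j : ℚ) : ℝ) - Mag.rJ (Glob.lab L) j / (N : ℝ) =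
      -((((LabAvg.cnt (fun i => (L i).2) j : ℕ) : ℝ) - N * ((X.γ j : ℚ) : ℝ)) / N) := by
    have : Mag.rJ (Glob.lab L) j = ((LabAvg.cnt (fun i => (L i).2) j : ℕ) : ℝ) := rfl
    rw [this]
    field_simp
    ring
  rw [e, abs_neg, abs_div, abs_of_pos hN', div_le_iff₀ hN']
  refine h.trans (le_of_eq ?_)
  push_cast
  ring

/-- **(GL11)** -/
theorem mtail (X : Glob) : MTAIL X := by
  intro d0 hd0 p N n n' wc Kp θ L es lv P hN hL hS q r hr hwc hqr
  have hN' : (0:ℝ) < N := by exact_mod_cast hN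
  have hd : 0 < d0 := hd0.1
  have hnc : (0:ℝ) < (p.nc : ℝ) + 1 := by positivity
  -- the group sums
  set Y : Fin X.J → ℝ := fun j => ((p.nc : ℝ) + 1)⁻¹ *
      ∑ g' ∈ Finset.Ico (cellA (r * wc) q) p.nc, Rg X n Kp θ L j (p.mt g') with hY
  have hsum1 : ∀ j, ∑ g' ∈ Finset.Ico (cellA (r * wc) q) p.nc,
      Rg X n Kp θ L j (p.mt g') ≤ (p.nc : ℝ) := by
    intro j
    calc _ ≤ ∑ _g' ∈ Finset.Ico (cellA (r * wc) q) p.nc, (1:ℝ) :=
          Finset.sum_le_sum fun g _ => Rg_le_one X n Kp θ L hN j _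
      _ = ((p.nc - cellA (r * wc) q : ℕ) : ℝ) := by simp
      _ ≤ p.nc := by exact_mod_cast Nat.sub_le _ _
  have hY0 : ∀ j, 0 ≤ Y j := fun j => mul_nonneg (by positivity)
    (Finset.sum_nonneg fun g _ => Rg_nonneg X n Kp θ L hN j _)
  have hY1 : ∀ j, Y j ≤ 1 := by
    intro j
    rw [hY]
    simp only
    rw [inv_mul_le_iff₀ hnc]
    linarith [hsum1 j]
  -- replace `γ` by the true proportions
  have h1 : |∑ j, ((X.γ j : ℚ) : ℝ) * Y j - ∑ j, (Mag.rJ (Glob.lab L) j / (N : ℝ)) * Y j| ≤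
      (X.J : ℝ) * (((X.K : ℝ) + 1) * d0) := by
    rw [← Finset.sum_sub_distrib]
    refine (Finset.abs_sum_le_sum_abs _ _).trans ?_
    calc _ ≤ ∑ _j : Fin X.J, ((X.K : ℝ) + 1) * d0 := by
          refine Finset.sum_le_sum fun j _ => ?_
          rw [← sub_mul, abs_mul, abs_of_nonneg (hY0 j)]
          have h2 := good_ratio hN hL j
          have h3 : 0 ≤ ((X.K : ℝ) + 1) * d0 := by positivity
          calc _ ≤ ((X.K : ℝ) + 1) * d0 * 1 := mul_le_mul h2 (hY1 j) (hY0 j) h3
            _ = _ := mul_one _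
      _ = _ := by rw [Finset.sum_const, Finset.card_univ, Fintype.card_fin, nsmul_eq_mul]
  -- the total overlap
  have h2 : ∑ j, (Mag.rJ (Glob.lab L) j / (N : ℝ)) * Y j =
      (1 / ((((n' + 1) * wc : ℕ) : ℝ) + 1)) *
        ∑ g ∈ Finset.Ico ((q + 1) * r * wc - 1) ((n' + 1) * wc),
          Rl X n Kp θ L (fun _ => p.mt g) := by
    have e1 : ∀ j, (Mag.rJ (Glob.lab L) j / (N : ℝ)) * Y j = ((p.nc : ℝ) + 1)⁻¹ *
        ∑ g' ∈ Finset.Ico (cellA (r * wc) q) p.nc,
          (Mag.rJ (Glob.lab L) j / (N : ℝ)) * Rg X n Kp θ L j (p.mt g') := by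
      intro j
      rw [hY]
      simp only
      rw [mul_left_comm, Finset.mul_sum]
    simp only [e1]
    rw [← Finset.mul_sum, Finset.sum_comm]
    have e2 : ∀ g' : ℕ, ∑ j, (Mag.rJ (Glob.lab L) j / (N : ℝ)) * Rg X n Kp θ L j (p.mt g') =
        Rl X n Kp θ L (fun _ => p.mt g') := fun g' => sum_Rg X n Kp θ L _
    simp only [e2]
    have e3 : cellA (r * wc) q = (q + 1) * r * wc - 1 := by
      unfold cellA
      rw [mul_assoc]
    rw [e3, hS.hp, one_div]
  -- monotonicity
  have hmono := LTail.mono_tail_abs (n := n') hwc (fun g => Rl X n Kp θ L (fun _ => p.mt g)) P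
    (fun g => Rl_nonneg X n Kp θ L hN _) (fun g => Rl_le_one X n Kp θ L hN _)
    (fun i hi => by rw [hS.Peq i hi]; exact Rl_nonneg X n Kp θ L hN (fun d => lv d i))
    (fun i hi => by rw [hS.Peq i hi]; exact Rl_le_one X n Kp θ L hN (fun d => lv d i))
    (fun i hi g hg => by
      rw [hS.Peq i hi]
      refine Rl_mono X n Kp θ L (l := fun d => lv d i) (l' := fun _ => p.mt g) fun d => ?_
      obtain ⟨g0, t0, h3, h4, h5, h6⟩ := hS.cell d i hi
      rw [h6]
      refine (Par.ct_lt_mt (p := p) h5).le.trans ?_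
      unfold Par.mt
      exact Nat.mul_le_mul_right _ (by omega))
    (fun i hi g hg => by
      rw [hS.Peq i hi]
      refine Rl_mono X n Kp θ L (l := fun _ => p.mt g) (l' := fun d => lv d i) fun d => ?_
      obtain ⟨g0, t0, h3, h4, h5, h6⟩ := hS.cell d i hi
      rw [h6]
      unfold Par.mt Par.ct
      have : (g + 1) * (p.T + 1) ≤ g0 * (p.T + 1) := Nat.mul_le_mul_right _ (by omega)
      omega)
    (iq := (q + 1) * r) (Nat.mul_pos (Nat.succ_pos q) hr) (by omega)
  rw [← h2] at hmono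
  have e4 : ∑ j, ((X.γ j : ℚ) : ℝ) * (((p.nc : ℝ) + 1)⁻¹ *
      ∑ g' ∈ Finset.Ico (cellA (r * wc) q) p.nc,
        Eo X n Kp θ L (fun U d ω => RJ n (Pl X n Kp θ L U d) (Glob.lab L) j (p.mt g') ω)) =
      ∑ j, ((X.γ j : ℚ) : ℝ) * Y j := rfl
  rw [e4]
  have h5 := abs_sub_le (∑ j, ((X.γ j : ℚ) : ℝ) * Y j)
    (∑ j, (Mag.rJ (Glob.lab L) j / (N : ℝ)) * Y j)
    (((n' : ℝ) + 1)⁻¹ * ∑ i ∈ Finset.Ico ((q + 1) * r) (n' + 1), P i)
  rw [one_div ((n' : ℝ) + 1)] at hmono
  have h6 : 0 ≤ (X.J : ℝ) * (((X.K : ℝ) + 1) * d0) := by positivity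
  have h7 : 2 * ((X.K : ℝ) + 1) * X.J * d0 = 2 * ((X.J : ℝ) * (((X.K : ℝ) + 1) * d0)) := by ring
  rw [h7]
  linarith

end

end Crest.Agent.R164.LG
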