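import Crest.Agent.R164.Mag1
import Crest.Agent.R164.Atomic2
import Crest.Agent.R164.Trans249
import Crest.Agent.R164.LPen
import Crest.Agent.R164.LabAvg2

-- ▼ part R164/Fin248
section

/-!
Row 164 (helper552): E248 from the two abstract bounds (UB) and (LB).
-/

set_option autoImplicit false

namespace Crest.Agent.R164.Mag

open MeasureTheory Set Filter Topology
open Crest.ProbabilityR.InvariantGlass

/-! ### The grid of boxes -/

/-- lower end of the box -/
noncomputable def gl (K : ℕ) {J : ℕ} (κ : Fin J → Fin (2 * K)) (j : Fin J) : ℝ :=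
  (((κ j : ℕ) : ℝ) - K) / K

/-- upper end of the box -/
noncomputable def gu (K : ℕ) {J : ℕ} (κ : Fin J → Fin (2 * K)) (j : Fin J) : ℝ :=
  (((κ j : ℕ) : ℝ) - K + 1) / K

/-- closest rational corner to zero -/
def gm (K : ℕ) {J : ℕ} (κ : Fin J → Fin (2 * K)) (j : Fin J) : ℚ :=
  if K ≤ (κ j : ℕ) then (((κ j : ℕ) : ℚ) - K) / K else (((κ j : ℕ) : ℚ) - K + 1) / K

section grid

variable {K : ℕ} (hK : 0 < K) {J : ℕ} (κ : Fin J → Fin (2 * K)) (j : Fin J)
include hK

theorem gl_lt_gu : gl K κ j < gu K κ j := by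
  have hK' : (0:ℝ) < K := by exact_mod_cast hK
  unfold gl gu
  exact div_lt_div_of_pos_right (by linarith) hK'

theorem gu_sub_gl : gu K κ j - gl K κ j = 1 / K := by
  unfold gl gu
  ring

theorem gl_ge : -1 ≤ gl K κ j := by
  have hK' : (0:ℝ) < K := by exact_mod_cast hK
  unfold gl
  rw [le_div_iff₀ hK']
  have : (0:ℝ) ≤ ((κ j : ℕ) : ℝ) := Nat.cast_nonneg _
  linarith

theorem gu_le : gu K κ j ≤ 1 := by
  have hK' : (0:ℝ) < K := by exact_mod_cast hK
  unfold gu
  rw [div_le_one hK']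
  have h : (κ j : ℕ) + 1 ≤ 2 * K := (κ j).2
  have : ((κ j : ℕ) : ℝ) + 1 ≤ 2 * K := by exact_mod_cast h
  linarith

theorem gm_cast : ((gm K κ j : ℚ) : ℝ) = if K ≤ (κ j : ℕ) then gl K κ j else gu K κ j := by
  unfold gm gl gu
  split_ifs <;> push_cast <;> rfl

theorem gm_mem : (-1 : ℚ) < gm K κ j ∧ gm K κ j < 1 := by
  have hK' : (0:ℚ) < K := by exact_mod_cast hK
  have h : (κ j : ℕ) + 1 ≤ 2 * K := (κ j).2
  have h1 : ((κ j : ℕ) : ℚ) + 1 ≤ 2 * K := by exact_mod_cast h
  have h0 : (0:ℚ) ≤ ((κ j : ℕ) : ℚ) := Nat.cast_nonneg _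
  unfold gm
  split_ifs with hc
  · have hc' : (K:ℚ) ≤ ((κ j : ℕ) : ℚ) := by exact_mod_cast hc
    constructor
    · rw [lt_div_iff₀ hK']; linarith
    · rw [div_lt_one hK']; linarith
  · have hc' : ((κ j : ℕ) : ℚ) + 1 ≤ K := by
      push Not at hc
      exact_mod_cast hc
    constructor
    · rw [lt_div_iff₀ hK']; linarith
    · rw [div_lt_one hK']; linarith

theorem gm_corner (x : ℝ) (hx : x ∈ Icc (gl K κ j) (gu K κ j)) :
    |((gm K κ j : ℚ) : ℝ)| ≤ |x| ∧ 0 ≤ ((gm K κ j : ℚ) : ℝ) * x := by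
  have hK' : (0:ℝ) < K := by exact_mod_cast hK
  rw [gm_cast hK]
  split_ifs with hc
  · have hc' : (K:ℝ) ≤ ((κ j : ℕ) : ℝ) := by exact_mod_cast hc
    have h0 : 0 ≤ gl K κ j := by
      unfold gl
      exact div_nonneg (by linarith) hK'.le
    have hx0 : 0 ≤ x := h0.trans hx.1
    rw [abs_of_nonneg h0, abs_of_nonneg hx0]
    exact ⟨hx.1, mul_nonneg h0 hx0⟩
  · have hc' : ((κ j : ℕ) : ℝ) + 1 ≤ K := by
      push Not at hc
      exact_mod_cast hc
    have h0 : gu K κ j ≤ 0 := by
      unfold gu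
      exact div_nonpos_of_nonpos_of_nonneg (by linarith) hK'.le
    have hx0 : x ≤ 0 := hx.2.trans h0
    rw [abs_of_nonpos h0, abs_of_nonpos hx0]
    exact ⟨by linarith [hx.2], mul_nonneg_of_nonpos_of_nonpos h0 hx0⟩

theorem gm_close (x : ℝ) (hx : x ∈ Icc (gl K κ j) (gu K κ j)) :
    |x - ((gm K κ j : ℚ) : ℝ)| ≤ 1 / K := by
  have h1 := gu_sub_gl hK κ j
  rw [gm_cast hK, abs_le]
  split_ifs <;> constructor <;> linarith [hx.1, hx.2]

omit κ j in
theorem grid_cover (y : Fin J → ℝ) (hy : ∀ j, |y j| ≤ 1) :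
    ∃ κ : Fin J → Fin (2 * K), ∀ j, gl K κ j ≤ y j ∧ y j ≤ gu K κ j := by
  have hK' : (0:ℝ) < K := by exact_mod_cast hK
  have hj : ∀ j, ∃ k : Fin (2 * K), (((k : ℕ) : ℝ) - K) / K ≤ y j ∧
      y j ≤ (((k : ℕ) : ℝ) - K + 1) / K := by
    intro j
    have h1 := abs_le.1 (hy j)
    have h0 : 0 ≤ K * y j + K := by nlinarith [h1.1]
    have h2 : K * y j + K ≤ 2 * K := by nlinarith [h1.2]
    by_cases hlt : ⌊K * y j + K⌋₊ < 2 * K
    · refine ⟨⟨⌊K * y j + K⌋₊, hlt⟩, ?_, ?_⟩
      · rw [div_le_iff₀ hK']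
        have := Nat.floor_le h0
        simp only
        linarith
      · rw [le_div_iff₀ hK']
        have := Nat.lt_floor_add_one (K * y j + K)
        simp only
        linarith
    · push Not at hlt
      have h3 : ((2 * K : ℕ) : ℝ) ≤ K * y j + K := (Nat.le_floor_iff h0).1 hlt
      push_cast at h3
      have h4 : y j = 1 := by
        have : K * y j = K := by linarith
        have := mul_left_cancel₀ hK'.ne' (this.trans (mul_one _).symm)
        exact this
      refine ⟨⟨2 * K - 1, by omega⟩, ?_, ?_⟩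
      · have h5 : ((2 * K - 1 : ℕ) : ℝ) = 2 * K - 1 := by
          rw [Nat.cast_sub (by omega)]; push_cast; ring
        simp only
        rw [h5, h4, div_le_one hK']; linarith
      · have h5 : ((2 * K - 1 : ℕ) : ℝ) = 2 * K - 1 := by
          rw [Nat.cast_sub (by omega)]; push_cast; ring
        simp only
        rw [h5, h4, one_le_div hK']; linarith
  choose κ hκ using hj
  exact ⟨κ, hκ⟩

end grid

section main

variable {Ω : Type} [MeasurableSpace Ω] {μ : Measure ℝ} {lamPlus : ℝ}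
  {eig : (N : ℕ) → Fin N → ℝ} {P : Measure Ω} [IsProbabilityMeasure P]
  {Us : (N : ℕ) → Ω → (Fin N → Fin N → ℝ)}

/-- the upper half: `limsup E P_N ≤` every real above the magnetic value -/
theorem upper_half {Λ : ℝ} (hΛ : ∀ᶠ N : ℕ in atTop, ∀ i : Fin N, |eig N i| ≤ Λ)
    (hmeas : ∀ N, Measurable (Us N))
    (horth : ∀ N, ∀ᵐ ω ∂P, Matrix.of (Us N ω) ∈ Matrix.orthogonalGroup (Fin N) ℝ)
    (hHaar : ∀ (N : ℕ) (O : Matrix (Fin N) (Fin N) ℝ), O ∈ Matrix.orthogonalGroup (Fin N) ℝ →
      P.map (fun ω => fun i j => (Matrix.of (Us N ω) * O) i j) = P.map (Us N))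
    (hUB : UB μ lamPlus eig P Us) {J : ℕ} (c : Fin J → ℝ) (γ : Fin J → ℚ) (hγ : ∀ j, 0 < γ j)
    (hs : ∑ j, γ j = 1) (lab : (N : ℕ) → Fin N → Fin J)
    (hlab : ∀ j : Fin J, Tendsto
      (fun N : ℕ => ((Finset.univ.filter fun r : Fin N => lab N r = j).card : ℝ) / (N : ℝ))
      atTop (nhds ((γ j : ℚ) : ℝ)))
    {r : ℝ} (hr : magneticValue μ lamPlus c γ < (r : EReal)) {η : ℝ} (hη : 0 < η) :
    ∀ᶠ N : ℕ in atTop,
      ∫ ω, pressureFieldN (eig N) (Matrix.of (Us N ω)) (fun r => c (lab N r)) ∂P ≤ r + η := by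
  classical
  have hJ : 0 < J := by
    rcases Nat.eq_zero_or_pos J with h | h
    · subst h
      simp at hs
    · exact h
  set Cc := ∑ j, ((γ j : ℚ) : ℝ) * |c j| with hCc
  have hγ' : ∀ j, (0:ℝ) < ((γ j : ℚ) : ℝ) := fun j => by exact_mod_cast hγ j
  have hCc0 : 0 ≤ Cc := Finset.sum_nonneg fun j _ => mul_nonneg (hγ' j).le (abs_nonneg _)
  -- the mesh
  obtain ⟨K, hK⟩ := exists_nat_gt (Cc / (η / 4))
  have hK0 : 0 < K := by
    have : (0:ℝ) ≤ Cc / (η / 4) := by positivity
    have : (0:ℝ) < K := lt_of_le_of_lt this hK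
    exact_mod_cast this
  have hK' : (0:ℝ) < K := by exact_mod_cast hK0
  have hmesh : Cc * (1 / K) ≤ η / 4 := by
    rw [div_lt_iff₀ (by positivity)] at hK
    rw [mul_one_div, div_le_iff₀ hK']
    linarith
  -- real bounds for every box
  have hbox : ∀ κ : Fin J → Fin (2 * K), ∀ᶠ N : ℕ in atTop,
      ∫ ω, pressG (eig N) (Matrix.of (Us N ω)) (boxSet (lab N) (gl K κ) (gu K κ))
        (fun _ => 0) ∂P ≤
      r - ∑ j : Fin J, ((γ j : ℚ) : ℝ) * c j * ((gm K κ j : ℚ) : ℝ) + η / 4 := by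
    intro κ
    set q := ∑ j : Fin J, ((γ j : ℚ) : ℝ) * c j * ((gm K κ j : ℚ) : ℝ) with hq
    have h1 : (q : EReal) + VR μ lamPlus γ (fun j => ((gm K κ j : ℚ) : ℝ)) < (r : EReal) := by
      refine lt_of_le_of_lt ?_ hr
      rw [magneticValue_eq]
      exact le_iSup₂_of_le (gm K κ) (fun j => gm_mem hK0 κ j) le_rfl
    have h2 : VR μ lamPlus γ (fun j => ((gm K κ j : ℚ) : ℝ)) < ((r - q : ℝ) : EReal) := by
      by_contra hcon
      push Not at hcon
      have h3 : (q : EReal) + ((r - q : ℝ) : EReal) ≤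
          (q : EReal) + VR μ lamPlus γ (fun j => ((gm K κ j : ℚ) : ℝ)) := add_le_add le_rfl hcon
      rw [← EReal.coe_add] at h3
      have h4 : q + (r - q) = r := by ring
      rw [h4] at h3
      exact absurd h1 (not_lt.2 h3)
    unfold VR at h2
    rw [iInf_lt_iff] at h2
    obtain ⟨p, hp⟩ := h2
    rw [iInf_lt_iff] at hp
    obtain ⟨hpt, hp⟩ := hp
    exact hUB J γ hγ hs lab hlab (gl K κ) (gu K κ) (fun j => gl_lt_gu hK0 κ j)
      (fun j => ⟨gl_ge hK0 κ j, gu_le hK0 κ j⟩) (gm K κ) (fun j => gm_mem hK0 κ j)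
      (fun j x hx => gm_corner hK0 κ j x hx) p hpt (r - q) hp.le (η / 4) (by linarith)
  have hbox' := eventually_all.2 hbox
  -- label proportions
  have hprop : Tendsto (fun N : ℕ => ∑ j, |c j| *
      |((Finset.univ.filter fun r : Fin N => lab N r = j).card : ℝ) / (N : ℝ) -
        ((γ j : ℚ) : ℝ)|) atTop (𝓝 0) := by
    have : Tendsto (fun N : ℕ => ∑ j, |c j| *
        |((Finset.univ.filter fun r : Fin N => lab N r = j).card : ℝ) / (N : ℝ) -
          ((γ j : ℚ) : ℝ)|) atTop (𝓝 (∑ j, |c j| * |((γ j : ℚ) : ℝ) - ((γ j : ℚ) : ℝ)|)) :=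
      tendsto_finsetSum _ fun j _ => ((hlab j).sub_const _).abs.const_mul _
    simpa using this
  have hprop' := hprop.eventually (gt_mem_nhds (show (0:ℝ) < η / 8 by linarith))
  -- error terms
  haveI : Nonempty (Fin J → Fin (2 * K)) := ⟨fun _ => ⟨0, by omega⟩⟩
  set Cd : ℝ := (Fintype.card (Fin J → Fin (2 * K)) : ℝ) with hCd
  have herr : Tendsto (fun N : ℕ => Real.log Cd / N +
      Cd * Real.sqrt (2 * Λ ^ 2 / ((N : ℝ) - 2))) atTop (𝓝 0) := by
    have h1 : Tendsto (fun N : ℕ => Real.log Cd / (N : ℝ)) atTop (𝓝 0) :=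
      tendsto_const_nhds.div_atTop tendsto_natCast_atTop_atTop
    have h2 : Tendsto (fun N : ℕ => 2 * Λ ^ 2 / ((N : ℝ) - 2)) atTop (𝓝 0) :=
      tendsto_const_nhds.div_atTop
        (tendsto_atTop_add_const_right atTop (-2) tendsto_natCast_atTop_atTop)
    have h3 := (Real.continuous_sqrt.tendsto 0).comp h2
    rw [Real.sqrt_zero] at h3
    have h4 := h1.add (h3.const_mul Cd)
    simpa using h4
  have herr' := herr.eventually (gt_mem_nhds (show (0:ℝ) < η / 8 by linarith))
  filter_upwards [hbox', hprop', herr', hΛ, eventually_gt_atTop 2] with N h1 h2 h3 h4 hN2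
  have hN0 : 0 < N := by omega
  have hN' : (0:ℝ) < N := by exact_mod_cast hN0
  set V : (Fin N → Bool) → ℝ := fun σ => ∑ r : Fin N, c (lab N r) * spinVec σ r with hV
  have hcov : ∀ σ : Fin N → Bool, ∃ κ : Fin J → Fin (2 * K),
      σ ∈ boxSet (lab N) (gl K κ) (gu K κ) := by
    intro σ
    obtain ⟨κ, hκ⟩ := grid_cover hK0 (mag (lab N) σ) (abs_mag_le (lab N) σ)
    exact ⟨κ, mem_boxSet.2 hκ⟩
  have hmain := expect_cover (P := P) hN2 h4 (hmeas N) (horth N) (hHaar N)
    (fun κ : Fin J → Fin (2 * K) => boxSet (lab N) (gl K κ) (gu K κ)) hcov V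
    (r := r + η / 4 + η / 4 + η / 8) (by
      intro κ hne
      set q := ∑ j : Fin J, ((γ j : ℚ) : ℝ) * c j * ((gm K κ j : ℚ) : ℝ) with hq
      have h5 := integral_pressG_le_add P hN0 (eig N) (hmeas N) (horth N) hne (V := V)
        (V' := fun _ => 0) (d := q + Cc * (1 / K) + η / 8) (by
          intro σ hσ
          have hσ' := mem_boxSet.1 hσ
          rw [zero_add]
          simp only [hV]
          rw [field_eq]
          have h6 : ∀ j, c j * (((Finset.univ.filter fun r => lab N r = j).card : ℝ) *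
              mag (lab N) σ j) ≤ (((γ j : ℚ) : ℝ) * c j * ((gm K κ j : ℚ) : ℝ) +
              ((γ j : ℚ) : ℝ) * |c j| * (1 / K) + |c j| *
              |((Finset.univ.filter fun r : Fin N => lab N r = j).card : ℝ) / (N : ℝ) -
                ((γ j : ℚ) : ℝ)|) * N := by
            intro j
            set n_j := ((Finset.univ.filter fun r : Fin N => lab N r = j).card : ℝ) with hnj
            set g := ((γ j : ℚ) : ℝ) with hg
            have hg0 : 0 < g := hγ' j
            set m := mag (lab N) σ j with hm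
            set m0 := ((gm K κ j : ℚ) : ℝ) with hm0
            have e1 : n_j = (n_j / N) * N := by field_simp
            have e2 : c j * (n_j * m) = (g * (c j * m) + (n_j / N - g) * (c j * m)) * N := by
              conv_lhs => rw [e1]
              ring
            rw [e2]
            refine mul_le_mul_of_nonneg_right ?_ hN'.le
            have h7 : c j * m ≤ c j * m0 + |c j| * (1 / K) := by
              have h8 : c j * (m - m0) ≤ |c j| * (1 / K) := by
                refine (le_abs_self _).trans ?_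
                rw [abs_mul]
                exact mul_le_mul_of_nonneg_left
                  (gm_close hK0 κ j m ⟨(hσ' j).1, (hσ' j).2⟩) (abs_nonneg _)
              linarith
            have h9 : (n_j / N - g) * (c j * m) ≤ |c j| * |n_j / N - g| := by
              refine (le_abs_self _).trans ?_
              rw [abs_mul, abs_mul, mul_comm]
              refine mul_le_mul_of_nonneg_right ?_ (abs_nonneg _)
              have := abs_mag_le (lab N) σ j
              rw [← hm] at this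
              nlinarith [abs_nonneg (c j)]
            have h10 := mul_le_mul_of_nonneg_left h7 hg0.le
            nlinarith
          refine (Finset.sum_le_sum fun j _ => h6 j).trans ?_
          rw [← Finset.sum_mul, Finset.sum_add_distrib, Finset.sum_add_distrib, ← Finset.sum_mul]
          refine mul_le_mul_of_nonneg_right ?_ hN'.le
          linarith)
      have h6 := h1 κ
      linarith)
  have e : ∫ ω, pressG (eig N) (Matrix.of (Us N ω)) Finset.univ V ∂P =
      ∫ ω, pressureFieldN (eig N) (Matrix.of (Us N ω)) (fun r => c (lab N r)) ∂P := rfl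
  rw [e] at hmain
  linarith

/-- the lower half: `liminf E P_N ≥` every real below the magnetic value -/
theorem lower_half (hLB : LB μ lamPlus eig P Us) {J : ℕ} (c : Fin J → ℝ) (γ : Fin J → ℚ)
    (hγ : ∀ j, 0 < γ j)
    (hs : ∑ j, γ j = 1) (lab : (N : ℕ) → Fin N → Fin J)
    (hlab : ∀ j : Fin J, Tendsto
      (fun N : ℕ => ((Finset.univ.filter fun r : Fin N => lab N r = j).card : ℝ) / (N : ℝ))
      atTop (nhds ((γ j : ℚ) : ℝ)))
    {r : ℝ} (hr : (r : EReal) < magneticValue μ lamPlus c γ) :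
    ∀ᶠ N : ℕ in atTop, r ≤
      ∫ ω, pressureFieldN (eig N) (Matrix.of (Us N ω)) (fun r => c (lab N r)) ∂P := by
  rw [magneticValue_eq, lt_iSup_iff] at hr
  obtain ⟨m, hr⟩ := hr
  rw [lt_iSup_iff] at hr
  obtain ⟨hm, hr⟩ := hr
  obtain ⟨r', hr1, hr2⟩ := EReal.exists_rat_btwn_of_lt hr
  have hr1 : r < (r' : ℝ) := by exact_mod_cast hr1
  set mr : Fin J → ℝ := fun j => ((m j : ℚ) : ℝ) with hmr
  have hγ' : ∀ j, (0:ℝ) < ((γ j : ℚ) : ℝ) := fun j => by exact_mod_cast hγ j
  set Cc := ∑ j, ((γ j : ℚ) : ℝ) * |c j| with hCc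
  have hCc0 : 0 ≤ Cc := Finset.sum_nonneg fun j _ => mul_nonneg (hγ' j).le (abs_nonneg _)
  set d := (r' : ℝ) - r with hd
  have hd0 : 0 < d := by rw [hd]; linarith
  have hm1 : ∀ j, |mr j| < 1 := by
    intro j
    rw [abs_lt]
    constructor
    · have := (hm j).1; simp only [hmr]; exact_mod_cast this
    · have := (hm j).2; simp only [hmr]; exact_mod_cast this
  -- choice of `δ`
  set δ := min (1 / 2) (d / (4 * (Cc + 1))) with hδ
  have hδ0 : 0 < δ := by rw [hδ]; positivity
  have hδ1 : δ ≤ 1 / 2 := min_le_left _ _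
  have hδ2 : δ * Cc ≤ d / 4 := by
    have h1 : δ ≤ d / (4 * (Cc + 1)) := min_le_right _ _
    calc δ * Cc ≤ d / (4 * (Cc + 1)) * (Cc + 1) := by
          refine mul_le_mul h1 (by linarith) hCc0 (by positivity)
      _ = d / 4 := by field_simp
  -- lower bound of the nonzero means
  obtain ⟨e0, he0, hee⟩ : ∃ e0 : ℝ, 0 < e0 ∧ ∀ j, mr j ≠ 0 → e0 ≤ |mr j| := by
    classical
    by_cases hne : (Finset.univ.filter fun j => mr j ≠ 0).Nonempty
    · obtain ⟨j0, hj0, hmin⟩ := Finset.exists_min_image _ (fun j => |mr j|) hne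
      exact ⟨|mr j0|, abs_pos.2 (Finset.mem_filter.1 hj0).2, fun j hj =>
        hmin j (Finset.mem_filter.2 ⟨Finset.mem_univ _, hj⟩)⟩
    · refine ⟨1, one_pos, fun j hj => absurd ⟨j, Finset.mem_filter.2 ⟨Finset.mem_univ _, hj⟩⟩ hne⟩
  set ε := min (δ * e0) (min (d / 4) (d / (4 * (Cc + 1)))) with hε
  have hε0 : 0 < ε := by rw [hε]; positivity
  have hε1 : ε ≤ δ * e0 := min_le_left _ _
  have hε2 : ε ≤ d / 4 := (min_le_right _ _).trans (min_le_left _ _)
  have hε3 : ε * Cc ≤ d / 4 := by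
    have h1 : ε ≤ d / (4 * (Cc + 1)) := (min_le_right _ _).trans (min_le_right _ _)
    calc ε * Cc ≤ d / (4 * (Cc + 1)) * (Cc + 1) := by
          refine mul_le_mul h1 (by linarith) hCc0 (by positivity)
      _ = d / 4 := by field_simp
  set t : Fin J → ℝ := fun j => (1 - δ) * mr j with ht
  have ht1 : ∀ j, |t j| < 1 := by
    intro j
    simp only [ht]
    rw [abs_mul, abs_of_pos (by linarith : (0:ℝ) < 1 - δ)]
    nlinarith [hm1 j, abs_nonneg (mr j)]
  have key := hLB J c γ hγ hs lab hlab t ht1 ε hε0 (r' - d / 2) (by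
    intro m' hm' hz
    have habs : ∀ j, |m' j| ≤ |mr j| := by
      intro j
      by_cases h0 : mr j = 0
      · have : t j = 0 := by simp only [ht, h0, mul_zero]
        rw [hz j this, h0]
      · have h1 := hm' j
        have h2 : |m' j| ≤ |m' j - t j| + |t j| := by
          calc |m' j| = |(m' j - t j) + t j| := by ring_nf
            _ ≤ _ := abs_add_le _ _
        have h3 : |t j| = (1 - δ) * |mr j| := by
          simp only [ht]
          rw [abs_mul, abs_of_pos (by linarith : (0:ℝ) < 1 - δ)]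
        have h4 := hee j h0
        have h5 : δ * e0 ≤ δ * |mr j| := mul_le_mul_of_nonneg_left h4 hδ0.le
        rw [h3] at h2
        linarith
    have hV : VR μ lamPlus γ mr ≤ VR μ lamPlus γ m' := VR_mono μ lamPlus hγ habs
    have hlin : (∑ j : Fin J, ((γ j : ℚ) : ℝ) * c j * mr j) - d / 2 ≤
        ∑ j : Fin J, ((γ j : ℚ) : ℝ) * c j * m' j := by
      have h1 : ∀ j, ((γ j : ℚ) : ℝ) * c j * mr j - ((γ j : ℚ) : ℝ) * |c j| * (δ + ε) ≤
          ((γ j : ℚ) : ℝ) * c j * m' j := by
        intro j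
        have h2 : |mr j - m' j| ≤ δ + ε := by
          have h3 : |mr j - t j| ≤ δ := by
            simp only [ht]
            have : mr j - (1 - δ) * mr j = δ * mr j := by ring
            rw [this, abs_mul, abs_of_pos hδ0]
            nlinarith [hm1 j]
          calc |mr j - m' j| = |(mr j - t j) - (m' j - t j)| := by ring_nf
            _ ≤ |mr j - t j| + |m' j - t j| := abs_sub _ _
            _ ≤ δ + ε := add_le_add h3 (hm' j)
        have h4 : c j * (mr j - m' j) ≤ |c j| * (δ + ε) := by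
          refine (le_abs_self _).trans ?_
          rw [abs_mul]
          exact mul_le_mul_of_nonneg_left h2 (abs_nonneg _)
        have h5 := mul_le_mul_of_nonneg_left h4 (hγ' j).le
        nlinarith
      have h2 := Finset.sum_le_sum fun j (_ : j ∈ Finset.univ) => h1 j
      rw [Finset.sum_sub_distrib, ← Finset.sum_mul] at h2
      have h3 : Cc * (δ + ε) ≤ d / 2 := by nlinarith
      linarith
    have h1 : (((r' : ℝ) - d / 2 : ℝ) : EReal) =
        (((-(d / 2) : ℝ) : ℝ) : EReal) + (((r' : ℚ) : ℝ) : EReal) := by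
      rw [← EReal.coe_add]; congr 1; ring
    rw [h1]
    calc (((-(d / 2) : ℝ) : ℝ) : EReal) + (((r' : ℚ) : ℝ) : EReal)
        ≤ (((-(d / 2) : ℝ) : ℝ) : EReal) +
          (((∑ j : Fin J, ((γ j : ℚ) : ℝ) * c j * mr j : ℝ) : EReal) +
            VR μ lamPlus γ mr) := add_le_add le_rfl hr2.le
      _ = (((∑ j : Fin J, ((γ j : ℚ) : ℝ) * c j * mr j) - d / 2 : ℝ) : EReal) +
            VR μ lamPlus γ mr := by
          rw [← add_assoc, ← EReal.coe_add]; congr 2; ring
      _ ≤ _ := add_le_add (EReal.coe_le_coe_iff.2 hlin) hV)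
  filter_upwards [key] with N hN
  linarith

/-- **E248 from (UB) and (LB).** -/
theorem e248_of {Λ : ℝ} (hΛ : ∀ᶠ N : ℕ in atTop, ∀ i : Fin N, |eig N i| ≤ Λ)
    (hmeas : ∀ N, Measurable (Us N))
    (horth : ∀ N, ∀ᵐ ω ∂P, Matrix.of (Us N ω) ∈ Matrix.orthogonalGroup (Fin N) ℝ)
    (hHaar : ∀ (N : ℕ) (O : Matrix (Fin N) (Fin N) ℝ), O ∈ Matrix.orthogonalGroup (Fin N) ℝ →
      P.map (fun ω => fun i j => (Matrix.of (Us N ω) * O) i j) = P.map (Us N))
    (hUB : UB μ lamPlus eig P Us) (hLB : LB μ lamPlus eig P Us) :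
    E248 μ lamPlus eig P Us := by
  intro J c _ γ hγ hs lab hlab
  set a : ℕ → ℝ := fun N =>
    ∫ ω, pressureFieldN (eig N) (Matrix.of (Us N ω)) (fun r => c (lab N r)) ∂P with ha
  have hup : ∀ r : ℝ, magneticValue μ lamPlus c γ < (r : EReal) → ∀ η : ℝ, 0 < η →
      ∀ᶠ N in atTop, a N ≤ r + η := fun r hr η hη =>
    upper_half hΛ hmeas horth hHaar hUB c γ hγ hs lab hlab hr hη
  have hlo : ∀ r : ℝ, (r : EReal) < magneticValue μ lamPlus c γ → ∀ᶠ N in atTop, r ≤ a N :=
    fun r hr => lower_half hLB c γ hγ hs lab hlab hr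
  -- boundedness
  set Cb := |Λ| / 2 + ∑ j, |c j| + Real.log 2 with hCb
  have hbd : ∀ᶠ N in atTop, |a N| ≤ Cb := by
    filter_upwards [hΛ] with N hN
    have h1 : ∀ᵐ ω ∂P, ‖pressureFieldN (eig N) (Matrix.of (Us N ω)) (fun r => c (lab N r))‖ ≤
        Cb := by
      filter_upwards [horth N] with ω hω
      rw [Real.norm_eq_abs, ← pressG_univ]
      refine abs_pressG_le (fun i => (hN i).trans (le_abs_self Λ)) (abs_nonneg _) hω
        Finset.univ_nonempty (Finset.sum_nonneg fun _ _ => abs_nonneg _) ?_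
      intro σ _
      refine (Finset.abs_sum_le_sum_abs _ _).trans ?_
      have : ∀ r : Fin N, |c (lab N r) * spinVec σ r| ≤ ∑ j, |c j| := by
        intro r
        rw [abs_mul, abs_spinVec, mul_one]
        exact Finset.single_le_sum (f := fun j => |c j|) (fun _ _ => abs_nonneg _)
          (Finset.mem_univ _)
      refine (Finset.sum_le_sum fun r _ => this r).trans ?_
      simp [mul_comm]
    have h2 := norm_integral_le_of_norm_le_const h1
    simpa [Real.norm_eq_abs] using h2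
  have hne_bot : magneticValue μ lamPlus c γ ≠ ⊥ := by
    intro h
    have h1 := hup (-Cb - 2) (by rw [h]; exact EReal.bot_lt_coe _) 1 one_pos
    obtain ⟨N, hN1, hN2⟩ := (h1.and hbd).exists
    have := (abs_le.1 hN2).1
    linarith
  have hne_top : magneticValue μ lamPlus c γ ≠ ⊤ := by
    intro h
    have h1 := hlo (Cb + 1) (by rw [h]; exact EReal.coe_lt_top _)
    obtain ⟨N, hN1, hN2⟩ := (h1.and hbd).exists
    have := (abs_le.1 hN2).2
    linarith
  refine ⟨(magneticValue μ lamPlus c γ).toReal, (EReal.coe_toReal hne_top hne_bot).symm, ?_⟩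
  set F := (magneticValue μ lamPlus c γ).toReal with hF
  have hFe : ((F : ℝ) : EReal) = magneticValue μ lamPlus c γ := EReal.coe_toReal hne_top hne_bot
  rw [Metric.tendsto_nhds]
  intro ε hε
  have h1 := hup (F + ε / 4) (by
    rw [← hFe]; exact EReal.coe_lt_coe_iff.2 (by linarith)) (ε / 4) (by linarith)
  have h2 := hlo (F - ε / 2) (by
    rw [← hFe]; exact EReal.coe_lt_coe_iff.2 (by linarith))
  filter_upwards [h1, h2] with N hN1 hN2
  rw [Real.dist_eq, abs_lt]
  constructor <;> linarith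

end main

end Crest.Agent.R164.Mag
end

-- ▼ part R164/Atomic3
section

/-!
Row 164: reduction to finitely many eigenvalues, part 3: assembly.
-/

set_option autoImplicit false

namespace Crest.Agent.R164.Atomic

open MeasureTheory Crest.ProbabilityR.InvariantGlass Set Filter Topology
open Crest.Agent.R164.RTrans

lemma cidx_grid {n : ℕ} {a d : ℝ} (hd : 0 < d) (x : ℝ) (hx1 : a < x)
    (hx2 : x ≤ a + ((n:ℝ) + 1) * d) :
    a + ((cidx (fun k : Fin n => a + ((k.val:ℝ) + 1) * d) x).val : ℝ) * d < x ∧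
    x ≤ a + (((cidx (fun k : Fin n => a + ((k.val:ℝ) + 1) * d) x).val : ℝ) + 1) * d := by
  set t : Fin n → ℝ := fun k => a + ((k.val:ℝ) + 1) * d with ht
  have hmono : StrictMono t := by
    intro i j hij
    have : (i.val : ℝ) < j.val := by exact_mod_cast hij
    simp only [ht]
    nlinarith
  set i := cidx t x with hi
  constructor
  · rcases Nat.eq_zero_or_pos i.val with h0 | h0
    · rw [h0]; simpa using hx1
    · have hlt : i.val - 1 < n := by have := i.isLt; omega
      have h1 : ¬ (i.val ≤ (⟨i.val - 1, hlt⟩ : Fin n).val) := by simp only; omega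
      have h3 := mt (cidx_le_iff hmono x ⟨i.val - 1, hlt⟩).2 h1
      push Not at h3
      simp only [ht] at h3
      have h2 : ((i.val - 1 : ℕ) : ℝ) + 1 = i.val := by
        have : i.val - 1 + 1 = i.val := by omega
        exact_mod_cast this
      rw [h2] at h3
      exact h3
  · rcases lt_or_ge i.val n with h0 | h0
    · exact (cidx_le_iff hmono x ⟨i.val, h0⟩).1 le_rfl
    · have : i.val = n := by have := i.isLt; omega
      rw [this]; exact hx2

variable {μ : Measure ℝ} [IsProbabilityMeasure μ] {lo hi : ℝ}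

/-- choice of the grid -/
lemma exists_grid (h : μ (Icc lo hi) = 1) {d : ℝ} (hd : 0 < d) :
    ∃ (a : ℝ) (n : ℕ), a < lo ∧ lo < a + d ∧ a + (n:ℝ) * d < hi ∧ hi < a + ((n:ℝ) + 1) * d ∧
      ∀ j : ℕ, μ {a + ((j:ℝ) + 1) * d} = 0 := by
  have hlh := lo_le_hi h
  -- bad set
  have hcount : {x : ℝ | 0 < μ {x}}.Countable := by
    have := Measure.countable_meas_level_set_pos (μ := μ) (g := (id : ℝ → ℝ)) measurable_id
    simpa using this
  set B : Set ℝ := {x : ℝ | 0 < μ {x}} ∪ {hi} with hB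
  have hBc : B.Countable := hcount.union (countable_singleton _)
  have hbad : (⋃ j : ℕ, (fun x => x - (j:ℝ) * d) '' B).Countable :=
    countable_iUnion fun j => hBc.image _
  have hdense := hbad.dense_compl ℝ
  obtain ⟨a, ha1, ha2⟩ := hdense.exists_mem_open isOpen_Ioo
    (nonempty_Ioo.2 (by linarith : lo - d < lo))
  have hgood : ∀ j : ℕ, a + (j:ℝ) * d ∉ B := by
    intro j hj
    apply ha1
    refine mem_iUnion.2 ⟨j, ⟨a + (j:ℝ) * d, hj, by ring⟩⟩
  -- n
  have hex : ∃ n : ℕ, hi < a + ((n:ℝ) + 1) * d := by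
    obtain ⟨n, hn⟩ := exists_nat_gt ((hi - a) / d)
    refine ⟨n, ?_⟩
    rw [div_lt_iff₀ hd] at hn
    nlinarith
  classical
  set n := Nat.find hex with hn
  have hn1 : hi < a + ((n:ℝ) + 1) * d := Nat.find_spec hex
  refine ⟨a, n, ha2.2, by linarith [ha2.1], ?_, hn1, ?_⟩
  · rcases Nat.eq_zero_or_pos n with h0 | h0
    · rw [h0]
      have := ha2.2
      simp only [Nat.cast_zero, zero_mul, add_zero]
      linarith
    · have hmin := Nat.find_min hex (m := n - 1) (by omega)
      push Not at hmin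
      have h2 : ((n - 1 : ℕ) : ℝ) + 1 = n := by
        have : n - 1 + 1 = n := by omega
        exact_mod_cast this
      rw [h2] at hmin
      refine lt_of_le_of_ne hmin ?_
      intro heq
      apply hgood n
      rw [heq]
      exact mem_union_right _ rfl
  · intro j
    have := hgood (j + 1)
    rw [hB, mem_union, not_or] at this
    have h1 := this.1
    simp only [mem_ofPred_eq, not_lt, nonpos_iff_eq_zero] at h1
    have e : a + ((j + 1 : ℕ) : ℝ) * d = a + ((j:ℝ) + 1) * d := by push_cast; ring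
    rwa [e] at h1

/-- The rounding statement. -/
theorem exists_rounding (h : μ (Icc lo hi) = 1)
    (hedge : ∀ ε : ℝ, 0 < ε → 0 < μ (Icc lo (lo + ε)) ∧ 0 < μ (Icc (hi - ε) hi))
    (eig : (N : ℕ) → Fin N → ℝ)
    (hweak : ∀ φ : ℝ → ℝ, Continuous φ → (∃ C : ℝ, ∀ x, |φ x| ≤ C) →
      Tendsto (fun N : ℕ => (1 / (N : ℝ)) * ∑ i : Fin N, φ (eig N i)) atTop (𝓝 (∫ x, φ x ∂μ)))
    (hext : ∀ ε : ℝ, 0 < ε → ∀ᶠ N : ℕ in atTop, ∀ i : Fin N, lo - ε ≤ eig N i ∧ eig N i ≤ hi + ε)
    {d : ℝ} (hd : 0 < d) :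
    ∃ (K : ℕ) (w vl vu : Fin (K + 1) → ℝ) (labl labu : (N : ℕ) → Fin N → Fin (K + 1)),
      StrictMono vl ∧ StrictMono vu ∧ (∀ k, 0 < w k) ∧ ∑ k, w k = 1 ∧
      (∀ k, Tendsto (fun N : ℕ =>
        ((Finset.univ.filter fun i : Fin N => labl N i = k).card : ℝ) / (N : ℝ)) atTop (𝓝 (w k))) ∧
      (∀ k, Tendsto (fun N : ℕ =>
        ((Finset.univ.filter fun i : Fin N => labu N i = k).card : ℝ) / (N : ℝ)) atTop (𝓝 (w k))) ∧
      (∀ᶠ N : ℕ in atTop, ∀ i : Fin N, vl (labl N i) ≤ eig N i ∧ eig N i ≤ vu (labu N i)) ∧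
      (∀ x ∈ Icc (0:ℝ) 1, rTransform (atomic w vl) (vl (Fin.last K)) x ≤ rTransform μ hi x ∧
        rTransform μ hi x ≤ rTransform (atomic w vl) (vl (Fin.last K)) x + d) ∧
      (∀ x ∈ Icc (0:ℝ) 1, rTransform μ hi x ≤ rTransform (atomic w vu) (vu (Fin.last K)) x ∧
        rTransform (atomic w vu) (vu (Fin.last K)) x ≤ rTransform μ hi x + d) := by
  have hlh := lo_le_hi h
  obtain ⟨a, n, ha, had, han, han1, hat⟩ := exists_grid h hd
  set t : Fin n → ℝ := fun k => a + ((k.val:ℝ) + 1) * d with ht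
  have hmono : StrictMono t := by
    intro i j hij
    have : (i.val : ℝ) < j.val := by exact_mod_cast hij
    simp only [ht]
    nlinarith
  have hgrid : ∀ x, x ∈ Icc lo hi → a + ((cidx t x).val : ℝ) * d < x ∧
      x ≤ a + (((cidx t x).val : ℝ) + 1) * d := by
    intro x hx
    exact cidx_grid hd x (by linarith [hx.1]) (by linarith [hx.2])
  set w : Fin (n + 1) → ℝ := fun i => μ.real (cidx t ⁻¹' {i}) with hw
  have hwnn : ∀ i, 0 ≤ w i := fun i => measureReal_nonneg
  have hmeas := measurable_cidx hmono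
  have hint : ∀ (φ : Fin (n + 1) → ℝ), ∫ x, φ (cidx t x) ∂μ = ∑ i, w i * φ i := by
    intro φ
    have h1 : ∫ x, φ (cidx t x) ∂μ = ∫ i, φ i ∂(μ.map (cidx t)) := by
      rw [integral_map hmeas.aemeasurable]
      exact (measurable_of_finite φ).aestronglyMeasurable
    have : IsProbabilityMeasure (μ.map (cidx t)) :=
      Measure.isProbabilityMeasure_map hmeas.aemeasurable
    rw [h1, integral_fintype (by
      refine Integrable.of_bound (C := ∑ i, |φ i|) (measurable_of_finite φ).aestronglyMeasurable ?_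
      refine Eventually.of_forall fun i => ?_
      rw [Real.norm_eq_abs]
      exact Finset.single_le_sum (f := fun i => |φ i|) (fun i _ => abs_nonneg _) (Finset.mem_univ i))]
    refine Finset.sum_congr rfl fun i _ => ?_
    rw [map_measureReal_apply hmeas (measurableSet_singleton i), smul_eq_mul]
  have hws : ∑ i, w i = 1 := by
    have := hint (fun _ => 1)
    simp only [mul_one] at this
    rw [← this]; simp
  have hw0 : 0 < w 0 := by
    simp only [hw]
    rw [measureReal_def, ENNReal.toReal_pos_iff]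
    refine ⟨lt_of_lt_of_le (hedge (a + d - lo) (by linarith)).1 (measure_mono ?_),
      measure_lt_top _ _⟩
    intro x hx
    have hx2 : x ≤ a + d := by have := hx.2; linarith
    rw [mem_preimage, mem_singleton_iff]
    rcases Nat.eq_zero_or_pos n with h0 | h0
    · ext
      have := (cidx t x).isLt
      simp only [Fin.val_zero]; omega
    · have h1 := (cidx_le_iff hmono x ⟨0, h0⟩).2 (by simp only [ht]; push_cast; linarith)
      ext
      simp only [Fin.val_zero] at h1 ⊢
      omega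
  have hwn : 0 < w (Fin.last n) := by
    simp only [hw]
    rw [measureReal_def, ENNReal.toReal_pos_iff]
    refine ⟨lt_of_lt_of_le (hedge ((hi - (a + (n:ℝ) * d)) / 2) (by linarith)).2 (measure_mono ?_),
      measure_lt_top _ _⟩
    intro x hx
    have hx1 : a + (n:ℝ) * d < x := by have := hx.1; linarith
    rw [mem_preimage, mem_singleton_iff]
    rcases Nat.eq_zero_or_pos n with h0 | h0
    · ext
      have := (cidx t x).isLt
      simp only [Fin.val_last]; omega
    · have hlt : n - 1 < n := by omega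
      have h2 : ((n - 1 : ℕ) : ℝ) + 1 = n := by
        have : n - 1 + 1 = n := by omega
        exact_mod_cast this
      have h1 : ¬ ((cidx t x).val ≤ (⟨n - 1, hlt⟩ : Fin n).val) := by
        rw [cidx_le_iff hmono]
        simp only [ht]
        rw [h2]
        push Not
        exact hx1
      ext
      simp only [Fin.val_last] at h1 ⊢
      have := (cidx t x).isLt
      omega
  obtain ⟨K, e, f, g, hemono, hepos, helast, hefirst, hf, hg, hfs, hgs, hfg⟩ :=
    exists_merge w hwnn hw0 hwn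
  set w' : Fin (K + 1) → ℝ := fun k => w (e k) with hw'
  have hsum_merge : ∀ φ : Fin (n + 1) → ℝ, ∑ k, w (e k) * φ (e k) = ∑ i, w i * φ i := by
    intro φ
    have h1 : ∀ k, w (e k) * φ (e k) = ∑ i, if f i = k then w i * φ i else 0 := by
      intro k
      rw [← hfs k, Finset.sum_mul]
      refine Finset.sum_congr rfl fun i _ => ?_
      split_ifs with hik
      · rcases (hwnn i).eq_or_lt with h0 | h0
        · rw [← h0]; simp
        · rw [← hik, (hfg i h0).1]
      · simp
    simp only [h1]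
    rw [Finset.sum_comm]
    refine Finset.sum_congr rfl fun i _ => ?_
    simp
  have hw's : ∑ k, w' k = 1 := by
    have := hsum_merge (fun _ => 1)
    simp only [mul_one] at this
    rw [← hws, ← this]
  have hprop := tendsto_prop eig hweak hmono (fun k => hat k.val)
  set vl : Fin (K + 1) → ℝ := fun k => a + ((e k).val : ℝ) * d with hvl
  set vu : Fin (K + 1) → ℝ := fun k => a + (((e k).val : ℝ) + 1) * d with hvu
  have hcast : ∀ i j : Fin (n + 1), i ≤ j → (i.val : ℝ) ≤ j.val := fun i j hij => by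
    exact_mod_cast hij
  have hcast' : ∀ i j : Fin (n + 1), i < j → (i.val : ℝ) < j.val := fun i j hij => by
    exact_mod_cast hij
  have hvl_last : vl (Fin.last K) = a + (n:ℝ) * d := by simp only [hvl, helast, Fin.val_last]
  have hvu_last : vu (Fin.last K) = a + ((n:ℝ) + 1) * d := by
    simp only [hvu, helast, Fin.val_last]
  -- supports
  have hval_le : ∀ k, (0:ℝ) ≤ ((e k).val : ℝ) ∧ ((e k).val : ℝ) ≤ n := by
    intro k
    refine ⟨Nat.cast_nonneg _, ?_⟩
    have : (e k).val ≤ n := by have := (e k).isLt; omega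
    exact_mod_cast this
  have hpl := atomic_prob (w := w') vl (fun k => (hepos k).le) hw's
  have hpu := atomic_prob (w := w') vu (fun k => (hepos k).le) hw's
  have hsl : (atomic w' vl) (Icc a (vl (Fin.last K))) = 1 := by
    refine atomic_supp (fun k => (hepos k).le) hw's fun k => ?_
    rw [hvl_last]
    obtain ⟨h1, h2⟩ := hval_le k
    simp only [hvl]
    constructor <;> nlinarith
  have hsu : (atomic w' vu) (Icc a (vu (Fin.last K))) = 1 := by
    refine atomic_supp (fun k => (hepos k).le) hw's fun k => ?_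
    rw [hvu_last]
    obtain ⟨h1, h2⟩ := hval_le k
    simp only [hvu]
    constructor <;> nlinarith
  -- the resolvents
  have hGl : ∀ z, G (atomic w' vl) z = ∑ i : Fin (n+1), w i * (z - (a + (i.val:ℝ) * d))⁻¹ := by
    intro z
    unfold G
    rw [atomic_integral vl (fun k => (hepos k).le)]
    exact hsum_merge (fun i => (z - (a + (i.val:ℝ) * d))⁻¹)
  have hGu : ∀ z, G (atomic w' vu) z =
      ∑ i : Fin (n+1), w i * (z - (a + ((i.val:ℝ) + 1) * d))⁻¹ := by
    intro z
    unfold G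
    rw [atomic_integral vu (fun k => (hepos k).le)]
    exact hsum_merge (fun i => (z - (a + ((i.val:ℝ) + 1) * d))⁻¹)
  have hGshift : ∀ z, G (atomic w' vu) (z + d) = G (atomic w' vl) z := by
    intro z
    rw [hGl, hGu]
    refine Finset.sum_congr rfl fun i _ => ?_
    congr 2; ring
  have hivn : ∀ i : Fin (n + 1), (0:ℝ) ≤ (i.val : ℝ) ∧ (i.val : ℝ) ≤ n := by
    intro i
    refine ⟨Nat.cast_nonneg _, ?_⟩
    have : i.val ≤ n := by have := i.isLt; omega
    exact_mod_cast this
  have hlow : ∀ z, hi < z → G (atomic w' vl) z ≤ G μ z := by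
    intro z hz
    rw [hGl, ← hint (fun i => (z - (a + (i.val:ℝ) * d))⁻¹)]
    unfold G
    refine integral_mono_of h ?_ (integrable_inv h hz) ?_
    · refine integrable_of_bdd h ?_ (∑ i : Fin (n+1), |(z - (a + (i.val:ℝ) * d))⁻¹|) ?_
      · exact (measurable_of_finite (fun i : Fin (n+1) => (z - (a + (i.val:ℝ) * d))⁻¹)).comp hmeas
      · intro x _
        exact Finset.single_le_sum (f := fun i : Fin (n+1) => |(z - (a + (i.val:ℝ) * d))⁻¹|)
          (fun i _ => abs_nonneg _) (Finset.mem_univ _)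
    · intro x hx
      obtain ⟨h1, _⟩ := hgrid x hx
      have h3 : 0 < z - x := by linarith [hx.2]
      exact inv_anti₀ h3 (by linarith)
  have hup : ∀ z, vu (Fin.last K) < z → G μ z ≤ G (atomic w' vu) z := by
    intro z hz
    rw [hvu_last] at hz
    have hz' : hi < z := by linarith
    rw [hGu, ← hint (fun i => (z - (a + ((i.val:ℝ) + 1) * d))⁻¹)]
    unfold G
    refine integral_mono_of h (integrable_inv h hz') ?_ ?_
    · refine integrable_of_bdd h ?_ (∑ i : Fin (n+1), |(z - (a + ((i.val:ℝ) + 1) * d))⁻¹|) ?_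
      · exact (measurable_of_finite
          (fun i : Fin (n+1) => (z - (a + ((i.val:ℝ) + 1) * d))⁻¹)).comp hmeas
      · intro x _
        exact Finset.single_le_sum (f := fun i : Fin (n+1) => |(z - (a + ((i.val:ℝ) + 1) * d))⁻¹|)
          (fun i _ => abs_nonneg _) (Finset.mem_univ _)
    · intro x hx
      obtain ⟨_, h1⟩ := hgrid x hx
      have h2 := (hivn (cidx t x)).2
      have h3 : 0 < z - (a + (((cidx t x).val:ℝ) + 1) * d) := by nlinarith
      exact inv_anti₀ h3 (by linarith)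
  refine ⟨K, w', vl, vu, fun N i => g (cidx t (eig N i)), fun N i => f (cidx t (eig N i)),
    ?_, ?_, hepos, hw's, ?_, ?_, ?_, ?_, ?_⟩
  · intro i j hij
    have := hcast' _ _ (hemono hij)
    simp only [hvl]
    nlinarith
  · intro i j hij
    have := hcast' _ _ (hemono hij)
    simp only [hvu]
    nlinarith
  · intro k
    have := tendsto_merge g (fun N i => cidx t (eig N i)) w hprop k
    rwa [hgs k] at this
  · intro k
    have := tendsto_merge f (fun N i => cidx t (eig N i)) w hprop k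
    rwa [hfs k] at this
  · set δ : ℝ := min ((lo - a) / 2) ((a + ((n:ℝ) + 1) * d - hi) / 2) with hδ
    have hδ0 : 0 < δ := lt_min (by linarith) (by linarith)
    filter_upwards [hext δ hδ0] with N hN i
    obtain ⟨h1, h2⟩ := hN i
    have h3 : δ ≤ (lo - a) / 2 := min_le_left _ _
    have h4 : δ ≤ (a + ((n:ℝ) + 1) * d - hi) / 2 := min_le_right _ _
    obtain ⟨h5, h6⟩ := cidx_grid (n := n) hd (eig N i) (a := a) (by linarith) (by linarith)
    constructor
    · have := hcast _ _ (hg (cidx t (eig N i)))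
      simp only [hvl]
      nlinarith
    · have := hcast _ _ (hf (cidx t (eig N i)))
      simp only [hvu]
      nlinarith
  · intro x hx
    exact rT_compare hsl h (by rw [hvl_last]; linarith) (by rw [hvl_last]; linarith) hlow
      (by
        intro z hz
        rw [← hGshift]
        refine hup _ ?_
        rw [hvu_last]; rw [hvl_last] at hz; linarith) hx
  · intro x hx
    exact rT_compare h hsu (by rw [hvu_last]; linarith) (by rw [hvu_last]; linarith) hup
      (by
        intro z hz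
        rw [hGshift]
        exact hlow z hz) hx

/-! ### Monotonicity of the pressure in the eigenvalues -/

lemma pressureFieldN_mono {N : ℕ} {eig eig' : Fin N → ℝ} (h : ∀ i, eig i ≤ eig' i)
    (U : Matrix (Fin N) (Fin N) ℝ) (c : Fin N → ℝ) :
    pressureFieldN eig U c ≤ pressureFieldN eig' U c := by
  unfold pressureFieldN
  refine mul_le_mul_of_nonneg_left ?_ (by positivity)
  have hpos : 0 < (1 / 2 : ℝ) ^ N * ∑ σ : Fin N → Bool,
      Real.exp ((1 / 2) * (∑ i : Fin N, eig i * (U.mulVec (spinVec σ) i) ^ 2) +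
        ∑ r : Fin N, c r * spinVec σ r) := by positivity
  refine Real.log_le_log hpos ?_
  refine mul_le_mul_of_nonneg_left (Finset.sum_le_sum fun σ _ => Real.exp_le_exp.2 ?_)
    (by positivity)
  have : ∑ i : Fin N, eig i * (U.mulVec (spinVec σ) i) ^ 2 ≤
      ∑ i : Fin N, eig' i * (U.mulVec (spinVec σ) i) ^ 2 :=
    Finset.sum_le_sum fun i _ => mul_le_mul_of_nonneg_right (h i) (sq_nonneg _)
  linarith

/-- **Reduction of S0248 to spectra with finitely many distinct eigenvalues of positive limiting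
proportions.** -/
theorem h248_of_atomic {Ω : Type} [MeasurableSpace Ω] {P : Measure Ω} [IsProbabilityMeasure P]
    {Us : (N : ℕ) → Ω → (Fin N → Fin N → ℝ)} (hmeas : ∀ N, Measurable (Us N))
    (horth : ∀ N, ∀ᵐ ω ∂P, Matrix.of (Us N ω) ∈ Matrix.orthogonalGroup (Fin N) ℝ)
    (h : μ (Icc lo hi) = 1)
    (hedge : ∀ ε : ℝ, 0 < ε → 0 < μ (Icc lo (lo + ε)) ∧ 0 < μ (Icc (hi - ε) hi))
    (eig : (N : ℕ) → Fin N → ℝ)
    (hweak : ∀ φ : ℝ → ℝ, Continuous φ → (∃ C : ℝ, ∀ x, |φ x| ≤ C) →
      Tendsto (fun N : ℕ => (1 / (N : ℝ)) * ∑ i : Fin N, φ (eig N i)) atTop (𝓝 (∫ x, φ x ∂μ)))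
    (hext : ∀ ε : ℝ, 0 < ε → ∀ᶠ N : ℕ in atTop, ∀ i : Fin N, lo - ε ≤ eig N i ∧ eig N i ≤ hi + ε)
    (hat : ∀ (K : ℕ) (w val : Fin (K + 1) → ℝ), StrictMono val → (∀ k, 0 < w k) → ∑ k, w k = 1 →
      ∀ (lab : (N : ℕ) → Fin N → Fin (K + 1)),
      (∀ k, Tendsto (fun N : ℕ =>
        ((Finset.univ.filter fun i : Fin N => lab N i = k).card : ℝ) / (N : ℝ)) atTop (𝓝 (w k))) →
      H248 (atomic w val) (val (Fin.last K)) (fun N i => val (lab N i)) P Us) :
    H248 μ hi eig P Us := by
  intro J cval hinj γ hγ hγs flab hflab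
  -- for every d > 0 a two-sided approximation
  have key : ∀ d : ℝ, 0 < d → ∃ F : ℝ,
      ((F : ℝ) : EReal) ≤ magneticValue μ hi cval γ ∧
      magneticValue μ hi cval γ ≤ ((F + d / 2 : ℝ) : EReal) ∧
      (∀ᶠ N : ℕ in atTop, F - d ≤ ∫ ω, pressureFieldN (eig N) (Matrix.of (Us N ω))
          (fun r => cval (flab N r)) ∂P ∧
        ∫ ω, pressureFieldN (eig N) (Matrix.of (Us N ω)) (fun r => cval (flab N r)) ∂P
          ≤ F + 2 * d) ∧
      (∀ᵐ ω ∂P, ∀ᶠ N : ℕ in atTop, F - d ≤ pressureFieldN (eig N) (Matrix.of (Us N ω))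
          (fun r => cval (flab N r)) ∧
        pressureFieldN (eig N) (Matrix.of (Us N ω)) (fun r => cval (flab N r)) ≤ F + 2 * d) := by
    intro d hd
    obtain ⟨K, w, vl, vu, labl, labu, hvl, hvu, hw, hws, hpl, hpu, hsand, hRl, hRu⟩ :=
      exists_rounding h hedge eig hweak hext hd
    obtain ⟨Fl, hFl, hFlE, hFlas⟩ := hat K w vl hvl hw hws labl hpl J cval hinj γ hγ hγs flab hflab
    obtain ⟨Fu, hFu, hFuE, hFuas⟩ := hat K w vu hvu hw hws labu hpu J cval hinj γ hγ hγs flab hflab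
    have := atomic_prob (w := w) vl (fun k => (hw k).le) hws
    have := atomic_prob (w := w) vu (fun k => (hw k).le) hws
    have hsl : (atomic w vl) (Icc (vl 0) (vl (Fin.last K))) = 1 :=
      atomic_supp (fun k => (hw k).le) hws
        (fun k => ⟨hvl.monotone (Fin.zero_le _), hvl.monotone (Fin.le_last _)⟩)
    have hsu : (atomic w vu) (Icc (vu 0) (vu (Fin.last K))) = 1 :=
      atomic_supp (fun k => (hw k).le) hws
        (fun k => ⟨hvu.monotone (Fin.zero_le _), hvu.monotone (Fin.le_last _)⟩)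
    obtain ⟨c1, c2⟩ := magneticValue_compare hsl h hRl cval γ
    obtain ⟨c3, c4⟩ := magneticValue_compare h hsu hRu cval γ
    rw [hFl] at c1 c2
    rw [hFu] at c3 c4
    have hFuFl : Fu ≤ Fl + d := by
      have h1 : ((Fu : ℝ) : EReal) ≤ ((Fl : ℝ) : EReal) + ((d / 2 : ℝ) : EReal) +
          ((d / 2 : ℝ) : EReal) := c4.trans (add_le_add c2 le_rfl)
      rw [← EReal.coe_add, ← EReal.coe_add, EReal.coe_le_coe_iff] at h1
      linarith
    have hintg : ∀ (N : ℕ) (ei : Fin N → ℝ), Integrable (fun ω => pressureFieldN ei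
        (Matrix.of (Us N ω)) (fun r => cval (flab N r))) P := fun N ei =>
      integrable_pressureFieldN P ei (hmeas N) (horth N) _
    refine ⟨Fl, c1, ?_, ?_, ?_⟩
    · rw [EReal.coe_add]; exact c2
    · have e1 := (tendsto_order.1 hFlE).1 (Fl - d) (by linarith)
      have e2 := (tendsto_order.1 hFuE).2 (Fl + 2 * d) (by linarith)
      filter_upwards [hsand, e1, e2] with N hN h1 h2
      constructor
      · refine h1.le.trans ?_
        exact integral_mono (hintg N _) (hintg N _)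
          (fun ω => pressureFieldN_mono (fun i => (hN i).1) _ _)
      · refine le_trans ?_ h2.le
        exact integral_mono (hintg N _) (hintg N _)
          (fun ω => pressureFieldN_mono (fun i => (hN i).2) _ _)
    · filter_upwards [hFlas, hFuas] with ω h1 h2
      have e1 := (tendsto_order.1 h1).1 (Fl - d) (by linarith)
      have e2 := (tendsto_order.1 h2).2 (Fl + 2 * d) (by linarith)
      filter_upwards [hsand, e1, e2] with N hN h3 h4
      exact ⟨h3.le.trans (pressureFieldN_mono (fun i => (hN i).1) _ _),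
        (pressureFieldN_mono (fun i => (hN i).2) _ _).trans h4.le⟩
  -- the value is real
  obtain ⟨F1, hF1, hF1', _⟩ := key 1 one_pos
  have hne_bot : magneticValue μ hi cval γ ≠ ⊥ := by
    intro hb
    rw [hb] at hF1
    exact absurd (le_bot_iff.1 hF1) (EReal.coe_ne_bot _)
  have hne_top : magneticValue μ hi cval γ ≠ ⊤ := by
    intro hb
    rw [hb] at hF1'
    exact absurd (top_le_iff.1 hF1') (EReal.coe_ne_top _)
  set F := (magneticValue μ hi cval γ).toReal with hF
  have hFe : magneticValue μ hi cval γ = ((F : ℝ) : EReal) :=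
    (EReal.coe_toReal hne_top hne_bot).symm
  refine ⟨F, hFe, ?_, ?_⟩
  · rw [Metric.tendsto_atTop]
    intro ε hε
    obtain ⟨F', h1, h2, h3, _⟩ := key (ε / 4) (by linarith)
    rw [hFe, EReal.coe_le_coe_iff] at h1 h2
    obtain ⟨N0, hN0⟩ := eventually_atTop.1 h3
    refine ⟨N0, fun N hN => ?_⟩
    obtain ⟨h4, h5⟩ := hN0 N hN
    rw [Real.dist_eq, abs_lt]
    constructor <;> linarith
  · have hall : ∀ᵐ ω ∂P, ∀ q : ℕ, ∃ F' : ℝ, F' ≤ F ∧ F ≤ F' + (1 / ((q:ℝ) + 1)) / 2 ∧
        ∀ᶠ N : ℕ in atTop, F' - 1 / ((q:ℝ) + 1) ≤ pressureFieldN (eig N) (Matrix.of (Us N ω))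
          (fun r => cval (flab N r)) ∧
        pressureFieldN (eig N) (Matrix.of (Us N ω)) (fun r => cval (flab N r)) ≤
          F' + 2 * (1 / ((q:ℝ) + 1)) := by
      rw [ae_all_iff]
      intro q
      obtain ⟨F', h1, h2, _, h3⟩ := key (1 / ((q:ℝ) + 1)) (by positivity)
      rw [hFe, EReal.coe_le_coe_iff] at h1 h2
      filter_upwards [h3] with ω hω
      exact ⟨F', h1, h2, hω⟩
    filter_upwards [hall] with ω hω
    rw [Metric.tendsto_atTop]
    intro ε hε
    obtain ⟨q, hq⟩ := exists_nat_one_div_lt (show 0 < ε / 4 by linarith)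
    obtain ⟨F', h1, h2, h3⟩ := hω q
    obtain ⟨N0, hN0⟩ := eventually_atTop.1 h3
    refine ⟨N0, fun N hN => ?_⟩
    obtain ⟨h4, h5⟩ := hN0 N hN
    rw [Real.dist_eq, abs_lt]
    constructor <;> linarith

end Crest.Agent.R164.Atomic
end

-- ▼ part R164/Top248
section

/-!
Row 164 (helper552): H248 from the two bounds (UB), (LB) for finite spectra.
-/

set_option autoImplicit false

namespace Crest.Agent.R164.Mag

open MeasureTheory Set Filter Topology
open Crest.ProbabilityR.InvariantGlass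
open Crest.Agent.R164.Atomic

/-- **H248 (all of S0248) from (UB) and (LB) for spectra with finitely many distinct
eigenvalues of positive limiting proportion.** -/
theorem h248_of_bounds {Ω : Type} [MeasurableSpace Ω] {P : Measure Ω} [IsProbabilityMeasure P]
    {Us : (N : ℕ) → Ω → (Fin N → Fin N → ℝ)} (hmeas : ∀ N, Measurable (Us N))
    (horth : ∀ N, ∀ᵐ ω ∂P, Matrix.of (Us N ω) ∈ Matrix.orthogonalGroup (Fin N) ℝ)
    (hHaar : ∀ (N : ℕ) (O : Matrix (Fin N) (Fin N) ℝ), O ∈ Matrix.orthogonalGroup (Fin N) ℝ →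
      P.map (fun ω => fun i j => (Matrix.of (Us N ω) * O) i j) = P.map (Us N))
    {μ : Measure ℝ} [IsProbabilityMeasure μ] {lo hi : ℝ}
    (h : μ (Icc lo hi) = 1)
    (hedge : ∀ ε : ℝ, 0 < ε → 0 < μ (Icc lo (lo + ε)) ∧ 0 < μ (Icc (hi - ε) hi))
    (eig : (N : ℕ) → Fin N → ℝ)
    (hweak : ∀ φ : ℝ → ℝ, Continuous φ → (∃ C : ℝ, ∀ x, |φ x| ≤ C) →
      Tendsto (fun N : ℕ => (1 / (N : ℝ)) * ∑ i : Fin N, φ (eig N i)) atTop (𝓝 (∫ x, φ x ∂μ)))
    (hext : ∀ ε : ℝ, 0 < ε → ∀ᶠ N : ℕ in atTop, ∀ i : Fin N, lo - ε ≤ eig N i ∧ eig N i ≤ hi + ε)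
    (hUB : ∀ (K : ℕ) (w val : Fin (K + 1) → ℝ), StrictMono val → (∀ k, 0 < w k) →
      ∑ k, w k = 1 → ∀ (labE : (N : ℕ) → Fin N → Fin (K + 1)),
      (∀ k, Tendsto (fun N : ℕ =>
        ((Finset.univ.filter fun i : Fin N => labE N i = k).card : ℝ) / (N : ℝ)) atTop
          (𝓝 (w k))) →
      UB (atomic w val) (val (Fin.last K)) (fun N i => val (labE N i)) P Us)
    (hLB : ∀ (K : ℕ) (w val : Fin (K + 1) → ℝ), StrictMono val → (∀ k, 0 < w k) →
      ∑ k, w k = 1 → ∀ (labE : (N : ℕ) → Fin N → Fin (K + 1)),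
      (∀ k, Tendsto (fun N : ℕ =>
        ((Finset.univ.filter fun i : Fin N => labE N i = k).card : ℝ) / (N : ℝ)) atTop
          (𝓝 (w k))) →
      LB (atomic w val) (val (Fin.last K)) (fun N i => val (labE N i)) P Us) :
    H248 μ hi eig P Us := by
  refine h248_of_atomic hmeas horth h hedge eig hweak hext ?_
  intro K w val hval hw hs labE hlab
  set Λ := ∑ k, |val k| with hΛ
  have hb : ∀ (N : ℕ) (i : Fin N), |val (labE N i)| ≤ Λ := fun N i =>
    Finset.single_le_sum (f := fun k => |val k|) (fun _ _ => abs_nonneg _) (Finset.mem_univ _)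
  have hE := e248_of (μ := atomic w val) (lamPlus := val (Fin.last K))
    (eig := fun N i => val (labE N i)) (P := P) (Us := Us)
    (Λ := Λ) (Eventually.of_forall hb) hmeas horth hHaar (hUB K w val hval hw hs labE hlab)
    (hLB K w val hval hw hs labE hlab)
  refine h248_of_e248 (val 0) ?_ hmeas horth hHaar hE
  intro ε hε
  refine Eventually.of_forall fun N i => ?_
  have h1 := hval.monotone (Fin.zero_le (labE N i))
  have h2 := hval.monotone (Fin.le_last (labE N i))
  constructor <;> linarith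

end Crest.Agent.R164.Mag
end

-- ▼ part R164/LPen2

/-!
Row 164 (helper552): (LB) from its penalised version, stated for the Haar laws.
-/

set_option autoImplicit false

namespace Crest.Agent.R164.Mag

open MeasureTheory Set Filter Topology
open Crest.ProbabilityR.InvariantGlass
open Crest.Agent.R164.Haar

section glue

variable {Ω : Type} [MeasurableSpace Ω] {P : Measure Ω} [IsProbabilityMeasure P]
  {N : ℕ} {W : Ω → (Fin N → Fin N → ℝ)} (hW : Measurable W)
  (horth : ∀ᵐ ω ∂P, Matrix.of (W ω) ∈ Matrix.orthogonalGroup (Fin N) ℝ)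
  (hHaar : ∀ O : Matrix (Fin N) (Fin N) ℝ, O ∈ Matrix.orthogonalGroup (Fin N) ℝ →
      P.map (fun ω => fun i j => (Matrix.of (W ω) * O) i j) = P.map W)
include hW horth hHaar

/-- the law of `W` satisfies `RHaar` -/
theorem rHaar_map : RHaar (P.map W) := by
  have h := AsConc.oInv_of_haar hW horth hHaar
  refine ⟨h.mem, fun O hO => ?_⟩
  have := h.inv O hO
  exact this

omit horth hHaar [IsProbabilityMeasure P] in
theorem int_pressG_map (eig : Fin N → ℝ) (A : Finset (Fin N → Bool)) (V : (Fin N → Bool) → ℝ) :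
    ∫ ω, pressG eig (Matrix.of (W ω)) A V ∂P =
      ∫ U, pressG eig (Matrix.of U) A V ∂(P.map W) := by
  have hmeas : Measurable (fun U : Fin N → Fin N → ℝ => pressG eig (Matrix.of U) A V) :=
    measurable_pressG (Ω := Fin N → Fin N → ℝ) eig measurable_id A V
  rw [integral_map hW.aemeasurable hmeas.aestronglyMeasurable]

end glue


section defs

variable {Ω : Type} [MeasurableSpace Ω] (μ : Measure ℝ) (lamPlus : ℝ)
  (eig : (N : ℕ) → Fin N → ℝ) (P : Measure Ω) (Us : (N : ℕ) → Ω → (Fin N → Fin N → ℝ))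

/-- **(LBP)** the penalised form of (LB), for any sequence of right-invariant laws on the
orthogonal groups: for large `N` SOME penalty strength `K ≥ 0` gives the bound. -/
def LBP (nu : (N : ℕ) → Measure (Mat (Fin N))) : Prop :=
  ∀ (J : ℕ) (cval : Fin J → ℝ) (γ : Fin J → ℚ), (∀ j, 0 < γ j) → ∑ j, γ j = 1 →
    ∀ lab : (N : ℕ) → Fin N → Fin J,
    (∀ j : Fin J, Tendsto
      (fun N : ℕ => ((Finset.univ.filter fun r : Fin N => lab N r = j).card : ℝ) / (N : ℝ))
      atTop (nhds ((γ j : ℚ) : ℝ))) →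
    ∀ t : Fin J → ℝ, (∀ j, |t j| < 1) → ∀ ε : ℝ, 0 < ε → ∀ r : ℝ,
    (∀ m' : Fin J → ℝ, (∀ j, |m' j - t j| ≤ ε) → (∀ j, t j = 0 → m' j = 0) →
      (r : EReal) ≤ ((∑ j : Fin J, ((γ j : ℚ) : ℝ) * cval j * m' j : ℝ) : EReal) +
        VR μ lamPlus γ m') →
    ∀ᶠ N : ℕ in atTop, ∃ K : ℝ, 0 ≤ K ∧
      r - ε ≤ ∫ U, pressG (eig N) (Matrix.of U) Finset.univ (PEN cval t K (lab N)) ∂(nu N)

end defs

section main

variable {Ω : Type} [MeasurableSpace Ω] {μ : Measure ℝ} {lamPlus : ℝ}
  {eig : (N : ℕ) → Fin N → ℝ} {P : Measure Ω} [IsProbabilityMeasure P]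
  {Us : (N : ℕ) → Ω → (Fin N → Fin N → ℝ)}

theorem lb_of_lbp (hmeas : ∀ N, Measurable (Us N))
    (horth : ∀ N, ∀ᵐ ω ∂P, Matrix.of (Us N ω) ∈ Matrix.orthogonalGroup (Fin N) ℝ)
    (hHaar : ∀ (N : ℕ) (O : Matrix (Fin N) (Fin N) ℝ), O ∈ Matrix.orthogonalGroup (Fin N) ℝ →
      P.map (fun ω => fun i j => (Matrix.of (Us N ω) * O) i j) = P.map (Us N))
    (h : LBP μ lamPlus eig (fun N => P.map (Us N))) : LB μ lamPlus eig P Us := by
  intro J c γ hγ hs lab hlab t ht ε hε r hr
  filter_upwards [h J c γ hγ hs lab hlab t ht ε hε r hr] with N hN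
  obtain ⟨K, hK, h1⟩ := hN
  refine h1.trans ?_
  rw [← int_pressG_map (hmeas N)]
  exact press_ge_pen (hmeas N) (horth N) (hHaar N) (eig N) c t (lab N) hK

end main

/-- **H248 from (UB) and the penalised bound (LBP) for finite spectra.** -/
theorem h248_of_bounds' {Ω : Type} [MeasurableSpace Ω] {P : Measure Ω} [IsProbabilityMeasure P]
    {Us : (N : ℕ) → Ω → (Fin N → Fin N → ℝ)} (hmeas : ∀ N, Measurable (Us N))
    (horth : ∀ N, ∀ᵐ ω ∂P, Matrix.of (Us N ω) ∈ Matrix.orthogonalGroup (Fin N) ℝ)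
    (hHaar : ∀ (N : ℕ) (O : Matrix (Fin N) (Fin N) ℝ), O ∈ Matrix.orthogonalGroup (Fin N) ℝ →
      P.map (fun ω => fun i j => (Matrix.of (Us N ω) * O) i j) = P.map (Us N))
    {μ : Measure ℝ} [IsProbabilityMeasure μ] {lo hi : ℝ}
    (h : μ (Icc lo hi) = 1)
    (hedge : ∀ ε : ℝ, 0 < ε → 0 < μ (Icc lo (lo + ε)) ∧ 0 < μ (Icc (hi - ε) hi))
    (eig : (N : ℕ) → Fin N → ℝ)
    (hweak : ∀ φ : ℝ → ℝ, Continuous φ → (∃ C : ℝ, ∀ x, |φ x| ≤ C) →
      Tendsto (fun N : ℕ => (1 / (N : ℝ)) * ∑ i : Fin N, φ (eig N i)) atTop (𝓝 (∫ x, φ x ∂μ)))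
    (hext : ∀ ε : ℝ, 0 < ε → ∀ᶠ N : ℕ in atTop, ∀ i : Fin N, lo - ε ≤ eig N i ∧ eig N i ≤ hi + ε)
    (hUB : ∀ (K : ℕ) (w val : Fin (K + 1) → ℝ), StrictMono val → (∀ k, 0 < w k) →
      ∑ k, w k = 1 → ∀ (labE : (N : ℕ) → Fin N → Fin (K + 1)),
      (∀ k, Tendsto (fun N : ℕ =>
        ((Finset.univ.filter fun i : Fin N => labE N i = k).card : ℝ) / (N : ℝ)) atTop
          (𝓝 (w k))) →
      UB (Atomic.atomic w val) (val (Fin.last K)) (fun N i => val (labE N i)) P Us)
    (hLB : ∀ (K : ℕ) (w val : Fin (K + 1) → ℝ), StrictMono val → (∀ k, 0 < w k) →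
      ∑ k, w k = 1 → ∀ (labE : (N : ℕ) → Fin N → Fin (K + 1)),
      (∀ k, Tendsto (fun N : ℕ =>
        ((Finset.univ.filter fun i : Fin N => labE N i = k).card : ℝ) / (N : ℝ)) atTop
          (𝓝 (w k))) →
      ∀ nu : (N : ℕ) → Measure (Mat (Fin N)), (∀ N, IsProbabilityMeasure (nu N)) →
        (∀ N, RHaar (nu N)) →
        LBP (Atomic.atomic w val) (val (Fin.last K)) (fun N i => val (labE N i)) nu) :
    H248 μ hi eig P Us := by
  refine h248_of_bounds hmeas horth hHaar h hedge eig hweak hext hUB ?_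
  intro K w val hv hw hs labE hlab
  exact lb_of_lbp hmeas horth hHaar (hLB K w val hv hw hs labE hlab (fun N => P.map (Us N))
    (fun N => Measure.isProbabilityMeasure_map (hmeas N).aemeasurable)
    (fun N => rHaar_map (hmeas N) (horth N) (hHaar N)))

end Crest.Agent.R164.Mag
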