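import Crest.Agent.R164.LStruct2E
import Crest.Agent.R164.LSel2
import Crest.Agent.R164.LabTr
import Crest.Agent.R164.LPen2
import Crest.Agent.R164.LStruct2D

-- ▼ part R164/LStruct2F
section

/-!
# Row 164, module LSTRUCT-2, part F

Choice of the grid: for finitely many penalty strengths, the average of the total error over a fine
grid is at most `δ` for all large `N`.
-/

set_option autoImplicit false
set_option linter.unusedSectionVars false
set_option linter.unusedVariables false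

namespace Crest.Agent.R164.LS2

open Finset MeasureTheory Crest.Agent.R141 Crest.Agent.R164 Filter
open Crest.Agent.R164.LGrid (gavg pt sh SD)
open Crest.Agent.R164.Haar (Mat RHaar)

noncomputable section

variable {p : Par} {K J : ℕ} {act : Finset (Fin p.nc)}

/-- the step of the grid with `I` points in the box `[lo, hi]`. -/
def stp (lo hi : Cd K J act → ℝ) (I : ℕ) (x : Cd K J act) : ℝ := (hi x - lo x) / ((I : ℝ) + 1)

theorem stp_pos {lo hi : Cd K J act → ℝ} (h : ∀ x, lo x < hi x) (I : ℕ) (x : Cd K J act) :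
    0 < stp lo hi I x := by
  have := h x
  unfold stp
  exact div_pos (by linarith) (by positivity)

theorem stp_top (lo hi : Cd K J act → ℝ) (I : ℕ) (x : Cd K J act) :
    lo x + ((I : ℝ) + 1) * stp lo hi I x = hi x := by
  unfold stp
  have : (I : ℝ) + 1 ≠ 0 := by positivity
  field_simp
  ring

/-- grid points lie in the box. -/
theorem pt_mem {lo hi : Cd K J act → ℝ} (h : ∀ x, lo x < hi x) {I : ℕ}
    (i : Cd K J act → Fin I) (x : Cd K J act) :
    lo x ≤ pt lo (stp lo hi I) i x ∧ pt lo (stp lo hi I) i x ≤ hi x := by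
  have h1 := pt_inBox (θ0 := lo) (y := stp lo hi I) (stp_pos h I) i x
  rw [stp_top] at h1
  exact h1


theorem exists_min_pos {X : Type*} [Finite X] {f : X → ℝ} (hf : ∀ x, 0 < f x) :
    ∃ m : ℝ, 0 < m ∧ ∀ x, m ≤ f x := by
  cases nonempty_fintype X
  rcases isEmpty_or_nonempty X with hX | hX
  · exact ⟨1, one_pos, fun x => (hX.false x).elim⟩
  · obtain ⟨x0, hx0⟩ := Finite.exists_min f
    exact ⟨f x0, hf x0, hx0⟩

variable (act)

/-- For large `I`, then large `N`, the bound `ErrB` is small. -/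
theorem errB_small (val : Fin (K + 1) → ℝ) (c : Fin J → ℝ) (Kp R C0 : ℝ) {δ : ℝ} (hδ : 0 < δ) :
    ∃ I0 : ℕ, ∀ I : ℕ, I0 ≤ I → ∀ ym : ℝ, 0 < ym → ∃ N0 : ℕ, ∀ N : ℕ, N0 ≤ N →
      ErrB p act val c Kp R ym C0 I N ≤ δ := by
  set a : ℝ := Fintype.card (Cd K J act) * (4 * (1 + CTR p val c Kp R)) +
    (((K + 1 : ℕ) : ℝ) * J) * (Fintype.card (Cd K J act) * (2 * (1 + CTR p val c Kp R))) with ha
  have h1 : Tendsto (fun I : ℕ => a / I) atTop (nhds 0) := tendsto_const_div_atTop_nhds_zero_nat a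
  obtain ⟨I0, hI0⟩ := eventually_atTop.1 (h1.eventually_lt_const (half_pos hδ))
  refine ⟨I0, fun I hI ym hym => ?_⟩
  have h2 : Tendsto (fun N : ℕ => ((Fintype.card (Cd K J act) : ℝ) *
      (8 * (Real.sqrt (CVR p val c Kp R * N) + p.nc * p.T * p.τ) +
        Real.log 2 * ((p.nc : ℝ) + 1)) / (N * ym) +
      (((K + 1 : ℕ) : ℝ) * J) * (Fintype.card (Cd K J act) *
        (2 * ((C0 + CF p val c Kp R) / N) / ym)))) atTop (nhds 0) := by
    have t1 : Tendsto (fun N : ℕ => Real.sqrt (CVR p val c Kp R * N) / N) atTop (nhds 0) := by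
      have e : ∀ N : ℕ, Real.sqrt (CVR p val c Kp R * N) / N =
          Real.sqrt (CVR p val c Kp R) * (Real.sqrt N / N) := by
        intro N
        by_cases hc : 0 ≤ CVR p val c Kp R
        · rw [Real.sqrt_mul hc]; ring
        · push Not at hc
          rw [Real.sqrt_eq_zero_of_nonpos hc.le, Real.sqrt_eq_zero_of_nonpos
            (mul_nonpos_of_nonpos_of_nonneg hc.le (Nat.cast_nonneg N))]
          simp
      simp only [e]
      have t0 : Tendsto (fun N : ℕ => Real.sqrt N / N) atTop (nhds 0) := by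
        have e2 : ∀ N : ℕ, Real.sqrt N / N = (Real.sqrt N)⁻¹ := by
          intro N
          rw [Real.sqrt_div_self', one_div]
        simp only [e2]
        exact (Real.tendsto_sqrt_atTop.comp tendsto_natCast_atTop_atTop).inv_tendsto_atTop
      simpa using t0.const_mul (Real.sqrt (CVR p val c Kp R))
    have t2 : Tendsto (fun N : ℕ => (1 : ℝ) / N) atTop (nhds 0) :=
      tendsto_const_div_atTop_nhds_zero_nat 1
    have t3 := ((t1.const_mul ((Fintype.card (Cd K J act) : ℝ) * 8 / ym)).add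
      (t2.const_mul ((Fintype.card (Cd K J act) : ℝ) * (8 * (p.nc * p.T * p.τ) +
        Real.log 2 * ((p.nc : ℝ) + 1)) / ym))).add
      (t2.const_mul ((((K + 1 : ℕ) : ℝ) * J) * Fintype.card (Cd K J act) *
        (2 * (C0 + CF p val c Kp R)) / ym))
    simp only [mul_zero, add_zero] at t3
    refine t3.congr fun N => ?_
    by_cases hN : (N : ℝ) = 0
    · simp [hN]
    · field_simp
      ring
  obtain ⟨N0, hN0⟩ := eventually_atTop.1 (h2.eventually_lt_const (half_pos hδ))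
  refine ⟨N0, fun N hN => ?_⟩
  have b1 := hI0 I hI
  have b2 := hN0 N hN
  have e : ErrB p act val c Kp R ym C0 I N = a / I + ((Fintype.card (Cd K J act) : ℝ) *
      (8 * (Real.sqrt (CVR p val c Kp R * N) + p.nc * p.T * p.τ) +
        Real.log 2 * ((p.nc : ℝ) + 1)) / (N * ym) +
      (((K + 1 : ℕ) : ℝ) * J) * (Fintype.card (Cd K J act) *
        (2 * ((C0 + CF p val c Kp R) / N) / ym))) := by
    rw [ha]
    unfold ErrB
    ring
  rw [e]
  linarith

/-- **Choice of the grid.** -/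
theorem grid_err {m : ℕ} (hnb : p.nb = 0) (val : Fin (K + 1) → ℝ) (c t : Fin J → ℝ)
    (Kps : Fin m → ℝ) (ht : ∀ j, |t j| ≤ 1) (hK : ∀ i, 0 ≤ Kps i)
    {lo hi : Cd K J act → ℝ} (hlh : ∀ x, lo x < hi x) {R : ℝ} (hR0 : 0 ≤ R)
    (hlo : ∀ x, |lo x| ≤ R) (hhi : ∀ x, |hi x| ≤ R) (C0 : Fin m → ℝ) (hC0 : ∀ i, 0 ≤ C0 i)
    {δ : ℝ} (hδ : 0 < δ) :
    ∃ I : ℕ, 0 < I ∧ ∃ N0 : ℕ, ∀ N : ℕ, N0 ≤ N → ∀ (i : Fin m) (n : ℕ)
      (kap : Fin N → Fin (K + 1)) (lab : Fin N → Fin J) (ν : Measure (Mat (Fin N)))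
      [IsProbabilityMeasure ν] (ν' : Measure (Mat (Fin (N + 1)))) [IsProbabilityMeasure ν'],
      RHaar ν → RHaar ν' →
      (∀ θ : Cd K J act → ℝ, (∀ x, lo x ≤ θ x ∧ θ x ≤ hi x) → ∀ k' j',
        |LD.EPh ν' n val c t (Kps i) (prm act θ) (Fin.snoc kap k' : Fin (N + 1) → Fin (K + 1))
          (Fin.snoc lab j' : Fin (N + 1) → Fin J) -
          LD.EPh ν n val c t (Kps i) (prm act θ) kap lab| ≤ C0 i) →
      gavg I (fun z => Err n val c t (Kps i) kap lab ν ν' (pt lo (stp lo hi I) z)) ≤ δ := by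
  classical
  have h1 : ∀ i, ∃ I0 : ℕ, ∀ I : ℕ, I0 ≤ I → ∀ ym : ℝ, 0 < ym → ∃ N0 : ℕ, ∀ N : ℕ, N0 ≤ N →
      ErrB p act val c (Kps i) R ym (C0 i) I N ≤ δ := fun i => errB_small act val c _ R _ hδ
  choose I0 hI0 using h1
  obtain ⟨I, hI, hIpos⟩ : ∃ I : ℕ, (∀ i, I0 i ≤ I) ∧ 0 < I :=
    ⟨∑ i, I0 i + 1, fun i => (Finset.single_le_sum (f := I0) (fun _ _ => Nat.zero_le _)
      (Finset.mem_univ i)).trans (Nat.le_succ _), Nat.succ_pos _⟩
  obtain ⟨ym, hym, hym'⟩ := exists_min_pos (stp_pos hlh I)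
  have h2 : ∀ i, ∃ N0 : ℕ, ∀ N : ℕ, N0 ≤ N → ErrB p act val c (Kps i) R ym (C0 i) I N ≤ δ :=
    fun i => hI0 i I (hI i) ym hym
  choose N0 hN0 using h2
  refine ⟨I, hIpos, ∑ i, N0 i + 3, fun N hN i n kap lab ν _ ν' _ hν hν' hcr => ?_⟩
  have h3 : N0 i ≤ ∑ i, N0 i :=
    Finset.single_le_sum (f := N0) (fun _ _ => Nat.zero_le _) (Finset.mem_univ i)
  refine (gavg_Err_le n val c t (Kps i) kap lab hnb (by omega) ht (hK i) hν hν'
    (stp_pos hlh I) hIpos hR0 hlo (fun x => by rw [stp_top]; exact hhi x) hym hym' (hC0 i)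
    (fun θ hθ k' j' => hcr θ (fun x => ?_) k' j')).trans (hN0 i N (by omega))
  have := hθ x
  rw [stp_top] at this
  exact this

/-- the grid average as a weighted sum. -/
theorem gavg_eq_weights {C : Type*} [Fintype C] [DecidableEq C] (I : ℕ) (f : (C → Fin I) → ℝ) :
    gavg I f = ∑ i, ((I : ℝ) ^ Fintype.card C)⁻¹ * f i := by
  unfold gavg; rw [Finset.mul_sum]

theorem weights_sum {C : Type*} [Fintype C] [DecidableEq C] {I : ℕ} (hI : 0 < I) :
    ∑ _i : C → Fin I, ((I : ℝ) ^ Fintype.card C)⁻¹ = 1 := by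
  have h := LGrid.gavg_const (C := C) hI 1
  rw [gavg_eq_weights] at h
  simpa using h

end

end Crest.Agent.R164.LS2
end

-- ▼ part R164/LSel3
section

/-!
Row 164 (helper436): selection of `(N, θ, K, labels)` for the lower bound, with all hypotheses
only for large `N` (module GL0 of helper893's list).
-/

set_option autoImplicit false

namespace Crest.Agent.R164.LSel

open Finset Filter
open Crest.Agent.R164.LabAvg

noncomputable section

variable {κ : Type*} [Fintype κ] [DecidableEq κ] {α : κ → ℝ}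

/-- For arbitrarily large `N`: `g N < r` and `g (N/2) ≥ g N - ε`. -/
theorem halving' {g : ℕ → ℝ} {C r ε : ℝ} {Na : ℕ} (hg : ∀ N, Na ≤ N → |g N| ≤ C) (hε : 0 < ε)
    (hinf : ∃ᶠ N in atTop, g N < r) {N0 : ℕ} (hNa : Na ≤ N0) :
    ∃ N, N0 ≤ N ∧ g N < r ∧ g N - ε ≤ g (N / 2) := by
  obtain ⟨k, hk⟩ := exists_nat_gt (2 * C / ε)
  obtain ⟨N, hN, hr⟩ := (frequently_atTop.1 hinf) (2 ^ k * (N0 + 1))
  by_contra hcon
  push Not at hcon
  -- all iterated halves satisfy the bound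
  have key : ∀ j, j ≤ k → g (N / 2 ^ j) ≤ g N - j * ε ∧ g (N / 2 ^ j) < r := by
    intro j
    induction j with
    | zero => intro _; simp [hr]
    | succ j ih =>
      intro hj
      obtain ⟨h1, h2⟩ := ih (by omega)
      have h3 : N0 ≤ N / 2 ^ j := by
        rw [Nat.le_div_iff_mul_le (by positivity)]
        calc N0 * 2 ^ j ≤ (N0 + 1) * 2 ^ k :=
              Nat.mul_le_mul (by omega) (Nat.pow_le_pow_right (by norm_num) (by omega))
          _ = 2 ^ k * (N0 + 1) := by ring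
          _ ≤ N := hN
      have h4 := hcon (N / 2 ^ j) h3 h2
      rw [Nat.div_div_eq_div_mul, ← pow_succ] at h4
      constructor
      · push_cast; linarith
      · linarith
  have h1 := (key k le_rfl).1
  have h0 : N0 ≤ N / 2 ^ k := by
    rw [Nat.le_div_iff_mul_le (by positivity)]
    calc N0 * 2 ^ k ≤ (N0 + 1) * 2 ^ k := Nat.mul_le_mul (by omega) le_rfl
      _ = 2 ^ k * (N0 + 1) := by ring
      _ ≤ N := hN
  have h0' : N / 2 ^ k ≤ N := Nat.div_le_self _ _
  have h2 := abs_le.1 (hg N (by omega))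
  have h3 := abs_le.1 (hg (N / 2 ^ k) (by omega))
  rw [div_lt_iff₀ hε] at hk
  linarith [h2.2, h3.1]

variable {Θ : Type*} [Fintype Θ]

set_option maxHeartbeats 1600000 in
/-- **Selection of `(N, θ, i, labels)`**, all hypotheses only for `Na ≤ N` and `N1 ≤ 2 * N + 1`.
`Φ N1 N θ i lab`: enriched free energy (number of coins chosen for the target size `N1`);
`Gp N i lab`: expected pressure at penalty `K_i`. -/
theorem selection'' (hα : ∀ k, 0 ≤ α k) (hs : ∑ k, α k = 1) (wθ : Θ → ℝ)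
    (hw0 : ∀ θ, 0 ≤ wθ θ) (hw1 : ∑ θ, wθ θ = 1) {I : ℕ} (hI : 0 < I)
    (Φ : ℕ → (N : ℕ) → Θ → Fin I → (Fin N → κ) → ℝ)
    (Gp : (N : ℕ) → Fin I → (Fin N → κ) → ℝ) (labE : (N : ℕ) → Fin N → κ)
    (Err Q : ℕ → (N : ℕ) → Θ → Fin I → (Fin N → κ) → ℝ)
    {Cg C Cq e1 δg r : ℝ} (hδg : 0 < δg) (he1 : 0 ≤ e1) (hC : 0 ≤ C) (Na : ℕ)
    -- boundedness of the pressures
    (hG : ∀ N i lab, Na ≤ N → |Gp N i lab| ≤ Cg)
    -- contradiction hypothesis
    (hcon : ∃ᶠ N in atTop, ∀ i, Gp N i (labE N) < r)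
    -- (a) perturbation bound
    (ha : ∀ N1 N θ i lab, Na ≤ N → N ≤ N1 → N1 ≤ 2 * N + 1 →
      |Φ N1 N θ i lab - N * Gp N i lab| ≤ e1 * N)
    -- (b) transfer of the labels
    (hb : ∀ i, Tendsto (fun N => Psi α (fun lab : Fin N → κ => |Gp N i lab - Gp N i (labE N)|))
      atTop (nhds 0))
    -- (c) lower bounds for the increments
    (hc : ∀ N1 N θ i lab, Na ≤ N → N < N1 → N1 ≤ 2 * N + 1 → Good α δg lab →
      -C ≤ Inc α (Φ N1 N θ i) (Φ N1 (N + 1) θ i) lab)
    (hc' : ∀ N1 N θ i lab, Na ≤ N → N < N1 → N1 ≤ 2 * N + 1 →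
      -(C * N) ≤ Inc α (Φ N1 N θ i) (Φ N1 (N + 1) θ i) lab)
    -- (d) averaged structure errors
    (hErr0 : ∀ N1 N θ i lab, 0 ≤ Err N1 N θ i lab)
    {δ : ℝ} (hδ : 0 < δ)
    (hd : ∃ N0, ∀ N1 N i lab, N0 ≤ N → N < N1 → N1 ≤ 2 * N + 1 → Good α δg lab →
      ∑ θ, wθ θ * Err N1 N θ i lab ≤ dsel r e1 C Cq I δ)
    -- (e) average over the penalty strengths
    (hQ0 : ∀ N1 N θ i lab, 0 ≤ Q N1 N θ i lab)
    (hQ : ∀ N1 N θ lab, Na ≤ N → N < N1 → N1 ≤ 2 * N + 1 → ∑ i, Q N1 N θ i lab ≤ Cq)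
    (N0 : ℕ) :
    ∃ (N1 N : ℕ) (θ : Θ) (i : Fin I) (lab : Fin N → κ), N0 ≤ N ∧ N < N1 ∧ N1 ≤ 2 * N + 1 ∧
      0 < wθ θ ∧ Good α δg lab ∧
      Inc α (Φ N1 N θ i) (Φ N1 (N + 1) θ i) lab + Q N1 N θ i lab ≤
        r + 3 * e1 + Cq / I + δ ∧ Err N1 N θ i lab ≤ δ := by
  classical
  have hI' : (0 : ℝ) < I := by exact_mod_cast hI
  -- small parameter
  obtain ⟨ε, hε, hε1, hεe⟩ : ∃ ε : ℝ, 0 < ε ∧ 8 * ε ≤ δ ∧ ε = δ / 8 :=
    ⟨δ / 8, by positivity, by linarith, rfl⟩
  -- the averaged pressure at the given labels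
  set g : ℕ → ℝ := fun N => (I : ℝ)⁻¹ * ∑ i, Gp N i (labE N) with hgdef
  have hgb : ∀ N, Na ≤ N → |g N| ≤ Cg := by
    intro N hNa
    simp only [hgdef]
    rw [abs_mul, abs_of_pos (inv_pos.2 hI')]
    have : |∑ i, Gp N i (labE N)| ≤ I * Cg := by
      refine (Finset.abs_sum_le_sum_abs _ _).trans ?_
      calc _ ≤ ∑ _i : Fin I, Cg := Finset.sum_le_sum fun i _ => hG N i _ hNa
        _ = _ := by simp
    calc (I : ℝ)⁻¹ * |∑ i, Gp N i (labE N)| ≤ (I : ℝ)⁻¹ * (I * Cg) :=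
          mul_le_mul_of_nonneg_left this (by positivity)
      _ = Cg := by field_simp
  have hginf : ∃ᶠ N in atTop, g N < r := by
    refine hcon.mono fun N hN => ?_
    simp only [hgdef]
    have : ∑ i, Gp N i (labE N) < ∑ _i : Fin I, r :=
      Finset.sum_lt_sum_of_nonempty ⟨⟨0, hI⟩, Finset.mem_univ _⟩ fun i _ => hN i
    rw [Finset.sum_const, Finset.card_univ, Fintype.card_fin, nsmul_eq_mul] at this
    calc (I : ℝ)⁻¹ * ∑ i, Gp N i (labE N) < (I : ℝ)⁻¹ * (I * r) :=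
          mul_lt_mul_of_pos_left this (by positivity)
      _ = r := by field_simp
  -- constants for the structure errors
  set X0 : ℝ := r + 3 * e1 + Cq / I + 6 * ε with hX0
  set B : ℝ := |X0| + ε + C + 1 with hB
  have hB1 : 1 ≤ B := by have := abs_nonneg X0; linarith
  obtain ⟨δ', hδ', hδ'1, hδ'2, hδ'e⟩ : ∃ δ' : ℝ, 0 < δ' ∧ δ' / ε * B < 1 ∧ δ' / ε * B ≤ δ ∧
      δ' / 2 = dsel r e1 C Cq I δ := by
    refine ⟨ε * min (1 / 2) δ / B, by positivity, ?_, ?_, by rw [hB, hX0, hεe]; rfl⟩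
    · have : ε * min (1 / 2) δ / B / ε * B = min (1 / 2) δ := by field_simp
      rw [this]; exact lt_of_le_of_lt (min_le_left _ _) (by norm_num)
    · have : ε * min (1 / 2) δ / B / ε * B = min (1 / 2) δ := by field_simp
      rw [this]; exact min_le_right _ _
  obtain ⟨Nd, hNd⟩ := hd
  rw [← hδ'e] at hNd
  -- transfer threshold
  have hbe : ∀ᶠ N in atTop, ∀ i, Psi α (fun lab : Fin N → κ =>
      |Gp N i lab - Gp N i (labE N)|) ≤ ε := by
    rw [Filter.eventually_all]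
    intro i
    exact (hb i).eventually (ge_mem_nhds hε)
  obtain ⟨Nb, hNb⟩ := eventually_atTop.1 hbe
  -- threshold for the bad labels
  obtain ⟨Nc, hNc⟩ := exists_nat_gt
    (4 * (Fintype.card κ : ℝ) / δg ^ 4 * (C / ε + 2 / δ' + 1))
  set Nst : ℕ := N0 + Nd + Nb + Nc + Na + 1 with hNst
  obtain ⟨N1, hN1, hgr, hgh⟩ := halving' hgb hε hginf (N0 := 2 * Nst) (by omega)
  set M := N1 / 2 with hM
  have hMst : Nst ≤ M := by omega
  have hM1 : 0 < M := by omega
  have hMN : M < N1 := by omega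
  have hM2 : N1 ≤ 2 * M + 1 := by omega
  have hMr : (0:ℝ) < M := by exact_mod_cast hM1
  have hNMr : (M:ℝ) < N1 := by exact_mod_cast hMN
  have hM2' : 2 * M ≤ N1 := by omega
  have hM2r : 2 * (M:ℝ) ≤ N1 := by exact_mod_cast hM2'
  -- bad mass for N ≥ M
  have hbad : ∀ N, M ≤ N → Psi α (fun lab : Fin N → κ => if Good α δg lab then 0 else 1) ≤ δ' / 2 ∧
      C * N * Psi α (fun lab : Fin N → κ => if Good α δg lab then 0 else 1) ≤ ε := by
    intro N hN
    have hN1' : 0 < N := by omega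
    have hNr : (0:ℝ) < N := by exact_mod_cast hN1'
    have h1 := bad_mass4 (α := α) hα hs hδg hN1'
    set D : ℝ := 4 * (Fintype.card κ : ℝ) / δg ^ 4 with hD
    have hD0 : 0 ≤ D := by positivity
    have hNcN : D * (C / ε + 2 / δ' + 1) ≤ N := by
      refine hNc.le.trans ?_
      exact_mod_cast (by omega : Nc ≤ N)
    have h2 : 4 * (Fintype.card κ : ℝ) / (δg ^ 4 * (N : ℝ) ^ 2) = D / N ^ 2 := by
      rw [hD]; field_simp
    rw [h2] at h1
    have hN1r : (1:ℝ) ≤ N := by exact_mod_cast hN1'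
    have hCε : 0 ≤ C / ε := by positivity
    have hδ2 : 0 < 2 / δ' := by positivity
    constructor
    · refine h1.trans ?_
      rw [div_le_iff₀ (by positivity)]
      have h3 : D * (2 / δ') ≤ N := by nlinarith
      have h4 : D ≤ δ' / 2 * N := by
        have : D = δ' / 2 * (D * (2 / δ')) := by field_simp
        rw [this]
        exact mul_le_mul_of_nonneg_left h3 (by positivity)
      have h5 : δ' / 2 * N ≤ δ' / 2 * (N:ℝ) ^ 2 := by
        refine mul_le_mul_of_nonneg_left ?_ (by positivity)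
        nlinarith
      linarith
    · have h3 : D * (C / ε) ≤ N := by nlinarith
      calc C * N * Psi α (fun lab : Fin N → κ => if Good α δg lab then 0 else 1) ≤
          C * N * (D / N ^ 2) := mul_le_mul_of_nonneg_left h1 (by positivity)
        _ = C * D / N := by field_simp
        _ ≤ ε := by
          rw [div_le_iff₀ hNr]
          have : C * D = ε * (D * (C / ε)) := by field_simp
          rw [this]
          exact mul_le_mul_of_nonneg_left h3 hε.le
  -- the averaged free energies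
  set Ψ : ℕ → ℝ := fun N => ∑ θ, wθ θ * ((I : ℝ)⁻¹ * ∑ i, Psi α (Φ N1 N θ i)) with hΨ
  have hΨb : ∀ N, M ≤ N → N ≤ N1 → |Ψ N - N * g N| ≤ (e1 + ε) * N := by
    intro N hMN' hNN1
    have hN0 : 0 < N := by omega
    have hNr : (0:ℝ) < N := by exact_mod_cast hN0
    have h1 : ∀ θ i, |Psi α (Φ N1 N θ i) - N * Gp N i (labE N)| ≤ (e1 + ε) * N := by
      intro θ i
      have e : Psi α (Φ N1 N θ i) - N * Gp N i (labE N) =
          Psi α (fun lab => Φ N1 N θ i lab - N * Gp N i (labE N)) := by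
        rw [Psi_sub, Psi_const hs]
      rw [e]
      have h2 : |Psi α (fun lab => Φ N1 N θ i lab - N * Gp N i (labE N))| ≤
          Psi α (fun lab => e1 * N + N * |Gp N i lab - Gp N i (labE N)|) := by
        unfold Psi
        refine (Finset.abs_sum_le_sum_abs _ _).trans (Finset.sum_le_sum fun lab _ => ?_)
        rw [abs_mul, abs_of_nonneg (wt_nonneg hα lab)]
        refine mul_le_mul_of_nonneg_left ?_ (wt_nonneg hα lab)
        show |Φ N1 N θ i lab - N * Gp N i (labE N)| ≤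
          e1 * N + N * |Gp N i lab - Gp N i (labE N)|
        have e2 : Φ N1 N θ i lab - N * Gp N i (labE N) =
            (Φ N1 N θ i lab - N * Gp N i lab) + N * (Gp N i lab - Gp N i (labE N)) := by ring
        rw [e2]
        refine (abs_add_le _ _).trans (add_le_add (ha N1 N θ i lab (by omega) hNN1 (by omega)) ?_)
        rw [abs_mul, abs_of_pos hNr]
      refine h2.trans ?_
      rw [Psi_add, Psi_const hs, Psi_smul]
      have h3 := hNb N (by omega) i
      nlinarith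
    have e : Ψ N - N * g N = ∑ θ, wθ θ * ((I : ℝ)⁻¹ * ∑ i,
        (Psi α (Φ N1 N θ i) - N * Gp N i (labE N))) := by
      simp only [hΨ, hgdef, Finset.sum_sub_distrib, mul_sub]
      rw [← Finset.sum_mul, hw1, ← Finset.mul_sum]
      ring
    rw [e]
    refine (Finset.abs_sum_le_sum_abs _ _).trans ?_
    calc _ ≤ ∑ θ, wθ θ * ((e1 + ε) * N) := by
          refine Finset.sum_le_sum fun θ _ => ?_
          rw [abs_mul, abs_of_nonneg (hw0 θ)]
          refine mul_le_mul_of_nonneg_left ?_ (hw0 θ)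
          rw [abs_mul, abs_of_pos (inv_pos.2 hI')]
          have : |∑ i, (Psi α (Φ N1 N θ i) - N * Gp N i (labE N))| ≤ I * ((e1 + ε) * N) := by
            refine (Finset.abs_sum_le_sum_abs _ _).trans ?_
            calc _ ≤ ∑ _i : Fin I, (e1 + ε) * N := Finset.sum_le_sum fun i _ => h1 θ i
              _ = _ := by simp
          calc _ ≤ (I : ℝ)⁻¹ * (I * ((e1 + ε) * N)) :=
                mul_le_mul_of_nonneg_left this (by positivity)
            _ = _ := by field_simp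
      _ = _ := by rw [← Finset.sum_mul, hw1, one_mul]
  -- the total increment
  have htot : (Ψ N1 - Ψ M) / (N1 - M) ≤ r + 3 * e1 + 4 * ε := by
    rw [div_le_iff₀ (by linarith)]
    have h1 := (abs_le.1 (hΨb N1 hMN.le le_rfl)).2
    have h2 := (abs_le.1 (hΨb M le_rfl hMN.le)).1
    have h3 : (M:ℝ) * (g N1 - ε) ≤ M * g M := mul_le_mul_of_nonneg_left hgh hMr.le
    have h4 : ((N1:ℝ) - M) * g N1 ≤ (N1 - M) * r :=
      mul_le_mul_of_nonneg_left hgr.le (by linarith)
    have h5 : (e1 + ε) * N1 + (e1 + ε) * M ≤ 3 * (e1 + ε) * (N1 - M) := by nlinarith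
    have h6 : ε * (M:ℝ) ≤ ε * (N1 - M) := mul_le_mul_of_nonneg_left (by linarith) hε.le
    nlinarith
  -- the finite probability space
  set S : ℕ := N1 - M with hS
  have hS0 : 0 < S := by omega
  have hSr : (0:ℝ) < S := by exact_mod_cast hS0
  have hSr2 : (S:ℝ) = N1 - M := by rw [hS, Nat.cast_sub hMN.le]
  let Ξ := Σ n : Fin S, Θ × Fin I × (Fin (M + (n : ℕ)) → κ)
  let w : Ξ → ℝ := fun ξ => (S:ℝ)⁻¹ * (wθ ξ.2.1 * ((I:ℝ)⁻¹ * wt α ξ.2.2.2))
  let X : Ξ → ℝ := fun ξ => if Good α δg ξ.2.2.2 then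
    Inc α (Φ N1 (M + ξ.1) ξ.2.1 ξ.2.2.1) (Φ N1 (M + ξ.1 + 1) ξ.2.1 ξ.2.2.1) ξ.2.2.2 +
      Q N1 (M + ξ.1) ξ.2.1 ξ.2.2.1 ξ.2.2.2 else 0
  let Y : Ξ → ℝ := fun ξ => if Good α δg ξ.2.2.2 then
    Err N1 (M + ξ.1) ξ.2.1 ξ.2.2.1 ξ.2.2.2 else 1
  have hsum : ∀ f : (n : Fin S) → Θ → Fin I → (Fin (M + (n : ℕ)) → κ) → ℝ,
      ∑ ξ : Ξ, w ξ * f ξ.1 ξ.2.1 ξ.2.2.1 ξ.2.2.2 =
        (S:ℝ)⁻¹ * ∑ n : Fin S, ∑ θ, wθ θ * ((I:ℝ)⁻¹ * ∑ i, Psi α (f n θ i)) := by
    intro f
    rw [Fintype.sum_sigma, Finset.mul_sum]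
    refine Finset.sum_congr rfl fun n _ => ?_
    rw [Fintype.sum_prod_type, Finset.mul_sum]
    refine Finset.sum_congr rfl fun θ _ => ?_
    rw [Fintype.sum_prod_type]
    simp only [w, Psi, Finset.mul_sum]
    refine Finset.sum_congr rfl fun i _ => Finset.sum_congr rfl fun lab _ => ?_
    ring
  have hw_nonneg : ∀ ξ, 0 ≤ w ξ := fun ξ =>
    mul_nonneg (by positivity) (mul_nonneg (hw0 _) (mul_nonneg (by positivity) (wt_nonneg hα _)))
  have hw_one : ∑ ξ, w ξ = 1 := by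
    have h := hsum (fun _ _ _ _ => 1)
    simp only [mul_one] at h
    rw [h]
    simp only [Psi_const hs, Finset.sum_const, Finset.card_univ, Fintype.card_fin, nsmul_eq_mul,
      mul_one]
    have e : ∑ x, wθ x * ((I:ℝ)⁻¹ * I) = 1 := by
      rw [inv_mul_cancel₀ hI'.ne']; simpa using hw1
    rw [e, mul_one, inv_mul_cancel₀ hSr.ne']
  -- the average of X
  have hXavg : ∑ ξ, w ξ * X ξ ≤ r + 3 * e1 + Cq / I + 5 * ε := by
    have h1 := hsum (fun n θ i lab => if Good α δg lab then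
      Inc α (Φ N1 (M + n) θ i) (Φ N1 (M + n + 1) θ i) lab + Q N1 (M + n) θ i lab else 0)
    have h2 : ∀ n : Fin S, ∑ θ, wθ θ * ((I:ℝ)⁻¹ * ∑ i, Psi α (fun lab : Fin (M + (n : ℕ)) → κ =>
        if Good α δg lab then Inc α (Φ N1 (M + n) θ i) (Φ N1 (M + n + 1) θ i) lab +
          Q N1 (M + n) θ i lab else 0)) ≤ (Ψ (M + n + 1) - Ψ (M + n)) + (Cq / I + ε) := by
      intro n
      have hn1 : M + (n:ℕ) < N1 := by have := n.2; omega
      have hn0 : 0 < M + (n:ℕ) := by omega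
      obtain ⟨-, hb2⟩ := hbad (M + n) (by omega)
      set pb := Psi α (fun lab : Fin (M + (n:ℕ)) → κ => if Good α δg lab then (0:ℝ) else 1) with hpb
      have h3 : ∀ θ i, Psi α (fun lab : Fin (M + (n : ℕ)) → κ =>
          if Good α δg lab then Inc α (Φ N1 (M + n) θ i) (Φ N1 (M + n + 1) θ i) lab +
            Q N1 (M + n) θ i lab else 0) ≤
          (Psi α (Φ N1 (M + n + 1) θ i) - Psi α (Φ N1 (M + n) θ i)) +
            Psi α (Q N1 (M + n) θ i) + ε := by
        intro θ i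
        have h4 : ∀ lab : Fin (M + (n : ℕ)) → κ,
            (if Good α δg lab then Inc α (Φ N1 (M + n) θ i) (Φ N1 (M + n + 1) θ i) lab +
              Q N1 (M + n) θ i lab else 0) ≤
            Inc α (Φ N1 (M + n) θ i) (Φ N1 (M + n + 1) θ i) lab + Q N1 (M + n) θ i lab +
              C * ((M + n : ℕ) : ℝ) * (if Good α δg lab then 0 else 1) := by
          intro lab
          split_ifs with hgood
          · simp
          · have h5 := hc' N1 (M + n) θ i lab (by omega) hn1 (by omega)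
            have h6 := hQ0 N1 (M + n) θ i lab
            linarith
        have h5 := Psi_mono hα h4
        rw [Psi_add, Psi_add, Psi_Inc hs, Psi_smul] at h5
        have h6 : C * ((M + n : ℕ) : ℝ) * pb ≤ ε := hb2
        linarith
      calc _ ≤ ∑ θ, wθ θ * ((I:ℝ)⁻¹ * ∑ i, ((Psi α (Φ N1 (M + n + 1) θ i) -
            Psi α (Φ N1 (M + n) θ i)) + Psi α (Q N1 (M + n) θ i) + ε)) := by
            refine Finset.sum_le_sum fun θ _ => mul_le_mul_of_nonneg_left ?_ (hw0 θ)
            refine mul_le_mul_of_nonneg_left ?_ (by positivity)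
            exact Finset.sum_le_sum fun i _ => h3 θ i
        _ ≤ ∑ θ, wθ θ * ((I:ℝ)⁻¹ * ∑ i, (Psi α (Φ N1 (M + n + 1) θ i) -
            Psi α (Φ N1 (M + n) θ i)) + (Cq / I + ε)) := by
            refine Finset.sum_le_sum fun θ _ => mul_le_mul_of_nonneg_left ?_ (hw0 θ)
            have h7 : ∑ i, Psi α (Q N1 (M + n) θ i) ≤ Cq := by
              have : ∑ i, Psi α (Q N1 (M + n) θ i) =
                  Psi α (fun lab => ∑ i, Q N1 (M + n) θ i lab) := by
                unfold Psi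
                simp only [Finset.mul_sum]
                rw [Finset.sum_comm]
              rw [this, ← Psi_const (α := α) hs (M + n) Cq]
              exact Psi_mono hα fun lab => hQ N1 (M + n) θ lab (by omega) hn1 (by omega)
            rw [Finset.sum_add_distrib, Finset.sum_add_distrib, Finset.sum_const,
              Finset.card_univ, Fintype.card_fin, nsmul_eq_mul]
            have h8 : (I:ℝ)⁻¹ * (I * ε) = ε := by field_simp
            have h9 : (I:ℝ)⁻¹ * ∑ i, Psi α (Q N1 (M + n) θ i) ≤ (I:ℝ)⁻¹ * Cq :=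
              mul_le_mul_of_nonneg_left h7 (by positivity)
            have h10 : (I:ℝ)⁻¹ * Cq = Cq / I := by ring
            rw [mul_add, mul_add, h8]
            linarith
        _ = _ := by
            simp only [mul_add, Finset.sum_add_distrib, ← Finset.sum_mul, hw1, one_mul]
            have : ∑ θ, wθ θ * ((I:ℝ)⁻¹ * ∑ i, (Psi α (Φ N1 (M + n + 1) θ i) -
                Psi α (Φ N1 (M + n) θ i))) = Ψ (M + n + 1) - Ψ (M + n) := by
              simp only [hΨ, Finset.sum_sub_distrib, mul_sub]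
            rw [this]
    have h3 : ∑ n : Fin S, ((Ψ (M + n + 1) - Ψ (M + n)) + (Cq / I + ε)) =
        (Ψ N1 - Ψ M) + S * (Cq / I + ε) := by
      rw [Finset.sum_add_distrib, Finset.sum_const, Finset.card_univ, Fintype.card_fin,
        nsmul_eq_mul, Fin.sum_univ_eq_sum_range (fun n : ℕ => Ψ (M + n + 1) - Ψ (M + n)) S]
      have hts : ∑ i ∈ range S, (Ψ (M + i + 1) - Ψ (M + i)) = Ψ (M + S) - Ψ (M + 0) :=
        Finset.sum_range_sub (fun n => Ψ (M + n)) S
      rw [hts]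
      have : M + S = N1 := by omega
      rw [this, add_zero]
    have h4 : ∑ ξ, w ξ * X ξ ≤ (S:ℝ)⁻¹ * ((Ψ N1 - Ψ M) + S * (Cq / I + ε)) := by
      rw [← h3]
      refine le_trans (le_of_eq h1) ?_
      exact mul_le_mul_of_nonneg_left (Finset.sum_le_sum fun n _ => h2 n) (by positivity)
    have h5 : (S:ℝ)⁻¹ * ((Ψ N1 - Ψ M) + S * (Cq / I + ε)) =
        (Ψ N1 - Ψ M) / (N1 - M) + (Cq / I + ε) := by
      rw [← hSr2]; field_simp
    rw [h5] at h4
    linarith
  -- the average of Y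
  have hYavg : ∑ ξ, w ξ * Y ξ ≤ δ' := by
    have h1 := hsum (fun n θ i lab => if Good α δg lab then Err N1 (M + n) θ i lab else 1)
    have h2 : ∀ n : Fin S, ∑ θ, wθ θ * ((I:ℝ)⁻¹ * ∑ i, Psi α (fun lab : Fin (M + (n : ℕ)) → κ =>
        if Good α δg lab then Err N1 (M + n) θ i lab else 1)) ≤ δ' := by
      intro n
      have hn1 : M + (n:ℕ) < N1 := by have := n.2; omega
      obtain ⟨hb1, -⟩ := hbad (M + n) (by omega)
      have e : ∑ θ, wθ θ * ((I:ℝ)⁻¹ * ∑ i, Psi α (fun lab : Fin (M + (n : ℕ)) → κ =>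
          if Good α δg lab then Err N1 (M + n) θ i lab else 1)) =
          (I:ℝ)⁻¹ * ∑ i, Psi α (fun lab : Fin (M + (n : ℕ)) → κ => ∑ θ, wθ θ *
            (if Good α δg lab then Err N1 (M + n) θ i lab else 1)) := by
        unfold Psi
        simp only [Finset.mul_sum]
        rw [Finset.sum_comm]
        refine Finset.sum_congr rfl fun i _ => ?_
        rw [Finset.sum_comm]
        refine Finset.sum_congr rfl fun lab _ => Finset.sum_congr rfl fun θ _ => ?_
        ring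
      rw [e]
      have h3 : ∀ i, Psi α (fun lab : Fin (M + (n : ℕ)) → κ => ∑ θ, wθ θ *
          (if Good α δg lab then Err N1 (M + n) θ i lab else 1)) ≤ δ' := by
        intro i
        have h4 : ∀ lab : Fin (M + (n : ℕ)) → κ, ∑ θ, wθ θ *
            (if Good α δg lab then Err N1 (M + n) θ i lab else 1) ≤
            δ' / 2 + (if Good α δg lab then 0 else 1) := by
          intro lab
          split_ifs with hgood
          · rw [add_zero]
            exact hNd N1 (M + n) i lab (by omega) hn1 (by omega) hgood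
          · simp only [mul_one, hw1]
            linarith
        have h5 := Psi_mono hα h4
        rw [Psi_add, Psi_const hs] at h5
        linarith
      calc _ ≤ (I:ℝ)⁻¹ * ∑ _i : Fin I, δ' :=
            mul_le_mul_of_nonneg_left (Finset.sum_le_sum fun i _ => h3 i) (by positivity)
        _ = δ' := by
            rw [Finset.sum_const, Finset.card_univ, Fintype.card_fin, nsmul_eq_mul]; field_simp
    refine le_trans (le_of_eq h1) ?_
    calc _ ≤ (S:ℝ)⁻¹ * ∑ _n : Fin S, δ' :=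
          mul_le_mul_of_nonneg_left (Finset.sum_le_sum fun n _ => h2 n) (by positivity)
      _ = δ' := by
          rw [Finset.sum_const, Finset.card_univ, Fintype.card_fin, nsmul_eq_mul]; field_simp
  -- selection
  have hXC : ∀ ξ : Ξ, -C ≤ X ξ := by
    intro ξ
    simp only [X]
    split_ifs with hgood
    · have h1 := hc N1 (M + ξ.1) ξ.2.1 ξ.2.2.1 ξ.2.2.2 (by omega) (by have := ξ.1.2; omega)
        (by omega) hgood
      have h2 := hQ0 N1 (M + ξ.1) ξ.2.1 ξ.2.2.1 ξ.2.2.2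
      linarith
    · linarith
  have hY0 : ∀ ξ : Ξ, 0 ≤ Y ξ := by
    intro ξ
    simp only [Y]
    split_ifs
    · exact hErr0 _ _ _ _ _
    · exact zero_le_one
  obtain ⟨ξ, hξw, hξX, hξY⟩ := select hw_nonneg hw_one hε hδ' hXavg hXC hYavg hY0
  have hYlt : Y ξ ≤ δ' / ε * B := by
    refine hξY.trans (mul_le_mul_of_nonneg_left ?_ (by positivity))
    have := le_abs_self X0
    rw [hB]; linarith
  have hgood : Good α δg ξ.2.2.2 := by
    by_contra hbadξ
    have : Y ξ = 1 := by simp only [Y]; rw [if_neg hbadξ]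
    linarith
  have hX' : X ξ = Inc α (Φ N1 (M + ξ.1) ξ.2.1 ξ.2.2.1) (Φ N1 (M + ξ.1 + 1) ξ.2.1 ξ.2.2.1)
      ξ.2.2.2 + Q N1 (M + ξ.1) ξ.2.1 ξ.2.2.1 ξ.2.2.2 := by
    simp only [X]; rw [if_pos hgood]
  have hY' : Y ξ = Err N1 (M + ξ.1) ξ.2.1 ξ.2.2.1 ξ.2.2.2 := by
    simp only [Y]; rw [if_pos hgood]
  have hθ : 0 < wθ ξ.2.1 := by
    rcases (hw0 ξ.2.1).eq_or_lt with h | h
    · exfalso
      have : w ξ = 0 := by simp only [w]; rw [← h]; ring
      linarith
    · exact h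
  refine ⟨N1, M + ξ.1, ξ.2.1, ξ.2.2.1, ξ.2.2.2, by omega, by have := ξ.1.2; omega, by omega,
    hθ, hgood, ?_, ?_⟩
  · rw [← hX']; linarith
  · rw [← hY']; linarith

end

end Crest.Agent.R164.LSel
end

-- ▼ part R164/LabPen
section

/-!
Row 164 (helper362): the penalty `Mag.PEN` is an admissible family of extra weights for the
label transfer `LabTr`.
-/

set_option autoImplicit false

namespace Crest.Agent.R164.LabTr

open Finset MeasureTheory Filter Topology
open Crest.ProbabilityR.InvariantGlass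
open Crest.Agent.R164.LabAvg
open Crest.Agent.R164.Haar (Mat RHaar lmul rmul)

noncomputable section

theorem rJ_perm {N J : ℕ} (lab : Fin N → Fin J) (π : Equiv.Perm (Fin N)) (j : Fin J) :
    Mag.rJ (fun i => lab (π i)) j = Mag.rJ lab j := by
  have := cnt_perm lab π j
  unfold Mag.rJ
  unfold cnt at this
  rw [this]

theorem SJ_perm {N J : ℕ} (lab : Fin N → Fin J) (σ : Fin N → Bool) (π : Equiv.Perm (Fin N))
    (j : Fin J) : Mag.SJ (fun i => lab (π i)) (fun i => σ (π i)) j = Mag.SJ lab σ j := by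
  unfold Mag.SJ
  rw [Finset.sum_filter, Finset.sum_filter]
  rw [← Equiv.sum_comp π (fun r => if lab r = j then spinVec σ r else 0)]
  rfl

theorem PEN_perm {N J : ℕ} (c t : Fin J → ℝ) (K : ℝ) (lab : Fin N → Fin J) (σ : Fin N → Bool)
    (π : Equiv.Perm (Fin N)) :
    Mag.PEN c t K (fun i => lab (π i)) (fun i => σ (π i)) = Mag.PEN c t K lab σ := by
  unfold Mag.PEN
  simp only [rJ_perm, SJ_perm]

theorem abs_SJ_le_rJ {N J : ℕ} (lab : Fin N → Fin J) (σ : Fin N → Bool) (j : Fin J) :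
    |Mag.SJ lab σ j| ≤ Mag.rJ lab j := by
  unfold Mag.SJ Mag.rJ
  refine (Finset.abs_sum_le_sum_abs _ _).trans ?_
  simp [abs_spinVec]

theorem rJ_diff {N J : ℕ} (lab lab' : Fin N → Fin J) (j : Fin J) :
    |Mag.rJ lab j - Mag.rJ lab' j| ≤ ((univ.filter fun i => lab i ≠ lab' i).card : ℝ) := by
  unfold Mag.rJ
  rw [Finset.card_filter, Finset.card_filter, Finset.card_filter]
  push_cast
  rw [← Finset.sum_sub_distrib]
  refine (Finset.abs_sum_le_sum_abs _ _).trans (Finset.sum_le_sum fun i _ => ?_)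
  by_cases h : lab i = lab' i
  · rw [h]; simp
  · rw [if_pos h]
    split_ifs <;> norm_num

theorem SJ_diff {N J : ℕ} (lab lab' : Fin N → Fin J) (σ : Fin N → Bool) (j : Fin J) :
    |Mag.SJ lab σ j - Mag.SJ lab' σ j| ≤ ((univ.filter fun i => lab i ≠ lab' i).card : ℝ) := by
  unfold Mag.SJ
  rw [Finset.card_filter, Finset.sum_filter, Finset.sum_filter]
  push_cast
  rw [← Finset.sum_sub_distrib]
  refine (Finset.abs_sum_le_sum_abs _ _).trans (Finset.sum_le_sum fun i _ => ?_)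
  by_cases h : lab i = lab' i
  · rw [h]; simp
  · rw [if_pos h]
    have := abs_spinVec σ i
    split_ifs <;> simp_all

theorem persp {r S r' S' t : ℝ} (h : |S| ≤ r) (h' : |S'| ≤ r') (ht : |t| ≤ 1) :
    |r * (S / r - t) ^ 2 - r' * (S' / r' - t) ^ 2| ≤ 8 * |r - r'| + 4 * |S - S'| := by
  have hr : 0 ≤ r := (abs_nonneg _).trans h
  have hr' : 0 ≤ r' := (abs_nonneg _).trans h'
  have ht' := abs_le.1 ht
  have hb : ∀ u : ℝ, |u| ≤ 1 → (u - t) ^ 2 ≤ 4 := by
    intro u hu
    have := abs_le.1 hu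
    nlinarith [this.1, this.2, ht'.1, ht'.2]
  rcases hr.eq_or_lt with h0 | h0
  · subst h0
    rcases hr'.eq_or_lt with h1 | h1
    · subst h1; simp
    · have hu' : |S' / r'| ≤ 1 := by
        rw [abs_div, abs_of_pos h1]; exact (div_le_one h1).2 h'
      have := hb _ hu'
      rw [zero_mul, zero_sub, abs_neg, abs_of_nonneg (mul_nonneg hr' (sq_nonneg _)), zero_sub,
        abs_neg, abs_of_nonneg hr']
      nlinarith [abs_nonneg (S - S')]
  · have hu : |S / r| ≤ 1 := by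
      rw [abs_div, abs_of_pos h0]; exact (div_le_one h0).2 h
    rcases hr'.eq_or_lt with h1 | h1
    · subst h1
      have := hb _ hu
      rw [zero_mul, sub_zero, abs_of_nonneg (mul_nonneg hr (sq_nonneg _)), sub_zero,
        abs_of_nonneg hr]
      nlinarith [abs_nonneg (S - S')]
    · have hu' : |S' / r'| ≤ 1 := by
        rw [abs_div, abs_of_pos h1]; exact (div_le_one h1).2 h'
      set u := S / r with hudef
      set u' := S' / r' with hu'def
      have hS : S = r * u := by rw [hudef]; field_simp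
      have hS' : S' = r' * u' := by rw [hu'def]; field_simp
      have e : r * (u - t) ^ 2 - r' * (u' - t) ^ 2 =
          (r - r') * (u - t) ^ 2 + ((r' - r) * u + (S - S')) * (u + u' - 2 * t) := by
        rw [hS, hS']; ring
      rw [e]
      refine (abs_add_le _ _).trans ?_
      rw [abs_mul, abs_mul]
      have b1 : |(u - t) ^ 2| ≤ 4 := by rw [abs_of_nonneg (sq_nonneg _)]; exact hb u hu
      have b2 : |u + u' - 2 * t| ≤ 4 := by
        have h1 := abs_le.1 hu
        have h2 := abs_le.1 hu'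
        rw [abs_le]; constructor <;> linarith [h1.1, h1.2, h2.1, h2.2, ht'.1, ht'.2]
      have b3 : |(r' - r) * u + (S - S')| ≤ |r - r'| + |S - S'| := by
        refine (abs_add_le _ _).trans ?_
        rw [abs_mul, abs_sub_comm r' r]
        have := mul_le_mul_of_nonneg_left hu (abs_nonneg (r - r'))
        linarith
      have c1 := mul_le_mul_of_nonneg_left b1 (abs_nonneg (r - r'))
      have c2 : |(r' - r) * u + (S - S')| * |u + u' - 2 * t| ≤ (|r - r'| + |S - S'|) * 4 :=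
        mul_le_mul b3 b2 (abs_nonneg _) (by positivity)
      linarith

theorem PEN_lip {N J : ℕ} (c : Fin J → ℝ) {t : Fin J → ℝ} (ht : ∀ j, |t j| ≤ 1) {K : ℝ}
    (hK : 0 ≤ K) (lab lab' : Fin N → Fin J) (σ : Fin N → Bool) :
    |Mag.PEN c t K lab σ - Mag.PEN c t K lab' σ| ≤
      (∑ j, |c j| + 12 * K * J) * ((univ.filter fun i => lab i ≠ lab' i).card : ℝ) := by
  set D : ℝ := ((univ.filter fun i => lab i ≠ lab' i).card : ℝ) with hD
  have hD0 : 0 ≤ D := Nat.cast_nonneg _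
  unfold Mag.PEN
  rw [← Finset.sum_sub_distrib]
  refine (Finset.abs_sum_le_sum_abs _ _).trans ?_
  have : ∀ j ∈ (univ : Finset (Fin J)), |(if t j = 0 then 0 else
      c j * Mag.SJ lab σ j - K * (Mag.rJ lab j * (Mag.SJ lab σ j / Mag.rJ lab j - t j) ^ 2)) -
      (if t j = 0 then 0 else
      c j * Mag.SJ lab' σ j - K * (Mag.rJ lab' j * (Mag.SJ lab' σ j / Mag.rJ lab' j - t j) ^ 2))| ≤
      (|c j| + 12 * K) * D := by
    intro j _
    have h1 := SJ_diff lab lab' σ j
    have h2 := rJ_diff lab lab' j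
    have h3 := persp (abs_SJ_le_rJ lab σ j) (abs_SJ_le_rJ lab' σ j) (ht j)
    rw [← hD] at h1 h2
    split_ifs
    · simp only [sub_self, abs_zero]; positivity
    · have e : c j * Mag.SJ lab σ j -
          K * (Mag.rJ lab j * (Mag.SJ lab σ j / Mag.rJ lab j - t j) ^ 2) -
          (c j * Mag.SJ lab' σ j -
          K * (Mag.rJ lab' j * (Mag.SJ lab' σ j / Mag.rJ lab' j - t j) ^ 2)) =
          c j * (Mag.SJ lab σ j - Mag.SJ lab' σ j) -
          K * (Mag.rJ lab j * (Mag.SJ lab σ j / Mag.rJ lab j - t j) ^ 2 -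
            Mag.rJ lab' j * (Mag.SJ lab' σ j / Mag.rJ lab' j - t j) ^ 2) := by ring
      rw [e]
      refine (abs_sub _ _).trans ?_
      rw [abs_mul, abs_mul, abs_of_nonneg hK]
      have d1 := mul_le_mul_of_nonneg_left h1 (abs_nonneg (c j))
      have d2 := mul_le_mul_of_nonneg_left h3 hK
      have d3 : K * (8 * |Mag.rJ lab j - Mag.rJ lab' j| + 4 * |Mag.SJ lab σ j - Mag.SJ lab' σ j|) ≤
          K * (12 * D) := mul_le_mul_of_nonneg_left (by linarith) hK
      linarith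
  refine (Finset.sum_le_sum this).trans ?_
  rw [← Finset.sum_mul, Finset.sum_add_distrib]
  simp only [Finset.sum_const, Finset.card_univ, Fintype.card_fin, nsmul_eq_mul]
  apply le_of_eq
  ring

/-- the penalties (with strengths bounded by `Kmax`, possibly depending on `N`) form an
admissible family -/
theorem PEN_VFam {J : ℕ} (c : Fin J → ℝ) {t : Fin J → ℝ} (ht : ∀ j, |t j| ≤ 1) {K : ℕ → ℝ}
    {Kmax : ℝ} (hK : ∀ N, 0 ≤ K N) (hK' : ∀ N, K N ≤ Kmax) :
    VFam (ι := Fin J) (∑ j, |c j| + 12 * Kmax * J)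
      (fun N lab σ => Mag.PEN c t (K N) lab σ) where
  C0 := by
    have h1 : 0 ≤ Kmax := (hK 0).trans (hK' 0)
    have h2 : 0 ≤ ∑ j, |c j| := Finset.sum_nonneg fun _ _ => abs_nonneg _
    positivity
  perm N lab σ π := PEN_perm c t (K N) lab σ π
  lip N lab lab' σ := by
    refine (PEN_lip c ht (hK N) lab lab' σ).trans ?_
    refine mul_le_mul_of_nonneg_right ?_ (Nat.cast_nonneg _)
    have := hK' N
    have h3 : (0:ℝ) ≤ J := Nat.cast_nonneg _
    nlinarith [mul_le_mul_of_nonneg_right this h3]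

/-- **GLUE-LAB** for the penalised pressure. -/
theorem tendsto_Psi_PEN {κ : Type*} [Fintype κ] [DecidableEq κ] [Nonempty κ] {J : ℕ} [NeZero J]
    (v : κ → ℝ) (c : Fin J → ℝ) {t : Fin J → ℝ} (ht : ∀ j, |t j| ≤ 1) {K : ℕ → ℝ}
    {Kmax : ℝ} (hK : ∀ N, 0 ≤ K N) (hK' : ∀ N, K N ≤ Kmax)
    {α : κ → ℝ} {γ : Fin J → ℝ} (hα : ∑ k, α k = 1) (hγ : ∑ j, γ j = 1) (hα0 : ∀ k, 0 < α k)
    (hγ0 : ∀ j, 0 ≤ γ j) (μ : (N : ℕ) → Measure (Mat (Fin N)))
    (hμp : ∀ N, IsProbabilityMeasure (μ N)) (hμ : ∀ N, RHaar (μ N))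
    (kap0 : (N : ℕ) → Fin N → κ) (lab0 : (N : ℕ) → Fin N → Fin J)
    (hk : ∀ k, Tendsto (fun N : ℕ => (cnt (kap0 N) k : ℝ) / N) atTop (𝓝 (α k)))
    (hl : ∀ j, Tendsto (fun N : ℕ => (cnt (lab0 N) j : ℝ) / N) atTop (𝓝 (γ j))) :
    Tendsto (fun N : ℕ => Psi (pr α γ) (fun l : Fin N → κ × Fin J =>
      |EP (μ N) v (fun i => (l i).1) (Mag.PEN c t (K N) (fun i => (l i).2)) -
        EP (μ N) v (kap0 N) (Mag.PEN c t (K N) (lab0 N))|)) atTop (𝓝 0) :=
  tendsto_Psi v (PEN_VFam c ht hK hK') hα hγ hα0 hγ0 μ hμp hμ kap0 lab0 hk hl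


end

end Crest.Agent.R164.LabTr
end

-- ▼ part R164/LStruct2G

/-!
# Row 164, module LSTRUCT-2, part G

The bounds of parts C and D for arbitrary bounded parameters `θ : LD.Prm p K J`, uniformly in the
penalty strength `Kp ≤ Km`.
-/

set_option autoImplicit false
set_option linter.unusedSectionVars false
set_option linter.unusedVariables false

namespace Crest.Agent.R164.LS2

open Finset MeasureTheory Filter Crest.Agent.R141 Crest.Agent.R164 Crest.Agent.R164.ObsConc
open Crest.Agent.R164.G (Base prior_isProb)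
open Crest.Agent.R164.LGrid (gavg pt sh SD)
open Crest.Agent.R164.Haar (Mat RHaar)
open Crest.ProbabilityR.InvariantGlass (spinVec)

noncomputable section

variable {p : Par} {N K J : ℕ}

/-- bounded parameters -/
structure PB (R : ℝ) (θ : LD.Prm p K J) : Prop where
  el : ∀ j, |θ.el j| ≤ R
  am : ∀ j g, |θ.am j g| ≤ R
  lm : ∀ k g, |θ.lm k g| ≤ R

variable (n : ℕ) (val : Fin (K + 1) → ℝ) (c t : Fin J → ℝ) (Kp : ℝ)
  (kap : Fin N → Fin (K + 1)) (lab : Fin N → Fin J) (θ : LD.Prm p K J)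

theorem HL_eq_HU :
    (LD.HL n val c t Kp θ kap lab : Mat (Fin N) → _) =
      CSys.HU (n := n) (A := (Finset.univ : Finset (Fin N → Bool))) (fun i => val (kap i)) 1
        (LD.VL c t Kp θ.el lab) (fun i g => θ.am (lab i) g)
        (fun i g => θ.lm (kap i) g) := rfl

variable {Kp θ}


variable {ν : Measure (Mat (Fin N))} [IsProbabilityMeasure ν]

theorem adm_HL (ht : ∀ j, |t j| ≤ 1) (hKp : 0 ≤ Kp) {R : ℝ} (hR : PB R θ)
    (hν : ∀ᵐ U ∂ν, Matrix.of U ∈ Matrix.orthogonalGroup (Fin N) ℝ) :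
    Adm (LD.B p N n) ν (LD.HL n val c t Kp θ kap lab) where
  meas s := by
    rw [HL_eq_HU]
    exact CSys.measurable_HU _ _ _ _ _ s
  bdd := by
    refine ⟨((∑ k, |val k|) / 2 + (∑ j, |c j| + 4 * Kp + R) + 2 * p.nc * R ^ 2 +
      2 * p.nc * R ^ 2) * N +
      1 / 8 * ∑ s' : SY.SS p n (Finset.univ : Finset (Fin N → Bool)), CSys.Ts s', ?_⟩
    filter_upwards [hν] with U hU s
    rw [HL_eq_HU]
    refine (CSys.abs_HU_le (n := n) (A := (Finset.univ : Finset (Fin N → Bool)))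
      (fun i => val (kap i)) 1 _ _ _ (Λ0 := ∑ k, |val k|) (Λ := R) (Λa := R)
      (BV := ∑ j, |c j| + 4 * Kp + R) (fun i => val_le val _) (by norm_num)
      (fun i g => hR.lm _ _)
      (fun i g => hR.am _ _) (fun σ => abs_VL_le c t Kp ht hKp hR.el σ) hU s).trans ?_
    have := Ts_le_sum s
    linarith




/-- the averaged free energy in the names of `LDef`. -/
theorem FF_eq_EPh' (ht : ∀ j, |t j| ≤ 1) (hKp : 0 ≤ Kp) {R : ℝ} (hR : PB R θ)
    (hν : ∀ᵐ U ∂ν, Matrix.of U ∈ Matrix.orthogonalGroup (Fin N) ℝ) :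
    FF (LD.B p N n) ν (LD.HL n val c t Kp θ kap lab) = LD.EPh ν n val c t Kp θ kap lab := by
  have hH := adm_HL (ν := ν) n val c t kap lab ht hKp hR hν
  have h1 : LD.EPh ν n val c t Kp θ kap lab =
      ∫ U, ∑ d, dw p N d * G.Phi (LD.B p N n) (LD.HL n val c t Kp θ kap lab U) d ∂ν := rfl
  have hi : ∀ d : DD p N, Integrable
      (fun U => G.Phi (LD.B p N n) (LD.HL n val c t Kp θ kap lab U) d) ν :=
    fun d => hH.int_Phi d
  rw [h1, integral_finsetSum _ fun d _ => (hi d).const_mul _]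
  simp only [integral_const_mul]
  rfl



/-! ### The choice of the grid, numbers -/


end

end Crest.Agent.R164.LS2
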