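import Crest.Agent.R164.LGDef
import Crest.Agent.R164.LMTail_Mg
import Crest.Agent.R164.LIbpm
import Crest.Agent.R164.LPert2
import Crest.Agent.R164.LLimB
import Crest.Agent.R164.LStruct2G_Mg
import Crest.Agent.R164.LPen2
import Crest.Agent.R164.LIbp

-- ▼ part R164/LFin1
section

/-!
Row 164, L side (helper893): final assembly, part 1: elementary facts about the selected system.
-/

set_option autoImplicit false

namespace Crest.Agent.R164.LG

open Finset MeasureTheory Filter Topology Crest.Agent.R141 Crest.Agent.R164 Crest.Agent.R164.Haar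
open Crest.ProbabilityR.InvariantGlass (spinVec)
open Crest.Agent.R164.LD (Prm HL EPh EO PL TO RJ MO)

noncomputable section

variable (X : Glob) {p : Par} {N : ℕ} (n : ℕ) (Kp : ℝ) (θ : Prm p X.K X.J) (L : Fin N → X.LB)

/-- mean magnetisation of the group `j` -/
def mbar (j : Fin X.J) : ℝ := Eo X n Kp θ L (fun _ _ ω => MO n (Glob.lab L) j ω)

/-- mean squared distance of the magnetisation of the group `j` -/
def mvar (j : Fin X.J) : ℝ := Eo X n Kp θ L (fun _ _ ω => (MO n (Glob.lab L) j ω - X.t j) ^ 2)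

variable {n Kp θ L}

theorem adm_dev (j : Fin X.J) (x : ℝ) :
    LD.OAdm (p := p) (n := n) (X.nu N) (fun _ _ ω => (MO n (Glob.lab L) j ω - x) ^ 2) :=
  LD.OAdm.const fun _ ω => (MO n (Glob.lab L) j ω - x) ^ 2

theorem abs_mbar_le (hN : 0 < N) (j : Fin X.J) : |mbar X n Kp θ L j| ≤ 1 := by
  have := X.hnu N
  refine LD.abs_EO_le X.val X.c X.t Kp θ (Glob.kap L) (Glob.lab L) hN
    (LD.adm_MO (mu := X.nu N) (n := n) (Glob.lab L) j) fun d => Filter.Eventually.of_forall fun U => ?_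
  refine (eE_abs_le (LD.PL_isProb X.val X.c X.t Kp θ (Glob.kap L) (Glob.lab L) U d) _).trans ?_
  exact eE_le_of_le (LD.PL_isProb X.val X.c X.t Kp θ (Glob.kap L) (Glob.lab L) U d) fun ω =>
    Mag.abs_mag_le _ _ _

theorem mvar_nonneg (hN : 0 < N) (j : Fin X.J) : 0 ≤ mvar X n Kp θ L j := by
  have := X.hnu N
  have h := LD.EO_mono' X.val X.c X.t Kp θ (Glob.kap L) (Glob.lab L)
    (LD.OAdm.const (mu := X.nu N) (n := n) (fun (_ : DD p N) _ => (0 : ℝ)))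
    (adm_dev X (n := n) (L := L) j (X.t j)) (fun d => Filter.Eventually.of_forall fun U ω =>
      sq_nonneg _)
  rwa [LD.EO_const X.val X.c X.t Kp θ (Glob.kap L) (Glob.lab L) hN] at h

theorem mvar_le (hN : 0 < N) (j : Fin X.J) : mvar X n Kp θ L j ≤ 4 := by
  have := X.hnu N
  have h := LD.EO_mono' X.val X.c X.t Kp θ (Glob.kap L) (Glob.lab L)
    (adm_dev X (n := n) (L := L) j (X.t j))
    (LD.OAdm.const (mu := X.nu N) (n := n) (fun (_ : DD p N) _ => (4 : ℝ)))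
    (fun d => Filter.Eventually.of_forall fun U ω => by
      have h1 := abs_le.1 (Mag.abs_mag_le (Glob.lab L) ω.1.1.1 j)
      have h2 := abs_le.1 (X.ht j).le
      show (Mag.mag (Glob.lab L) ω.1.1.1 j - X.t j) ^ 2 ≤ 4
      nlinarith [h1.1, h1.2, h2.1, h2.2])
  rwa [LD.EO_const X.val X.c X.t Kp θ (Glob.kap L) (Glob.lab L) hN] at h

/-- Jensen -/
theorem sq_mbar_le (hN : 0 < N) (j : Fin X.J) :
    (mbar X n Kp θ L j - X.t j) ^ 2 ≤ mvar X n Kp θ L j := by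
  have := X.hnu N
  set a := mbar X n Kp θ L j - X.t j with ha
  have hM := LD.adm_MO (mu := X.nu N) (n := n) (p := p) (Glob.lab L) j
  have hc := LD.OAdm.const (mu := X.nu N) (n := n) (fun (_ : DD p N) (_ : G.Om (LD.B p N n)) =>
    (-(2 * a * X.t j + a ^ 2) : ℝ))
  have hO := (hM.smul (2 * a)).add hc
  have h := LD.EO_mono' X.val X.c X.t Kp θ (Glob.kap L) (Glob.lab L) hO
    (adm_dev X (n := n) (L := L) j (X.t j)) (fun d => Filter.Eventually.of_forall fun U ω => by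
      show 2 * a * MO n (Glob.lab L) j ω + -(2 * a * X.t j + a ^ 2) ≤
        (MO n (Glob.lab L) j ω - X.t j) ^ 2
      nlinarith [sq_nonneg (MO n (Glob.lab L) j ω - X.t j - a)])
  rw [LD.EO_add X.val X.c X.t Kp θ (Glob.kap L) (Glob.lab L) (hM.smul (2 * a)) hc,
    LD.EO_smul X.val X.c X.t Kp θ (Glob.kap L) (Glob.lab L) hM,
    LD.EO_const X.val X.c X.t Kp θ (Glob.kap L) (Glob.lab L) hN] at h
  have e : EO (X.nu N) n X.val X.c X.t Kp θ (Glob.kap L) (Glob.lab L)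
      (fun _ _ ω => MO n (Glob.lab L) j ω) = mbar X n Kp θ L j := rfl
  rw [e] at h
  have e2 : mvar X n Kp θ L j = EO (X.nu N) n X.val X.c X.t Kp θ (Glob.kap L) (Glob.lab L)
      (fun _ _ ω => (MO n (Glob.lab L) j ω - X.t j) ^ 2) := rfl
  rw [e2]
  have e3 : 2 * a * mbar X n Kp θ L j + -(2 * a * X.t j + a ^ 2) = a ^ 2 := by
    rw [ha]; ring
  linarith

theorem gam_nonneg (j : Fin X.J) : (0 : ℝ) ≤ ((X.γ j : ℚ) : ℝ) := by exact_mod_cast (X.hγ j).le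

theorem Qd_nonneg (hN : 0 < N) : 0 ≤ Qd X n Kp θ L := by
  unfold Qd
  refine Finset.sum_nonneg fun j _ => ?_
  split_ifs
  · exact le_rfl
  · exact mul_nonneg (div_nonneg (Mag.rJ_nonneg _ _) (Nat.cast_nonneg N))
      (mvar_nonneg X (n := n) (Kp := Kp) (θ := θ) (L := L) hN j)

/-- the weighted squared distances, with the exact weights `γ` -/
theorem Qd_ge {d0 : ℝ} (hN : 0 < N) (hd0 : 0 ≤ d0) (hL : LabAvg.Good X.al d0 L) :
    (∑ j, if X.t j = 0 then 0 else ((X.γ j : ℚ) : ℝ) * mvar X n Kp θ L j) -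
      X.J * (4 * (((X.K : ℝ) + 1) * d0)) ≤ Qd X n Kp θ L := by
  unfold Qd
  have h : ∀ j : Fin X.J, (if X.t j = 0 then 0 else ((X.γ j : ℚ) : ℝ) * mvar X n Kp θ L j) -
      4 * (((X.K : ℝ) + 1) * d0) ≤ if X.t j = 0 then 0 else (Mag.rJ (Glob.lab L) j / N) *
      Eo X n Kp θ L (fun _ _ ω => (MO n (Glob.lab L) j ω - X.t j) ^ 2) := by
    intro j
    have hpos : 0 ≤ 4 * (((X.K : ℝ) + 1) * d0) := by positivity
    split_ifs
    · linarith
    · have h1 := good_ratio (X := X) (L := L) hN hL j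
      have h2 := mvar_nonneg X (n := n) (Kp := Kp) (θ := θ) (L := L) hN j
      have h3 := mvar_le X (n := n) (Kp := Kp) (θ := θ) (L := L) hN j
      have h4 := (abs_le.1 h1).2
      show _ ≤ (Mag.rJ (Glob.lab L) j / N) * mvar X n Kp θ L j
      have h5 : (((X.γ j : ℚ) : ℝ) - Mag.rJ (Glob.lab L) j / N) * mvar X n Kp θ L j ≤
          (((X.K : ℝ) + 1) * d0) * 4 :=
        (mul_le_mul_of_nonneg_right h4 h2).trans
          (mul_le_mul_of_nonneg_left h3 (by positivity))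
      linarith
  have hs := Finset.sum_le_sum fun j (_ : j ∈ Finset.univ) => h j
  rw [Finset.sum_sub_distrib, Finset.sum_const, Finset.card_univ, Fintype.card_fin,
    nsmul_eq_mul] at hs
  exact hs

/-- the quadratic term of `crit` -/
theorem quad_le {d0 : ℝ} (hN : 0 < N) (hd0 : 0 ≤ d0) (hKp : 0 ≤ Kp)
    (hL : LabAvg.Good X.al d0 L) :
    Kp * ∑ j, ((X.γ j : ℚ) : ℝ) * (if X.t j = 0 then 0 else
      (mbar X n Kp θ L j - X.t j) ^ 2) ≤ Kp * Qd X n Kp θ L +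
        Kp * (X.J * (4 * (((X.K : ℝ) + 1) * d0))) := by
  rw [← mul_add]
  refine mul_le_mul_of_nonneg_left ?_ hKp
  have h1 := Qd_ge X (n := n) (Kp := Kp) (θ := θ) hN hd0 hL
  have h2 : ∑ j, ((X.γ j : ℚ) : ℝ) * (if X.t j = 0 then 0 else
      (mbar X n Kp θ L j - X.t j) ^ 2) ≤
      ∑ j, if X.t j = 0 then 0 else ((X.γ j : ℚ) : ℝ) * mvar X n Kp θ L j := by
    refine Finset.sum_le_sum fun j _ => ?_
    split_ifs
    · rw [mul_zero]
    · exact mul_le_mul_of_nonneg_left (sq_mbar_le X hN j) (gam_nonneg X j)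
  linarith

/-- smallness of the deviation of the magnetisations, from the lower bound of the increment -/
theorem dev_small {C0 Inc R ε0 g : ℝ} (hN : 0 < N) (hKp : 0 ≤ Kp)
    (hlow : (∑ j, if X.t j = 0 then 0 else ((X.γ j : ℚ) : ℝ) * (Kp * mvar X n Kp θ L j)) - C0 ≤
      Inc) (hR : Inc + Kp * Qd X n Kp θ L ≤ R) (hε0 : 0 ≤ ε0) (hg : 0 < g)
    (hgj : ∀ j, g ≤ ((X.γ j : ℚ) : ℝ)) (hK : R + C0 ≤ Kp * g * (ε0 / 2) ^ 2)
    (hKp' : 0 < Kp) (j : Fin X.J) (hj : X.t j ≠ 0) :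
    |mbar X n Kp θ L j - X.t j| ≤ ε0 / 2 := by
  have h1 : 0 ≤ Kp * Qd X n Kp θ L := mul_nonneg hKp (Qd_nonneg X hN)
  have h2 : ((X.γ j : ℚ) : ℝ) * (Kp * mvar X n Kp θ L j) ≤
      ∑ j, if X.t j = 0 then 0 else ((X.γ j : ℚ) : ℝ) * (Kp * mvar X n Kp θ L j) := by
    have := Finset.single_le_sum (f := fun j => if X.t j = 0 then 0 else
      ((X.γ j : ℚ) : ℝ) * (Kp * mvar X n Kp θ L j)) (fun j _ => by
        split_ifs
        · exact le_rfl
        · exact mul_nonneg (gam_nonneg X j) (mul_nonneg hKp (mvar_nonneg X hN j)))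
      (Finset.mem_univ j)
    simpa only [if_neg hj] using this
  have h3 := sq_mbar_le X (n := n) (Kp := Kp) (θ := θ) (L := L) hN j
  have h4 : Kp * g * (mbar X n Kp θ L j - X.t j) ^ 2 ≤ Kp * g * (ε0 / 2) ^ 2 := by
    have a1 : g * (Kp * (mbar X n Kp θ L j - X.t j) ^ 2) ≤
        ((X.γ j : ℚ) : ℝ) * (Kp * mvar X n Kp θ L j) :=
      mul_le_mul (hgj j) (mul_le_mul_of_nonneg_left h3 hKp) (by positivity) (gam_nonneg X j)
    nlinarith
  have h5 : (mbar X n Kp θ L j - X.t j) ^ 2 ≤ (ε0 / 2) ^ 2 :=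
    le_of_mul_le_mul_left h4 (by positivity)
  exact abs_le_of_sq_le_sq h5 (by linarith)

/-! ### active cells -/

/-- the set of the active cells -/
def actS (p : Par) (M B : ℕ) : Finset (Fin p.nc) :=
  Finset.univ.filter fun g => ∃ x : Fin M, (g : ℕ) = cellA B x

theorem cellA_inj {B : ℕ} (hB : 0 < B) {x y : ℕ} (h : cellA B x = cellA B y) : x = y := by
  unfold cellA at h
  have h1 : 0 < (x + 1) * B := Nat.mul_pos (Nat.succ_pos x) hB
  have h2 : 0 < (y + 1) * B := Nat.mul_pos (Nat.succ_pos y) hB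
  have h3 : (x + 1) * B = (y + 1) * B := by omega
  have h4 := Nat.eq_of_mul_eq_mul_right hB h3
  omega

theorem cellA_lt {B M : ℕ} (hB : 0 < B) (x : Fin M) (hnc : p.nc = (M + 1) * B) :
    cellA B x < p.nc := by
  rw [hnc]
  unfold cellA
  have h1 : ((x : ℕ) + 1) * B ≤ (M + 1) * B := Nat.mul_le_mul_right B (by have := x.2; omega)
  have h2 : 0 < ((x : ℕ) + 1) * B := Nat.mul_pos (Nat.succ_pos x) hB
  omega

/-- the active cell `x` -/
def cA {B M : ℕ} (hB : 0 < B) (hnc : p.nc = (M + 1) * B) (x : Fin M) : Fin p.nc :=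
  ⟨cellA B x, cellA_lt hB x hnc⟩

theorem cA_mem {B M : ℕ} (hB : 0 < B) (hnc : p.nc = (M + 1) * B) (x : Fin M) :
    cA hB hnc x ∈ actS p M B := by
  unfold actS
  rw [Finset.mem_filter]
  exact ⟨Finset.mem_univ _, x, rfl⟩

/-- strengths of the group `j` -/
def aOf {B M : ℕ} (hB : 0 < B) (hnc : p.nc = (M + 1) * B)
    (θ : LS2.Cd X.K X.J (actS p M B) → ℝ) (j : Fin X.J) (x : Fin M) : ℝ :=
  θ (Sum.inr (Sum.inl (j, ⟨cA hB hnc x, cA_mem hB hnc x⟩)))

theorem amF_cA {B M : ℕ} (hB : 0 < B) (hnc : p.nc = (M + 1) * B) (a : Fin M → ℝ) (x : Fin M) :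
    amF p B a (cA hB hnc x) = a x := by
  unfold amF
  rw [Finset.sum_eq_single x]
  · exact if_pos rfl
  · intro y _ hy
    rw [if_neg]
    intro h
    exact hy (Fin.ext (cellA_inj hB (h : cellA B x = cellA B y)).symm)
  · intro h; exact absurd (Finset.mem_univ _) h

theorem amF_zero {B M : ℕ} (a : Fin M → ℝ) {g : Fin p.nc} (hg : g ∉ actS p M B) :
    amF p B a g = 0 := by
  unfold amF
  refine Finset.sum_eq_zero fun x _ => ?_
  rw [if_neg]
  intro h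
  apply hg
  unfold actS
  rw [Finset.mem_filter]
  exact ⟨Finset.mem_univ _, x, h⟩

theorem prm_am {B M : ℕ} (hB : 0 < B) (hnc : p.nc = (M + 1) * B)
    (θ : LS2.Cd X.K X.J (actS p M B) → ℝ) (j : Fin X.J) :
    (LS2.prm (actS p M B) θ).am j = amF p B (aOf X hB hnc θ j) := by
  funext g
  by_cases hg : g ∈ actS p M B
  · obtain ⟨x, hx⟩ := (Finset.mem_filter.1 hg).2
    have e : g = cA hB hnc x := Fin.ext hx
    subst e
    rw [amF_cA]
    unfold LS2.prm aOf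
    simp only
    rw [dif_pos hg]
  · rw [amF_zero _ hg]
    unfold LS2.prm
    simp only
    rw [dif_neg hg]

theorem amF_update {B M : ℕ} (hB : 0 < B) (hnc : p.nc = (M + 1) * B) (a : Fin M → ℝ) (x : Fin M)
    (y : ℝ) : Function.update (amF p B a) (cA hB hnc x) y =
      amF p B (Function.update a x y) := by
  funext g
  by_cases hg : g = cA hB hnc x
  · subst hg
    rw [Function.update_self, amF_cA, Function.update_self]
  · rw [Function.update_of_ne hg]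
    unfold amF
    refine Finset.sum_congr rfl fun x' _ => ?_
    by_cases hx : (g : ℕ) = cellA B x'
    · have : x' ≠ x := by
        rintro rfl
        exact hg (Fin.ext hx)
      rw [if_pos hx, if_pos hx, Function.update_of_ne this]
    · rw [if_neg hx, if_neg hx]

theorem card_actS (p : Par) (M B : ℕ) : (actS p M B).card ≤ M := by
  classical
  have h : actS p M B ⊆ (Finset.univ : Finset (Fin M)).biUnion fun x =>
      Finset.univ.filter fun g : Fin p.nc => (g : ℕ) = cellA B x := by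
    intro g hg
    obtain ⟨x, hx⟩ := (Finset.mem_filter.1 hg).2
    rw [Finset.mem_biUnion]
    exact ⟨x, Finset.mem_univ _, Finset.mem_filter.2 ⟨Finset.mem_univ _, hx⟩⟩
  refine (Finset.card_le_card h).trans (Finset.card_biUnion_le.trans ?_)
  calc ∑ x : Fin M, (Finset.univ.filter fun g : Fin p.nc => (g : ℕ) = cellA B x).card ≤
      ∑ _x : Fin M, 1 := Finset.sum_le_sum fun x _ => by
        rw [Finset.card_le_one]
        intro a ha b hb
        exact Fin.ext ((Finset.mem_filter.1 ha).2.trans (Finset.mem_filter.1 hb).2.symm)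
    _ = M := by simp

/-- bounds of the parameters on the box -/
theorem bd_prm {M B : ℕ} {θ : LS2.Cd X.K X.J (actS p M B) → ℝ} {E A a S l : ℝ}
    (ha0 : 0 ≤ a) (hA : (M : ℝ) * a ^ 2 ≤ A ^ 2) (hS : (p.nc : ℝ) * l ^ 2 ≤ S)
    (h1 : ∀ j, |θ (Sum.inl j)| ≤ E) (h2 : ∀ j g, |θ (Sum.inr (Sum.inl (j, g)))| ≤ a)
    (h3 : ∀ k g, |θ (Sum.inr (Sum.inr (k, g)))| ≤ l) :
    Bd X E A S (LS2.prm (actS p M B) θ) where
  el j := h1 j
  am j := by
    have h : ∀ g, (LS2.prm (actS p M B) θ).am j g ^ 2 ≤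
        if g ∈ actS p M B then a ^ 2 else 0 := by
      intro g
      unfold LS2.prm
      simp only
      by_cases hg : g ∈ actS p M B
      · rw [dif_pos hg, if_pos hg]
        exact sq_le_sq' (by have := (abs_le.1 (h2 j ⟨g, hg⟩)).1; linarith)
          (abs_le.1 (h2 j ⟨g, hg⟩)).2
      · rw [dif_neg hg, if_neg hg]; simp
    calc ∑ g, (LS2.prm (actS p M B) θ).am j g ^ 2 ≤
        ∑ g, if g ∈ actS p M B then a ^ 2 else 0 := Finset.sum_le_sum fun g _ => h g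
      _ = (actS p M B).card * a ^ 2 := by
        rw [← Finset.sum_filter, Finset.sum_const, nsmul_eq_mul, Finset.filter_mem_eq_inter,
          Finset.univ_inter]
      _ ≤ M * a ^ 2 := mul_le_mul_of_nonneg_right (by exact_mod_cast card_actS p M B)
          (sq_nonneg a)
      _ ≤ A ^ 2 := hA
  lm k := by
    have h : ∀ g, (LS2.prm (actS p M B) θ).lm k g ^ 2 ≤ l ^ 2 := by
      intro g
      have := abs_le.1 (h3 k g)
      exact sq_le_sq' (by unfold LS2.prm; simp only; linarith) this.2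
    calc ∑ g, (LS2.prm (actS p M B) θ).lm k g ^ 2 ≤ ∑ _g : Fin p.nc, l ^ 2 :=
          Finset.sum_le_sum fun g _ => h g
      _ = p.nc * l ^ 2 := by
        rw [Finset.sum_const, Finset.card_univ, Fintype.card_fin, nsmul_eq_mul]
      _ ≤ S := hS

end

end Crest.Agent.R164.LG
end

-- ▼ part R164/LLimB2
section

/-!
Row 164, L side, (GL5) (helper716): the exact interface `LG.LLIMB`.
-/

set_option autoImplicit false

namespace Crest.Agent.R164.LLimB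

open MeasureTheory ProbabilityTheory Finset
open Crest.Agent.R164.CavG (gm gstep th gval th_zero th_succ vC vv)
open Crest.Agent.R141.Fact (ySk ySk_zero ySk_pos)
open Crest.Agent.R164.EG
open Crest.Agent.R164.PAlg Crest.Agent.R164.Atomic
open Crest.Agent.R164.SDAlg (gap Ghat StepD wdOf pOf)
open Crest.Agent.R164.GEx (BM cb cfErr coarse_fine_vC cfErr_tendsto gval_le_add)
open Crest.Agent.R164.ClipG (Trunc uniform_trunc)

noncomputable section


variable {K : ℕ}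



section

variable (X : LG.Glob)

theorem bvf_nonneg {M : ℕ} (n' r : ℕ) (a : Fin M → ℝ) (m : ℕ) : 0 ≤ LG.bvf n' r a m := by
  unfold LG.bvf
  refine sum_nonneg fun q _ => ?_
  split_ifs
  · exact sq_nonneg _
  · exact le_rfl

theorem bvf_sum {M : ℕ} (n' r : ℕ) (a : Fin M → ℝ) (s : Finset ℕ) :
    ∑ m ∈ s, LG.bvf n' r a m =
      ∑ q : Fin M, if n' + 1 - ((q : ℕ) + 1) * r ∈ s then a q ^ 2 else 0 := by
  unfold LG.bvf
  rw [sum_comm]
  refine sum_congr rfl fun q _ => ?_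
  rw [sum_ite_eq']

/-- the label steps lie below the top -/
theorem step_le {M n' r : ℕ} (hn : n' + 1 = (M + 1) * r) (x : Fin M) :
    ((x : ℕ) + 1) * r + r ≤ n' + 1 := by
  rw [hn, ← Nat.succ_mul]
  exact Nat.mul_le_mul_right _ (by have := x.2; omega)

theorem bvf_total {M : ℕ} {n' r : ℕ} {a : Fin M → ℝ} {A : ℝ} (ha : ∀ i, 0 ≤ a i ∧ a i ≤ A) :
    ∑ m ∈ range (n' + 2), LG.bvf n' r a m ≤ M * A ^ 2 := by
  rw [bvf_sum]
  calc _ ≤ ∑ x : Fin M, A ^ 2 := sum_le_sum fun x _ => by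
        split_ifs
        · exact pow_le_pow_left₀ (ha x).1 (ha x).2 2
        · exact sq_nonneg _
    _ = M * A ^ 2 := by simp

/-- the field path of the main fields -/
theorem Hl_bvf {M n' r : ℕ} (hr : 0 < r) (hn : n' + 1 = (M + 1) * r) (a : Fin M → ℝ) :
    Hl n' (LG.bvf n' r a) = fun i : Fin (n' + 1) =>
      ∑ x : Fin M, if ((x : ℕ) + 1) * r ≤ (i : ℕ) then a x ^ 2 else 0 := by
  funext i
  unfold Hl
  rw [bvf_sum]
  refine sum_congr rfl fun x _ => ?_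
  have h2 := step_le hn x
  have h3 := i.2
  refine if_congr ?_ rfl rfl
  rw [mem_Icc]
  omega

/-- the exact value in the form of `LF.ch` -/
theorem ExV_bvf {M n' r : ℕ} (hr : 0 < r) (hn : n' + 1 = (M + 1) * r) (a : Fin M → ℝ) (P : ℕ → ℝ)
    (b : ℝ) (k : Fin (X.K + 1)) :
    ExV X.w X.val n' P (LG.bvf n' r a) b k =
      CC X.w X.val (wdOf n' (LG.mu n')) (pOf n' P) k +
      LF.ch (wdOf n' (LG.mu n')) (hh X.w X.val (wdOf n' (LG.mu n')) (pOf n' P)) b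
        (fun i => ∑ x : Fin M, if ((x : ℕ) + 1) * r ≤ (i : ℕ) then a x ^ 2 else 0) := by
  have h0 : LG.bvf n' r a 0 = 0 := by
    unfold LG.bvf
    refine sum_eq_zero fun x _ => if_neg ?_
    have h2 := step_le hn x
    omega
  unfold ExV LF.ch
  rw [← Hl_bvf hr hn, fieldValueAt_eq_chainV, h0]
  show CC X.w X.val (wdOf n' (LG.mu n')) (pOf n' P) k + 0 / 2 +
    chainV b (wdOf n' (LG.mu n')) (fun i => hh X.w X.val (wdOf n' (LG.mu n')) (pOf n' P) i +
      Hl n' (LG.bvf n' r a) i) = _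
  ring

/-- **(GL5)** in the names of `LGDef`: the coarse functional of `LLIMA` versus the exact value -/
theorem llimb (M : ℕ) (A Bm : ℝ) {ε : ℝ} (hε : 0 < ε) : ∃ tr0 : ℝ, 0 < tr0 ∧ ∀ tr : ℝ, tr0 ≤ tr →
    ∃ J0 : ℕ, ∀ J : ℕ, J0 ≤ J → ∀ s : ℕ, J + 1 = (M + 1) * s → ∀ q : ℕ, 0 < q → ∀ n' : ℕ,
    n' + 1 = q * (J + 1) → ∀ P : ℕ → ℝ, StepD (n' + 1) (LG.mu n') P → P 0 < 1 →
    ∀ (k : Fin (X.K + 1)) (b : ℝ) (a : Fin M → ℝ), |b| ≤ Bm → (∀ i, 0 ≤ a i ∧ a i ≤ A) →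
    |gval J (ySk J) (vC J (Qc X.w X.val n' q P) (cb J q (LG.bvf n' (q * s) a)))
        (fun z => ED.psi tr (WS X.w X.val b k z)) -
      (CC X.w X.val (wdOf n' (LG.mu n')) (pOf n' P) k +
        LF.ch (wdOf n' (LG.mu n')) (hh X.w X.val (wdOf n' (LG.mu n')) (pOf n' P)) b
          (fun i => ∑ x : Fin M, if ((x : ℕ) + 1) * (q * s) ≤ (i : ℕ) then a x ^ 2 else 0))| ≤
      ε := by
  obtain ⟨K0, hK0, hmain⟩ := coarse_exact_psi X.hv X.hw X.hs Bm (M * A ^ 2) hε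
  refine ⟨K0, hK0, fun tr htr => ?_⟩
  obtain ⟨J0, hJ0⟩ := hmain tr htr
  refine ⟨J0, ?_⟩
  intro J hJ s hs q hq n' hn P hP hP0 k b a hb ha
  have hs0 : 0 < s := by
    rcases Nat.eq_zero_or_pos s with h | h
    · rw [h] at hs; omega
    · exact h
  have hqs : 0 < q * s := Nat.mul_pos hq hs0
  have hn2 : n' + 1 = (M + 1) * (q * s) := by rw [hn, hs]; ring
  rw [← ExV_bvf X hqs hn2]
  exact hJ0 J hJ q n' hq hn P hP hP0 (LG.bvf n' (q * s) a) (bvf_nonneg _ _ _) (bvf_total ha) b hb k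

end

end

end Crest.Agent.R164.LLimB
end

-- ▼ part R164/LFin2
section

/-!
Row 164, L side (helper893): final assembly, part 2: the contradiction at the selected system.
-/

set_option autoImplicit false

namespace Crest.Agent.R164.LG

open Finset MeasureTheory Filter Topology Crest.Agent.R141 Crest.Agent.R164 Crest.Agent.R164.Haar
open Crest.ProbabilityR.InvariantGlass (spinVec)
open Crest.Agent.R164.LD (Prm HL EPh EO PL TO RJ MO)

noncomputable section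

variable (X : Glob) {p : Par} {N : ℕ}

/-- the tail overlaps of the group `j` from the active cell `x` -/
def RRj (n : ℕ) (Kp : ℝ) (θ : Prm p X.K X.J) (L : Fin N → X.LB) (B : ℕ) (j : Fin X.J)
    (x : ℕ) : ℝ :=
  ((p.nc : ℝ) + 1)⁻¹ * ∑ g' ∈ Finset.Ico (cellA B x) p.nc,
    Eo X n Kp θ L (fun U d ω => RJ n (Pl X n Kp θ L U d) (Glob.lab L) j (p.mt g') ω)

theorem Inc_eq (n : ℕ) (Kp : ℝ) (θ : Prm p X.K X.J) (L : Fin N → X.LB) :
    LSel.Inc X.al (Ph X n Kp θ : (Fin N → X.LB) → ℝ) (Ph X n Kp θ) L =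
      ∑ k, ∑ j, X.w k * ((X.γ j : ℚ) : ℝ) *
        (Ph X n Kp θ (Fin.snoc L (k, j) : Fin (N + 1) → X.LB) - Ph X n Kp θ L) := by
  unfold LSel.Inc
  rw [Fintype.sum_prod_type]
  rfl

set_option maxHeartbeats 1000000 in
/-- **The contradiction at the selected system.** -/
theorem local_false {ε r : ℝ} (hε : 0 ≤ ε)
    (hr : ∀ m' : Fin X.J → ℝ, (∀ j, |m' j - X.t j| ≤ ε) → (∀ j, X.t j = 0 → m' j = 0) →
      (r : EReal) ≤ ((∑ j : Fin X.J, ((X.γ j : ℚ) : ℝ) * X.c j * m' j : ℝ) : EReal) +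
        Mag.VR (Atomic.atomic X.w X.val) (X.val (Fin.last X.K)) X.γ m')
    {M J s q wc n' : ℕ} (hJ : J + 1 = (M + 1) * s) (hn' : n' + 1 = q * (J + 1)) (hwc : 0 < wc)
    {n : ℕ} (hN : 0 < N)
    {Kp E1 amin amax Bm tr dl ed e3 e4 e5 e6 y Cd R0 : ℝ} (hKp : 0 ≤ Kp) (hE1 : 0 ≤ E1)
    {B : ℕ} (hBe : B = q * s * wc)
    {θ : LS2.Cd X.K X.J (actS p M B) → ℝ} {L : Fin N → X.LB}
    (hθ1 : ∀ j, |θ (Sum.inl j)| ≤ E1)
    (hθ2 : ∀ j g, amin ≤ θ (Sum.inr (Sum.inl (j, g))) ∧ θ (Sum.inr (Sum.inl (j, g))) ≤ amax)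
    {lv : DD p N → ℕ → ℕ} {P : ℕ → ℝ} {es : ℝ}
    (hS : StrD X n Kp (LS2.prm (actS p M B) θ) L n' wc es lv P)
    (hy : 0 < y) (hy1 : y ≤ 1) (hya : y ≤ amin) (hya' : y ≤ amax)
    (hdl : 0 ≤ dl) (hed : 0 ≤ ed) (hCd : 0 ≤ Cd) (he3 : 0 ≤ e3) (he4 : 0 ≤ e4) (he5 : 0 ≤ e5)
    (hBm : ∀ j, |bb X Kp (LS2.prm (actS p M B) θ).el
      (mbar X n Kp (LS2.prm (actS p M B) θ) L) j| + 1 ≤ Bm)
    -- E-DIFF
    (hED : ∀ (k : Fin (X.K + 1)) (j : Fin X.J),
      (cc X Kp (mbar X n Kp (LS2.prm (actS p M B) θ) L) j +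
        cavF X n Kp (LS2.prm (actS p M B) θ) L tr k
          (bb X Kp (LS2.prm (actS p M B) θ).el (mbar X n Kp (LS2.prm (actS p M B) θ) L) j)
          ((LS2.prm (actS p M B) θ).am j) ≤
        Ph X n Kp (LS2.prm (actS p M B) θ) (Fin.snoc L (k, j) : Fin (N + 1) → X.LB) -
          Ph X n Kp (LS2.prm (actS p M B) θ) L + ed) ∧
      (∀ (g : Fin p.nc) (s : ℝ), |s| ≤ 1 →
        |cavF X n Kp (LS2.prm (actS p M B) θ) L tr k
            (bb X Kp (LS2.prm (actS p M B) θ).el (mbar X n Kp (LS2.prm (actS p M B) θ) L) j)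
            (Function.update ((LS2.prm (actS p M B) θ).am j) g
              ((LS2.prm (actS p M B) θ).am j g + s)) -
          cavF X n Kp (LS2.prm (actS p M B) θ) L tr k
            (bb X Kp (LS2.prm (actS p M B) θ).el (mbar X n Kp (LS2.prm (actS p M B) θ) L) j)
            ((LS2.prm (actS p M B) θ).am j) -
          s * T1 X n Kp (LS2.prm (actS p M B) θ) L k j g| ≤
            Cd * (|s| * Real.sqrt |s|) + |s| * ed) ∧
      (∀ s : ℝ, |s| ≤ 1 →
        |cavF X n Kp (LS2.prm (actS p M B) θ) L tr k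
            (bb X Kp (LS2.prm (actS p M B) θ).el (mbar X n Kp (LS2.prm (actS p M B) θ) L) j + s)
            ((LS2.prm (actS p M B) θ).am j) -
          cavF X n Kp (LS2.prm (actS p M B) θ) L tr k
            (bb X Kp (LS2.prm (actS p M B) θ).el (mbar X n Kp (LS2.prm (actS p M B) θ) L) j)
            ((LS2.prm (actS p M B) θ).am j) -
          s * M1 X n Kp (LS2.prm (actS p M B) θ) L k j| ≤
            Cd * (|s| * Real.sqrt |s|) + |s| * ed))
    -- limit and exact value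
    (hLA : ∀ (k : Fin (X.K + 1)) (b : ℝ) (a : Fin M → ℝ), |b| ≤ Bm →
      (∀ i, 0 ≤ a i ∧ a i ≤ 2 * amax) →
      |cavF X n Kp (LS2.prm (actS p M B) θ) L tr k b (amF p (q * s * wc) a) -
        CavG.gval J (Fact.ySk J) (CavG.vC J (LLimB.Qc X.w X.val n' q P)
          (GEx.cb J q (bvf n' (q * s) a))) (fun z => ED.psi tr (LLimB.WS X.w X.val b k z))| ≤
        dl / 2)
    (hLB : ∀ (k : Fin (X.K + 1)) (b : ℝ) (a : Fin M → ℝ), |b| ≤ Bm →
      (∀ i, 0 ≤ a i ∧ a i ≤ 2 * amax) →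
      |CavG.gval J (Fact.ySk J) (CavG.vC J (LLimB.Qc X.w X.val n' q P)
          (GEx.cb J q (bvf n' (q * s) a))) (fun z => ED.psi tr (LLimB.WS X.w X.val b k z)) -
        (EG.CC X.w X.val (SDAlg.wdOf n' (mu n')) (SDAlg.pOf n' P) k +
          LF.ch (SDAlg.wdOf n' (mu n'))
            (PAlg.hh X.w X.val (SDAlg.wdOf n' (mu n')) (SDAlg.pOf n' P)) b
            (fun i => ∑ x : Fin M, if ((x : ℕ) + 1) * (q * s) ≤ (i : ℕ) then a x ^ 2 else 0))| ≤
        dl / 2)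
    -- comparison of the two sizes
    (hT : ∀ (k : Fin (X.K + 1)) (j : Fin X.J) (g : Fin p.nc), g ∈ actS p M B →
      |T1 X n Kp (LS2.prm (actS p M B) θ) L k j g -
        Eo X n Kp (LS2.prm (actS p M B) θ) L (fun _ _ ω => TO n (Glob.lab L) j g ω)| ≤ e3)
    (hM : ∀ (k : Fin (X.K + 1)) (j : Fin X.J),
      |M1 X n Kp (LS2.prm (actS p M B) θ) L k j -
        mbar X n Kp (LS2.prm (actS p M B) θ) L j| ≤ e3)
    -- integration by parts
    (hI : ∀ (j : Fin X.J) (g : Fin p.nc),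
      |Eo X n Kp (LS2.prm (actS p M B) θ) L (fun _ _ ω => TO n (Glob.lab L) j g ω) -
        (LS2.prm (actS p M B) θ).am j g * (1 - ((p.nc : ℝ) + 1)⁻¹ *
          ∑ g' ∈ Finset.Ico (g : ℕ) p.nc,
            Eo X n Kp (LS2.prm (actS p M B) θ) L (fun U d ω =>
              RJ n (Pl X n Kp (LS2.prm (actS p M B) θ) L U d) (Glob.lab L) j (p.mt g') ω))| ≤ e4)
    (hTail : ∀ x : Fin M, |∑ j, ((X.γ j : ℚ) : ℝ) * RRj X n Kp (LS2.prm (actS p M B) θ) L B j x -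
      ((n' : ℝ) + 1)⁻¹ * ∑ i ∈ Finset.Ico (((x : ℕ) + 1) * (q * s)) (n' + 1), P i| ≤ e5)
    -- increment
    (hInc : LSel.Inc X.al (Ph X n Kp (LS2.prm (actS p M B) θ) : (Fin N → X.LB) → ℝ)
      (Ph X n Kp (LS2.prm (actS p M B) θ)) L + Kp * Qd X n Kp (LS2.prm (actS p M B) θ) L ≤ R0)
    {d0 : ℝ} (hd0 : 0 ≤ d0) (hL : LabAvg.Good X.al d0 L)
    (hQ6 : Kp * (X.J * (4 * (((X.K : ℝ) + 1) * d0))) ≤ e6)
    (hQ : ∀ j, X.t j ≠ 0 → |mbar X n Kp (LS2.prm (actS p M B) θ) L j - X.t j| ≤ ε / 2)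
    -- smallness
    (hs1 : (2 * dl + (Cd * (y * Real.sqrt y) + y * ed)) / y + e3 ≤ ε / 2)
    (hs2 : 4 * Kp * ((2 * dl + (Cd * (y * Real.sqrt y) + y * ed)) / y + e3) + E1 +
      LF.LR X.val * (2 * ((M + 1 : ℕ) : ℝ) *
        (e5 + ((2 * (dl + E1) + (Cd * (y * Real.sqrt y) + y * ed)) / y + e3 + e4) / amin) +
        3 / ((M + 1 : ℕ) : ℝ)) < r - ((R0 + e6) + ed + dl + E1)) : False := by
  subst hBe
  set θp := LS2.prm (actS p M (q * s * wc)) θ with hθp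
  set mb := mbar X n Kp θp L with hmbdef
  have hq : 0 < q := by
    rcases Nat.eq_zero_or_pos q with h | h
    · rw [h, zero_mul] at hn'; omega
    · exact h
  have hs : 0 < s := by
    rcases Nat.eq_zero_or_pos s with h | h
    · rw [h, mul_zero] at hJ; omega
    · exact h
  have hB : 0 < q * s * wc := Nat.mul_pos (Nat.mul_pos hq hs) hwc
  have hn : n' + 1 = (M + 1) * (q * s) := by rw [hn', hJ]; ring
  have hnc : p.nc = (M + 1) * (q * s * wc) := by rw [hS.hp, hn]; ring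
  have hmb : ∀ j, |mb j| ≤ 1 := fun j => abs_mbar_le X hN j
  have h2am : 0 ≤ amax := hy.le.trans hya'
  have ham : ∀ j, θp.am j = amF p (q * s * wc) (aOf X hB hnc θ j) := fun j => prm_am X hB hnc θ j
  have hsq : ∀ x : ℝ, |x| = y → |x| ≤ 1 := fun x hx => by rw [hx]; exact hy1
  refine LF.crit (K := X.K) (n := n') (J := X.J) (M := M) (r0 := q * s) hn X.hv X.hw X.hs X.hγ
    X.hγs X.ht hr (P := P) hS.step hS.lt1 hKp (el := θp.el) (mb := mb) (E := E1) (fun j => hθ1 j)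
    hE1 hmb hQ hε (a := aOf X hB hnc θ) (amin := amin) (y := y) hy hya (fun j x => (hθ2 j _).1)
    (F := fun k b a => cavF X n Kp θp L tr k b (amF p (q * s * wc) a)) (dl := dl) (e1 := ed)
    (e2 := Cd * (y * Real.sqrt y) + y * ed) (e3 := e3) (e4 := e4) (e5 := e5)
    (Inc := LSel.Inc X.al (Ph X n Kp θp : (Fin N → X.LB) → ℝ) (Ph X n Kp θp) L) (R := R0 + e6)
    (by positivity) he3 he4 he5 hdl ?_
    (T1 := fun k j x => T1 X n Kp θp L k j (cA hB hnc x)) (M1 := fun k j => M1 X n Kp θp L k j)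
    (TN := fun j x => Eo X n Kp θp L (fun _ _ ω => TO n (Glob.lab L) j (cA hB hnc x) ω))
    (RR := fun j x => RRj X n Kp θp L (q * s * wc) j x) ?_ ?_ ?_ ?_ ?_ ?_ ?_ ?_ hs1 hs2
  · -- the values
    intro k j b' a' hb' ha'
    have hb2 : |b'| ≤ Bm := by
      have h1 := hBm j
      have h2 : |b'| ≤ |b' - LF.b1 X.c X.t Kp θp.el mb j| + |LF.b1 X.c X.t Kp θp.el mb j| := by
        have := abs_add_le (b' - LF.b1 X.c X.t Kp θp.el mb j) (LF.b1 X.c X.t Kp θp.el mb j)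
        rwa [sub_add_cancel] at this
      have h3 : |LF.b1 X.c X.t Kp θp.el mb j| = |bb X Kp θp.el mb j| := rfl
      linarith
    have ha2 : ∀ i, 0 ≤ a' i ∧ a' i ≤ 2 * amax := by
      intro i
      have h1 := abs_le.1 (ha' i)
      have h2 := hθ2 j ⟨cA hB hnc i, cA_mem hB hnc i⟩
      have h3 : aOf X hB hnc θ j i = θ (Sum.inr (Sum.inl (j, ⟨cA hB hnc i, cA_mem hB hnc i⟩))) :=
        rfl
      rw [← h3] at h2
      constructor
      · linarith [h1.1, h2.1]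
      · linarith [h1.2, h2.2]
    have g1 := hLA k b' a' hb2 ha2
    have g2 := hLB k b' a' hb2 ha2
    have e3 : LF.ch (SDAlg.wdOf n' (mu n'))
            (PAlg.hh X.w X.val (SDAlg.wdOf n' (mu n')) (SDAlg.pOf n' P)) b'
            (fun i => ∑ x : Fin M, if ((x : ℕ) + 1) * (q * s) ≤ (i : ℕ) then a' x ^ 2 else 0) =
        LF.cv (SDAlg.wdOf n' (LF.mm n'))
          (PAlg.hh X.w X.val (SDAlg.wdOf n' (LF.mm n')) (SDAlg.pOf n' P)) b'
          (LF.VF (q * s) a') := rfl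
    rw [e3] at g2
    have h5 := abs_sub_le (cavF X n Kp θp L tr k b' (amF p (q * s * wc) a'))
      (CavG.gval J (Fact.ySk J) (CavG.vC J (LLimB.Qc X.w X.val n' q P)
          (GEx.cb J q (bvf n' (q * s) a'))) (fun z => ED.psi tr (LLimB.WS X.w X.val b' k z)))
      (EG.CC X.w X.val (SDAlg.wdOf n' (mu n')) (SDAlg.pOf n' P) k +
        LF.cv (SDAlg.wdOf n' (LF.mm n'))
          (PAlg.hh X.w X.val (SDAlg.wdOf n' (LF.mm n')) (SDAlg.pOf n' P)) b'
          (LF.VF (q * s) a'))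
    refine h5.trans ?_
    linarith
  · -- difference quotients in the strengths
    intro k j x s' hs'
    have h := (hED k j).2.1 (cA hB hnc x) s' (hsq s' hs')
    rw [ham j, amF_cA, amF_update, hs'] at h
    exact h
  · -- difference quotients in the linear field
    intro k j s' hs'
    have h := (hED k j).2.2 s' (hsq s' hs')
    rw [ham j, hs'] at h
    exact h
  · intro k j x
    exact hT k j (cA hB hnc x) (cA_mem hB hnc x)
  · intro k j _
    exact hM k j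
  · intro j x
    have h := hI j (cA hB hnc x)
    rw [ham j, amF_cA] at h
    exact h
  · exact hTail
  · -- value of the increment
    rw [Inc_eq]
    have hterm : ∀ k j, X.w k * ((X.γ j : ℚ) : ℝ) *
        ((if X.t j = 0 then 0 else Kp * (mb j ^ 2 - X.t j ^ 2)) +
          cavF X n Kp θp L tr k (LF.b1 X.c X.t Kp θp.el mb j)
            (amF p (q * s * wc) (aOf X hB hnc θ j))) ≤
        X.w k * ((X.γ j : ℚ) : ℝ) *
          (Ph X n Kp θp (Fin.snoc L (k, j) : Fin (N + 1) → X.LB) - Ph X n Kp θp L) +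
          X.w k * ((X.γ j : ℚ) : ℝ) * ed := by
      intro k j
      rw [← mul_add]
      refine mul_le_mul_of_nonneg_left ?_ (mul_nonneg (X.hw k).le (gam_nonneg X j))
      have h := (hED k j).1
      rw [ham j] at h
      exact h
    refine (Finset.sum_le_sum fun k _ => Finset.sum_le_sum fun j _ => hterm k j).trans
      (le_of_eq ?_)
    simp only [Finset.sum_add_distrib]
    congr 1
    have hγs' : ∑ j, ((X.γ j : ℚ) : ℝ) = 1 := by exact_mod_cast X.hγs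
    calc ∑ k, ∑ j, X.w k * ((X.γ j : ℚ) : ℝ) * ed = ∑ k, X.w k * ed := by
          refine Finset.sum_congr rfl fun k _ => ?_
          rw [← Finset.sum_mul, ← Finset.mul_sum, hγs', mul_one]
      _ = ed := by rw [← Finset.sum_mul, X.hs, one_mul]
  · have h := quad_le X (n := n) (Kp := Kp) (θ := θp) (L := L) hN hd0 hKp hL
    linarith

end

end Crest.Agent.R164.LG
end

-- ▼ part R164/LFin3
section

/-!
Row 164, L side (helper893): final assembly, part 3: the choice of the parameters.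
-/

set_option autoImplicit false

namespace Crest.Agent.R164.LG

open Finset MeasureTheory Filter Topology Crest.Agent.R141 Crest.Agent.R164 Crest.Agent.R164.Haar
open Crest.ProbabilityR.InvariantGlass (spinVec)
open Crest.Agent.R164.LD (Prm HL EPh EO PL TO RJ MO)

noncomputable section


/-- number of coins for the target size `N1` -/
def nnF (f : ℕ → ℕ) (N1 : ℕ) : ℕ := ∑ N ∈ Finset.range (N1 + 1), f N + 1

theorem le_nnF (f : ℕ → ℕ) {N N1 : ℕ} (h : N ≤ N1) : f N ≤ nnF f N1 := by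
  unfold nnF
  have : f N ≤ ∑ N ∈ Finset.range (N1 + 1), f N :=
    Finset.single_le_sum (f := f) (fun _ _ => Nat.zero_le _) (Finset.mem_range.2 (by omega))
  omega

theorem nnF_pos (f : ℕ → ℕ) (N1 : ℕ) : 0 < nnF f N1 := Nat.succ_pos _

/-- the final smallness inequality -/
theorem final_ineq {ε r R0 Kp Kmax LR M1 amin y dl E1 Cd ed e3 e4 e5 e6 κ Wt : ℝ}
    (hε : 0 < ε) (hy : 0 < y) (hamin : 0 < amin) (hKp0 : 0 ≤ Kp) (hKp : Kp ≤ Kmax)
    (hLR : 0 ≤ LR) (hM1 : 0 < M1) (hdl0 : 0 ≤ dl)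
    (hM : LR * (3 / M1) ≤ ε / 16) (hκ : κ = ε / (64 * Wt))
    (hWt : Wt = 4 * Kmax + 2 * LR * M1 * (1 + 1 / amin) + 1)
    (hdl : dl ≤ κ * y / 4) (hE1 : E1 ≤ κ * y / 4) (hy1 : y ≤ 1) (hE10 : 0 ≤ E1)
    (hCd : Cd * Real.sqrt y ≤ κ) (hed : ed ≤ κ) (hed0 : 0 ≤ ed)
    (he3 : e3 ≤ κ) (he4 : e4 ≤ κ) (he5 : e5 ≤ κ) (he6 : e6 ≤ ε / 16)
    (he30 : 0 ≤ e3) (he40 : 0 ≤ e4) (hCd0 : 0 ≤ Cd)
    (hR0 : R0 ≤ r - ε + 3 * (ε / 16)) :
    4 * Kp * ((2 * dl + (Cd * (y * Real.sqrt y) + y * ed)) / y + e3) + E1 +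
      LR * (2 * M1 *
        (e5 + ((2 * (dl + E1) + (Cd * (y * Real.sqrt y) + y * ed)) / y + e3 + e4) / amin) +
        3 / M1) < r - ((R0 + e6) + ed + dl + E1) := by
  have hKm : 0 ≤ Kmax := hKp0.trans hKp
  have hWt1 : 1 ≤ Wt := by
    rw [hWt]
    have : 0 ≤ 2 * LR * M1 * (1 + 1 / amin) := by positivity
    linarith
  have hκ0 : 0 < κ := by rw [hκ]; positivity
  have hκε : κ ≤ ε / 64 := by
    rw [hκ]
    exact div_le_div_of_nonneg_left hε.le (by norm_num) (by linarith)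
  have hκW : κ * Wt = ε / 64 := by
    rw [hκ]; field_simp
  have hx1 : (2 * dl + (Cd * (y * Real.sqrt y) + y * ed)) / y ≤ 3 * κ := by
    rw [div_le_iff₀ hy]
    nlinarith
  have hx2 : (2 * (dl + E1) + (Cd * (y * Real.sqrt y) + y * ed)) / y ≤ 3 * κ := by
    rw [div_le_iff₀ hy]
    nlinarith
  have h1 : 4 * Kp * ((2 * dl + (Cd * (y * Real.sqrt y) + y * ed)) / y + e3) ≤
      4 * Kmax * (5 * κ) := by
    have a1 : (2 * dl + (Cd * (y * Real.sqrt y) + y * ed)) / y + e3 ≤ 5 * κ := by linarith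
    have a0 : 0 ≤ (2 * dl + (Cd * (y * Real.sqrt y) + y * ed)) / y + e3 := by positivity
    exact mul_le_mul (by linarith) a1 a0 (by positivity)
  have h2 : (2 * (dl + E1) + (Cd * (y * Real.sqrt y) + y * ed)) / y + e3 + e4 ≤ 5 * κ := by
    linarith
  have h3 : ((2 * (dl + E1) + (Cd * (y * Real.sqrt y) + y * ed)) / y + e3 + e4) / amin ≤
      5 * κ * (1 / amin) := by
    rw [mul_one_div]
    exact div_le_div_of_nonneg_right h2 hamin.le
  have h4 : LR * (2 * M1 * (e5 + ((2 * (dl + E1) + (Cd * (y * Real.sqrt y) + y * ed)) / y +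
      e3 + e4) / amin) + 3 / M1) ≤ 2 * LR * M1 * (5 * κ * (1 + 1 / amin)) + ε / 16 := by
    rw [mul_add]
    refine add_le_add ?_ hM
    have a1 : e5 + ((2 * (dl + E1) + (Cd * (y * Real.sqrt y) + y * ed)) / y + e3 + e4) / amin ≤
        5 * κ * (1 + 1 / amin) := by
      have : 5 * κ * (1 + 1 / amin) = 5 * κ + 5 * κ * (1 / amin) := by ring
      rw [this]
      linarith
    calc LR * (2 * M1 * (e5 + ((2 * (dl + E1) + (Cd * (y * Real.sqrt y) + y * ed)) / y +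
          e3 + e4) / amin)) ≤ LR * (2 * M1 * (5 * κ * (1 + 1 / amin))) := by
          refine mul_le_mul_of_nonneg_left (mul_le_mul_of_nonneg_left a1 (by positivity)) hLR
      _ = 2 * LR * M1 * (5 * κ * (1 + 1 / amin)) := by ring
  have h5 : 4 * Kmax * (5 * κ) + 2 * LR * M1 * (5 * κ * (1 + 1 / amin)) ≤ 5 * (ε / 64) := by
    rw [← hκW, hWt]
    nlinarith
  have h6 : κ * y ≤ κ := by nlinarith
  nlinarith

end

end Crest.Agent.R164.LG
end

-- ▼ part R164/LFin4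
section

/-!
Row 164, L side (helper893): final assembly, part 4: `LBP` from the module statements.
-/

set_option autoImplicit false

namespace Crest.Agent.R164.LG

open Finset MeasureTheory Filter Topology Crest.Agent.R141 Crest.Agent.R164 Crest.Agent.R164.Haar
open Crest.ProbabilityR.InvariantGlass (spinVec)
open Crest.Agent.R164.LD (Prm HL EPh EO PL TO RJ MO)

noncomputable section

variable (X : Glob)

theorem al_pos (x : X.LB) : 0 < X.al x := by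
  unfold Glob.al LabTr.pr
  have h : (0:ℝ) < ((X.γ x.2 : ℚ) : ℝ) := by exact_mod_cast X.hγ x.2
  exact mul_pos (X.hw _) h

theorem al_sum : ∑ x, X.al x = 1 := by
  unfold Glob.al
  exact LabTr.pr_sum X.hs (by exact_mod_cast X.hγs)

/-- a priori bound of the penalised free energy, all labels -/
theorem crude_Inc {p : Par} (hnb : p.nb = 0) {N : ℕ} (n : ℕ) (hN : 0 < N) {Kp Kmax Cg : ℝ}
    (hKp0 : 0 ≤ Kp) (hKp : Kp ≤ Kmax)
    (hCg : ∀ (N : ℕ) (Kp : ℝ), 0 ≤ Kp → Kp ≤ Kmax → ∀ L : Fin N → X.LB, |Gp X Kp L| ≤ Cg)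
    {θ : Prm p X.K X.J} (hθ : Bd X 1 1 1 θ) (L : Fin N → X.LB) :
    -((3 * (Cg + 2) + 2 * (p.nc * p.T * p.τ)) * N) ≤
      LSel.Inc X.al (Ph X n Kp θ : (Fin N → X.LB) → ℝ) (Ph X n Kp θ) L := by
  have hW0 : 0 ≤ (p.nc : ℝ) * p.T * p.τ := by have := p.hτ0; positivity
  have hN1 : (1:ℝ) ≤ N := by exact_mod_cast hN
  have hCg0 : 0 ≤ Cg := (abs_nonneg _).trans (hCg N Kp hKp0 hKp L)
  have h0 := abs_le.1 (pert X hnb n hN Kp hθ L)
  have hG0 := abs_le.1 (hCg N Kp hKp0 hKp L)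
  have key : ∀ x : X.LB, -((3 * (Cg + 2) + 2 * (p.nc * p.T * p.τ)) * N) ≤
      Ph X n Kp θ (Fin.snoc L x : Fin (N + 1) → X.LB) - Ph X n Kp θ L := by
    intro x
    have h1 := abs_le.1 (pert X hnb n (Nat.succ_pos N) Kp hθ
      (Fin.snoc L x : Fin (N + 1) → X.LB))
    have hG1 := abs_le.1 (hCg (N + 1) Kp hKp0 hKp (Fin.snoc L x : Fin (N + 1) → X.LB))
    have a1 : (N:ℝ) * Gp X Kp L ≤ N * Cg := mul_le_mul_of_nonneg_left hG0.2 (by positivity)
    have a2 : -(((N:ℝ) + 1) * Cg) ≤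
        ((N:ℝ) + 1) * Gp X Kp (Fin.snoc L x : Fin (N + 1) → X.LB) := by
      have := mul_le_mul_of_nonneg_left hG1.1 (show (0:ℝ) ≤ (N:ℝ) + 1 by positivity)
      linarith
    have b1 := h1.1
    have b2 := h0.2
    push_cast at b1
    nlinarith
  unfold LSel.Inc
  calc -((3 * (Cg + 2) + 2 * (p.nc * p.T * p.τ)) * N) =
      ∑ x : X.LB, X.al x * -((3 * (Cg + 2) + 2 * (p.nc * p.T * p.τ)) * N) := by
        rw [← Finset.sum_mul, al_sum, one_mul]
    _ ≤ _ := Finset.sum_le_sum fun x _ => mul_le_mul_of_nonneg_left (key x) (al_pos X x).le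

theorem good_mono {α : X.LB → ℝ} {d d' : ℝ} (h : d ≤ d') {N : ℕ} {L : Fin N → X.LB}
    (hL : LabAvg.Good α d L) : LabAvg.Good α d' L := fun k =>
  (hL k).trans (mul_le_mul_of_nonneg_right h (Nat.cast_nonneg N))

/-- bound of the effective fields -/
theorem abs_bb_le {Kp Kmax : ℝ} (hKp0 : 0 ≤ Kp) (hKp : Kp ≤ Kmax) {el mb : Fin X.J → ℝ}
    (hel : ∀ j, |el j| ≤ 1) (hmb : ∀ j, |mb j| ≤ 1) (j : Fin X.J) :
    |bb X Kp el mb j| + 1 ≤ ∑ j, |X.c j| + 4 * Kmax + 2 := by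
  have h1 : |X.c j| ≤ ∑ j, |X.c j| :=
    Finset.single_le_sum (f := fun j => |X.c j|) (fun _ _ => abs_nonneg _) (Finset.mem_univ j)
  have h2 := abs_le.1 (hel j)
  have h3 := abs_le.1 (hmb j)
  have h4 := abs_le.1 (X.ht j).le
  have h5 : |mb j - X.t j| ≤ 2 := by rw [abs_le]; constructor <;> linarith
  have hK : 0 ≤ Kmax := hKp0.trans hKp
  unfold bb
  split_ifs
  · rw [zero_add]
    have : 0 ≤ ∑ j, |X.c j| := (abs_nonneg _).trans h1
    have := hel j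
    linarith
  · have h6 : |2 * Kp * (mb j - X.t j)| ≤ 2 * Kmax * 2 := by
      rw [abs_mul, abs_of_nonneg (by positivity : 0 ≤ 2 * Kp)]
      exact mul_le_mul (by linarith) h5 (abs_nonneg _) (by positivity)
    have h7 : |X.c j - 2 * Kp * (mb j - X.t j) + el j| ≤
        |X.c j| + |2 * Kp * (mb j - X.t j)| + |el j| :=
      (abs_add_le _ _).trans (add_le_add (abs_sub _ _) le_rfl)
    have := hel j
    linarith


theorem lf_kap {N : ℕ} (L : Fin N → X.LB) (l : X.LB) :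
    Glob.kap (Fin.snoc L l : Fin (N + 1) → X.LB) =
      (Fin.snoc (Glob.kap L) l.1 : Fin (N + 1) → Fin (X.K + 1)) := by
  funext i
  refine Fin.lastCases ?_ (fun i => ?_) i
  · simp [Glob.kap]
  · simp [Glob.kap]

theorem lf_lab {N : ℕ} (L : Fin N → X.LB) (l : X.LB) :
    Glob.lab (Fin.snoc L l : Fin (N + 1) → X.LB) =
      (Fin.snoc (Glob.lab L) l.2 : Fin (N + 1) → Fin X.J) := by
  funext i
  refine Fin.lastCases ?_ (fun i => ?_) i
  · simp [Glob.lab]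
  · simp [Glob.lab]

section cmp

variable {p : Par} {act : Finset (Fin p.nc)} {N : ℕ} (n : ℕ) {Kp : ℝ}
  {θ : LS2.Cd X.K X.J act → ℝ} {d0 : ℝ} {L : Fin N → X.LB}

theorem Er_nonneg : 0 ≤ Er X n Kp θ L := by
  have := X.hnu N
  have := X.hnu (N + 1)
  exact LS2.Err_nonneg _ _ _ _ _ _ _ _ _

theorem ratio_le (hN : 0 < N) (hd : Small X d0) (hL : LabAvg.Good X.al d0 L) (j : Fin X.J) :
    (N : ℝ) / Mag.rJ (Glob.lab L) j ≤ d0⁻¹ := by
  have h := rJ_ge X hd hL j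
  have hd0 := hd.1
  have hN' : (0:ℝ) < N := by exact_mod_cast hN
  have hr : 0 < Mag.rJ (Glob.lab L) j := lt_of_lt_of_le (by positivity) h
  rw [div_le_iff₀ hr, ← div_eq_inv_mul, le_div_iff₀ hd0]
  linarith

/-- concentration of the magnetisations -/
theorem dev_MO (hN : 0 < N) (hKp : 0 ≤ Kp) (hd : Small X d0) (hL : LabAvg.Good X.al d0 L)
    (j : Fin X.J) :
    Eo X n Kp (LS2.prm act θ) L (fun _ _ ω => |MO n (Glob.lab L) j ω -
      mbar X n Kp (LS2.prm act θ) L j|) ≤ d0⁻¹ * Er X n Kp θ L := by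
  have := X.hnu N
  have := X.hnu (N + 1)
  have h := LS2.conc_MO (ν := X.nu N) (ν' := X.nu (N + 1)) n X.val X.c X.t Kp (Glob.kap L)
    (Glob.lab L) hN (fun j => (X.ht j).le) hKp (X.hR N).mem θ j
  refine h.trans ?_
  exact mul_le_mul_of_nonneg_right (ratio_le X hN hd hL j) (Er_nonneg X n)

/-- the magnetisations at the two sizes -/
theorem cmp_MO (hnb : p.nb = 0) (hN : 0 < N) (hKp : 0 ≤ Kp) (hR : ∀ x, |θ x| ≤ 1)
    (hd : Small X d0) (hL : LabAvg.Good X.al d0 L) (k : Fin (X.K + 1)) (j : Fin X.J) :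
    |M1 X n Kp (LS2.prm act θ) L k j - mbar X n Kp (LS2.prm act θ) L j| ≤
      d0⁻¹ * Er X n Kp θ L + 2 * (1 + LS2.CTR p X.val X.c Kp 1) / (d0 ^ 2 * N) := by
  have := X.hnu N
  have := X.hnu (N + 1)
  have h := LS2.MO_compare (ν := X.nu N) (ν' := X.nu (N + 1)) n X.val X.c X.t Kp (Glob.kap L)
    (Glob.lab L) hnb hN (fun j => (X.ht j).le) hKp (X.hR N).mem (X.hR (N + 1)).mem zero_le_one hR
    k j j hd.1 (rJ_ge X hd hL j)
  rw [abs_sub_comm]
  unfold M1 mbar Eo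
  rw [lf_kap, lf_lab]
  exact h

/-- the main-field observables at the two sizes -/
theorem cmp_TO (hnb : p.nb = 0) (hN : 0 < N) (hKp : 0 ≤ Kp) (hR : ∀ x, |θ x| ≤ 1)
    (hd : Small X d0) (hL : LabAvg.Good X.al d0 L) (k : Fin (X.K + 1)) (j : Fin X.J)
    {g : Fin p.nc} (hg : g ∈ act) :
    |T1 X n Kp (LS2.prm act θ) L k j g -
        Eo X n Kp (LS2.prm act θ) L (fun _ _ ω => TO n (Glob.lab L) j g ω)| ≤
      d0⁻¹ * Er X n Kp θ L + 2 * (1 + LS2.CTR p X.val X.c Kp 1) / (d0 ^ 2 * N) := by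
  have := X.hnu N
  have := X.hnu (N + 1)
  have h := LS2.TO_compare (ν := X.nu N) (ν' := X.nu (N + 1)) n X.val X.c X.t Kp (Glob.kap L)
    (Glob.lab L) hnb hN (fun j => (X.ht j).le) hKp (X.hR N).mem (X.hR (N + 1)).mem zero_le_one hR
    k j j ⟨g, hg⟩ hd.1 (rJ_ge X hd hL j)
  rw [abs_sub_comm]
  unfold T1 Eo
  rw [lf_kap, lf_lab]
  exact h

end cmp

/-- the grid of parameters -/
theorem grid_X (hINCB : INCB X) {p : Par} {act : Finset (Fin p.nc)} (hnb : p.nb = 0) {I : ℕ}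
    {Kps : Fin I → ℝ} {Kmax : ℝ} (hK0 : ∀ i, 0 ≤ Kps i) (hKm : ∀ i, Kps i ≤ Kmax)
    {lo hi : LS2.Cd X.K X.J act → ℝ} (hlh : ∀ x, lo x < hi x) (hlo : ∀ x, |lo x| ≤ 1)
    (hhi : ∀ x, |hi x| ≤ 1)
    (hBd : ∀ θ : LS2.Cd X.K X.J act → ℝ, (∀ x, lo x ≤ θ x ∧ θ x ≤ hi x) →
      Bd X 1 1 1 (LS2.prm act θ))
    {d0 : ℝ} (hd : Small X d0) {δ : ℝ} (hδ : 0 < δ) :
    ∃ Ig : ℕ, 0 < Ig ∧ ∃ (Na : ℕ) (f : ℕ → ℕ), ∀ N, Na ≤ N → ∀ n, f N ≤ n →
      ∀ (i : Fin I) (L : Fin N → X.LB), LabAvg.Good X.al d0 L →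
      ∑ z : LS2.Cd X.K X.J act → Fin Ig, ((Ig : ℝ) ^ Fintype.card (LS2.Cd X.K X.J act))⁻¹ *
        Er X n (Kps i) (LGrid.pt lo (LS2.stp lo hi Ig) z) L ≤ δ := by
  classical
  obtain ⟨CI, NaI, hINC⟩ := hINCB 1 1 1 Kmax d0 hd p hnb
  obtain ⟨Ig, hIg, N0, hN0⟩ := LS2.grid_err (act := act) hnb X.val X.c X.t Kps
    (fun j => (X.ht j).le) hK0 hlh zero_le_one hlo hhi (fun _ => |CI|) (fun _ => abs_nonneg _) hδ
  have h2 : ∀ N, ∃ n0 : ℕ, NaI ≤ N → ∀ n : ℕ, n0 ≤ n → ∀ Kp : ℝ, 0 ≤ Kp → Kp ≤ Kmax →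
      ∀ θ : Prm p X.K X.J, Bd X 1 1 1 θ → ∀ L : Fin N → X.LB, LabAvg.Good X.al d0 L →
      ∀ l : X.LB,
      |Ph X n Kp θ (Fin.snoc L l : Fin (N + 1) → X.LB) - Ph X n Kp θ L| ≤ CI := by
    intro N
    by_cases hN : NaI ≤ N
    · obtain ⟨n0, hn0⟩ := hINC N hN
      exact ⟨n0, fun _ => hn0⟩
    · exact ⟨0, fun h => absurd h hN⟩
  choose f hf using h2
  refine ⟨Ig, hIg, N0 + NaI, f, fun N hN n hn i L hL => ?_⟩
  have := X.hnu N
  have := X.hnu (N + 1)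
  have h := hN0 N (by omega) i n (Glob.kap L) (Glob.lab L) (X.nu N) (X.nu (N + 1)) (X.hR N)
    (X.hR (N + 1)) (fun θ hθ k' j' => by
      have h1 := hf N (by omega) n hn (Kps i) (hK0 i) (hKm i) (LS2.prm act θ) (hBd θ hθ) L hL
        (k', j')
      unfold Ph at h1
      rw [lf_kap, lf_lab] at h1
      exact h1.trans (le_abs_self _))
  rw [LS2.gavg_eq_weights] at h
  exact h

end

end Crest.Agent.R164.LG
end

-- ▼ part R164/LFin5
section

/-!
Row 164, L side (helper893): final assembly, part 5: the choice of the constants.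
-/

set_option autoImplicit false

namespace Crest.Agent.R164.LG

open Finset MeasureTheory Filter Topology

noncomputable section

theorem ex_min5 {a b c d e : ℝ} (ha : 0 < a) (hb : 0 < b) (hc : 0 < c) (hd : 0 < d) (he : 0 < e) :
    ∃ x : ℝ, 0 < x ∧ x ≤ a ∧ x ≤ b ∧ x ≤ c ∧ x ≤ d ∧ x ≤ e := by
  refine ⟨min a (min b (min c (min d e))), by positivity, min_le_left _ _,
    (min_le_right _ _).trans (min_le_left _ _),
    (min_le_right _ _).trans ((min_le_right _ _).trans (min_le_left _ _)),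
    (min_le_right _ _).trans ((min_le_right _ _).trans ((min_le_right _ _).trans
      (min_le_left _ _))),
    (min_le_right _ _).trans ((min_le_right _ _).trans ((min_le_right _ _).trans
      (min_le_right _ _)))⟩

/-- the choice of the size functions, from the statement for each size -/
theorem choose_f {Q : ℕ → ℕ → Prop} {Na : ℕ}
    (h : ∀ N : ℕ, Na ≤ N → ∃ n0 : ℕ, ∀ n : ℕ, n0 ≤ n → Q N n) :
    ∃ f : ℕ → ℕ, ∀ N, Na ≤ N → ∀ n, f N ≤ n → Q N n := by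
  have h2 : ∀ N, ∃ n0 : ℕ, Na ≤ N → ∀ n : ℕ, n0 ≤ n → Q N n := by
    intro N
    by_cases hN : Na ≤ N
    · obtain ⟨n0, hn0⟩ := h N hN
      exact ⟨n0, fun _ => hn0⟩
    · exact ⟨0, fun h => absurd h hN⟩
  choose f hf using h2
  exact ⟨f, hf⟩

theorem c_M (LR : ℝ) {ε : ℝ} (hε : 0 < ε) :
    ∃ M : ℕ, LR * (3 / ((M + 1 : ℕ) : ℝ)) ≤ ε / 16 := by
  obtain ⟨M, hM⟩ := exists_nat_ge (48 * LR / ε)
  refine ⟨M, ?_⟩
  have hM1 : (0:ℝ) < ((M + 1 : ℕ) : ℝ) := by positivity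
  rw [mul_div_assoc', div_le_iff₀ hM1]
  rw [div_le_iff₀ hε] at hM
  push_cast
  nlinarith

theorem c_K {R g ε : ℝ} (hR : 0 ≤ R) (hg : 0 < g) (hε : 0 < ε) :
    ∃ K0 : ℝ, 0 < K0 ∧ R ≤ K0 * g * (ε / 2) ^ 2 := by
  refine ⟨R / (g * (ε / 2) ^ 2) + 1, by positivity, ?_⟩
  have : (0:ℝ) < g * (ε / 2) ^ 2 := by positivity
  rw [mul_assoc, add_mul, div_mul_cancel₀ _ this.ne']
  linarith

theorem c_I (Cq : ℝ) {ε : ℝ} (hε : 0 < ε) : ∃ I : ℕ, 0 < I ∧ Cq / I ≤ ε / 16 := by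
  obtain ⟨I, hI⟩ := exists_nat_ge (16 * Cq / ε)
  refine ⟨I + 1, Nat.succ_pos I, ?_⟩
  have h1 : (0:ℝ) < ((I + 1 : ℕ) : ℝ) := by positivity
  rw [div_le_iff₀ h1]
  rw [div_le_iff₀ hε] at hI
  push_cast
  nlinarith

theorem c_Kps {K0 : ℝ} (hK0 : 0 < K0) (I : ℕ) (i : Fin I) :
    K0 ≤ K0 * 2 ^ ((i : ℕ) + 1) ∧ K0 * 2 ^ ((i : ℕ) + 1) ≤ K0 * 2 ^ I := by
  constructor
  · have : (1:ℝ) ≤ 2 ^ ((i : ℕ) + 1) := one_le_pow₀ (by norm_num)
    nlinarith
  · exact mul_le_mul_of_nonneg_left (pow_le_pow_right₀ (by norm_num) (by have := i.2; omega))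
      hK0.le

theorem c_a (M : ℕ) {e1 : ℝ} (he1 : 0 < e1) : ∃ A' amax amin : ℝ, 0 < A' ∧ A' ≤ 1 ∧
    A' ≤ e1 / 4 ∧ 0 < amin ∧ amin < amax ∧ amax ≤ 1 ∧ (M : ℝ) * amax ^ 2 ≤ A' ^ 2 := by
  obtain ⟨A', hA'0, hA'1, hA'e⟩ : ∃ A' : ℝ, 0 < A' ∧ A' ≤ 1 ∧ A' ≤ e1 / 4 :=
    ⟨min 1 (e1 / 4), by positivity, min_le_left _ _, min_le_right _ _⟩
  have hM0 : (0:ℝ) ≤ M := Nat.cast_nonneg M
  have h0 : 0 < A' / (M + 1) := by positivity
  refine ⟨A', A' / (M + 1), A' / (M + 1) / 2, hA'0, hA'1, hA'e, by positivity, by linarith, ?_, ?_⟩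
  · rw [div_le_one (by positivity)]
    linarith
  · rw [div_pow, mul_div_assoc', div_le_iff₀ (by positivity)]
    have h1 : (M : ℝ) ≤ ((M:ℝ) + 1) ^ 2 := by nlinarith
    have := mul_le_mul_of_nonneg_right h1 (sq_nonneg A')
    linarith

theorem c_y {Cd κ amin : ℝ} (hCd : 0 ≤ Cd) (hκ : 0 < κ) (ha : 0 < amin) :
    ∃ y : ℝ, 0 < y ∧ y ≤ 1 ∧ y ≤ amin ∧ Cd * Real.sqrt y ≤ κ := by
  refine ⟨min (min 1 amin) ((κ / (Cd + 1)) ^ 2), by positivity,
    (min_le_left _ _).trans (min_le_left _ _), (min_le_left _ _).trans (min_le_right _ _), ?_⟩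
  have h1 : Real.sqrt (min (min 1 amin) ((κ / (Cd + 1)) ^ 2)) ≤ κ / (Cd + 1) := by
    refine (Real.sqrt_le_sqrt (min_le_right _ _)).trans (le_of_eq ?_)
    exact Real.sqrt_sq (by positivity)
  calc Cd * Real.sqrt (min (min 1 amin) ((κ / (Cd + 1)) ^ 2)) ≤ Cd * (κ / (Cd + 1)) :=
        mul_le_mul_of_nonneg_left h1 hCd
    _ ≤ κ := by
        rw [mul_div_assoc', div_le_iff₀ (by positivity)]
        nlinarith

theorem c_E {κ y e1 : ℝ} (hκ : 0 < κ) (hy : 0 < y) (he1 : 0 < e1) :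
    ∃ dl E1 : ℝ, 0 < dl ∧ dl ≤ κ * y / 4 ∧ 0 < E1 ∧ E1 ≤ κ * y / 4 ∧ E1 ≤ e1 / 8 ∧ E1 ≤ 1 :=
  ⟨κ * y / 4, min (κ * y / 4) (min (e1 / 8) 1), by positivity, le_rfl, by positivity,
    min_le_left _ _, (min_le_right _ _).trans (min_le_left _ _),
    (min_le_right _ _).trans (min_le_right _ _)⟩

theorem c_q {κ : ℝ} (hκ : 0 < κ) : ∃ qk : ℕ, ∀ n' : ℕ, qk ≤ n' + 1 →
    2 / ((n' : ℝ) + 1) ≤ κ / 2 := by
  obtain ⟨qk, hqk⟩ := exists_nat_ge (4 / κ)
  refine ⟨qk, fun n' hn' => ?_⟩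
  have h1 : (4:ℝ) / κ ≤ (n' : ℝ) + 1 := hqk.trans (by exact_mod_cast hn')
  rw [div_le_iff₀ hκ] at h1
  rw [div_le_iff₀ (by positivity)]
  linarith

theorem c_lo {himax η e1 : ℝ} (h1 : 0 < himax) (h2 : 0 < η) (h3 : 0 < e1) (nc : ℕ) :
    ∃ v lo : ℝ, 0 < lo ∧ lo ≤ himax ∧ v ≤ η ∧ v ≤ 1 ∧ v ≤ e1 / 8 ∧ 2 * lo ≤ 1 ∧
      (nc : ℝ) * (2 * lo) ^ 2 ≤ v := by
  obtain ⟨v, hv, hv1, hvη, hve, -, -⟩ := ex_min5 one_pos h2 (show (0:ℝ) < e1 / 8 by positivity)
    one_pos one_pos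
  obtain ⟨lo, hlo, hlo1, hlo2, -, -, -⟩ := ex_min5 h1
    (show (0:ℝ) < v / (4 * ((nc : ℝ) + 1)) by positivity) one_pos one_pos one_pos
  have hncp : (0:ℝ) < (nc : ℝ) + 1 := by positivity
  have h0 : (0:ℝ) ≤ (nc : ℝ) := Nat.cast_nonneg _
  have hlo3 : 4 * ((nc : ℝ) + 1) * lo ≤ v := by
    rw [le_div_iff₀ (by positivity)] at hlo2
    linarith
  have hlo4 : 2 * lo ≤ 1 := by nlinarith
  refine ⟨v, lo, hlo, hlo1, hvη, hv1, hve, hlo4, ?_⟩
  have h1 : (2 * lo) ^ 2 ≤ 2 * lo := by nlinarith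
  have h2 : (nc : ℝ) * (2 * lo) ^ 2 ≤ (nc : ℝ) * (2 * lo) := mul_le_mul_of_nonneg_left h1 h0
  nlinarith

theorem c_d {dm d1 dD κ ε Kmax : ℝ} (K J : ℕ) (hdm : 0 < dm) (hd1 : 0 < d1) (hdD : 0 < dD)
    (hκ : 0 < κ) (hε : 0 < ε) (hK : 0 ≤ Kmax) : ∃ d0 : ℝ, 0 < d0 ∧ d0 ≤ dm / 2 ∧ d0 ≤ d1 ∧
      d0 ≤ dD ∧ 2 * ((K : ℝ) + 1) * J * d0 ≤ κ / 2 ∧
      Kmax * (J * (4 * (((K : ℝ) + 1) * d0))) ≤ ε / 16 := by
  obtain ⟨d0, hd0, hd0m, hd01, hd0D, hd0κ, hd0q⟩ := ex_min5 (half_pos hdm) hd1 hdD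
    (show (0:ℝ) < κ / (4 * (((K : ℝ) + 1) * ((J : ℝ) + 1))) by positivity)
    (show (0:ℝ) < ε / (64 * (Kmax + 1) * (((K : ℝ) + 1) * ((J : ℝ) + 1))) by positivity)
  refine ⟨d0, hd0, hd0m, hd01, hd0D, ?_, ?_⟩
  · rw [le_div_iff₀ (by positivity)] at hd0κ
    have h0 : (0:ℝ) ≤ ((K : ℝ) + 1) * d0 := by positivity
    nlinarith
  · rw [le_div_iff₀ (by positivity)] at hd0q
    have h1 : Kmax * (J * (4 * (((K : ℝ) + 1) * d0))) ≤
        (Kmax + 1) * (((J : ℝ) + 1) * (4 * (((K : ℝ) + 1) * d0))) := by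
      have h0 : (0:ℝ) ≤ ((K : ℝ) + 1) * d0 := by positivity
      have hJ0 : (0:ℝ) ≤ (J : ℝ) := Nat.cast_nonneg _
      exact mul_le_mul (by linarith) (mul_le_mul_of_nonneg_right (by linarith) (by positivity))
        (by positivity) (by linarith)
    nlinarith

/-- a real function of `N` of the form `c / (d N)` is small -/
theorem c_N {c d κ : ℝ} (hd : 0 < d) (hκ : 0 < κ) : ∃ Na : ℕ, ∀ N : ℕ, Na ≤ N → 0 < N →
    c / (d * N) ≤ κ := by
  obtain ⟨Na, hNa⟩ := exists_nat_ge (c / (d * κ))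
  refine ⟨Na, fun N hN hN0 => ?_⟩
  have h0 : (0:ℝ) < N := by exact_mod_cast hN0
  have h1 : c / (d * κ) ≤ N := hNa.trans (by exact_mod_cast hN)
  rw [div_le_iff₀ (by positivity)] at h1
  rw [div_le_iff₀ (by positivity)]
  linarith

end

end Crest.Agent.R164.LG
end

-- ▼ part R164/LFin6
section

/-!
Row 164, L side (helper893): final assembly, part 6: `LBP` from the module statements.
-/

set_option autoImplicit false

namespace Crest.Agent.R164.LG

open Finset MeasureTheory Filter Topology Crest.Agent.R141 Crest.Agent.R164 Crest.Agent.R164.Haar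
open Crest.ProbabilityR.InvariantGlass (spinVec)
open Crest.Agent.R164.LD (Prm HL EPh EO PL TO RJ MO)

noncomputable section

variable (X : Glob)

theorem bd_mono {p : Par} {θ : Prm p X.K X.J} {E A S E' A' S' : ℝ} (h : Bd X E A S θ)
    (hE : E ≤ E') (hA : A ^ 2 ≤ A' ^ 2) (hS : S ≤ S') : Bd X E' A' S' θ :=
  ⟨fun j => (h.el j).trans hE, fun j => (h.am j).trans hA, fun k => (h.lm k).trans hS⟩

theorem Qd_nonneg' {p : Par} {N : ℕ} (n : ℕ) (Kp : ℝ) (θ : Prm p X.K X.J) (L : Fin N → X.LB) :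
    0 ≤ Qd X n Kp θ L := by
  rcases Nat.eq_zero_or_pos N with h | h
  · subst h
    unfold Qd
    refine Finset.sum_nonneg fun j _ => ?_
    split_ifs
    · exact le_rfl
    · simp
  · exact Qd_nonneg X h

/-- lower corner of the box -/
def lob {p : Par} (act : Finset (Fin p.nc)) (amin lo : ℝ) : LS2.Cd X.K X.J act → ℝ :=
  Sum.elim (fun _ => 0) (Sum.elim (fun _ => amin) (fun _ => lo))

/-- upper corner of the box -/
def hib {p : Par} (act : Finset (Fin p.nc)) (E1 amax lo : ℝ) : LS2.Cd X.K X.J act → ℝ :=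
  Sum.elim (fun _ => E1) (Sum.elim (fun _ => amax) (fun _ => 2 * lo))

theorem box_bd {p : Par} {M B : ℕ} {amin amax lo E1 A' v : ℝ} (hamin : 0 ≤ amin) (hlo : 0 ≤ lo)
    (hMa : (M : ℝ) * amax ^ 2 ≤ A' ^ 2) (hlo5 : (p.nc : ℝ) * (2 * lo) ^ 2 ≤ v)
    (haa : amin ≤ amax)
    {θ : LS2.Cd X.K X.J (actS p M B) → ℝ}
    (h : ∀ x, lob X (actS p M B) amin lo x ≤ θ x ∧ θ x ≤ hib X (actS p M B) E1 amax lo x) :
    (∀ j, |θ (Sum.inl j)| ≤ E1) ∧
    (∀ j g, amin ≤ θ (Sum.inr (Sum.inl (j, g))) ∧ θ (Sum.inr (Sum.inl (j, g))) ≤ amax) ∧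
    (∀ k g, lo ≤ θ (Sum.inr (Sum.inr (k, g))) ∧ θ (Sum.inr (Sum.inr (k, g))) ≤ 2 * lo) ∧
    Bd X E1 A' v (LS2.prm (actS p M B) θ) := by
  have h1 : ∀ j, |θ (Sum.inl j)| ≤ E1 := fun j => by
    have := h (Sum.inl j)
    simp only [lob, hib, Sum.elim_inl] at this
    rw [abs_of_nonneg this.1]
    exact this.2
  have h2 : ∀ j g, amin ≤ θ (Sum.inr (Sum.inl (j, g))) ∧ θ (Sum.inr (Sum.inl (j, g))) ≤ amax :=
    fun j g => by
      have := h (Sum.inr (Sum.inl (j, g)))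
      simp only [lob, hib, Sum.elim_inl, Sum.elim_inr] at this
      exact this
  have h3 : ∀ k g, lo ≤ θ (Sum.inr (Sum.inr (k, g))) ∧ θ (Sum.inr (Sum.inr (k, g))) ≤ 2 * lo :=
    fun k g => by
      have := h (Sum.inr (Sum.inr (k, g)))
      simp only [lob, hib, Sum.elim_inr] at this
      exact this
  refine ⟨h1, h2, h3, bd_prm X (a := amax) (l := 2 * lo) (hamin.trans haa) hMa hlo5 h1
    (fun j g => ?_) fun k g => ?_⟩
  · have := h2 j g
    rw [abs_le]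
    constructor <;> linarith [this.1, this.2]
  · have := h3 k g
    rw [abs_le]
    constructor <;> linarith [this.1, this.2]

theorem prm_am_le {p : Par} {M B : ℕ} {θ : LS2.Cd X.K X.J (actS p M B) → ℝ} {A' : ℝ}
    (hA0 : 0 ≤ A') (hA1 : A' ≤ 1) {E v : ℝ} (h : Bd X E A' v (LS2.prm (actS p M B) θ))
    (j : Fin X.J) (g : Fin p.nc) : |(LS2.prm (actS p M B) θ).am j g| ≤ 1 := by
  have h1 := h.am j
  have h2 : (LS2.prm (actS p M B) θ).am j g ^ 2 ≤ ∑ g, (LS2.prm (actS p M B) θ).am j g ^ 2 :=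
    Finset.single_le_sum (f := fun g => (LS2.prm (actS p M B) θ).am j g ^ 2)
      (fun _ _ => sq_nonneg _) (Finset.mem_univ g)
  have h3 : A' ^ 2 ≤ 1 := by nlinarith
  exact abs_le_one_iff_mul_self_le_one.2 (by nlinarith)


theorem cmp_small {d0 Er c CT κ : ℝ} {N : ℕ} (hd0 : 0 < d0) (hEr : Er ≤ κ * d0 / 2)
    (h : CT / (d0 ^ 2 * N) ≤ κ / 2) (hc : c ≤ CT) (hN : 0 < N) :
    d0⁻¹ * Er + c / (d0 ^ 2 * N) ≤ κ := by
  have hN' : (0:ℝ) < N := by exact_mod_cast hN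
  have h1 : d0⁻¹ * Er ≤ κ / 2 := by
    rw [← div_eq_inv_mul, div_le_iff₀ hd0]
    linarith
  have h2 : c / (d0 ^ 2 * N) ≤ CT / (d0 ^ 2 * N) := div_le_div_of_nonneg_right hc (by positivity)
  linarith

theorem abs_box {p : Par} {act : Finset (Fin p.nc)} {lo hi θ : LS2.Cd X.K X.J act → ℝ}
    (hlo : ∀ x, |lo x| ≤ 1) (hhi : ∀ x, |hi x| ≤ 1) (h : ∀ x, lo x ≤ θ x ∧ θ x ≤ hi x)
    (x : LS2.Cd X.K X.J act) : |θ x| ≤ 1 := by
  have h1 := abs_le.1 (hlo x)
  have h2 := abs_le.1 (hhi x)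
  have h3 := h x
  rw [abs_le]
  constructor <;> linarith [h1.1, h2.2, h3.1, h3.2]

theorem tail_idx {n' M r : ℕ} (hr : 0 < r) (h : n' + 1 = (M + 1) * r) (x : Fin M) :
    ((x : ℕ) + 1) * r ≤ n' := by
  have h1 : ((x : ℕ) + 1) * r ≤ M * r := Nat.mul_le_mul_right r (by have := x.2; omega)
  have h2 : (M + 1) * r = M * r + r := by ring
  omega

theorem k_le {r ε R0 C0 K0 Kp g : ℝ} (hR0 : R0 ≤ r - ε + 3 * (ε / 16)) (hε : 0 < ε)
    (hK : |r| + C0 ≤ K0 * g * (ε / 2) ^ 2) (h : K0 ≤ Kp) (hg : 0 < g) :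
    R0 + C0 ≤ Kp * g * (ε / 2) ^ 2 := by
  have h1 : K0 * g * (ε / 2) ^ 2 ≤ Kp * g * (ε / 2) ^ 2 := by gcongr
  have h2 := le_abs_self r
  linarith

theorem s1_small {ε y κ dl Cd : ℝ} (hε : 0 < ε) (hy : 0 < y) (hκ : 0 < κ) (hκε : κ ≤ ε / 64)
    (hdl : dl ≤ κ * y / 4) (hy1 : y ≤ 1) (hCd : 0 ≤ Cd) (hyC : Cd * Real.sqrt y ≤ κ) :
    (2 * dl + (Cd * (y * Real.sqrt y) + y * κ)) / y + κ ≤ ε / 2 := by
  have h1 : (2 * dl + (Cd * (y * Real.sqrt y) + y * κ)) / y ≤ 3 * κ := by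
    rw [div_le_iff₀ hy]
    nlinarith
  linarith

theorem a_small {e1 E1 A' v W : ℝ} {N : ℕ} (hN : 0 < N) (he1 : 0 < e1) (hW : W / (e1 / 2) ≤ N)
    (hE : E1 ≤ e1 / 8) (hA0 : 0 < A') (hA1 : A' ≤ 1) (hA : A' ≤ e1 / 4) (hv : v ≤ e1 / 8) :
    (N : ℝ) * (E1 + A' ^ 2 / 2 + v / 2) + W ≤ e1 * N := by
  have hNr : (0:ℝ) < N := by exact_mod_cast hN
  rw [div_le_iff₀ (by positivity)] at hW
  have h3 : E1 + A' ^ 2 / 2 + v / 2 ≤ e1 / 2 := by nlinarith
  have h4 : (N:ℝ) * (E1 + A' ^ 2 / 2 + v / 2) ≤ N * (e1 / 2) := mul_le_mul_of_nonneg_left h3 hNr.le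
  linarith

theorem low_c {S C0 Cg W : ℝ} (h : 0 ≤ S) (hCg : 0 ≤ Cg) (hW : 0 ≤ W) :
    -(C0 + (3 * (Cg + 2) + 2 * W)) ≤ S - C0 := by linarith

theorem sum_mv_nonneg {p : Par} {N n : ℕ} {Kp : ℝ} {θ : Prm p X.K X.J} {L : Fin N → X.LB}
    (hN : 0 < N) (hKp : 0 ≤ Kp) : 0 ≤ ∑ j, if X.t j = 0 then 0 else ((X.γ j : ℚ) : ℝ) *
      (Kp * Eo X n Kp θ L (fun _ _ ω => (MO n (Glob.lab L) j ω - X.t j) ^ 2)) := by
  refine Finset.sum_nonneg fun j _ => ?_
  split_ifs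
  · exact le_rfl
  · exact mul_nonneg (gam_nonneg X j) (mul_nonneg hKp (mvar_nonneg X hN j))

set_option maxHeartbeats 4000000 in
/-- **The L side**: contradiction from a sequence of sizes with too small penalised pressures. -/
theorem lbp_false (hKAVG : KAVG X) (hLOWB : LOWB X) (hINCB : INCB X) (hEDIFF : EDIFF X)
    (hSTRUCT : STRUCT X) (hLLIMA : LLIMA X) (labE : (N : ℕ) → Fin N → X.LB)
    (hk : ∀ k, Tendsto (fun N : ℕ => (LabAvg.cnt (fun i => (labE N i).1) k : ℝ) / N) atTop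
      (𝓝 (X.w k)))
    (hl : ∀ j, Tendsto (fun N : ℕ => (LabAvg.cnt (fun i => (labE N i).2) j : ℝ) / N) atTop
      (𝓝 ((X.γ j : ℚ) : ℝ)))
    {ε r : ℝ} (hε : 0 < ε)
    (hr : ∀ m' : Fin X.J → ℝ, (∀ j, |m' j - X.t j| ≤ ε) → (∀ j, X.t j = 0 → m' j = 0) →
      (r : EReal) ≤ ((∑ j : Fin X.J, ((X.γ j : ℚ) : ℝ) * X.c j * m' j : ℝ) : EReal) +
        Mag.VR (Atomic.atomic X.w X.val) (X.val (Fin.last X.K)) X.γ m')
    (hcon : ∃ᶠ N in atTop, ∀ Kp : ℝ, 0 ≤ Kp → Gp X Kp (labE N) < r - ε) : False := by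
  classical
  have hγs' : ∑ j, ((X.γ j : ℚ) : ℝ) = 1 := by exact_mod_cast X.hγs
  have hJpos : 0 < X.J := by
    rcases Nat.eq_zero_or_pos X.J with h | h
    · exfalso
      have : IsEmpty (Fin X.J) := by rw [h]; infer_instance
      rw [Finset.univ_eq_empty, Finset.sum_empty] at hγs'
      exact zero_ne_one hγs'
    · exact h
  have hNZ : NeZero X.J := ⟨hJpos.ne'⟩
  have hNELB : Nonempty X.LB := ⟨(0, ⟨0, hJpos⟩)⟩
  -- minimal proportions
  obtain ⟨g, hg, hgj⟩ := LS2.exists_min_pos (X := Fin X.J) (f := fun j => ((X.γ j : ℚ) : ℝ))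
    (fun j => by exact_mod_cast X.hγ j)
  obtain ⟨dm, hdm, hdmx⟩ := LS2.exists_min_pos (X := X.LB) (f := X.al) (al_pos X)
  have hLR := LF.LR_nonneg X.hv
  obtain ⟨M, hM⟩ := c_M (LF.LR X.val) hε
  -- constants of the modules
  obtain ⟨C0, hC0, hLOW⟩ := hLOWB 1 1 1
  obtain ⟨Cq, hCq, hKA⟩ := hKAVG 1 1 1
  obtain ⟨K0, hK0, hK0b⟩ := c_K (R := |r| + C0) (by positivity) hg hε
  obtain ⟨I, hI, hIb⟩ := c_I Cq hε
  obtain ⟨Kmax, hKmax⟩ : ∃ x, x = K0 * 2 ^ I := ⟨_, rfl⟩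
  have hKmax0 : 0 ≤ Kmax := by rw [hKmax]; positivity
  obtain ⟨Kps, hKps⟩ : ∃ f : Fin I → ℝ, f = fun i : Fin I => K0 * 2 ^ ((i : ℕ) + 1) := ⟨_, rfl⟩
  have hKpsK0 : ∀ i, K0 ≤ Kps i := fun i => by rw [hKps]; exact (c_Kps hK0 I i).1
  have hKps0 : ∀ i, 0 ≤ Kps i := fun i => hK0.le.trans (hKpsK0 i)
  have hKpsM : ∀ i, Kps i ≤ Kmax := fun i => by rw [hKps, hKmax]; exact (c_Kps hK0 I i).2
  obtain ⟨Cg, hCg⟩ := gpb X Kmax
  -- perturbation size and main strengths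
  obtain ⟨e1, he1⟩ : ∃ x, x = ε / 64 := ⟨_, rfl⟩
  have he1p : 0 < e1 := by rw [he1]; positivity
  obtain ⟨A', amax, amin, hA'0, hA'1, hA'e, hamin0, haminmax, hamle1, hMa⟩ := c_a M he1p
  have hamax0 : 0 < amax := hamin0.trans haminmax
  -- sizes
  obtain ⟨Wt, hWt⟩ : ∃ x, x = 4 * Kmax + 2 * LF.LR X.val * ((M + 1 : ℕ) : ℝ) * (1 + 1 / amin) + 1 :=
    ⟨_, rfl⟩
  have hWt1 : 1 ≤ Wt := by
    have : 0 ≤ 2 * LF.LR X.val * ((M + 1 : ℕ) : ℝ) * (1 + 1 / amin) := by positivity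
    rw [hWt]; linarith
  obtain ⟨κ, hκ⟩ : ∃ x, x = ε / (64 * Wt) := ⟨_, rfl⟩
  have hκ0 : 0 < κ := by rw [hκ]; positivity
  have hκε : κ ≤ ε / 64 := by
    rw [hκ]
    exact div_le_div_of_nonneg_left hε.le (by norm_num) (by linarith)
  obtain ⟨Cd, hCd, hED⟩ := hEDIFF 1 1 Kmax
  obtain ⟨y, hy, hy1, hya, hyC⟩ := c_y hCd hκ0 hamin0
  obtain ⟨dl, E1, hdl0, hdly, hE10, hE1k, hE1e, hE11⟩ := c_E hκ0 hy he1p
  -- truncation and coarse levels
  obtain ⟨Bm, hBm⟩ : ∃ x, x = ∑ j, |X.c j| + 4 * Kmax + 2 := ⟨_, rfl⟩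
  obtain ⟨tr0a, htr⟩ := hED κ hκ0
  obtain ⟨tr0b, -, hLLB⟩ := LLimB.llimb X M (2 * amax) Bm (half_pos hdl0)
  obtain ⟨tr, htra, htrb, htr0⟩ : ∃ tr : ℝ, tr0a ≤ tr ∧ tr0b ≤ tr ∧ 0 ≤ tr :=
    ⟨max (max tr0a tr0b) 0, (le_max_left _ _).trans (le_max_left _ _),
      (le_max_right _ _).trans (le_max_left _ _), le_max_right _ _⟩
  obtain ⟨η, d1, hη, hd1, hED2⟩ := htr tr htra
  obtain ⟨J0b, hJ0b⟩ := hLLB tr htrb
  obtain ⟨J0a, hJ0a⟩ := hLLIMA M (2 * amax) Bm (dl / 2) (half_pos hdl0) tr htr0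
  obtain ⟨s, hs⟩ : ∃ s : ℕ, s = J0a + J0b + 1 := ⟨_, rfl⟩
  have hMs : s ≤ (M + 1) * s := Nat.le_mul_of_pos_left s (Nat.succ_pos M)
  obtain ⟨J, hJdef⟩ : ∃ J : ℕ, J + 1 = (M + 1) * s := ⟨(M + 1) * s - 1, by omega⟩
  obtain ⟨es, hes, q0, hq0⟩ := hJ0a J (by omega) s hJdef
  obtain ⟨n1, hn1⟩ := hSTRUCT 1 1 Kmax es hes
  obtain ⟨qk, hqk⟩ := c_q hκ0
  obtain ⟨q, hq⟩ : ∃ q : ℕ, q = q0 + n1 + 1 + qk := ⟨_, rfl⟩
  have hqpos : 0 < q := by omega
  have hqJ : q ≤ q * (J + 1) := Nat.le_mul_of_pos_right q (Nat.succ_pos J)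
  obtain ⟨n', hn'⟩ : ∃ n' : ℕ, n' + 1 = q * (J + 1) := ⟨q * (J + 1) - 1, by omega⟩
  have hn'κ : 2 / ((n' : ℝ) + 1) ≤ κ / 2 := hqk n' (by omega)
  obtain ⟨wc, hwc, p, hnb, hnc, himax, hhimax, hST⟩ := hn1 n' (by omega)
  -- small strengths
  obtain ⟨v, lo, hlo, hlo1, hvη, hv1, hve, hlo4, hlo5⟩ := c_lo hhimax hη he1p p.nc
  obtain ⟨B, hB⟩ : ∃ B : ℕ, B = q * s * wc := ⟨_, rfl⟩
  obtain ⟨dD, hdD, NaS, hSTR⟩ := hST lo hlo hlo1 (actS p M B)
  -- quality of the labels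
  obtain ⟨d0, hd0, hd0m, hd01, hd0D, hd0κ, hd0q⟩ := c_d X.K X.J hdm hd1 hdD hκ0 hε hKmax0
  have hSm : Small X d0 := ⟨hd0, fun x => by have := hdmx x; linarith⟩
  -- the boxes
  have hlh : ∀ x, lob X (actS p M B) amin lo x < hib X (actS p M B) E1 amax lo x := by
    rintro (j | (jg | kg))
    · exact hE10
    · exact haminmax
    · show lo < 2 * lo
      linarith
  have hlo' : ∀ x, |lob X (actS p M B) amin lo x| ≤ 1 := by
    rintro (j | (jg | kg))
    · show |(0:ℝ)| ≤ 1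
      simp
    · show |amin| ≤ 1
      rw [abs_of_pos hamin0]; linarith
    · show |lo| ≤ 1
      rw [abs_of_pos hlo]; linarith
  have hhi' : ∀ x, |hib X (actS p M B) E1 amax lo x| ≤ 1 := by
    rintro (j | (jg | kg))
    · show |E1| ≤ 1
      rw [abs_of_pos hE10]; exact hE11
    · show |amax| ≤ 1
      rw [abs_of_pos hamax0]; exact hamle1
    · show |2 * lo| ≤ 1
      rw [abs_of_pos (by linarith)]; exact hlo4
  have hBox := fun (θ : LS2.Cd X.K X.J (actS p M B) → ℝ) (h : ∀ x, lob X (actS p M B) amin lo x ≤ θ x ∧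
      θ x ≤ hib X (actS p M B) E1 amax lo x) =>
    box_bd X (E1 := E1) hamin0.le hlo.le hMa hlo5 haminmax.le h
  have hA'sq : A' ^ 2 ≤ 1 ^ 2 := by nlinarith
  have hBd1 : ∀ θ : LS2.Cd X.K X.J (actS p M B) → ℝ, (∀ x, lob X (actS p M B) amin lo x ≤ θ x ∧
      θ x ≤ hib X (actS p M B) E1 amax lo x) → Bd X 1 1 1 (LS2.prm (actS p M B) θ) :=
    fun θ h => bd_mono X (hBox θ h).2.2.2 hE11 hA'sq hv1
  have hBdη : ∀ θ : LS2.Cd X.K X.J (actS p M B) → ℝ, (∀ x, lob X (actS p M B) amin lo x ≤ θ x ∧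
      θ x ≤ hib X (actS p M B) E1 amax lo x) → Bd X 1 1 η (LS2.prm (actS p M B) θ) :=
    fun θ h => bd_mono X (hBox θ h).2.2.2 hE11 hA'sq hvη
  -- thresholds of the modules
  obtain ⟨dc, hdc, NaE, hEDN⟩ := hED2 d0 hSm hd01 p hnb
  obtain ⟨NaL, hLOWN⟩ := hLOW d0 Kmax hSm p hnb
  obtain ⟨NaK, hKAN⟩ := hKA K0 hK0 I p hnb
  obtain ⟨n0I, hIBP⟩ := ibpm X 1 1 1 d0 hSm p hκ0
  obtain ⟨NaA, hLAN⟩ := hq0 q (by omega) n' wc hn' hwc p hnb
  obtain ⟨fE, hfE⟩ := choose_f hEDN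
  obtain ⟨fL, hfL⟩ := choose_f hLOWN
  obtain ⟨fS, hfS⟩ := choose_f hSTR
  obtain ⟨fA, hfA⟩ := choose_f hLAN
  obtain ⟨δ, hδ, hδD, hδε, hδc, hδκ, -⟩ := ex_min5 hdD (show 0 < ε / 16 by positivity)
    (show 0 < dc * d0 by positivity) (show 0 < κ * d0 / 2 by positivity) one_pos
  have hCg0 : 0 ≤ Cg := (abs_nonneg _).trans (hCg 0 0 le_rfl hKmax0 (fun i => i.elim0))
  have hW0 : 0 ≤ (p.nc : ℝ) * p.T * p.τ := by have := p.hτ0; positivity
  obtain ⟨C, hC⟩ : ∃ x, x = C0 + (3 * (Cg + 2) + 2 * (p.nc * p.T * p.τ)) := ⟨_, rfl⟩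
  have hCpos : 0 ≤ C := by rw [hC]; positivity
  obtain ⟨Ig, hIg, NaG, fG, hG⟩ := grid_X X hINCB hnb hKps0 hKpsM hlh hlo' hhi' hBd1 hSm
    (LSel.dsel_pos (r - ε) e1 Cq I hCpos hδ)
  obtain ⟨nn, hnn⟩ : ∃ f : ℕ → ℕ, f = nnF (fun N => fE N + fL N + fS N + fA N + fG N + n0I) :=
    ⟨_, rfl⟩
  have hnnle : ∀ N N1, N ≤ N1 → fE N + fL N + fS N + fA N + fG N + n0I ≤ nn N1 := by
    intro N N1 h
    rw [hnn]
    exact le_nnF (fun N => fE N + fL N + fS N + fA N + fG N + n0I) h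
  have hnnpos : ∀ N1, 0 < nn N1 := fun N1 => by rw [hnn]; exact nnF_pos _ _
  obtain ⟨CT, hCT⟩ : ∃ x, x = ∑ i, |2 * (1 + LS2.CTR p X.val X.c (Kps i) 1)| := ⟨_, rfl⟩
  obtain ⟨NaC, hNaC⟩ := c_N (c := CT) (d := d0 ^ 2) (by positivity) (half_pos hκ0)
  obtain ⟨NaP, hNaP⟩ := exists_nat_ge (((p.nc : ℝ) * p.T * p.τ) / (e1 / 2))
  obtain ⟨Na, hNa⟩ : ∃ x : ℕ, x = NaE + NaL + NaK + NaA + NaS + NaG + NaC + NaP + 1 := ⟨_, rfl⟩
  -- selection
  have hsel := LSel.selection'' (α := X.al) (fun x => (al_pos X x).le) (al_sum X)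
    (fun _ : LS2.Cd X.K X.J (actS p M B) → Fin Ig =>
      ((Ig : ℝ) ^ Fintype.card (LS2.Cd X.K X.J (actS p M B)))⁻¹)
    (fun _ => by positivity) (LS2.weights_sum hIg) hI
    (fun N1 N z i (L : Fin N → X.LB) => Ph X (nn N1) (Kps i) (LS2.prm (actS p M B)
      (LGrid.pt (lob X (actS p M B) amin lo)
        (LS2.stp (lob X (actS p M B) amin lo) (hib X (actS p M B) E1 amax lo) Ig) z)) L)
    (fun N i (L : Fin N → X.LB) => Gp X (Kps i) L) labE
    (fun N1 N z i (L : Fin N → X.LB) => Er X (nn N1) (Kps i)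
      (LGrid.pt (lob X (actS p M B) amin lo)
        (LS2.stp (lob X (actS p M B) amin lo) (hib X (actS p M B) E1 amax lo) Ig) z) L)
    (fun N1 N z i (L : Fin N → X.LB) => Kps i * Qd X (nn N1) (Kps i) (LS2.prm (actS p M B)
      (LGrid.pt (lob X (actS p M B) amin lo)
        (LS2.stp (lob X (actS p M B) amin lo) (hib X (actS p M B) E1 amax lo) Ig) z)) L)
    (Cg := Cg) (C := C) (Cq := Cq) (e1 := e1) (δg := d0) (r := r - ε) hd0 he1p.le hCpos Na
    (fun N i L _ => hCg N (Kps i) (hKps0 i) (hKpsM i) L)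
    (hcon.mono fun N h i => h (Kps i) (hKps0 i))
    ?_ ?_ ?_ ?_ ?_ (δ := δ) hδ ?_ ?_ ?_ Na
  · obtain ⟨N1, N, z, i, L, hNN0, hNN1, hN12, -, hL, hInc, hErr⟩ := hsel
    have hz := fun x => LS2.pt_mem hlh z x
    obtain ⟨θ, hθ⟩ : ∃ θ, θ = LGrid.pt (lob X (actS p M B) amin lo)
        (LS2.stp (lob X (actS p M B) amin lo) (hib X (actS p M B) E1 amax lo) Ig) z := ⟨_, rfl⟩
    rw [← hθ] at hz hInc hErr
    have hnle := hnnle N N1 hNN1.le
    obtain ⟨n, hn⟩ : ∃ n, n = nn N1 := ⟨_, rfl⟩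
    rw [← hn] at hInc hErr hnle
    obtain ⟨hx1, hx2, hx3, hx4⟩ := hBox θ hz
    have hb1 := hBd1 θ hz
    have hbη := hBdη θ hz
    have hN0 : 0 < N := by omega
    have hK0i := hKps0 i
    have hKMi := hKpsM i
    have hKpos : 0 < Kps i := hK0.trans_le (hKpsK0 i)
    obtain ⟨lv, P, hSD⟩ := hfS N (by omega) n (by omega) (Kps i) hK0i hKMi θ (fun j => hb1.el j)
      (fun j g => prm_am_le X hA'0.le hA'1 hx4 j g) hx3 L (good_mono X hd0D hL) (hErr.trans hδD)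
    have hmb := fun j => abs_mbar_le X (n := n) (Kp := Kps i) (θ := LS2.prm (actS p M B) θ)
      (L := L) hN0 j
    have hdev : ∀ j, X.t j ≠ 0 → Eo X n (Kps i) (LS2.prm (actS p M B) θ) L
        (fun _ _ ω => |MO n (Glob.lab L) j ω -
          mbar X n (Kps i) (LS2.prm (actS p M B) θ) L j|) ≤ dc := by
      intro j _
      refine (dev_MO X n hN0 hK0i hSm hL j).trans ?_
      rw [← div_eq_inv_mul, div_le_iff₀ hd0]
      exact hErr.trans hδc
    have hcmp : d0⁻¹ * Er X n (Kps i) θ L +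
        2 * (1 + LS2.CTR p X.val X.c (Kps i) 1) / (d0 ^ 2 * N) ≤ κ :=
      cmp_small hd0 (hErr.trans hδκ) (hNaC N (by omega) hN0)
        (by rw [hCT]; exact (le_abs_self _).trans (Finset.single_le_sum
          (f := fun i => |2 * (1 + LS2.CTR p X.val X.c (Kps i) 1)|) (fun _ _ => abs_nonneg _)
          (Finset.mem_univ i))) hN0
    have hR0 : r - ε + 3 * e1 + Cq / I + δ ≤ r - ε + 3 * (ε / 16) := by rw [he1]; linarith
    have hlow := hfL N (by omega) n (by omega) (Kps i) hK0i hKMi _ hb1 L hL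
    have hqs : 0 < q * s := Nat.mul_pos hqpos (by omega)
    have hn3 : n' + 1 = (M + 1) * (q * s) := by rw [hn', hJdef]; ring
    exact local_false X (Bm := Bm) (tr := tr) (ed := κ) (e3 := κ) (e4 := κ) (e5 := κ)
      (e6 := ε / 16) (R0 := r - ε + 3 * e1 + Cq / I + δ) (d0 := d0) (Kp := Kps i) (n := n)
      (y := y) (Cd := Cd) (dl := dl) hε.le hr hJdef hn' hwc hN0 hK0i hE10.le hB hx1 hx2 hSD hy hy1
      hya (hya.trans haminmax.le) hdl0.le hκ0.le hCd hκ0.le hκ0.le hκ0.le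
      (fun j => by
        rw [hBm]
        exact abs_bb_le X hK0i hKMi (fun j => hb1.el j) hmb j)
      (hfE N (by omega) n (by omega) (Kps i) hK0i hKMi _ hbη L hL _ hmb hdev)
      (hfA N (by omega) n (by omega) (Kps i) _ L lv P hSD)
      (hJ0b J (by omega) s hJdef q hqpos n' hn' P hSD.step hSD.lt1)
      (fun k j g hg => (cmp_TO X n hnb hN0 hK0i (fun x => (abs_box X hlo' hhi' hz x)) hSm hL k j hg).trans hcmp)
      (fun k j => (cmp_MO X n hnb hN0 hK0i (fun x => (abs_box X hlo' hhi' hz x)) hSm hL k j).trans hcmp)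
      (fun j g => hIBP N hN0 n (by omega) (Kps i) _ hb1 L hL j g)
      (fun x => by
        have h := mtail X d0 hSm p N n n' wc (Kps i) _ L es lv P hN0 hL hSD x (q * s) hqs hwc
          (tail_idx hqs hn3 x)
        rw [← hB] at h
        refine h.trans ?_
        linarith)
      hInc hd0.le hL
      ((mul_le_mul_of_nonneg_right hKMi (by positivity)).trans hd0q)
      (fun j hj => dev_small X (C0 := C0) (R := r - ε + 3 * e1 + Cq / I + δ) (g := g) hN0 hK0i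
        hlow hInc hε.le hg hgj (k_le hR0 hε hK0b (hKpsK0 i) hg) hKpos j hj)
      (s1_small hε hy hκ0 hκε hdly hy1 hCd hyC)
      (final_ineq hε hy hamin0 hK0i hKMi hLR (by positivity) hdl0.le hM hκ hWt hdly hE1k hy1 hE10.le
        hyC le_rfl hκ0.le le_rfl le_rfl le_rfl le_rfl hκ0.le hκ0.le hCd hR0)
  · -- (a)
    intro N1 N z i L hN hN1 hN2
    have hN0 : 0 < N := by omega
    have hz := fun x => LS2.pt_mem hlh z x
    have h := pert X hnb (nn N1) hN0 (Kps i) (hBox _ hz).2.2.2 L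
    refine h.trans ?_
    exact a_small hN0 he1p (hNaP.trans (by exact_mod_cast (by omega : NaP ≤ N))) hE1e hA'0 hA'1
      hA'e hve
  · -- (b)
    intro i
    exact LabTr.tendsto_Psi_PEN X.val X.c (fun j => (X.ht j).le) (K := fun _ => Kps i)
      (fun _ => hKps0 i) (fun _ => hKpsM i) X.hs hγs' X.hw (fun j => gam_nonneg X j) X.nu X.hnu
      X.hR (fun N i => (labE N i).1) (fun N i => (labE N i).2) hk hl
  · -- (c)
    intro N1 N z i L hN hN1 hN2 hL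
    have hN0 : 0 < N := by omega
    have hz := fun x => LS2.pt_mem hlh z x
    have hnle := hnnle N N1 hN1.le
    have h := hfL N (by omega) (nn N1) (by omega) (Kps i) (hKps0 i) (hKpsM i) _ (hBd1 _ hz) L hL
    refine le_trans ?_ h
    rw [hC]
    refine low_c (sum_mv_nonneg X hN0 (hKps0 i)) hCg0 hW0
  · -- (c')
    intro N1 N z i L hN hN1 hN2
    have hN0 : 0 < N := by omega
    have hz := fun x => LS2.pt_mem hlh z x
    have h := crude_Inc X hnb (nn N1) hN0 (hKps0 i) (hKpsM i) hCg (hBd1 _ hz) L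
    refine le_trans ?_ h
    rw [hC]
    exact neg_le_neg (mul_le_mul_of_nonneg_right (by linarith) (Nat.cast_nonneg N))
  · intro N1 N z i L
    exact Er_nonneg X _
  · -- (d)
    refine ⟨Na, fun N1 N i L hN hN1 hN2 hL => ?_⟩
    have hnle := hnnle N N1 hN1.le
    exact hG N (by omega) (nn N1) (by omega) i L hL
  · intro N1 N z i L
    exact mul_nonneg (hKps0 i) (Qd_nonneg' X _ _ _ _)
  · -- (e)
    intro N1 N z L hN hN1 hN2
    have hz := fun x => LS2.pt_mem hlh z x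
    have h := hKAN N (by omega) (nn N1) (hnnpos N1) _ (hBd1 _ hz) L
    rw [hKps]
    exact h

end

end Crest.Agent.R164.LG
end

-- ▼ part R164/LFin7
section

/-!
Row 164, L side (helper893): final assembly, part 7: the penalised lower bound `LBP` for finite
spectra, from the module statements.
-/

set_option autoImplicit false

namespace Crest.Agent.R164.LG

open Finset MeasureTheory Filter Topology Crest.Agent.R141 Crest.Agent.R164 Crest.Agent.R164.Haar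

noncomputable section

/-- **The penalised lower bound**, from the module statements. -/
theorem lbp_of (hKAVG : ∀ X, KAVG X) (hLOWB : ∀ X, LOWB X) (hINCB : ∀ X, INCB X)
    (hEDIFF : ∀ X, EDIFF X) (hSTRUCT : ∀ X, STRUCT X) (hLLIMA : ∀ X, LLIMA X)
    (K : ℕ) (w val : Fin (K + 1) → ℝ) (hv : StrictMono val) (hw : ∀ k, 0 < w k)
    (hs : ∑ k, w k = 1) (labE : (N : ℕ) → Fin N → Fin (K + 1))
    (hlabE : ∀ k, Tendsto (fun N : ℕ =>
      ((Finset.univ.filter fun i : Fin N => labE N i = k).card : ℝ) / (N : ℝ)) atTop (𝓝 (w k)))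
    (nu : (N : ℕ) → Measure (Mat (Fin N))) (hnu : ∀ N, IsProbabilityMeasure (nu N))
    (hR : ∀ N, RHaar (nu N)) :
    Mag.LBP (Atomic.atomic w val) (val (Fin.last K)) (fun N i => val (labE N i)) nu := by
  intro J cval γ hγ hγs lab hlab t ht ε hε r hr
  by_contra hne
  rw [Filter.not_eventually] at hne
  refine lbp_false ⟨K, J, w, val, hv, hw, hs, γ, hγ, hγs, cval, t, ht, nu, hnu, hR⟩
    (hKAVG _) (hLOWB _) (hINCB _) (hEDIFF _) (hSTRUCT _) (hLLIMA _)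
    (fun N i => (labE N i, lab N i)) hlabE hlab hε hr (hne.mono fun N hN Kp hKp => ?_)
  by_contra h
  refine hN ⟨Kp, hKp, ?_⟩
  exact not_lt.1 h

end

end Crest.Agent.R164.LG
end

-- ▼ part R164/KAvgB
section

/-!
Row 164, L side, piece of (GL2) (for helper491): bounds of the plain pressure with penalty, uniform
in the penalty strength and in the labels.
-/

set_option autoImplicit false

namespace Crest.Agent.R164.LG

open Finset MeasureTheory Crest.Agent.R141 Crest.Agent.R164 Crest.Agent.R164.Haar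
open Crest.ProbabilityR.InvariantGlass (spinVec)
open Crest.Agent.R164.Mag (PEN LIN QD SJ rJ)

noncomputable section

/-- an integer number of positive spins with the right magnetisation. -/
theorem exists_count (r : ℕ) {t : ℝ} (ht : |t| ≤ 1) :
    ∃ m : ℕ, m ≤ r ∧ |(2 * (m : ℝ) - r) - r * t| ≤ 1 := by
  have h := abs_le.1 ht
  have hr : (0 : ℝ) ≤ r := Nat.cast_nonneg r
  set x : ℝ := ((r : ℝ) + r * t) / 2 with hx
  have hx0 : 0 ≤ x := by rw [hx]; nlinarith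
  have hxr : x ≤ r := by rw [hx]; nlinarith
  refine ⟨⌊x + 1 / 2⌋₊, ?_, ?_⟩
  · have h1 : ⌊x + 1 / 2⌋₊ < r + 1 := by
      rw [Nat.floor_lt (by linarith)]
      push_cast; linarith
    omega
  · have h1 := Nat.floor_le (show 0 ≤ x + 1 / 2 by linarith)
    have h2 := Nat.lt_floor_add_one (x + 1 / 2)
    rw [abs_le]
    constructor <;> linarith

theorem spinVec_eq {N : ℕ} (σ : Fin N → Bool) (i : Fin N) :
    spinVec σ i = if σ i then 1 else -1 := rfl

/-- a configuration with the right magnetisations. -/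
theorem exists_conf {N J : ℕ} {t : Fin J → ℝ} (ht : ∀ j, |t j| ≤ 1) (lab : Fin N → Fin J) :
    ∃ σ : Fin N → Bool, ∀ j, |SJ lab σ j - rJ lab j * t j| ≤ 1 := by
  classical
  have h1 : ∀ j, ∃ T : Finset (Fin N), T ⊆ univ.filter (fun r => lab r = j) ∧
      |(2 * (T.card : ℝ) - rJ lab j) - rJ lab j * t j| ≤ 1 := by
    intro j
    obtain ⟨m, hm, hm2⟩ := exists_count (univ.filter fun r => lab r = j).card (ht j)
    obtain ⟨T, hT, hTc⟩ := Finset.exists_subset_card_eq hm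
    exact ⟨T, hT, by rw [hTc]; exact hm2⟩
  choose T hT hT2 using h1
  refine ⟨fun i => decide (i ∈ T (lab i)), fun j => ?_⟩
  have h2 : SJ lab (fun i => decide (i ∈ T (lab i))) j = 2 * ((T j).card : ℝ) - rJ lab j := by
    unfold SJ rJ
    have e1 : ∀ r ∈ univ.filter (fun r => lab r = j),
        spinVec (fun i => decide (i ∈ T (lab i))) r = 2 * (if r ∈ T j then 1 else 0) - 1 := by
      intro r hr
      have hr' : lab r = j := (Finset.mem_filter.1 hr).2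
      rw [spinVec_eq]
      simp only [hr', decide_eq_true_eq]
      split_ifs <;> norm_num
    rw [Finset.sum_congr rfl e1, Finset.sum_sub_distrib, ← Finset.mul_sum, Finset.sum_ite_mem,
      Finset.sum_const, Finset.sum_const, Finset.inter_eq_right.2 (hT j)]
    simp
  rw [h2]
  exact hT2 j

theorem QD_conf {N J : ℕ} {t : Fin J → ℝ} {lab : Fin N → Fin J} {σ : Fin N → Bool}
    (h : ∀ j, |SJ lab σ j - rJ lab j * t j| ≤ 1) : QD t lab σ ≤ J := by
  unfold QD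
  calc ∑ j, (if t j = 0 then 0 else rJ lab j * (SJ lab σ j / rJ lab j - t j) ^ 2)
      ≤ ∑ _j : Fin J, (1 : ℝ) := by
        refine Finset.sum_le_sum fun j _ => ?_
        split_ifs
        · exact zero_le_one
        · rcases Nat.eq_zero_or_pos (univ.filter fun r => lab r = j).card with h0 | h0
          · have : rJ lab j = 0 := by unfold rJ; rw [h0]; simp
            rw [this]; simp
          · have hr : (1 : ℝ) ≤ rJ lab j := by
              unfold rJ; exact_mod_cast h0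
            have hr0 : (0 : ℝ) < rJ lab j := by linarith
            have e : rJ lab j * (SJ lab σ j / rJ lab j - t j) ^ 2 =
                (SJ lab σ j - rJ lab j * t j) ^ 2 / rJ lab j := by
              field_simp
            rw [e, div_le_one hr0]
            have h2 : (SJ lab σ j - rJ lab j * t j) ^ 2 ≤ 1 := by
              rw [← sq_abs]
              have := h j
              have h3 := abs_nonneg (SJ lab σ j - rJ lab j * t j)
              nlinarith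
            linarith
    _ = J := by simp

variable (X : Glob)

/-- the constant -/
def CgU : ℝ := (∑ k, |X.val k|) / 2 + ∑ j, |X.c j| + Real.log 2

theorem CgU_nonneg : 0 ≤ CgU X := by
  unfold CgU
  have h1 : 0 ≤ ∑ k, |X.val k| := Finset.sum_nonneg fun _ _ => abs_nonneg _
  have h2 : 0 ≤ ∑ j, |X.c j| := Finset.sum_nonneg fun _ _ => abs_nonneg _
  have h3 := Real.log_pos one_lt_two
  linarith

theorem val_bd {N : ℕ} (L : Fin N → X.LB) (i : Fin N) :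
    |X.val (Glob.kap L i)| ≤ ∑ k, |X.val k| :=
  Finset.single_le_sum (f := fun k => |X.val k|) (fun _ _ => abs_nonneg _) (Finset.mem_univ _)

/-- **upper bound**, uniform in the penalty strength. -/
theorem Gp_up {N : ℕ} {Kp : ℝ} (hKp : 0 ≤ Kp) (L : Fin N → X.LB) : Gp X Kp L ≤ CgU X := by
  haveI := X.hnu N
  unfold Gp LabTr.EP
  have h1 : ∀ᵐ U ∂(X.nu N), Mag.pressG (fun i => X.val (Glob.kap L i)) (Matrix.of U) univ
      (PEN X.c X.t Kp (Glob.lab L)) ≤ CgU X := by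
    filter_upwards [(X.hR N).mem] with U hU
    have h2 := Mag.pressG_mono (eig := fun i => X.val (Glob.kap L i)) (U := Matrix.of U)
      (A := univ) (A' := univ) Finset.univ_nonempty (Finset.Subset.refl _)
      (V := PEN X.c X.t Kp (Glob.lab L)) (V' := LIN X.c X.t (Glob.lab L)) le_rfl (fun σ _ => by
        rw [Mag.PEN_eq]
        have := mul_nonneg hKp (Mag.QD_nonneg X.t (Glob.lab L) σ)
        linarith)
    have h3 := Mag.abs_pressG_le (eig := fun i => X.val (Glob.kap L i)) (val_bd X L)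
      (Finset.sum_nonneg fun _ _ => abs_nonneg _) hU (A := univ) Finset.univ_nonempty
      (V := LIN X.c X.t (Glob.lab L)) (C := ∑ j, |X.c j|)
      (Finset.sum_nonneg fun _ _ => abs_nonneg _)
      (fun σ _ => Mag.abs_LIN_le X.c X.t (Glob.lab L) σ)
    have h4 := (abs_le.1 h3).2
    unfold CgU
    linarith
  have h5 := Mag.integrable_pressG (X.nu N) (fun i => X.val (Glob.kap L i)) (W := fun U => U)
    measurable_id (X.hR N).mem (A := univ) Finset.univ_nonempty (PEN X.c X.t Kp (Glob.lab L))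
  refine (integral_mono_ae h5 (integrable_const _) h1).trans (le_of_eq ?_)
  simp

/-- **lower bound**: the penalty costs only `Kp J / N`. -/
theorem Gp_low {N : ℕ} (hN : 0 < N) {Kp : ℝ} (hKp : 0 ≤ Kp) (L : Fin N → X.LB) :
    -(CgU X) - Kp * X.J / N ≤ Gp X Kp L := by
  haveI := X.hnu N
  have hN' : (0 : ℝ) < N := by exact_mod_cast hN
  obtain ⟨σ, hσ⟩ := exists_conf (fun j => (X.ht j).le) (Glob.lab L)
  have hQ := QD_conf hσ
  have hQ0 := Mag.QD_nonneg X.t (Glob.lab L) σ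
  unfold Gp LabTr.EP
  have h1 : ∀ᵐ U ∂(X.nu N), -(CgU X) - Kp * X.J / N ≤
      Mag.pressG (fun i => X.val (Glob.kap L i)) (Matrix.of U) univ
      (PEN X.c X.t Kp (Glob.lab L)) := by
    filter_upwards [(X.hR N).mem] with U hU
    have h2 := Mag.pressG_mono (eig := fun i => X.val (Glob.kap L i)) (U := Matrix.of U)
      (A := {σ}) (A' := univ) (Finset.singleton_nonempty σ) (Finset.subset_univ _)
      (V := PEN X.c X.t Kp (Glob.lab L)) (V' := PEN X.c X.t Kp (Glob.lab L)) le_rfl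
      (fun σ _ => by linarith)
    have h3 := Mag.abs_pressG_le (eig := fun i => X.val (Glob.kap L i)) (val_bd X L)
      (Finset.sum_nonneg fun _ _ => abs_nonneg _) hU (A := {σ}) (Finset.singleton_nonempty σ)
      (V := PEN X.c X.t Kp (Glob.lab L)) (C := ∑ j, |X.c j| + Kp * X.J / N)
      (by
        have : 0 ≤ ∑ j, |X.c j| := Finset.sum_nonneg fun _ _ => abs_nonneg _
        positivity)
      (fun σ' hσ' => by
        rw [Finset.mem_singleton] at hσ'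
        subst hσ'
        rw [Mag.PEN_eq]
        refine (abs_sub _ _).trans ?_
        rw [abs_of_nonneg (mul_nonneg hKp hQ0)]
        have h4 := Mag.abs_LIN_le X.c X.t (Glob.lab L) σ'
        have h5 : Kp * QD X.t (Glob.lab L) σ' ≤ Kp * X.J := mul_le_mul_of_nonneg_left hQ hKp
        have h6 : (∑ j, |X.c j| + Kp * X.J / N) * N = (∑ j, |X.c j|) * N + Kp * X.J := by
          field_simp
        rw [h6]
        linarith)
    have h4 := (abs_le.1 h3).1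
    unfold CgU
    linarith
  have h5 := Mag.integrable_pressG (X.nu N) (fun i => X.val (Glob.kap L i)) (W := fun U => U)
    measurable_id (X.hR N).mem (A := univ) Finset.univ_nonempty (PEN X.c X.t Kp (Glob.lab L))
  refine le_trans (le_of_eq ?_) (integral_mono_ae (integrable_const _) h5 h1)
  simp

end

end Crest.Agent.R164.LG
end

-- ▼ part R164/KAvgC

/-!
Row 164, L side, (GL2): the average over the penalty strengths, `LG.KAVG`.
-/

set_option autoImplicit false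

namespace Crest.Agent.R164.LG

open Finset MeasureTheory Crest.Agent.R141 Crest.Agent.R164 Crest.Agent.R164.Haar
open Crest.ProbabilityR.InvariantGlass (spinVec)
open Crest.Agent.R164.LD (Prm HL EPh EO PL TO RJ MO OAdm)

noncomputable section

variable (X : Glob) {p : Par} {N n : ℕ}

/-- the total squared distance -/
theorem Qd_eq (hN : 0 < N) (Kp : ℝ) (θ : Prm p X.K X.J) (L : Fin N → X.LB) :
    N * Qd X n Kp θ L = Eo X n Kp θ L (fun _ _ ω => Mag.QD X.t (Glob.lab L) ω.1.1.1) := by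
  haveI := X.hnu N
  have hN' : (N : ℝ) ≠ 0 := by positivity
  have h1 : Eo X n Kp θ L (fun _ _ ω => Mag.QD X.t (Glob.lab L) ω.1.1.1) =
      ∑ j, Eo X n Kp θ L (fun _ _ ω => if X.t j = 0 then 0 else
        Mag.rJ (Glob.lab L) j * (MO n (Glob.lab L) j ω - X.t j) ^ 2) := by
    unfold Eo
    rw [← LD.EO_sum X.val X.c X.t Kp θ (Glob.kap L) (Glob.lab L) univ
      (O := fun j _ _ ω => if X.t j = 0 then 0 else
        Mag.rJ (Glob.lab L) j * (MO n (Glob.lab L) j ω - X.t j) ^ 2)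
      fun j _ => OAdm.const (mu := X.nu N) (n := n) fun _ ω => if X.t j = 0 then 0 else
        Mag.rJ (Glob.lab L) j * (MO n (Glob.lab L) j ω - X.t j) ^ 2]
    rfl
  rw [h1]
  unfold Qd
  rw [Finset.mul_sum]
  refine Finset.sum_congr rfl fun j _ => ?_
  by_cases hj : X.t j = 0
  · simp only [if_pos hj]
    have := LD.EO_const (mu := X.nu N) (p := p) (n := n) X.val X.c X.t Kp θ (Glob.kap L)
      (Glob.lab L) hN (0 : ℝ)
    unfold Eo
    rw [this, mul_zero]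
  · simp only [if_neg hj]
    unfold Eo
    rw [LD.EO_smul X.val X.c X.t Kp θ (Glob.kap L) (Glob.lab L)
      (O := fun _ _ ω => (MO n (Glob.lab L) j ω - X.t j) ^ 2)
      (OAdm.const (mu := X.nu N) (n := n) fun _ ω => (MO n (Glob.lab L) j ω - X.t j) ^ 2)]
    field_simp

theorem exists_PB (θ : Prm p X.K X.J) : ∃ R : ℝ, LS2.PB R θ := by
  refine ⟨∑ j, |θ.el j| + ∑ x : Fin X.J × Fin p.nc, |θ.am x.1 x.2| +
    ∑ x : Fin (X.K + 1) × Fin p.nc, |θ.lm x.1 x.2|, ?_, ?_, ?_⟩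
  all_goals
    have h1 : 0 ≤ ∑ j, |θ.el j| := Finset.sum_nonneg fun _ _ => abs_nonneg _
    have h2 : 0 ≤ ∑ x : Fin X.J × Fin p.nc, |θ.am x.1 x.2| :=
      Finset.sum_nonneg fun _ _ => abs_nonneg _
    have h3 : 0 ≤ ∑ x : Fin (X.K + 1) × Fin p.nc, |θ.lm x.1 x.2| :=
      Finset.sum_nonneg fun _ _ => abs_nonneg _
  · intro j
    have := Finset.single_le_sum (f := fun j => |θ.el j|) (fun _ _ => abs_nonneg _)
      (Finset.mem_univ j)
    linarith
  · intro j g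
    have := Finset.single_le_sum (f := fun x : Fin X.J × Fin p.nc => |θ.am x.1 x.2|)
      (fun _ _ => abs_nonneg _) (Finset.mem_univ (j, g))
    linarith
  · intro k g
    have := Finset.single_le_sum (f := fun x : Fin (X.K + 1) × Fin p.nc => |θ.lm x.1 x.2|)
      (fun _ _ => abs_nonneg _) (Finset.mem_univ (k, g))
    linarith

/-- **supporting line** in the penalty strength. -/
theorem Qd_line (hN : 0 < N) {Kp : ℝ} (hKp : 0 ≤ Kp) (θ : Prm p X.K X.J) (L : Fin N → X.LB) :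
    Kp * Qd X n Kp θ L ≤ 2 / N * (Ph X n (Kp / 2) θ L - Ph X n Kp θ L) := by
  haveI := X.hnu N
  have hN' : (0 : ℝ) < N := by exact_mod_cast hN
  obtain ⟨R, hR⟩ := exists_PB X θ
  have ht : ∀ j, |X.t j| ≤ 1 := fun j => (X.ht j).le
  have hH := LS2.adm_HL (ν := X.nu N) n X.val X.c X.t (Glob.kap L) (Glob.lab L) ht hKp hR
    (X.hR N).mem
  have hH2 : LS2.Adm (LD.B p N n) (X.nu N)
      (fun (_ : Mat (Fin N)) (b : (LD.B p N n).S) => Mag.QD X.t (Glob.lab L) b.1.1) := by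
    refine ⟨fun _ => measurable_const, 4 * N, Filter.Eventually.of_forall fun U s => ?_⟩
    rw [abs_of_nonneg (Mag.QD_nonneg _ _ _)]
    exact Mag.QD_le ht (Glob.lab L) _
  have h := LS2.slope (SY.base_SF_zero (LD.univ_ne N)) hH hH2 (Kp / 2)
  have e1 : LS2.hs (LD.B p N n) (LD.HL n X.val X.c X.t Kp θ (Glob.kap L) (Glob.lab L))
      (fun (_ : Mat (Fin N)) (b : (LD.B p N n).S) => Mag.QD X.t (Glob.lab L) b.1.1) (Kp / 2) =
      LD.HL n X.val X.c X.t (Kp / 2) θ (Glob.kap L) (Glob.lab L) := by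
    funext U b
    unfold LS2.hs LD.HL SY.HS SY.h0q LD.VL
    rw [Mag.PEN_eq, Mag.PEN_eq]
    ring
  rw [e1, LS2.FF_eq_EPh' n X.val X.c X.t (Glob.kap L) (Glob.lab L) ht (by linarith) hR
    (X.hR N).mem, LS2.FF_eq_EPh' n X.val X.c X.t (Glob.kap L) (Glob.lab L) ht hKp hR
    (X.hR N).mem] at h
  have e2 : LS2.mV (B := LD.B p N n) (X.nu N)
      (LD.HL n X.val X.c X.t Kp θ (Glob.kap L) (Glob.lab L))
      (fun (_ : Mat (Fin N)) (b : (LD.B p N n).S) => Mag.QD X.t (Glob.lab L) b.1.1) =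
      N * Qd X n Kp θ L := by
    rw [Qd_eq X hN]
    unfold Eo
    rw [LD.EO_eq_dv X.val X.c X.t Kp θ (Glob.kap L) (Glob.lab L)
      (OAdm.const (mu := X.nu N) (n := n) fun _ ω => Mag.QD X.t (Glob.lab L) ω.1.1.1)]
    rfl
  rw [e2] at h
  have h2 : Kp * Qd X n Kp θ L = 2 / N * (Kp / 2 * (N * Qd X n Kp θ L)) := by
    field_simp
  rw [h2]
  exact mul_le_mul_of_nonneg_left h (by positivity)

/-- **(GL2)** -/
theorem kavg : KAVG X := by
  intro E A S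
  have hC := CgU_nonneg X
  refine ⟨4 * CgU X + 4 * (|E| + A ^ 2 / 2 + |S| / 2) + 6, by positivity, ?_⟩
  intro K0 hK0 I p hnb
  obtain ⟨m1, hm1⟩ := exists_nat_gt (p.nc * p.T * p.τ)
  obtain ⟨m2, hm2⟩ := exists_nat_gt (K0 * 2 ^ I * X.J)
  refine ⟨max 1 (max m1 m2), fun N hN n hn θ hθ L => ?_⟩
  have hNpos : 0 < N := lt_of_lt_of_le one_pos ((le_max_left _ _).trans hN)
  have hN' : (0 : ℝ) < N := by exact_mod_cast hNpos
  have a1 : (p.nc * p.T * p.τ : ℝ) ≤ N := hm1.le.trans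
    (by exact_mod_cast ((le_max_left _ _).trans (le_max_right _ _)).trans hN)
  have a2 : (K0 * 2 ^ I * X.J : ℝ) ≤ N := hm2.le.trans
    (by exact_mod_cast ((le_max_right _ _).trans (le_max_right _ _)).trans hN)
  have h1 : ∀ i : Fin I, (K0 * 2 ^ ((i : ℕ) + 1)) * Qd X n (K0 * 2 ^ ((i : ℕ) + 1)) θ L ≤
      2 / N * (Ph X n (K0 * 2 ^ (i : ℕ)) θ L - Ph X n (K0 * 2 ^ ((i : ℕ) + 1)) θ L) := by
    intro i
    have h := Qd_line X (n := n) hNpos (Kp := K0 * 2 ^ ((i : ℕ) + 1)) (by positivity) θ L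
    have e : K0 * 2 ^ ((i : ℕ) + 1) / 2 = K0 * 2 ^ (i : ℕ) := by rw [pow_succ]; ring
    rw [e] at h
    exact h
  refine (Finset.sum_le_sum fun i _ => h1 i).trans ?_
  rw [← Finset.mul_sum]
  have h2 : ∑ i : Fin I, (Ph X n (K0 * 2 ^ (i : ℕ)) θ L - Ph X n (K0 * 2 ^ ((i : ℕ) + 1)) θ L) =
      Ph X n (K0 * 2 ^ 0) θ L - Ph X n (K0 * 2 ^ I) θ L := by
    rw [Fin.sum_univ_eq_sum_range (fun i => Ph X n (K0 * 2 ^ i) θ L -
      Ph X n (K0 * 2 ^ (i + 1)) θ L) I, Finset.sum_range_sub']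
  rw [h2, pow_zero, mul_one]
  have p1 := abs_le.1 (pert X hnb n hNpos K0 hθ L)
  have p2 := abs_le.1 (pert X hnb n hNpos (K0 * 2 ^ I) hθ L)
  have g1 := Gp_up X hK0.le L
  have g2 := Gp_low X hNpos (Kp := K0 * 2 ^ I) (by positivity) L
  have g3 : N * Gp X K0 L ≤ N * CgU X := mul_le_mul_of_nonneg_left g1 hN'.le
  have g4 : N * (-(CgU X) - K0 * 2 ^ I * X.J / N) ≤ N * Gp X (K0 * 2 ^ I) L :=
    mul_le_mul_of_nonneg_left g2 hN'.le
  have g5 : N * (-(CgU X) - K0 * 2 ^ I * X.J / N) = -(N * CgU X) - K0 * 2 ^ I * X.J := by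
    field_simp
  have g6 : E + A ^ 2 / 2 + S / 2 ≤ |E| + A ^ 2 / 2 + |S| / 2 := by
    have b1 := le_abs_self E
    have b2 := le_abs_self S
    linarith
  have g7 : (N : ℝ) * (E + A ^ 2 / 2 + S / 2) ≤ N * (|E| + A ^ 2 / 2 + |S| / 2) :=
    mul_le_mul_of_nonneg_left g6 hN'.le
  have h3 : Ph X n K0 θ L - Ph X n (K0 * 2 ^ I) θ L ≤
      N * (2 * CgU X + 2 * (|E| + A ^ 2 / 2 + |S| / 2) + 3) := by
    have c1 := p1.2
    have c2 := p2.1
    rw [g5] at g4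
    linarith
  calc 2 / N * (Ph X n K0 θ L - Ph X n (K0 * 2 ^ I) θ L)
      ≤ 2 / N * (N * (2 * CgU X + 2 * (|E| + A ^ 2 / 2 + |S| / 2) + 3)) :=
        mul_le_mul_of_nonneg_left h3 (by positivity)
    _ = _ := by field_simp; ring

end

end Crest.Agent.R164.LG
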