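import Mathlib

-- ▼ part R164/SDAlg1
section

/-!
Row 164: deterministic consequences of the approximate left-rotation (Schwinger-Dyson) relations,
part 1: the atomic resolvent in the coordinate `τ = 1/(b - θ_max)`.

For atoms with masses `α k > 0`, `∑ α = 1`, and gaps `d k = θ_max - θ k ≥ 0` put
`e_k(τ) = 1/(1 + τ d_k)`, `F_k(τ) = τ e_k(τ) = 1/(b - θ_k)`, `s(τ) = ∑ α_k F_k(τ)`.
-/

set_option autoImplicit false

namespace Crest.Agent.R164.SDAlg

open Finset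

noncomputable section

variable {κ : Type} [Fintype κ]

/-- `e_k(τ) = 1/(1 + τ d_k)`. -/
def ee (d : κ → ℝ) (τ : ℝ) (k : κ) : ℝ := (1 + τ * d k)⁻¹

/-- `F_k(τ) = τ e_k(τ)`. -/
def FF (d : κ → ℝ) (τ : ℝ) (k : κ) : ℝ := τ * ee d τ k

/-- `s(τ) = ∑ α_k F_k(τ)`. -/
def ss (α d : κ → ℝ) (τ : ℝ) : ℝ := ∑ k, α k * FF d τ k

/-- `q(τ, τ') = ∑ α_k e_k(τ) e_k(τ')`. -/
def qq (α d : κ → ℝ) (τ τ' : ℝ) : ℝ := ∑ k, α k * (ee d τ k * ee d τ' k)

variable {α d : κ → ℝ} {τ τ' : ℝ}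

omit [Fintype κ] in
theorem one_add_pos (hd : ∀ k, 0 ≤ d k) (hτ : 0 ≤ τ) (k : κ) : 0 < 1 + τ * d k := by
  have := mul_nonneg hτ (hd k); linarith

omit [Fintype κ] in
theorem ee_pos (hd : ∀ k, 0 ≤ d k) (hτ : 0 ≤ τ) (k : κ) : 0 < ee d τ k :=
  inv_pos.2 (one_add_pos hd hτ k)

omit [Fintype κ] in
theorem ee_le_one (hd : ∀ k, 0 ≤ d k) (hτ : 0 ≤ τ) (k : κ) : ee d τ k ≤ 1 := by
  unfold ee
  apply inv_le_one_of_one_le₀
  have := mul_nonneg hτ (hd k); linarith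

omit [Fintype κ] in
theorem ee_ge (hd : ∀ k, 0 ≤ d k) (hτ : 0 ≤ τ) {T Δ : ℝ} (hT : τ ≤ T) (hΔ : ∀ k, d k ≤ Δ) (k : κ) :
    (1 + T * Δ)⁻¹ ≤ ee d τ k := by
  unfold ee
  apply inv_anti₀ (one_add_pos hd hτ k)
  have := mul_le_mul hT (hΔ k) (hd k) (hτ.trans hT)
  linarith

omit [Fintype κ] in
theorem ee_mul (hd : ∀ k, 0 ≤ d k) (hτ : 0 ≤ τ) (k : κ) : ee d τ k * (1 + τ * d k) = 1 :=
  inv_mul_cancel₀ (one_add_pos hd hτ k).ne'

omit [Fintype κ] in
/-- `e_k = 1 - d_k F_k`. -/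
theorem ee_eq (hd : ∀ k, 0 ≤ d k) (hτ : 0 ≤ τ) (k : κ) : ee d τ k = 1 - d k * FF d τ k := by
  have := ee_mul hd hτ k
  unfold FF
  linarith

omit [Fintype κ] in
/-- exact difference. -/
theorem FF_sub (hd : ∀ k, 0 ≤ d k) (hτ : 0 ≤ τ) (hτ' : 0 ≤ τ') (k : κ) :
    FF d τ' k - FF d τ k = (τ' - τ) * (ee d τ k * ee d τ' k) := by
  unfold FF
  have h1 := ee_mul hd hτ k
  have h2 := ee_mul hd hτ' k
  linear_combination (-(τ' * ee d τ' k)) * h1 + (τ * ee d τ k) * h2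

omit [Fintype κ] in
theorem ee_sub (hd : ∀ k, 0 ≤ d k) (hτ : 0 ≤ τ) (hτ' : 0 ≤ τ') (k : κ) :
    ee d τ k - ee d τ' k = (τ' - τ) * d k * (ee d τ k * ee d τ' k) := by
  have h1 := ee_mul hd hτ k
  have h2 := ee_mul hd hτ' k
  linear_combination (ee d τ' k) * h1 - (ee d τ k) * h2

theorem ss_sub (hd : ∀ k, 0 ≤ d k) (hτ : 0 ≤ τ) (hτ' : 0 ≤ τ') :
    ss α d τ' - ss α d τ = (τ' - τ) * qq α d τ τ' := by
  unfold ss qq
  rw [← Finset.sum_sub_distrib, Finset.mul_sum]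
  apply Finset.sum_congr rfl
  intro k _
  rw [← mul_sub, FF_sub hd hτ hτ' k]
  ring

theorem qq_pos (hα : ∀ k, 0 < α k) (hne : Nonempty κ) (hd : ∀ k, 0 ≤ d k) (hτ : 0 ≤ τ)
    (hτ' : 0 ≤ τ') : 0 < qq α d τ τ' := by
  unfold qq
  apply Finset.sum_pos
  · intro k _
    exact mul_pos (hα k) (mul_pos (ee_pos hd hτ k) (ee_pos hd hτ' k))
  · exact Finset.univ_nonempty


theorem qq_ge (hα : ∀ k, 0 < α k) (hsum : ∑ k, α k = 1) (hd : ∀ k, 0 ≤ d k) (hτ : 0 ≤ τ)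
    (hτ' : 0 ≤ τ') {T Δ : ℝ} (hT : τ ≤ T) (hT' : τ' ≤ T) (hΔ : ∀ k, d k ≤ Δ) (hΔ0 : 0 ≤ Δ) :
    ((1 + T * Δ)⁻¹) ^ 2 ≤ qq α d τ τ' := by
  unfold qq
  have hc : 0 < (1 + T * Δ)⁻¹ := by
    apply inv_pos.2
    have := mul_nonneg (hτ.trans hT) hΔ0
    linarith
  calc ((1 + T * Δ)⁻¹) ^ 2 = ∑ k, α k * ((1 + T * Δ)⁻¹ * (1 + T * Δ)⁻¹) := by
        rw [← Finset.sum_mul, hsum]; ring
    _ ≤ _ := by
        apply Finset.sum_le_sum
        intro k _
        apply mul_le_mul_of_nonneg_left _ (hα k).le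
        exact mul_le_mul (ee_ge hd hτ hT hΔ k) (ee_ge hd hτ' hT' hΔ k) hc.le (ee_pos hd hτ k).le

theorem ss_zero : ss α d 0 = 0 := by
  unfold ss FF
  simp

theorem ss_continuousOn (hd : ∀ k, 0 ≤ d k) : ContinuousOn (ss α d) (Set.Ici 0) := by
  unfold ss
  apply continuousOn_finset_sum
  intro k _
  apply ContinuousOn.mul continuousOn_const
  unfold FF ee
  apply ContinuousOn.mul continuousOn_id
  apply ContinuousOn.inv₀
  · fun_prop
  · intro τ hτ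
    exact (one_add_pos hd hτ k).ne'

theorem ss_strictMono (hα : ∀ k, 0 < α k) (hne : Nonempty κ) (hd : ∀ k, 0 ≤ d k)
    (hτ : 0 ≤ τ) (h : τ < τ') : ss α d τ < ss α d τ' := by
  have h1 := ss_sub (α := α) hd hτ (hτ.trans h.le)
  have h2 := mul_pos (sub_pos.2 h) (qq_pos hα hne hd hτ (hτ.trans h.le))
  linarith

/-- lower bound by the top atom. -/
theorem le_ss (hα : ∀ k, 0 < α k) (hd : ∀ k, 0 ≤ d k) {k0 : κ} (h0 : d k0 = 0) (hτ : 0 ≤ τ) :
    α k0 * τ ≤ ss α d τ := by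
  unfold ss
  have h1 : α k0 * FF d τ k0 = α k0 * τ := by
    unfold FF ee; rw [h0]; simp
  rw [← h1]
  apply Finset.single_le_sum (f := fun k => α k * FF d τ k) _ (Finset.mem_univ k0)
  intro k _
  exact mul_nonneg (hα k).le (mul_nonneg hτ (ee_pos hd hτ k).le)

theorem exists_tau (hα : ∀ k, 0 < α k) (hd : ∀ k, 0 ≤ d k) {k0 : κ}
    (h0 : d k0 = 0) {x : ℝ} (hx : 0 ≤ x) : ∃ τ, 0 ≤ τ ∧ ss α d τ = x := by
  have hT : 0 ≤ x / α k0 := div_nonneg hx (hα k0).le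
  have h1 : x ≤ ss α d (x / α k0) := by
    have := le_ss hα hd h0 hT
    rwa [mul_div_cancel₀ _ (hα k0).ne'] at this
  have h2 := intermediate_value_Icc hT ((ss_continuousOn (α := α) hd).mono
    (fun y hy => hy.1))
  rw [ss_zero] at h2
  obtain ⟨τ, hτ, h3⟩ := h2 ⟨hx, h1⟩
  exact ⟨τ, hτ.1, h3⟩

/-- `τ(x)`: the inverse of `s`. -/
def tau (α d : κ → ℝ) (x : ℝ) : ℝ :=
  open scoped Classical in
  if h : ∃ τ, 0 ≤ τ ∧ ss α d τ = x then h.choose else 0

theorem tau_nonneg (α d : κ → ℝ) (x : ℝ) : 0 ≤ tau α d x := by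
  unfold tau
  split_ifs with h
  · exact h.choose_spec.1
  · exact le_rfl

theorem ss_tau (hα : ∀ k, 0 < α k) (hd : ∀ k, 0 ≤ d k) {k0 : κ}
    (h0 : d k0 = 0) {x : ℝ} (hx : 0 ≤ x) : ss α d (tau α d x) = x := by
  unfold tau
  rw [dif_pos (exists_tau hα hd h0 hx)]
  exact (exists_tau hα hd h0 hx).choose_spec.2

theorem tau_unique (hα : ∀ k, 0 < α k) (hd : ∀ k, 0 ≤ d k) {k0 : κ}
    (h0 : d k0 = 0) (hτ : 0 ≤ τ) {x : ℝ} (h : ss α d τ = x) : tau α d x = τ := by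
  have hne : Nonempty κ := ⟨k0⟩
  have hx : 0 ≤ x := by
    rw [← h]
    exact (mul_nonneg (hα k0).le hτ).trans (le_ss hα hd h0 hτ)
  have h1 := ss_tau hα hd h0 hx
  rcases lt_trichotomy (tau α d x) τ with h2 | h2 | h2
  · have := ss_strictMono hα hne hd (tau_nonneg α d x) h2
    linarith
  · exact h2
  · have := ss_strictMono hα hne hd hτ h2
    linarith

theorem tau_zero (hα : ∀ k, 0 < α k) (hd : ∀ k, 0 ≤ d k) {k0 : κ}
    (h0 : d k0 = 0) : tau α d 0 = 0 := tau_unique hα hd h0 le_rfl ss_zero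

theorem tau_le (hα : ∀ k, 0 < α k) (hd : ∀ k, 0 ≤ d k) {k0 : κ}
    (h0 : d k0 = 0) {x : ℝ} (hx : 0 ≤ x) : tau α d x ≤ x / α k0 := by
  have h1 := le_ss hα hd h0 (tau_nonneg α d x)
  rw [ss_tau hα hd h0 hx] at h1
  rw [le_div_iff₀ (hα k0)]
  linarith


/-- the lower constant `c0`. -/
def c0 (T Δ : ℝ) : ℝ := ((1 + T * Δ)⁻¹) ^ 2

theorem c0_pos {T Δ : ℝ} (hT : 0 ≤ T) (hΔ : 0 ≤ Δ) : 0 < c0 T Δ := by
  unfold c0
  have := mul_nonneg hT hΔ
  positivity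

theorem c0_le_one {T Δ : ℝ} (hT : 0 ≤ T) (hΔ : 0 ≤ Δ) : c0 T Δ ≤ 1 := by
  unfold c0
  have := mul_nonneg hT hΔ
  have h1 : (1 + T * Δ)⁻¹ ≤ 1 := inv_le_one_of_one_le₀ (by linarith)
  have h2 : 0 ≤ (1 + T * Δ)⁻¹ := by positivity
  nlinarith

/-- Inverse Lipschitz bound. -/
theorem abs_sub_le_of_ss (hα : ∀ k, 0 < α k) (hsum : ∑ k, α k = 1) (hd : ∀ k, 0 ≤ d k)
    (hτ : 0 ≤ τ) (hτ' : 0 ≤ τ') {T Δ : ℝ} (hT : τ ≤ T) (hT' : τ' ≤ T) (hΔ : ∀ k, d k ≤ Δ)
    (hΔ0 : 0 ≤ Δ) : c0 T Δ * |τ' - τ| ≤ |ss α d τ' - ss α d τ| := by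
  rw [ss_sub hd hτ hτ', abs_mul, mul_comm]
  apply mul_le_mul_of_nonneg_left _ (abs_nonneg _)
  have h := qq_ge hα hsum hd hτ hτ' hT hT' hΔ hΔ0
  exact h.trans (le_abs_self _)

theorem FF_lip (hd : ∀ k, 0 ≤ d k) (hτ : 0 ≤ τ) (hτ' : 0 ≤ τ') (k : κ) :
    |FF d τ' k - FF d τ k| ≤ |τ' - τ| := by
  rw [FF_sub hd hτ hτ' k, abs_mul]
  have h1 : |ee d τ k * ee d τ' k| ≤ 1 := by
    rw [abs_of_pos (mul_pos (ee_pos hd hτ k) (ee_pos hd hτ' k))]
    calc _ ≤ 1 * (1 : ℝ) :=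
          mul_le_mul (ee_le_one hd hτ k) (ee_le_one hd hτ' k) (ee_pos hd hτ' k).le zero_le_one
      _ = 1 := one_mul 1
  calc _ ≤ |τ' - τ| * 1 := mul_le_mul_of_nonneg_left h1 (abs_nonneg _)
    _ = _ := mul_one _

/-- normalised weights `w_k(τ,τ') = e_k(τ) e_k(τ') / q(τ,τ')`. -/
def ww (α d : κ → ℝ) (τ τ' : ℝ) (k : κ) : ℝ := ee d τ k * ee d τ' k / qq α d τ τ'

theorem ww_pos (hα : ∀ k, 0 < α k) (hd : ∀ k, 0 ≤ d k) (hτ : 0 ≤ τ)
    (hτ' : 0 ≤ τ') (k : κ) : 0 < ww α d τ τ' k :=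
  div_pos (mul_pos (ee_pos hd hτ k) (ee_pos hd hτ' k)) (qq_pos hα ⟨k⟩ hd hτ hτ')

theorem sum_ww (hα : ∀ k, 0 < α k) (hne : Nonempty κ) (hd : ∀ k, 0 ≤ d k) (hτ : 0 ≤ τ)
    (hτ' : 0 ≤ τ') : ∑ k, α k * ww α d τ τ' k = 1 := by
  unfold ww
  simp only [← mul_div_assoc]
  rw [← Finset.sum_div]
  exact div_self (qq_pos hα hne hd hτ hτ').ne'


/-- increments of `F_k` in terms of increments of `s`. -/
theorem FF_sub_eq (hα : ∀ k, 0 < α k) (hd : ∀ k, 0 ≤ d k) (hτ : 0 ≤ τ) (hτ' : 0 ≤ τ') (k : κ) :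
    FF d τ' k - FF d τ k = (ss α d τ' - ss α d τ) * ww α d τ τ' k := by
  rw [FF_sub hd hτ hτ' k, ss_sub hd hτ hτ']
  unfold ww
  have h := (qq_pos hα ⟨k⟩ hd hτ hτ').ne'
  field_simp

/-- Lipschitz bound for the weights: both arguments move. -/
theorem ww_lip (hα : ∀ k, 0 < α k) (hsum : ∑ k, α k = 1) (hd : ∀ k, 0 ≤ d k)
    {T Δ : ℝ} (hΔ : ∀ k, d k ≤ Δ) (hΔ0 : 0 ≤ Δ) {a a' b b' : ℝ} (ha : 0 ≤ a) (ha' : 0 ≤ a')
    (hb : 0 ≤ b) (hb' : 0 ≤ b') (haT : a ≤ T) (haT' : a' ≤ T) (hbT : b ≤ T) (hbT' : b' ≤ T)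
    (k : κ) :
    |ww α d a a' k - ww α d b b' k| ≤ 2 * Δ / (c0 T Δ) ^ 2 * (|a - b| + |a' - b'|) := by
  have hT : 0 ≤ T := ha.trans haT
  have hc := c0_pos hT hΔ0
  -- products
  have hprod : ∀ l, |ee d a l * ee d a' l - ee d b l * ee d b' l| ≤
      Δ * (|a - b| + |a' - b'|) := by
    intro l
    have e1 : |ee d a l - ee d b l| ≤ Δ * |a - b| := by
      rw [ee_sub hd ha hb l, abs_mul, abs_mul, abs_of_nonneg (hd l), abs_sub_comm b a]
      have h1 : |ee d a l * ee d b l| ≤ 1 := by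
        rw [abs_of_pos (mul_pos (ee_pos hd ha l) (ee_pos hd hb l))]
        calc _ ≤ 1 * (1 : ℝ) :=
              mul_le_mul (ee_le_one hd ha l) (ee_le_one hd hb l) (ee_pos hd hb l).le zero_le_one
          _ = 1 := one_mul 1
      calc |a - b| * d l * |ee d a l * ee d b l| ≤ |a - b| * Δ * 1 :=
            mul_le_mul (mul_le_mul_of_nonneg_left (hΔ l) (abs_nonneg _)) h1 (abs_nonneg _)
              (mul_nonneg (abs_nonneg _) hΔ0)
        _ = _ := by ring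
    have e2 : |ee d a' l - ee d b' l| ≤ Δ * |a' - b'| := by
      rw [ee_sub hd ha' hb' l, abs_mul, abs_mul, abs_of_nonneg (hd l), abs_sub_comm b' a']
      have h1 : |ee d a' l * ee d b' l| ≤ 1 := by
        rw [abs_of_pos (mul_pos (ee_pos hd ha' l) (ee_pos hd hb' l))]
        calc _ ≤ 1 * (1 : ℝ) :=
              mul_le_mul (ee_le_one hd ha' l) (ee_le_one hd hb' l) (ee_pos hd hb' l).le
                zero_le_one
          _ = 1 := one_mul 1
      calc |a' - b'| * d l * |ee d a' l * ee d b' l| ≤ |a' - b'| * Δ * 1 :=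
            mul_le_mul (mul_le_mul_of_nonneg_left (hΔ l) (abs_nonneg _)) h1 (abs_nonneg _)
              (mul_nonneg (abs_nonneg _) hΔ0)
        _ = _ := by ring
    have e3 : ee d a l * ee d a' l - ee d b l * ee d b' l =
        (ee d a l - ee d b l) * ee d a' l + ee d b l * (ee d a' l - ee d b' l) := by ring
    rw [e3]
    refine (abs_add_le _ _).trans ?_
    rw [abs_mul, abs_mul, abs_of_pos (ee_pos hd ha' l), abs_of_pos (ee_pos hd hb l)]
    have h1 : |ee d a l - ee d b l| * ee d a' l ≤ Δ * |a - b| * 1 :=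
      mul_le_mul e1 (ee_le_one hd ha' l) (ee_pos hd ha' l).le (mul_nonneg hΔ0 (abs_nonneg _))
    have h2 : ee d b l * |ee d a' l - ee d b' l| ≤ 1 * (Δ * |a' - b'|) :=
      mul_le_mul (ee_le_one hd hb l) e2 (abs_nonneg _) zero_le_one
    linarith
  set X := Δ * (|a - b| + |a' - b'|) with hX
  have hX0 : 0 ≤ X := mul_nonneg hΔ0 (add_nonneg (abs_nonneg _) (abs_nonneg _))
  have hq : |qq α d a a' - qq α d b b'| ≤ X := by
    unfold qq
    rw [← Finset.sum_sub_distrib]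
    refine (Finset.abs_sum_le_sum_abs _ _).trans ?_
    calc ∑ l, |α l * (ee d a l * ee d a' l) - α l * (ee d b l * ee d b' l)|
        ≤ ∑ l, α l * X := by
          apply Finset.sum_le_sum
          intro l _
          rw [← mul_sub, abs_mul, abs_of_pos (hα l)]
          exact mul_le_mul_of_nonneg_left (hprod l) (hα l).le
      _ = X := by rw [← Finset.sum_mul, hsum, one_mul]
  have hqa : c0 T Δ ≤ qq α d a a' := qq_ge hα hsum hd ha ha' haT haT' hΔ hΔ0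
  have hqb : c0 T Δ ≤ qq α d b b' := qq_ge hα hsum hd hb hb' hbT hbT' hΔ hΔ0
  have hqa0 : 0 < qq α d a a' := hc.trans_le hqa
  have hqb0 : 0 < qq α d b b' := hc.trans_le hqb
  have hpb : 0 < ee d b k * ee d b' k := mul_pos (ee_pos hd hb k) (ee_pos hd hb' k)
  have hpb1 : ee d b k * ee d b' k ≤ 1 := by
    calc _ ≤ 1 * (1 : ℝ) :=
          mul_le_mul (ee_le_one hd hb k) (ee_le_one hd hb' k) (ee_pos hd hb' k).le zero_le_one
      _ = 1 := one_mul 1
  have e : ww α d a a' k - ww α d b b' k =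
      (ee d a k * ee d a' k - ee d b k * ee d b' k) / qq α d a a' +
      (ee d b k * ee d b' k) * (qq α d b b' - qq α d a a') / (qq α d a a' * qq α d b b') := by
    unfold ww
    field_simp
    ring
  rw [e]
  refine (abs_add_le _ _).trans ?_
  rw [abs_div, abs_div, abs_mul, abs_of_pos hqa0, abs_of_pos (mul_pos hqa0 hqb0),
    abs_of_pos hpb]
  have hc1 := c0_le_one hT hΔ0
  have hcc : (c0 T Δ) ^ 2 ≤ c0 T Δ := by nlinarith
  have h1 : |ee d a k * ee d a' k - ee d b k * ee d b' k| / qq α d a a' ≤ X / (c0 T Δ) ^ 2 := by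
    apply div_le_div₀ hX0 (hprod k) (by positivity) (hcc.trans hqa)
  have h2 : ee d b k * ee d b' k * |qq α d b b' - qq α d a a'| / (qq α d a a' * qq α d b b') ≤
      X / (c0 T Δ) ^ 2 := by
    apply div_le_div₀ hX0 _ (by positivity)
    · rw [sq]; exact mul_le_mul hqa hqb hc.le hqa0.le
    · rw [abs_sub_comm]
      calc _ ≤ 1 * X := mul_le_mul hpb1 hq (abs_nonneg _) zero_le_one
        _ = X := one_mul X
  have h3 : 2 * Δ / (c0 T Δ) ^ 2 * (|a - b| + |a' - b'|) = X / (c0 T Δ) ^ 2 + X / (c0 T Δ) ^ 2 := by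
    rw [hX]; ring
  rw [h3]
  exact add_le_add h1 h2

end

end Crest.Agent.R164.SDAlg
end

-- ▼ part R164/SDAlg2

/-!
Row 164: deterministic consequences of the approximate left-rotation relations, part 2: from the
relations to `D^k_a ≈ g_k(D_a)` and `Γ^k_a ≈ Γhat^k_a`.
-/

set_option autoImplicit false

namespace Crest.Agent.R164.SDAlg

open Finset

noncomputable section

/-! ### Abel summation -/

/-- nondecreasing weights. -/
theorem abel_mono {m e : ℕ → ℝ} {ε : ℝ} {a N : ℕ} (haN : a ≤ N)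
    (hm0 : 0 ≤ m a) (hm : ∀ b, a ≤ b → b < N → m b ≤ m (b + 1))
    (he : ∀ b, a ≤ b → b ≤ N → |e b| ≤ ε) :
    |∑ b ∈ Ico a N, m (b + 1) * (e (b + 1) - e b)| ≤ 2 * ε * m N := by
  have key : ∀ M, a ≤ M → M ≤ N →
      |(∑ b ∈ Ico a M, m (b + 1) * (e (b + 1) - e b)) - m M * e M| ≤ ε * m M ∧ 0 ≤ m M := by
    intro M haM
    induction M, haM using Nat.le_induction with
    | base =>
      intro hN
      rw [Finset.Ico_self, Finset.sum_empty, zero_sub, abs_neg, abs_mul, abs_of_nonneg hm0,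
        mul_comm]
      exact ⟨mul_le_mul_of_nonneg_right (he a le_rfl hN) hm0, hm0⟩
    | succ M haM ih =>
      intro hN
      obtain ⟨h1, h2⟩ := ih (by omega)
      have h3 := hm M haM (by omega)
      refine ⟨?_, h2.trans h3⟩
      rw [Finset.sum_Ico_succ_top haM]
      have e1 : (∑ b ∈ Ico a M, m (b + 1) * (e (b + 1) - e b)) + m (M + 1) * (e (M + 1) - e M) -
          m (M + 1) * e (M + 1) =
          ((∑ b ∈ Ico a M, m (b + 1) * (e (b + 1) - e b)) - m M * e M) -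
            (m (M + 1) - m M) * e M := by ring
      rw [e1]
      refine (abs_sub _ _).trans ?_
      rw [abs_mul, abs_of_nonneg (sub_nonneg.2 h3)]
      have h4 := mul_le_mul_of_nonneg_left (he M haM (by omega)) (sub_nonneg.2 h3)
      linarith
  obtain ⟨h1, h2⟩ := key N haN le_rfl
  have h3 := he N haN le_rfl
  have h4 : |m N * e N| ≤ m N * ε := by
    rw [abs_mul, abs_of_nonneg h2]
    exact mul_le_mul_of_nonneg_left h3 h2
  have h5 := abs_sub_abs_le_abs_sub (∑ b ∈ Ico a N, m (b + 1) * (e (b + 1) - e b)) (m N * e N)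
  linarith

/-- nonincreasing weights. -/
theorem abel_anti {u e : ℕ → ℝ} {ε : ℝ} {a N : ℕ} (haN : a ≤ N)
    (hu0 : ∀ b, a ≤ b → b ≤ N → 0 ≤ u b) (hu : ∀ b, a ≤ b → b < N → u (b + 1) ≤ u b)
    (he : ∀ b, a ≤ b → b ≤ N → |e b| ≤ ε) :
    |∑ b ∈ Ico a N, u b * (e b - e (b + 1))| ≤ 2 * ε * u a := by
  have hε : 0 ≤ ε := (abs_nonneg _).trans (he a le_rfl haN)
  have key : ∀ M, a ≤ M → M ≤ N →
      |(∑ b ∈ Ico a M, u b * (e b - e (b + 1))) + u M * e M| ≤ ε * (2 * u a - u M) := by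
    intro M haM
    induction M, haM using Nat.le_induction with
    | base =>
      intro hN
      rw [Finset.Ico_self, Finset.sum_empty, zero_add, abs_mul,
        abs_of_nonneg (hu0 a le_rfl hN), mul_comm]
      have := mul_le_mul_of_nonneg_right (he a le_rfl hN) (hu0 a le_rfl hN)
      linarith
    | succ M haM ih =>
      intro hN
      have h1 := ih (by omega)
      have h3 := hu M haM (by omega)
      rw [Finset.sum_Ico_succ_top haM]
      have e1 : (∑ b ∈ Ico a M, u b * (e b - e (b + 1))) + u M * (e M - e (M + 1)) +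
          u (M + 1) * e (M + 1) =
          ((∑ b ∈ Ico a M, u b * (e b - e (b + 1))) + u M * e M) +
            (u (M + 1) - u M) * e (M + 1) := by ring
      rw [e1]
      refine (abs_add_le _ _).trans ?_
      rw [abs_mul, abs_of_nonpos (sub_nonpos.2 h3)]
      have h4 := mul_le_mul_of_nonneg_left (he (M + 1) (by omega) (by omega))
        (neg_nonneg.2 (sub_nonpos.2 h3))
      linarith
  have h1 := key N haN le_rfl
  have h2 := hu0 N haN le_rfl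
  have h3 := he N haN le_rfl
  have h4 : |u N * e N| ≤ u N * ε := by
    rw [abs_mul, abs_of_nonneg h2]
    exact mul_le_mul_of_nonneg_left h3 h2
  have h5 := abs_sub_abs_le_abs_sub ((∑ b ∈ Ico a N, u b * (e b - e (b + 1))) + u N * e N)
    (u N * e N)
  rw [add_sub_cancel_right] at h5
  have h6 : |(∑ b ∈ Ico a N, u b * (e b - e (b + 1)))| ≤
      |(∑ b ∈ Ico a N, u b * (e b - e (b + 1))) + u N * e N| + |u N * e N| := by
    have := abs_sub ((∑ b ∈ Ico a N, u b * (e b - e (b + 1))) + u N * e N) (u N * e N)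
    rwa [add_sub_cancel_right] at this
  linarith

/-! ### The relations -/

variable {κ : Type} [Fintype κ]

/-- `D_a = ∑_{b > a} m_b (Γ_b - Γ_{b-1})`. -/
def Dl (m : ℕ → ℝ) (n : ℕ) (G : ℕ → ℝ) (a : ℕ) : ℝ :=
  ∑ b ∈ Ico a n, m (b + 1) * (G (b + 1) - G b)

/-- the bracket of the relation at level `a`. -/
def Br (m : ℕ → ℝ) (n : ℕ) (G G' : ℕ → ℝ) (a : ℕ) : ℝ :=
  G' a * Dl m n G a + G a * Dl m n G' a +
    ∑ b ∈ range a, m (b + 1) * (G (b + 1) * G' (b + 1) - G b * G' b)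

/-- the data and the approximate relations. -/
structure Rel (α θ : κ → ℝ) (n : ℕ) (m : ℕ → ℝ) (G : κ → ℕ → ℝ) (p : ℕ → ℝ) (ε : ℝ) : Prop where
  m0 : m 0 = 0
  mpos : ∀ b, 1 ≤ b → b ≤ n → 0 < m b
  mmono : ∀ b, b < n → m b ≤ m (b + 1)
  mn : m n = 1
  G0 : ∀ k, 0 ≤ G k 0
  Gmono : ∀ k b, b < n → G k b ≤ G k (b + 1)
  p0 : 0 ≤ p 0
  pmono : ∀ b, b < n → p b ≤ p (b + 1)
  pn : p n = 1
  papp : ∀ b, b ≤ n → |p b - ∑ k, α k * G k b| ≤ ε
  rel : ∀ k l a, a ≤ n → |G k a - G l a - (θ k - θ l) * Br m n (G k) (G l) a| ≤ ε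

section basic

variable {m : ℕ → ℝ} {n : ℕ} {G G' : ℕ → ℝ}

theorem Dl_top : Dl m n G n = 0 := by simp [Dl]

theorem Dl_succ {a : ℕ} (h : a < n) :
    Dl m n G a = m (a + 1) * (G (a + 1) - G a) + Dl m n G (a + 1) := by
  unfold Dl
  rw [Finset.sum_eq_sum_Ico_succ_bot h]

/-- telescoping identity. -/
theorem tele {c : ℝ} {a : ℕ} (h : a < n) :
    (Dl m n G a - Dl m n G' a - c * (Dl m n G a * Dl m n G' a)) -
      (Dl m n G (a + 1) - Dl m n G' (a + 1) - c * (Dl m n G (a + 1) * Dl m n G' (a + 1))) =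
    m (a + 1) * ((G (a + 1) - G' (a + 1) - c * Br m n G G' (a + 1)) -
      (G a - G' a - c * Br m n G G' a)) := by
  unfold Br
  rw [Dl_succ (G := G) h, Dl_succ (G := G') h, Finset.sum_range_succ]
  ring

/-- the main consequence: `D - D' - c D D'` is small. -/
theorem DD_rel {c ε : ℝ} (hm0 : 0 ≤ m 0) (hmm : ∀ b, b < n → m b ≤ m (b + 1)) (hmn : m n = 1)
    (hr : ∀ a, a ≤ n → |G a - G' a - c * Br m n G G' a| ≤ ε) {a : ℕ} (ha : a ≤ n) :
    |Dl m n G a - Dl m n G' a - c * (Dl m n G a * Dl m n G' a)| ≤ 2 * ε := by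
  set X : ℕ → ℝ := fun a => Dl m n G a - Dl m n G' a - c * (Dl m n G a * Dl m n G' a) with hX
  set E : ℕ → ℝ := fun a => G a - G' a - c * Br m n G G' a with hE
  have hsum : ∀ a, a ≤ n → X a = ∑ b ∈ Ico a n, m (b + 1) * (E (b + 1) - E b) := by
    intro a ha
    have : ∑ b ∈ Ico a n, m (b + 1) * (E (b + 1) - E b) = ∑ b ∈ Ico a n, (X b - X (b + 1)) := by
      apply Finset.sum_congr rfl
      intro b hb
      rw [Finset.mem_Ico] at hb
      exact (tele (c := c) hb.2).symm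
    rw [this]
    have h2 : ∑ b ∈ Ico a n, (X b - X (b + 1)) = X a - X n := by
      have := Finset.sum_Ico_sub (fun b => -X b) ha
      simp only [neg_sub_neg] at this
      linarith [this]
    rw [h2]
    have : X n = 0 := by simp [hX, Dl_top]
    rw [this, sub_zero]
  have hmpos : ∀ b, b ≤ n → 0 ≤ m b := by
    intro b
    induction b with
    | zero => intro _; exact hm0
    | succ b ih => intro hb; exact (ih (by omega)).trans (hmm b (by omega))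
  have := abel_mono (m := m) (e := E) (ε := ε) ha (hmpos a ha)
    (fun b _ hb => hmm b hb) (fun b _ hb => hr b hb)
  rw [← hsum a ha, hmn, mul_one] at this
  exact this

theorem mono_of_succ {f : ℕ → ℝ} (h : ∀ b, b < n → f b ≤ f (b + 1)) {a b : ℕ} (hab : a ≤ b)
    (hb : b ≤ n) : f a ≤ f b := by
  induction b, hab using Nat.le_induction with
  | base => exact le_rfl
  | succ b _ ih => exact (ih (by omega)).trans (h b (by omega))

theorem Dl_nonneg (hmp : ∀ b, b ≤ n → 0 ≤ m b) (hG : ∀ b, b < n → G b ≤ G (b + 1)) (a : ℕ) :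
    0 ≤ Dl m n G a := by
  unfold Dl
  apply Finset.sum_nonneg
  intro b hb
  rw [Finset.mem_Ico] at hb
  exact mul_nonneg (hmp _ (by omega)) (sub_nonneg.2 (hG b hb.2))

theorem Dl_le (hmp : ∀ b, b ≤ n → 0 ≤ m b) (hm1 : ∀ b, b ≤ n → m b ≤ 1) (hG0 : 0 ≤ G 0)
    (hG : ∀ b, b < n → G b ≤ G (b + 1)) {a : ℕ} (ha : a ≤ n) : Dl m n G a ≤ G n := by
  have h1 : Dl m n G a ≤ ∑ b ∈ Ico a n, (G (b + 1) - G b) := by
    unfold Dl
    apply Finset.sum_le_sum
    intro b hb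
    rw [Finset.mem_Ico] at hb
    have := mul_le_mul_of_nonneg_right (hm1 (b + 1) (by omega)) (sub_nonneg.2 (hG b hb.2))
    linarith
  rw [Finset.sum_Ico_sub G ha] at h1
  have h2 : 0 ≤ G a := hG0.trans (mono_of_succ hG (Nat.zero_le a) ha)
  linarith

theorem Dl_anti (hmp : ∀ b, b ≤ n → 0 ≤ m b) (hG : ∀ b, b < n → G b ≤ G (b + 1)) {a : ℕ}
    (ha : a < n) : Dl m n G (a + 1) ≤ Dl m n G a := by
  rw [Dl_succ ha]
  have := mul_nonneg (hmp (a + 1) (by omega)) (sub_nonneg.2 (hG a ha))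
  linarith

end basic

/-- `Γhat^k_a = p_0 w_k(τ_0,τ_0) + ∑_{b<a} (p_{b+1} - p_b) w_k(τ_{b+1}, τ_b)`,
`τ_a = τ(D_a(p))`. -/
def Ghat (α d : κ → ℝ) (n : ℕ) (m p : ℕ → ℝ) (k : κ) (a : ℕ) : ℝ :=
  p 0 * ww α d (tau α d (Dl m n p 0)) (tau α d (Dl m n p 0)) k +
    ∑ b ∈ range a, (p (b + 1) - p b) *
      ww α d (tau α d (Dl m n p (b + 1))) (tau α d (Dl m n p b)) k

namespace Rel

variable {α θ : κ → ℝ} {n : ℕ} {m : ℕ → ℝ} {G : κ → ℕ → ℝ} {p : ℕ → ℝ} {ε : ℝ}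

section facts

variable (h : Rel α θ n m G p ε)

include h

theorem m_nonneg {b : ℕ} (hb : b ≤ n) : 0 ≤ m b := by
  rcases Nat.eq_zero_or_pos b with h0 | h0
  · rw [h0, h.m0]
  · exact (h.mpos b h0 hb).le

theorem m_le_one {b : ℕ} (hb : b ≤ n) : m b ≤ 1 := by
  rw [← h.mn]
  exact mono_of_succ h.mmono hb le_rfl

theorem G_nonneg (k : κ) {b : ℕ} (hb : b ≤ n) : 0 ≤ G k b :=
  (h.G0 k).trans (mono_of_succ (h.Gmono k) (Nat.zero_le b) hb)

theorem p_nonneg {b : ℕ} (hb : b ≤ n) : 0 ≤ p b :=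
  h.p0.trans (mono_of_succ h.pmono (Nat.zero_le b) hb)

theorem p_le_one {b : ℕ} (hb : b ≤ n) : p b ≤ 1 := by
  rw [← h.pn]
  exact mono_of_succ h.pmono hb le_rfl

theorem G_le (hα : ∀ k, 0 < α k) (hε : ε ≤ 1) (k : κ) {b : ℕ} (hb : b ≤ n) :
    G k b ≤ 2 / α k := by
  have h1 : α k * G k b ≤ ∑ l, α l * G l b :=
    Finset.single_le_sum (f := fun l => α l * G l b)
      (fun l _ => mul_nonneg (hα l).le (h.G_nonneg l hb)) (Finset.mem_univ k)
  have h2 := (abs_le.1 (h.papp b hb)).1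
  have h3 := h.p_le_one hb
  rw [le_div_iff₀ (hα k)]
  linarith

theorem Dp_nonneg (a : ℕ) : 0 ≤ Dl m n p a :=
  Dl_nonneg (fun _ hb => h.m_nonneg hb) h.pmono a

theorem Dp_le_one {a : ℕ} (ha : a ≤ n) : Dl m n p a ≤ 1 := by
  have := Dl_le (fun _ hb => h.m_nonneg hb) (fun _ hb => h.m_le_one hb) h.p0 h.pmono ha
  rwa [h.pn] at this

theorem DG_nonneg (k : κ) (a : ℕ) : 0 ≤ Dl m n (G k) a :=
  Dl_nonneg (fun _ hb => h.m_nonneg hb) (h.Gmono k) a

theorem DG_le (hα : ∀ k, 0 < α k) (hε : ε ≤ 1) (k : κ) {a : ℕ} (ha : a ≤ n) :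
    Dl m n (G k) a ≤ 2 / α k :=
  (Dl_le (fun _ hb => h.m_nonneg hb) (fun _ hb => h.m_le_one hb) (h.G0 k) (h.Gmono k) ha).trans
    (h.G_le hα hε k le_rfl)

theorem eps_nonneg : 0 ≤ ε := (abs_nonneg _).trans (h.papp 0 (Nat.zero_le n))

/-- `D_a(p) ≈ ∑ α_k D^k_a`. -/
theorem Dp_approx {a : ℕ} (ha : a ≤ n) :
    |Dl m n p a - ∑ k, α k * Dl m n (G k) a| ≤ 2 * ε := by
  have e1 : Dl m n p a - ∑ k, α k * Dl m n (G k) a =
      ∑ b ∈ Ico a n, m (b + 1) * ((p (b + 1) - ∑ k, α k * G k (b + 1)) -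
        (p b - ∑ k, α k * G k b)) := by
    unfold Dl
    have e2 : ∑ k, α k * ∑ b ∈ Ico a n, m (b + 1) * (G k (b + 1) - G k b) =
        ∑ b ∈ Ico a n, m (b + 1) * ((∑ k, α k * G k (b + 1)) - ∑ k, α k * G k b) := by
      simp only [Finset.mul_sum, ← Finset.sum_sub_distrib]
      rw [Finset.sum_comm]
      apply Finset.sum_congr rfl; intro b _
      apply Finset.sum_congr rfl; intro k _
      ring
    rw [e2, ← Finset.sum_sub_distrib]
    apply Finset.sum_congr rfl; intro b _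
    ring
  rw [e1]
  have := abel_mono (m := m) (e := fun b => p b - ∑ k, α k * G k b) (ε := ε) ha
    (h.m_nonneg ha) (fun b _ hb => h.mmono b hb) (fun b _ hb => h.papp b hb)
  rwa [h.mn, mul_one] at this

end facts

/-- all hypotheses on the atoms. -/
structure Atoms (α θ : κ → ℝ) (k0 : κ) (A Δ : ℝ) : Prop where
  pos : ∀ k, 0 < α k
  sum : ∑ k, α k = 1
  top : ∀ k, θ k ≤ θ k0
  gap : ∀ k, θ k0 - θ k ≤ Δ
  bd : ∀ k, 2 / α k ≤ A
  hΔ : 0 ≤ Δ

section main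

variable {k0 : κ} {A Δ : ℝ} (hA : Atoms α θ k0 A Δ)

include hA

theorem Atoms.d_nonneg (k : κ) : 0 ≤ θ k0 - θ k := sub_nonneg.2 (hA.top k)

theorem Atoms.A_nonneg : 0 ≤ A := (div_nonneg zero_le_two (hA.pos k0).le).trans (hA.bd k0)

theorem Atoms.tau_le {x : ℝ} (hx : 0 ≤ x) (hx1 : x ≤ 1) :
    tau α (fun k => θ k0 - θ k) x ≤ A := by
  have h1 := SDAlg.tau_le hA.pos (d := fun k => θ k0 - θ k) hA.d_nonneg (k0 := k0)
    (by simp) hx
  have h2 := hA.bd k0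
  have h3 := hA.pos k0
  refine h1.trans (le_trans ?_ h2)
  exact div_le_div_of_nonneg_right (by linarith) h3.le

/-- step 1. -/
theorem step1 (h : Rel α θ n m G p ε) (hε : ε ≤ 1) {a : ℕ} (ha : a ≤ n) :
    |tau α (fun k => θ k0 - θ k) (Dl m n p a) - Dl m n (G k0) a| ≤ 4 * ε / c0 A Δ ∧
    ∀ l, |Dl m n (G l) a - FF (fun k => θ k0 - θ k) (tau α (fun k => θ k0 - θ k) (Dl m n p a)) l|
      ≤ 6 * ε / c0 A Δ := by
  set d : κ → ℝ := fun k => θ k0 - θ k with hd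
  have hd0 : ∀ k, 0 ≤ d k := hA.d_nonneg
  have hdΔ : ∀ k, d k ≤ Δ := hA.gap
  have hk0 : d k0 = 0 := by simp [hd]
  have hε0 := h.eps_nonneg
  have hc := c0_pos hA.A_nonneg hA.hΔ
  have hc1 := c0_le_one hA.A_nonneg hA.hΔ
  set τs := Dl m n (G k0) a with hτs
  have hτs0 : 0 ≤ τs := h.DG_nonneg k0 a
  have hτsA : τs ≤ A := (h.DG_le hA.pos hε k0 ha).trans (hA.bd k0)
  have h1 : ∀ l, |Dl m n (G l) a - FF d τs l| ≤ 2 * ε := by
    intro l
    have hr := DD_rel (m := m) (n := n) (G := G k0) (G' := G l) (c := θ k0 - θ l) (ε := ε)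
      (by rw [h.m0]) h.mmono h.mn (fun a ha => h.rel k0 l a ha) ha
    rw [← hτs] at hr
    have hm := ee_mul hd0 hτs0 l
    have he1 := ee_le_one hd0 hτs0 l
    have he0 := ee_pos hd0 hτs0 l
    have e1 : Dl m n (G l) a - FF d τs l =
        -(ee d τs l) * (τs - Dl m n (G l) a - (θ k0 - θ l) * (τs * Dl m n (G l) a)) := by
      unfold FF
      have : d l = θ k0 - θ l := rfl
      rw [this] at hm
      linear_combination (- Dl m n (G l) a) * hm
    rw [e1, abs_mul, abs_neg, abs_of_pos he0]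
    calc _ ≤ 1 * (2 * ε) := mul_le_mul he1 hr (abs_nonneg _) zero_le_one
      _ = 2 * ε := one_mul _
  have h2 : |Dl m n p a - ss α d τs| ≤ 4 * ε := by
    have h3 := h.Dp_approx ha
    have h4 : |(∑ k, α k * Dl m n (G k) a) - ss α d τs| ≤ 2 * ε := by
      unfold ss
      rw [← Finset.sum_sub_distrib]
      refine (Finset.abs_sum_le_sum_abs _ _).trans ?_
      calc ∑ k, |α k * Dl m n (G k) a - α k * FF d τs k| ≤ ∑ k, α k * (2 * ε) := by
            apply Finset.sum_le_sum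
            intro k _
            rw [← mul_sub, abs_mul, abs_of_pos (hA.pos k)]
            exact mul_le_mul_of_nonneg_left (h1 k) (hA.pos k).le
        _ = 2 * ε := by rw [← Finset.sum_mul, hA.sum, one_mul]
    have := abs_sub_le (Dl m n p a) (∑ k, α k * Dl m n (G k) a) (ss α d τs)
    linarith
  have hDp0 := h.Dp_nonneg a
  have hDp1 := h.Dp_le_one ha
  have hst := ss_tau hA.pos hd0 hk0 hDp0
  have h3 : |tau α d (Dl m n p a) - τs| ≤ 4 * ε / c0 A Δ := by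
    have h4 := abs_sub_le_of_ss hA.pos hA.sum hd0 hτs0 (tau_nonneg α d (Dl m n p a)) hτsA
      (hA.tau_le hDp0 hDp1) hdΔ hA.hΔ
    rw [hst] at h4
    rw [le_div_iff₀ hc]
    linarith
  refine ⟨h3, fun l => ?_⟩
  have h5 := FF_lip hd0 (tau_nonneg α d (Dl m n p a)) hτs0 l
  have h6 := abs_sub_le (Dl m n (G l) a) (FF d τs l) (FF d (tau α d (Dl m n p a)) l)
  have h7 := h1 l
  rw [abs_sub_comm τs] at h5
  have h8 : 2 * ε ≤ 2 * ε / c0 A Δ := by
    rw [le_div_iff₀ hc]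
    have := mul_le_mul_of_nonneg_left hc1 (by linarith : 0 ≤ 2 * ε)
    linarith
  have h9 : 6 * ε / c0 A Δ = 2 * ε / c0 A Δ + 4 * ε / c0 A Δ := by ring
  rw [h9]
  linarith

/-- step 2: low exponents. -/
theorem step2 (h : Rel α θ n m G p ε) (hε : ε ≤ 1) {a : ℕ} (ha : a ≤ n) {x0 : ℝ} (hx : m a ≤ x0) :
    ∀ l, |G l a - p a * ww α (fun k => θ k0 - θ k)
        (tau α (fun k => θ k0 - θ k) (Dl m n p a)) (tau α (fun k => θ k0 - θ k) (Dl m n p a)) l| ≤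
      2 / c0 A Δ * (2 * ε + Δ * A ^ 2 * x0 + 10 * A * Δ * ε / c0 A Δ) := by
  set d : κ → ℝ := fun k => θ k0 - θ k with hd
  have hd0 : ∀ k, 0 ≤ d k := hA.d_nonneg
  have hdΔ : ∀ k, d k ≤ Δ := hA.gap
  have hk0 : d k0 = 0 := by simp [hd]
  have hε0 := h.eps_nonneg
  have hc := c0_pos hA.A_nonneg hA.hΔ
  have hc1 := c0_le_one hA.A_nonneg hA.hΔ
  have hA0 := hA.A_nonneg
  have hΔ0 := hA.hΔ
  obtain ⟨s1, s2⟩ := step1 hA h hε ha
  set τ := tau α d (Dl m n p a) with hτ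
  have hτ0 : 0 ≤ τ := tau_nonneg α d _
  have hτA : τ ≤ A := hA.tau_le (h.Dp_nonneg a) (h.Dp_le_one ha)
  have hGA : ∀ k b, b ≤ n → G k b ≤ A := fun k b hb => (h.G_le hA.pos hε k hb).trans (hA.bd k)
  have hx0 : 0 ≤ x0 := (h.m_nonneg ha).trans hx
  set err := ε + Δ * A ^ 2 * x0 + 10 * A * Δ * ε / c0 A Δ with herr
  have herr0 : 0 ≤ err := by
    rw [herr]
    positivity
  have h1 : ∀ l, |G l a - G k0 a * (ee d τ l * ee d τ l)| ≤ err := by
    intro l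
    have hr := h.rel k0 l a ha
    have hdl : θ k0 - θ l = d l := rfl
    rw [hdl] at hr
    unfold Br at hr
    set Sm := ∑ b ∈ range a, m (b + 1) * (G k0 (b + 1) * G l (b + 1) - G k0 b * G l b) with hSm
    have hY : ∀ b, b < n → G k0 b * G l b ≤ G k0 (b + 1) * G l (b + 1) := by
      intro b hb
      exact mul_le_mul (h.Gmono k0 b hb) (h.Gmono l b hb) (h.G_nonneg l hb.le)
        (h.G_nonneg k0 hb)
    have hSm0 : 0 ≤ Sm := by
      apply Finset.sum_nonneg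
      intro b hb
      rw [Finset.mem_range] at hb
      exact mul_nonneg (h.m_nonneg (by omega)) (sub_nonneg.2 (hY b (by omega)))
    have hSm1 : Sm ≤ A ^ 2 * x0 := by
      have e1 : Sm ≤ ∑ b ∈ range a, x0 * (G k0 (b + 1) * G l (b + 1) - G k0 b * G l b) := by
        apply Finset.sum_le_sum
        intro b hb
        rw [Finset.mem_range] at hb
        apply mul_le_mul_of_nonneg_right _ (sub_nonneg.2 (hY b (by omega)))
        exact (mono_of_succ h.mmono (by omega : b + 1 ≤ a) ha).trans hx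
      rw [← Finset.mul_sum, Finset.sum_range_sub (fun b => G k0 b * G l b)] at e1
      have e2 : G k0 a * G l a ≤ A ^ 2 := by
        rw [sq]
        exact mul_le_mul (hGA k0 a ha) (hGA l a ha) (h.G_nonneg l ha) hA0
      have e3 : 0 ≤ G k0 0 * G l 0 := mul_nonneg (h.G0 k0) (h.G0 l)
      calc Sm ≤ x0 * (G k0 a * G l a - G k0 0 * G l 0) := e1
        _ ≤ x0 * A ^ 2 := mul_le_mul_of_nonneg_left (by linarith) hx0
        _ = _ := mul_comm _ _
    -- exact identity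
    have hm := ee_mul hd0 hτ0 l
    have he := ee_eq hd0 hτ0 l
    have he1 := ee_le_one hd0 hτ0 l
    have he0 := ee_pos hd0 hτ0 l
    set g := G l a with hg
    set g0 := G k0 a with hg0
    have hg1 : 0 ≤ g := h.G_nonneg l ha
    have hg2 : g ≤ A := hGA l a ha
    have hg3 : 0 ≤ g0 := h.G_nonneg k0 ha
    have hg4 : g0 ≤ A := hGA k0 a ha
    have hkey : g - g0 * (ee d τ l * ee d τ l) =
        -(ee d τ l) * (g0 - g - d l * (g * Dl m n (G k0) a + g0 * Dl m n (G l) a + Sm)) -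
        (ee d τ l) * (d l * Sm) -
        (ee d τ l) * (d l * g0 * (Dl m n (G l) a - FF d τ l)) +
        (ee d τ l) * (d l * g * (τ - Dl m n (G k0) a)) := by
      linear_combination (-g) * hm + (-(ee d τ l) * g0) * he
    rw [hkey]
    have b1 : |-(ee d τ l) * (g0 - g - d l * (g * Dl m n (G k0) a + g0 * Dl m n (G l) a + Sm))| ≤
        ε := by
      rw [abs_mul, abs_neg, abs_of_pos he0]
      calc _ ≤ 1 * ε := mul_le_mul he1 hr (abs_nonneg _) zero_le_one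
        _ = ε := one_mul _
    have b2 : |(ee d τ l) * (d l * Sm)| ≤ Δ * A ^ 2 * x0 := by
      rw [abs_mul, abs_of_pos he0, abs_of_nonneg (mul_nonneg (hd0 l) hSm0)]
      calc _ ≤ 1 * (Δ * (A ^ 2 * x0)) :=
            mul_le_mul he1 (mul_le_mul (hdΔ l) hSm1 hSm0 hΔ0) (mul_nonneg (hd0 l) hSm0) zero_le_one
        _ = _ := by ring
    have b3 : |(ee d τ l) * (d l * g0 * (Dl m n (G l) a - FF d τ l))| ≤
        Δ * A * (6 * ε / c0 A Δ) := by
      rw [abs_mul, abs_mul, abs_of_pos he0, abs_of_nonneg (mul_nonneg (hd0 l) hg3)]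
      calc _ ≤ 1 * (Δ * A * (6 * ε / c0 A Δ)) := by
            apply mul_le_mul he1 _ (mul_nonneg (mul_nonneg (hd0 l) hg3) (abs_nonneg _)) zero_le_one
            exact mul_le_mul (mul_le_mul (hdΔ l) hg4 hg3 hΔ0) (s2 l) (abs_nonneg _)
              (mul_nonneg hΔ0 hA0)
        _ = _ := one_mul _
    have b4 : |(ee d τ l) * (d l * g * (τ - Dl m n (G k0) a))| ≤
        Δ * A * (4 * ε / c0 A Δ) := by
      rw [abs_mul, abs_mul, abs_of_pos he0, abs_of_nonneg (mul_nonneg (hd0 l) hg1)]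
      calc _ ≤ 1 * (Δ * A * (4 * ε / c0 A Δ)) := by
            apply mul_le_mul he1 _ (mul_nonneg (mul_nonneg (hd0 l) hg1) (abs_nonneg _)) zero_le_one
            exact mul_le_mul (mul_le_mul (hdΔ l) hg2 hg1 hΔ0) s1 (abs_nonneg _)
              (mul_nonneg hΔ0 hA0)
        _ = _ := one_mul _
    refine (abs_add_le _ _).trans ?_
    have c1 := abs_sub (-(ee d τ l) *
      (g0 - g - d l * (g * Dl m n (G k0) a + g0 * Dl m n (G l) a + Sm)) -
        (ee d τ l) * (d l * Sm)) ((ee d τ l) * (d l * g0 * (Dl m n (G l) a - FF d τ l)))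
    have c2 := abs_sub (-(ee d τ l) *
      (g0 - g - d l * (g * Dl m n (G k0) a + g0 * Dl m n (G l) a + Sm)))
        ((ee d τ l) * (d l * Sm))
    have e10 : 10 * A * Δ * ε / c0 A Δ = Δ * A * (6 * ε / c0 A Δ) + Δ * A * (4 * ε / c0 A Δ) := by
      ring
    rw [herr, e10]
    linarith
  -- normalisation
  have hq : qq α d τ τ = ∑ k, α k * (ee d τ k * ee d τ k) := rfl
  have hq0 := qq_pos hA.pos ⟨k0⟩ hd0 hτ0 hτ0
  have hqc : c0 A Δ ≤ qq α d τ τ := qq_ge hA.pos hA.sum hd0 hτ0 hτ0 hτA hτA hdΔ hΔ0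
  have h2 : |G k0 a * qq α d τ τ - p a| ≤ ε + err := by
    have e1 : G k0 a * qq α d τ τ - p a = -(p a - ∑ k, α k * G k a) -
        ∑ k, α k * (G k a - G k0 a * (ee d τ k * ee d τ k)) := by
      rw [hq, Finset.mul_sum]
      simp only [mul_sub, Finset.sum_sub_distrib]
      have : ∑ x, G k0 a * (α x * (ee d τ x * ee d τ x)) =
          ∑ x, α x * (G k0 a * (ee d τ x * ee d τ x)) :=
        Finset.sum_congr rfl fun _ _ => by ring
      rw [this]
      ring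
    rw [e1]
    refine (abs_sub _ _).trans ?_
    rw [abs_neg]
    apply add_le_add (h.papp a ha)
    refine (Finset.abs_sum_le_sum_abs _ _).trans ?_
    calc _ ≤ ∑ k, α k * err := by
          apply Finset.sum_le_sum
          intro k _
          rw [abs_mul, abs_of_pos (hA.pos k)]
          exact mul_le_mul_of_nonneg_left (h1 k) (hA.pos k).le
      _ = err := by rw [← Finset.sum_mul, hA.sum, one_mul]
  intro l
  have he1 := ee_le_one hd0 hτ0 l
  have he0 := ee_pos hd0 hτ0 l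
  have hw0 : 0 ≤ ee d τ l * ee d τ l := (mul_pos he0 he0).le
  have hw1 : ee d τ l * ee d τ l ≤ 1 := by
    calc _ ≤ 1 * (1 : ℝ) := mul_le_mul he1 he1 he0.le zero_le_one
      _ = 1 := one_mul 1
  have e3 : G l a - p a * ww α d τ τ l = (G l a - G k0 a * (ee d τ l * ee d τ l)) +
      (ee d τ l * ee d τ l) / qq α d τ τ * (G k0 a * qq α d τ τ - p a) := by
    unfold ww
    field_simp
    ring
  rw [e3]
  refine (abs_add_le _ _).trans ?_
  rw [abs_mul, abs_of_nonneg (div_nonneg hw0 hq0.le)]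
  have h4 : ee d τ l * ee d τ l / qq α d τ τ ≤ 1 / c0 A Δ := by
    apply div_le_div₀ zero_le_one hw1 hc hqc
  have h5 : ee d τ l * ee d τ l / qq α d τ τ * |G k0 a * qq α d τ τ - p a| ≤
      1 / c0 A Δ * (ε + err) := mul_le_mul h4 h2 (abs_nonneg _) (by positivity)
  have h6 : err ≤ 1 / c0 A Δ * err := by
    have : 1 ≤ 1 / c0 A Δ := by rw [le_div_iff₀ hc]; linarith
    have := mul_le_mul_of_nonneg_right this herr0
    linarith
  have h7 := h1 l
  have h8 : 2 / c0 A Δ * (2 * ε + Δ * A ^ 2 * x0 + 10 * A * Δ * ε / c0 A Δ) =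
      1 / c0 A Δ * err + 1 / c0 A Δ * (ε + err) + 1 / c0 A Δ * ε := by
    rw [herr]; ring
  rw [h8]
  have h9 : 0 ≤ 1 / c0 A Δ * ε := by positivity
  linarith

end main

end Rel

end

end Crest.Agent.R164.SDAlg
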