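import Crest.Agent.R164.OvSys
import Crest.Agent.R164.OvAvg
import Crest.Agent.R164.SDAlg3
import Crest.Agent.R141.Sys
import Crest.Agent.R164.ConcSys2
import Crest.Agent.R164.RotRel2
import Crest.Agent.R164.Haar
import Crest.Agent.R164.GSpin
import Crest.Agent.R164.Sys164
import Crest.Agent.R164.OvConc
import Crest.Agent.R164.SDAlg2
import Crest.Agent.R164.UDef

-- ▼ part R164/LStr3
section

/-!
Row 164, LSTRUCT-1, part 3: exponents and levels for `nw` windows of `wc` cells.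
-/

set_option autoImplicit false

namespace Crest.Agent.R164.LStr

open Finset Crest.Agent.R141

noncomputable section

section lv

variable {D : Type*} (p : Par) {nw wc : ℕ}

/-- levels of the selected coins, leaf at `nw`. -/
def lv (nw : ℕ) (cell : ℕ → ℕ) (sel : ℕ → D → ℕ) (d : D) (b : ℕ) : ℕ :=
  if b < nw then p.ct (cell b) (sel (cell b) d) else p.L


theorem lv_top (cell : ℕ → ℕ) (sel : ℕ → D → ℕ) (d : D) : lv p nw cell sel d nw = p.L :=
  if_neg (lt_irrefl _)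

variable {p}








end lv

end

end Crest.Agent.R164.LStr
end

-- ▼ part R164/LStr4
section

/-!
Row 164, LSTRUCT-1, part 4: second moments of the fields under the law of the system.
-/

set_option autoImplicit false

namespace Crest.Agent.R164.LStr

open Finset MeasureTheory Crest.Agent.R141 Crest.Agent.R164 Crest.Agent.R164.SY
  Crest.Agent.R164.OvC
open Crest.Agent.R164.Rot (OK)

noncomputable section

variable {p : Par} {N n : ℕ} {A : Finset (Fin N → Bool)} (hA : A.Nonempty)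

/-- bound of the Hamiltonian `HS` by the squares of the fields. -/
theorem abs_HS_le {h0 : (Fin N → Bool) → ℝ} {a lam : Fin N → Fin p.nc → ℝ}
    {x : (Fin N → Bool) → Fin N → ℝ} {B0 Am Lm : ℝ} (h0B : ∀ σ, |h0 σ| ≤ B0)
    (ha : ∀ i g, |a i g| ≤ Am) (hl : ∀ i g, |lam i g| ≤ Lm) (hx : ∀ σ, ∑ i, x σ i ^ 2 ≤ N)
    (s : SS p n A) : |HS h0 a lam x s| ≤
      (B0 + 2 * Am ^ 2 * p.nc * N + 2 * Lm ^ 2 * p.nc * N) + 1 / 8 * CSys.Ts s := by
  have h1 := CSys.abs_small_le s.2.1 a ha (fun i => sv (s.1.1 i))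
  have h2 := CSys.abs_small_le s.2.2 lam hl (fun i => x s.1.1 i)
  have h3 : ∑ i, (sv (s.1.1 i)) ^ 2 = (N : ℝ) := by
    have : ∀ i, (sv (s.1.1 i)) ^ 2 = 1 := by
      intro i
      rw [← sq_abs, sv_abs, one_pow]
    simp [this]
  rw [h3] at h1
  have h4 : 2 * Lm ^ 2 * p.nc * ∑ i, (x s.1.1 i) ^ 2 ≤ 2 * Lm ^ 2 * p.nc * N :=
    mul_le_mul_of_nonneg_left (hx _) (by positivity)
  have h5 : |HS h0 a lam x s| ≤ |h0 s.1.1| + |∑ g, ∑ i, a i g * (zf s.2.1 g i * sv (s.1.1 i))| +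
      |∑ g, ∑ i, lam i g * (zf s.2.2 g i * x s.1.1 i)| := by
    unfold HS
    exact (abs_add_le _ _).trans (add_le_add (abs_add_le _ _) le_rfl)
  have h6 := h0B s.1.1
  unfold CSys.Ts
  linarith

/-- second moment of the total small field at the sites. -/
theorem small_sq_le (hnb : p.nb = 0) {H : SS p n A → ℝ} {B : ℝ}
    (hH : ∀ s, |H s| ≤ B + 1 / 8 * CSys.Ts s) {lam : Fin N → Fin p.nc → ℝ} {Lm : ℝ}
    (hl : ∀ i g, |lam i g| ≤ Lm) (d : DD p N) :
    eE (G.PP (base p n A hA) H d) (fun ω => ∑ i, (∑ g, lam i g * zf ω.1.2.2 g i) ^ 2) ≤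
      Lm ^ 2 * p.nc * (16 * B + 8 * (p.nc * p.T * p.τ) + 32 * (N * p.nc)) := by
  have hP := G.PP_isProb (base p n A hA) H d
  have h1 : ∀ ω : G.Om (base p n A hA), ∑ i, (∑ g, lam i g * zf ω.1.2.2 g i) ^ 2 ≤
      (Lm ^ 2 * p.nc) * CSys.Ts ω.1 := by
    intro ω
    have h2 : ∀ i, (∑ g, lam i g * zf ω.1.2.2 g i) ^ 2 ≤
        (Lm ^ 2 * p.nc) * ∑ g, (zf ω.1.2.2 g i) ^ 2 := by
      intro i
      have h3 := Finset.sum_mul_sq_le_sq_mul_sq (univ : Finset (Fin p.nc)) (fun g => lam i g)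
        (fun g => zf ω.1.2.2 g i)
      refine h3.trans ?_
      refine mul_le_mul_of_nonneg_right ?_ (Finset.sum_nonneg fun _ _ => sq_nonneg _)
      have h4 : ∀ g ∈ (univ : Finset (Fin p.nc)), (lam i g) ^ 2 ≤ Lm ^ 2 := by
        intro g _
        rw [← sq_abs (lam i g)]
        exact pow_le_pow_left₀ (abs_nonneg _) (hl i g) 2
      refine (Finset.sum_le_sum h4).trans (le_of_eq ?_)
      rw [Finset.sum_const, Finset.card_univ, Fintype.card_fin, nsmul_eq_mul]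
      ring
    refine (Finset.sum_le_sum fun i _ => h2 i).trans ?_
    rw [← Finset.mul_sum]
    refine mul_le_mul_of_nonneg_left ?_ (by positivity)
    have h5 : ∑ i, ∑ g, (zf ω.1.2.2 g i) ^ 2 = CSys.Tc ω.1.2.2 := by
      unfold CSys.Tc
      exact Finset.sum_comm
    rw [h5]
    unfold CSys.Ts
    linarith [CSys.Tc_nonneg ω.1.2.1]
  refine (eE_mono hP h1).trans ?_
  rw [eE_smul]
  exact mul_le_mul_of_nonneg_left (CSys.eE_Ts_le hA hnb H hH d) (by positivity)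

/-- bound of the quadratic part. -/
theorem abs_qd_le {eig : Fin N → ℝ} {Λ : ℝ} (hΛ : ∀ i, |eig i| ≤ Λ) {U : Fin N → Fin N → ℝ}
    (hU : U ∈ OK N) (σ : Fin N → Bool) : |Mag.qd eig (Matrix.of U) σ| ≤ Λ / 2 * N := by
  unfold Mag.qd
  rw [abs_mul, abs_of_pos (by norm_num : (0:ℝ) < 1 / 2)]
  have h1 : |∑ i, eig i * ((Matrix.of U).mulVec
      (Crest.ProbabilityR.InvariantGlass.spinVec σ) i) ^ 2| ≤ ∑ i, Λ * (xM U σ i) ^ 2 := by
    refine (Finset.abs_sum_le_sum_abs _ _).trans (Finset.sum_le_sum fun i _ => ?_)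
    rw [abs_mul, abs_of_nonneg (sq_nonneg ((Matrix.of U).mulVec
      (Crest.ProbabilityR.InvariantGlass.spinVec σ) i))]
    exact mul_le_mul_of_nonneg_right (hΛ i) (sq_nonneg _)
  rw [← Finset.mul_sum, sum_xM_sq hU σ] at h1
  linarith

end

end Crest.Agent.R164.LStr
end

-- ▼ part R164/RotRel3
section

/-!
Row 164: the left-rotation relation with a matrix-dependent extra log-weight.

`H_U = ½ ∑ λ_i (U s)_i² + h(U, ω)`, `h` differentiable along the row rotations (`IsField h dh`).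
`rel_spinG`: the relation `Rel`, extra error `(3/2) κ (K² + 1)` when the pair average of
`E (dh i j)²` is at most `κ²`. `isField_lin`, `lin_bound`: linear fields `∑ z_i (U s)_i`.
-/

set_option autoImplicit false

namespace Crest.Agent.R164.RotRel

open Finset MeasureTheory Crest.Agent.R141 Crest.Agent.R164.Resp Crest.Agent.R164.Rot

noncomputable section

variable {Ω : Type*} [Fintype Ω] {P : Ω → ℝ} {𝓕 : Filt Ω} {x : ℕ → ℝ} {N : ℕ}

/-- log-weight with a matrix-dependent extra term. -/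
def HG (lam : Fin N → ℝ) (s : Ω → Fin N → ℝ) (h : (Fin N → Fin N → ℝ) → Ω → ℝ)
    (U : Fin N → Fin N → ℝ) (w : Ω) : ℝ := quad lam (s w) U + h U w

/-- the tilted law. -/
def QG (P : Ω → ℝ) (𝓕 : Filt Ω) (x : ℕ → ℝ) (lam : Fin N → ℝ) (s : Ω → Fin N → ℝ)
    (h : (Fin N → Fin N → ℝ) → Ω → ℝ) (U : Fin N → Fin N → ℝ) : Ω → ℝ :=
  tl P 𝓕 x (HG lam s h U)

/-- derivative of the log-weight along the rotation of rows `i, j`. -/
def VG (lam : Fin N → ℝ) (s : Ω → Fin N → ℝ)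
    (dh : Fin N → Fin N → (Fin N → Fin N → ℝ) → Ω → ℝ) (i j : Fin N) (U : Fin N → Fin N → ℝ)
    (w : Ω) : ℝ := (lam j - lam i) * (xc (s w) i U * xc (s w) j U) + dh i j U w

omit [Fintype Ω] in
/-- `h` is continuous and differentiable along the row rotations, with derivatives `dh`. -/
structure IsField (h : (Fin N → Fin N → ℝ) → Ω → ℝ)
    (dh : Fin N → Fin N → (Fin N → Fin N → ℝ) → Ω → ℝ) : Prop where
  cont : ∀ w, Continuous fun U => h U w
  dcont : ∀ i j w, Continuous fun U => dh i j U w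
  der : ∀ i j, i ≠ j → ∀ U w φ, HasDerivAt (fun φ => h (rot i j φ U) w)
    (dh i j (rot i j φ U) w) φ

theorem QG_isProb (hP : IsProb P) (hx : IsExpo x) (lam : Fin N → ℝ) (s : Ω → Fin N → ℝ)
    (h : (Fin N → Fin N → ℝ) → Ω → ℝ) (U : Fin N → Fin N → ℝ) :
    IsProb (QG P 𝓕 x lam s h U) := tl_isProb hP hx.pos _

omit [Fintype Ω] in
theorem continuous_HG (lam : Fin N → ℝ) (s : Ω → Fin N → ℝ) {h : (Fin N → Fin N → ℝ) → Ω → ℝ}
    (hh : ∀ w, Continuous fun U => h U w) (a : Ω) : Continuous fun U => HG lam s h U a :=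
  (continuous_quad lam (s a)).add (hh a)

omit [Fintype Ω] in
theorem continuous_VG (lam : Fin N → ℝ) (s : Ω → Fin N → ℝ) {h : (Fin N → Fin N → ℝ) → Ω → ℝ}
    {dh : Fin N → Fin N → (Fin N → Fin N → ℝ) → Ω → ℝ} (hh : IsField h dh) (i j : Fin N) (a : Ω) :
    Continuous fun U => VG lam s dh i j U a :=
  (continuous_const.mul ((continuous_xc (s a) i).mul (continuous_xc (s a) j))).add
    (hh.dcont i j a)

omit [Fintype Ω] in
theorem hasDerivAt_HG {i j : Fin N} (hij : i ≠ j) (lam : Fin N → ℝ) (s : Ω → Fin N → ℝ)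
    {h : (Fin N → Fin N → ℝ) → Ω → ℝ} {dh : Fin N → Fin N → (Fin N → Fin N → ℝ) → Ω → ℝ}
    (hh : IsField h dh) (U : Fin N → Fin N → ℝ) (φ : ℝ) (a : Ω) :
    HasDerivAt (fun φ => HG lam s h (rot i j φ U) a) (VG lam s dh i j (rot i j φ U) a) φ := by
  unfold HG VG
  exact (hasDerivAt_quad hij lam (s a) U φ).add (hh.der i j hij U a φ)

/-! ### Linearity in the variation -/

theorem Dl_add (Q : Ω → ℝ) (F : ℕ → Setoid Ω) (l : ℕ) (g g' : Ω → ℝ) (w : Ω) :
    Dl Q F l (fun a => g a + g' a) w = Dl Q F l g w + Dl Q F l g' w := by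
  unfold Dl; rw [cE_add, cE_add]; ring

theorem Yf_add_right (Q : Ω → ℝ) (F : ℕ → Setoid Ω) (x : ℕ → ℝ) (L t : ℕ) (f : Ω → ℝ)
    (g g' : Ω → ℝ) (w : Ω) :
    Yf Q F x L t f (fun a => g a + g' a) w = Yf Q F x L t f g w + Yf Q F x L t f g' w := by
  unfold Yf
  rw [← Finset.sum_add_distrib]
  refine Finset.sum_congr rfl fun l _ => ?_
  have : (fun a => Dl Q F l f a * Dl Q F l (fun a => g a + g' a) a) =
      fun a => Dl Q F l f a * Dl Q F l g a + Dl Q F l f a * Dl Q F l g' a := by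
    funext a; rw [Dl_add]; ring
  rw [this, cE_add]; ring

theorem score_add (Q : Ω → ℝ) (𝓕 : Filt Ω) (x : ℕ → ℝ) (t : ℕ) (g g' : Ω → ℝ) (w : Ω) :
    score Q 𝓕 x t (fun a => g a + g' a) w = score Q 𝓕 x t g w + score Q 𝓕 x t g' w := by
  unfold score
  rw [← Finset.sum_add_distrib]
  refine Finset.sum_congr rfl fun l _ => ?_
  rw [Dl_add]; ring

/-- the part of the Schwinger–Dyson integrand which is linear in the variation `V`. -/
def Bil (Q : Ω → ℝ) (𝓕 : Filt Ω) (x : ℕ → ℝ) (f g : Ω → ℝ) (t : ℕ) (V : Ω → ℝ) : ℝ :=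
  eE Q (fun w => Yf Q 𝓕.F x 𝓕.L t f V w * cE Q (𝓕.F t) g w) +
    eE Q (fun w => Yf Q 𝓕.F x 𝓕.L t g V w * cE Q (𝓕.F t) f w) +
    eE Q (fun w => (cE Q (𝓕.F t) f w * cE Q (𝓕.F t) g w) * score Q 𝓕 x 0 V w)

theorem Bil_add (Q : Ω → ℝ) (𝓕 : Filt Ω) (x : ℕ → ℝ) (f g : Ω → ℝ) (t : ℕ) (V V' : Ω → ℝ) :
    Bil Q 𝓕 x f g t (fun a => V a + V' a) = Bil Q 𝓕 x f g t V + Bil Q 𝓕 x f g t V' := by
  unfold Bil
  simp only [Yf_add_right, score_add, add_mul, mul_add, eE_add]
  ring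

theorem Bil_smul (Q : Ω → ℝ) (𝓕 : Filt Ω) (x : ℕ → ℝ) (f g : Ω → ℝ) (t : ℕ) (c : ℝ) (V : Ω → ℝ) :
    Bil Q 𝓕 x f g t (fun a => c * V a) = c * Bil Q 𝓕 x f g t V := by
  unfold Bil
  simp only [Yf_smul_right, score_smul]
  have e1 : (fun w => c * Yf Q 𝓕.F x 𝓕.L t f V w * cE Q (𝓕.F t) g w) = fun w =>
      c * (Yf Q 𝓕.F x 𝓕.L t f V w * cE Q (𝓕.F t) g w) := by funext w; ring
  have e2 : (fun w => c * Yf Q 𝓕.F x 𝓕.L t g V w * cE Q (𝓕.F t) f w) = fun w =>
      c * (Yf Q 𝓕.F x 𝓕.L t g V w * cE Q (𝓕.F t) f w) := by funext w; ring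
  have e3 : (fun w => cE Q (𝓕.F t) f w * cE Q (𝓕.F t) g w * (c * score Q 𝓕 x 0 V w)) = fun w =>
      c * (cE Q (𝓕.F t) f w * cE Q (𝓕.F t) g w * score Q 𝓕 x 0 V w) := by funext w; ring
  rw [e1, e2, e3, eE_smul, eE_smul, eE_smul]
  ring

/-! ### The Schwinger–Dyson identity -/

/-- the integrand for the pair `(i,j)` -/
def GG (Q : Ω → ℝ) (𝓕 : Filt Ω) (x : ℕ → ℝ) (f g : Ω → ℝ) (t : ℕ) (V : Ω → ℝ) : ℝ :=
  eE Q (fun w => (cE Q (𝓕.F t) f w) ^ 2) - eE Q (fun w => (cE Q (𝓕.F t) g w) ^ 2) +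
    Bil Q 𝓕 x f g t V

theorem continuous_GG (hP : IsProb P) (hx : IsExpo x) {H f g V : (Fin N → Fin N → ℝ) → Ω → ℝ}
    (hH : ∀ a, Continuous fun U => H U a) (hf : ∀ a, Continuous fun U => f U a)
    (hg : ∀ a, Continuous fun U => g U a) (hV : ∀ a, Continuous fun U => V U a) (t : ℕ) :
    Continuous fun U => GG (tl P 𝓕 x (H U)) 𝓕 x (f U) (g U) t (V U) := by
  have cf : ∀ a, Continuous fun U => cE (tl P 𝓕 x (H U)) (𝓕.F t) (f U) a := fun a =>
    continuous_cE_tl hP hx.pos hH hf t a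
  have cg : ∀ a, Continuous fun U => cE (tl P 𝓕 x (H U)) (𝓕.F t) (g U) a := fun a =>
    continuous_cE_tl hP hx.pos hH hg t a
  unfold GG Bil
  refine (((continuous_eE_tl hP hx.pos hH (f := fun U w =>
    (cE (tl P 𝓕 x (H U)) (𝓕.F t) (f U) w) ^ 2) fun a => (cf a).pow 2)).sub
    (continuous_eE_tl hP hx.pos hH (f := fun U w =>
    (cE (tl P 𝓕 x (H U)) (𝓕.F t) (g U) w) ^ 2) fun a => (cg a).pow 2)).add
    (((continuous_eE_tl hP hx.pos hH (f := fun U w =>
      Yf (tl P 𝓕 x (H U)) 𝓕.F x 𝓕.L t (f U) (V U) w * cE (tl P 𝓕 x (H U)) (𝓕.F t) (g U) w)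
      fun a => (continuous_Yf_tl hP hx.pos hH hf hV t a).mul (cg a)).add
    (continuous_eE_tl hP hx.pos hH (f := fun U w =>
      Yf (tl P 𝓕 x (H U)) 𝓕.F x 𝓕.L t (g U) (V U) w * cE (tl P 𝓕 x (H U)) (𝓕.F t) (f U) w)
      fun a => (continuous_Yf_tl hP hx.pos hH hg hV t a).mul (cf a))).add
    (continuous_eE_tl hP hx.pos hH (f := fun U w => (cE (tl P 𝓕 x (H U)) (𝓕.F t) (f U) w *
      cE (tl P 𝓕 x (H U)) (𝓕.F t) (g U) w) * score (tl P 𝓕 x (H U)) 𝓕 x 0 (V U) w)
      fun a => ((cf a).mul (cg a)).mul (continuous_score hP hx.pos hH hV 0 a)))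

/-- **Schwinger–Dyson identity, matrix-dependent log-weight.** -/
theorem sd_GG (ν : Measure (Fin N → Fin N → ℝ)) [IsProbabilityMeasure ν]
    (hν : ∀ᵐ U ∂ν, U ∈ OK N) (hleft : LeftInv ν) {i j : Fin N} (hij : i ≠ j)
    (hP : IsProb P) (hx : IsExpo x) (lam : Fin N → ℝ) (s : Ω → Fin N → ℝ)
    {h : (Fin N → Fin N → ℝ) → Ω → ℝ} {dh : Fin N → Fin N → (Fin N → Fin N → ℝ) → Ω → ℝ}
    (hh : IsField h dh) (t : ℕ) :
    Integrable (fun U => GG (QG P 𝓕 x lam s h U) 𝓕 x (XU s U i) (XU s U j) t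
      (VG lam s dh i j U)) ν ∧
    ∫ U, GG (QG P 𝓕 x lam s h U) 𝓕 x (XU s U i) (XU s U j) t (VG lam s dh i j U) ∂ν = 0 := by
  have cx : ∀ p : Fin N, ∀ a : Ω, Continuous fun U => XU s U p a := fun p a => cont_XU s p a
  have cH : ∀ a : Ω, Continuous fun U => HG lam s h U a := continuous_HG lam s hh.cont
  have cV : ∀ a : Ω, Continuous fun U => VG lam s dh i j U a := continuous_VG lam s hh i j
  refine ⟨integrable_cont hν (continuous_GG hP hx cH (f := fun U => XU s U i)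
    (g := fun U => XU s U j) (fun a => cx i a) (fun a => cx j a) cV t), ?_⟩
  have cE1 : ∀ p : Fin N, ∀ a : Ω, Continuous fun U =>
      cE (tl P 𝓕 x (HG lam s h U)) (𝓕.F t) (XU s U p) a := fun p a =>
    continuous_cE_tl hP hx.pos cH (f := fun U => XU s U p) (fun a => cx p a) t a
  have cY : ∀ p : Fin N, ∀ a : Ω, Continuous fun U =>
      Yf (tl P 𝓕 x (HG lam s h U)) 𝓕.F x 𝓕.L t (XU s U p) (VG lam s dh i j U) a :=
    fun p a => continuous_Yf_tl hP hx.pos cH (f := fun U => XU s U p)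
      (V := fun U => VG lam s dh i j U) (fun a => cx p a) cV t a
  -- observable
  set F : (Fin N → Fin N → ℝ) → Ω → ℝ := fun U w =>
    cE (tl P 𝓕 x (HG lam s h U)) (𝓕.F t) (XU s U i) w *
      cE (tl P 𝓕 x (HG lam s h U)) (𝓕.F t) (XU s U j) w with hF
  set F' : (Fin N → Fin N → ℝ) → Ω → ℝ := fun U w =>
    (cE (tl P 𝓕 x (HG lam s h U)) (𝓕.F t) (XU s U i) w) ^ 2 -
      (cE (tl P 𝓕 x (HG lam s h U)) (𝓕.F t) (XU s U j) w) ^ 2 +
      (Yf (tl P 𝓕 x (HG lam s h U)) 𝓕.F x 𝓕.L t (XU s U i) (VG lam s dh i j U) w *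
        cE (tl P 𝓕 x (HG lam s h U)) (𝓕.F t) (XU s U j) w +
      Yf (tl P 𝓕 x (HG lam s h U)) 𝓕.F x 𝓕.L t (XU s U j) (VG lam s dh i j U) w *
        cE (tl P 𝓕 x (HG lam s h U)) (𝓕.F t) (XU s U i) w) with hF'
  have cF : ∀ a, Continuous fun U => F U a := fun a => (cE1 i a).mul (cE1 j a)
  have cF' : ∀ a, Continuous fun U => F' U a := fun a =>
    (((cE1 i a).pow 2).sub ((cE1 j a).pow 2)).add
      (((cY i a).mul (cE1 j a)).add ((cY j a).mul (cE1 i a)))
  obtain ⟨C1, h1, hC1⟩ := exists_bound (VG lam s dh i j) cV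
  obtain ⟨C2, h2, hC2⟩ := exists_bound F cF
  obtain ⟨C3, h3, hC3⟩ := exists_bound F' cF'
  have hd : ∀ u ∈ OK N, ∀ a φ, HasDerivAt (fun φ => F (rot i j φ u) a) (F' (rot i j φ u) a) φ := by
    intro u _ a φ
    have hcE : ∀ (p : Fin N), HasDerivAt (fun φ => cE (tl P 𝓕 x (HG lam s h (rot i j φ u)))
        (𝓕.F t) (XU s (rot i j φ u) p) a)
        (cE (tl P 𝓕 x (HG lam s h (rot i j φ u))) (𝓕.F t)
          (fun b => dxc i j (s b) p (rot i j φ u)) a +
          Yf (tl P 𝓕 x (HG lam s h (rot i j φ u))) 𝓕.F x 𝓕.L t (XU s (rot i j φ u) p)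
            (VG lam s dh i j (rot i j φ u)) a) φ := fun p =>
      hasDerivAt_cE_tl' hP hx.pos (U := fun φ => HG lam s h (rot i j φ u))
        (f := fun φ => XU s (rot i j φ u) p) (fun b => hasDerivAt_HG hij lam s hh u φ b)
        (fun b => hasDerivAt_xc hij (s b) p u φ) t a
    refine ((hcE i).mul (hcE j)).congr_deriv ?_
    have e1 : (fun b => dxc i j (s b) i (rot i j φ u)) =
        fun b => (-1) * XU s (rot i j φ u) j b := by
      funext b; unfold dxc XU; rw [if_pos rfl]; ring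
    have e2 : (fun b => dxc i j (s b) j (rot i j φ u)) = fun b => XU s (rot i j φ u) i b := by
      funext b; unfold dxc XU; rw [if_neg hij.symm, if_pos rfl]
    simp only [hF']
    rw [e1, e2, cE_smul]
    ring
  have main := sd_flow (𝓕 := 𝓕) ν (rot i j) (measurable_rot i j) (rot_zero i j)
    (hleft.rot hij) (OK N) hν
    (fun φ u hu => rot_mem_OK hij φ hu) hP hx (HG lam s h) (VG lam s dh i j) F F' cH cV cF cF'
    (C1 + C2 + C3) (fun u hu a => (hC1 u hu a).trans (by linarith))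
    (fun u hu a => (hC2 u hu a).trans (by linarith))
    (fun u hu a => (hC3 u hu a).trans (by linarith))
    (fun u _ a φ => hasDerivAt_HG hij lam s hh u φ a) hd
  rw [← main]
  refine integral_congr_ae (Filter.Eventually.of_forall fun U => ?_)
  simp only [hF, hF']
  unfold GG Bil QG
  rw [eE_add, eE_add, eE_sub]
  ring

theorem GG_split {Q : Ω → ℝ} (f g : Ω → ℝ) (t : ℕ) (c : ℝ) (V : Ω → ℝ) :
    GG Q 𝓕 x f g t (fun a => -c * (f a * g a) + V a) =
      (eE Q (fun w => (cE Q (𝓕.F t) f w) ^ 2) - eE Q (fun w => (cE Q (𝓕.F t) g w) ^ 2) -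
        c * Bil Q 𝓕 x f g t (fun a => f a * g a)) + Bil Q 𝓕 x f g t V := by
  unfold GG
  rw [Bil_add, Bil_smul]
  ring

/-! ### Bound of the extra term -/

theorem Psi_scale {Q : Ω → ℝ} {r : ℝ} (hr : r ≠ 0) (l : ℕ) (f g : Ω → ℝ) :
    Psi Q 𝓕 l (fun a => r * f a) (fun a => r⁻¹ * g a) = Psi Q 𝓕 l f g := by
  unfold Psi
  congr 1
  funext w
  rw [cE_smul, cE_smul]
  field_simp

/-- total variation of `l ↦ Ψ_l(f,g)`, weighted version. -/
theorem sum_abs_Psi' {Q : Ω → ℝ} (hQ : IsProb Q) {θ : ℝ} (hθ : 0 < θ) (f g : Ω → ℝ) {p q : ℕ}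
    (hpq : p ≤ q) :
    ∑ m ∈ Ioc p q, |Psi Q 𝓕 m f g - Psi Q 𝓕 (m - 1) f g| ≤
      θ / 2 * eE Q (fun w => f w ^ 2) + 1 / (2 * θ) * eE Q (fun w => g w ^ 2) := by
  have hr : Real.sqrt θ ≠ 0 := (Real.sqrt_pos.mpr hθ).ne'
  have h := sum_abs_Psi (𝓕 := 𝓕) hQ (fun a => Real.sqrt θ * f a) (fun a => (Real.sqrt θ)⁻¹ * g a)
    hpq
  simp only [Psi_scale hr] at h
  refine h.trans (le_of_eq ?_)
  have e1 : (fun w => (Real.sqrt θ * f w) ^ 2) = fun w => θ * f w ^ 2 := by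
    funext w; rw [mul_pow, Real.sq_sqrt hθ.le]
  have e2 : (fun w => ((Real.sqrt θ)⁻¹ * g w) ^ 2) = fun w => θ⁻¹ * g w ^ 2 := by
    funext w; rw [mul_pow, inv_pow, Real.sq_sqrt hθ.le]
  rw [e1, e2, eE_smul, eE_smul]
  field_simp

theorem wsum_le {u : ℕ → ℝ} (hx : IsExpo x) (p q : ℕ) :
    |∑ m ∈ Ioc p q, x m * (u m - u (m - 1))| ≤ ∑ m ∈ Ioc p q, |u m - u (m - 1)| := by
  refine (Finset.abs_sum_le_sum_abs _ _).trans (Finset.sum_le_sum fun m _ => ?_)
  rw [abs_mul, abs_of_pos (hx.pos m)]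
  exact (mul_le_mul_of_nonneg_right (hx.le_one m) (abs_nonneg _)).trans (le_of_eq (one_mul _))

/-- bound of `Bil` -/
theorem Bil_le {Q : Ω → ℝ} (hQ : IsProb Q) (hx : IsExpo x) {θ : ℝ} (hθ : 0 < θ) (f g : Ω → ℝ)
    {t : ℕ} (htL : t ≤ 𝓕.L) (V : Ω → ℝ) :
    |Bil Q 𝓕 x f g t V| ≤
      θ / 2 * (eE Q (fun w => (f w * cE Q (𝓕.F t) g w) ^ 2) +
        eE Q (fun w => (g w * cE Q (𝓕.F t) f w) ^ 2) +
        eE Q (fun w => (cE Q (𝓕.F t) f w * cE Q (𝓕.F t) g w) ^ 2)) +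
      3 * (1 / (2 * θ) * eE Q (fun w => V w ^ 2)) := by
  unfold Bil
  have h1 : |eE Q (fun w => Yf Q 𝓕.F x 𝓕.L t f V w * cE Q (𝓕.F t) g w)| ≤
      θ / 2 * eE Q (fun w => (f w * cE Q (𝓕.F t) g w) ^ 2) +
        1 / (2 * θ) * eE Q (fun w => V w ^ 2) := by
    rw [eE_Yf_mul hQ f V (cE_meas Q (𝓕.F t) g)]
    refine (wsum_le hx (u := fun m => Psi Q 𝓕 m (fun a => f a * cE Q (𝓕.F t) g a) V) t 𝓕.L).trans ?_
    exact sum_abs_Psi' hQ hθ (fun a => f a * cE Q (𝓕.F t) g a) V htL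
  have h2 : |eE Q (fun w => Yf Q 𝓕.F x 𝓕.L t g V w * cE Q (𝓕.F t) f w)| ≤
      θ / 2 * eE Q (fun w => (g w * cE Q (𝓕.F t) f w) ^ 2) +
        1 / (2 * θ) * eE Q (fun w => V w ^ 2) := by
    rw [eE_Yf_mul hQ g V (cE_meas Q (𝓕.F t) f)]
    refine (wsum_le hx (u := fun m => Psi Q 𝓕 m (fun a => g a * cE Q (𝓕.F t) f a) V) t 𝓕.L).trans ?_
    exact sum_abs_Psi' hQ hθ (fun a => g a * cE Q (𝓕.F t) f a) V htL
  have h3 : |eE Q (fun w => (cE Q (𝓕.F t) f w * cE Q (𝓕.F t) g w) * score Q 𝓕 x 0 V w)| ≤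
      θ / 2 * eE Q (fun w => (cE Q (𝓕.F t) f w * cE Q (𝓕.F t) g w) ^ 2) +
        1 / (2 * θ) * eE Q (fun w => V w ^ 2) := by
    have hm : RMeas (𝓕.F t) (fun w => cE Q (𝓕.F t) f w * cE Q (𝓕.F t) g w) := by
      intro b c hbc
      simp only [cE_meas Q (𝓕.F t) f b c hbc, cE_meas Q (𝓕.F t) g b c hbc]
    rw [eE_mul_score hQ V hm htL]
    refine (wsum_le hx (u := fun m => Psi Q 𝓕 m
      (fun w => cE Q (𝓕.F t) f w * cE Q (𝓕.F t) g w) V) 0 t).trans ?_
    exact sum_abs_Psi' hQ hθ (fun w => cE Q (𝓕.F t) f w * cE Q (𝓕.F t) g w) V (Nat.zero_le _)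
  rw [abs_le] at h1 h2 h3 ⊢
  constructor <;> linarith [h1.1, h1.2, h2.1, h2.2, h3.1, h3.2]

section blocks

variable {ι : Type*} {Q : Ω → ℝ} (X : ι → Ω → ℝ) {Bk Bl : Finset ι} {K : ℝ}

theorem av_sq_le (hQ : IsProb Q) (hK : 0 ≤ K) (u v : ι → Ω → ℝ)
    (hu : ∀ w, (Bk.card : ℝ)⁻¹ * ∑ i ∈ Bk, u i w ^ 2 ≤ K)
    (hv : ∀ w, (Bl.card : ℝ)⁻¹ * ∑ j ∈ Bl, v j w ^ 2 ≤ K) :
    av Bk Bl (fun i j => eE Q (fun w => (u i w * v j w) ^ 2)) ≤ K ^ 2 := by
  rw [av_eE]
  refine eE_le_of_le hQ fun w => ?_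
  have : (fun i j => (u i w * v j w) ^ 2) = fun i j => u i w ^ 2 * v j w ^ 2 := by
    funext i j; ring
  rw [this, av_mul, sq]
  exact mul_le_mul (hu w) (hv w)
    (mul_nonneg (by positivity) (Finset.sum_nonneg fun _ _ => sq_nonneg _)) hK

/-- bound of the averaged extra term -/
theorem av_Bil_le (hQ : IsProb Q) (hx : IsExpo x) {θ : ℝ} (hθ : 0 < θ) (hBk : 0 < Bk.card)
    (hBl : 0 < Bl.card) (hK : 0 ≤ K)
    (hk : ∀ w, ∑ i ∈ Bk, X i w ^ 2 ≤ K * Bk.card) (hl : ∀ w, ∑ i ∈ Bl, X i w ^ 2 ≤ K * Bl.card)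
    {t : ℕ} (htL : t ≤ 𝓕.L) (V : ι → ι → Ω → ℝ) :
    |av Bk Bl (fun i j => Bil Q 𝓕 x (X i) (X j) t (V i j))| ≤
      3 / 2 * (θ * K ^ 2 + 1 / θ * av Bk Bl (fun i j => eE Q (fun w => V i j w ^ 2))) := by
  have s1 : av Bk Bl (fun i j => eE Q (fun w => (X i w * cE Q (𝓕.F t) (X j) w) ^ 2)) ≤ K ^ 2 :=
    av_sq_le hQ hK X (fun j => cE Q (𝓕.F t) (X j)) (fun w => bm_le X hBk hk w)
      (fun w => rr_le X hQ hBl hl _ w)
  have s2 : av Bk Bl (fun i j => eE Q (fun w => (X j w * cE Q (𝓕.F t) (X i) w) ^ 2)) ≤ K ^ 2 := by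
    have := av_sq_le hQ hK (fun j => cE Q (𝓕.F t) (X j)) X (fun w => rr_le X hQ hBk hk _ w)
      (fun w => bm_le X hBl hl w)
    have e : (fun i j => eE Q (fun w => (X j w * cE Q (𝓕.F t) (X i) w) ^ 2)) = fun i j =>
        eE Q (fun w => (cE Q (𝓕.F t) (X i) w * X j w) ^ 2) := by
      funext i j; congr 1; funext w; ring
    rw [e]; exact this
  have s3 : av Bk Bl (fun i j => eE Q (fun w =>
      (cE Q (𝓕.F t) (X i) w * cE Q (𝓕.F t) (X j) w) ^ 2)) ≤ K ^ 2 :=
    av_sq_le hQ hK (fun j => cE Q (𝓕.F t) (X j)) (fun j => cE Q (𝓕.F t) (X j))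
      (fun w => rr_le X hQ hBk hk _ w) (fun w => rr_le X hQ hBl hl _ w)
  refine (av_abs_le _ _ _).trans ?_
  refine (av_mono _ _ fun i _ j _ => Bil_le hQ hx hθ (X i) (X j) htL (V i j)).trans ?_
  rw [av_add, av_smul, av_add, av_add, av_smul, av_smul]
  have hθ2 : 0 ≤ θ / 2 := by positivity
  have h1 := mul_le_mul_of_nonneg_left (add_le_add (add_le_add s1 s2) s3) hθ2
  refine (add_le_add h1 le_rfl).trans (le_of_eq ?_)
  field_simp
  ring

end blocks

/-! ### The integrated relation -/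

section contG

variable (hP : IsProb P) (hx : IsExpo x) (lam : Fin N → ℝ) (s : Ω → Fin N → ℝ)
  {h : (Fin N → Fin N → ℝ) → Ω → ℝ} (hh : ∀ w, Continuous fun U => h U w)
include hP hx hh

theorem contG_cE {f : (Fin N → Fin N → ℝ) → Ω → ℝ} (hf : ∀ a, Continuous fun U => f U a) (k : ℕ)
    (w : Ω) : Continuous fun U => cE (QG P 𝓕 x lam s h U) (𝓕.F k) (f U) w :=
  continuous_cE_tl hP hx.pos (continuous_HG lam s hh) hf k w

theorem contG_eE {f : (Fin N → Fin N → ℝ) → Ω → ℝ} (hf : ∀ a, Continuous fun U => f U a) :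
    Continuous fun U => eE (QG P 𝓕 x lam s h U) (f U) :=
  continuous_eE_tl hP hx.pos (continuous_HG lam s hh) hf

theorem contG_covR {f g : (Fin N → Fin N → ℝ) → Ω → ℝ} (hf : ∀ a, Continuous fun U => f U a)
    (hg : ∀ a, Continuous fun U => g U a) (k : ℕ) (w : Ω) :
    Continuous fun U => covR (QG P 𝓕 x lam s h U) (𝓕.F k) (f U) (g U) w := by
  unfold covR
  exact (contG_cE hP hx lam s hh (fun a => (hf a).mul (hg a)) k w).sub
    ((contG_cE hP hx lam s hh hf k w).mul (contG_cE hP hx lam s hh hg k w))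

theorem contG_eC (B : Finset (Fin N)) (τ : ℕ → ℕ) (n : ℕ) (g : ℕ → ℝ) :
    Continuous fun U => eC (XU s U) (QG P 𝓕 x lam s h U) 𝓕 B τ n g := by
  unfold eC rr
  exact continuous_finsetSum _ fun b _ => contG_eE hP hx lam s hh
    (f := fun U w => |(B.card : ℝ)⁻¹ * ∑ i ∈ B,
      (cE (QG P 𝓕 x lam s h U) (𝓕.F (τ b)) (XU s U i) w) ^ 2 - g b|) fun a =>
      ((continuous_const.mul (continuous_finsetSum _ fun i _ =>
        (contG_cE hP hx lam s hh (fun a => cont_XU s i a) (τ b) a).pow 2)).sub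
        continuous_const).abs

theorem contG_eP (Bk Bl : Finset (Fin N)) (τ : ℕ → ℕ) (n a : ℕ) :
    Continuous fun U => eP (XU s U) (QG P 𝓕 x lam s h U) 𝓕 Bk Bl τ n a := by
  unfold eP av
  refine continuous_finsetSum _ fun b _ => Continuous.add ?_ ?_
  · refine continuous_const.mul (continuous_finsetSum _ fun i _ => continuous_finsetSum _
      fun j _ => ?_)
    exact contG_eE hP hx lam s hh (f := fun U w => covR (QG P 𝓕 x lam s h U) (𝓕.F (τ b))
      (cE (QG P 𝓕 x lam s h U) (𝓕.F (τ a)) (XU s U i))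
      (cE (QG P 𝓕 x lam s h U) (𝓕.F (τ a)) (XU s U j)) w ^ 2) fun w =>
        (contG_covR hP hx lam s hh (fun c => contG_cE hP hx lam s hh (fun d => cont_XU s i d) _ c)
          (fun c => contG_cE hP hx lam s hh (fun d => cont_XU s j d) _ c) _ w).pow 2
  · refine continuous_const.mul (continuous_finsetSum _ fun i _ => continuous_finsetSum _
      fun j _ => ?_)
    exact contG_eE hP hx lam s hh (f := fun U w => covR (QG P 𝓕 x lam s h U) (𝓕.F (τ b))
      (XU s U i) (XU s U j) w ^ 2) fun w =>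
        (contG_covR hP hx lam s hh (fun d => cont_XU s i d) (fun d => cont_XU s j d) _ w).pow 2

theorem contG_avcS (k m : ℕ) :
    Continuous fun U => avcS (QG P 𝓕 x lam s h U) 𝓕 (fun i w => s w i) k m := by
  unfold avcS
  refine continuous_const.mul (continuous_finsetSum _ fun i _ => continuous_finsetSum _
    fun j _ => ?_)
  exact contG_eE hP hx lam s hh (f := fun U w => (covR (QG P 𝓕 x lam s h U) (𝓕.F k)
    (cE (QG P 𝓕 x lam s h U) (𝓕.F m) (fun w => s w i))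
    (cE (QG P 𝓕 x lam s h U) (𝓕.F m) (fun w => s w j)) w) ^ 2) fun w =>
      (contG_covR hP hx lam s hh
        (fun c => contG_cE hP hx lam s hh (f := fun _ w => s w i) (fun _ => continuous_const) _ c)
        (fun c => contG_cE hP hx lam s hh (f := fun _ w => s w j) (fun _ => continuous_const) _ c)
        _ w).pow 2

theorem contG_dh (Bk Bl : Finset (Fin N)) {V : Fin N → Fin N → (Fin N → Fin N → ℝ) → Ω → ℝ}
    (hV : ∀ i j a, Continuous fun U => V i j U a) :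
    Continuous fun U => av Bk Bl (fun i j => eE (QG P 𝓕 x lam s h U) (fun w => V i j U w ^ 2)) := by
  unfold av
  refine continuous_const.mul (continuous_finsetSum _ fun i _ => continuous_finsetSum _
    fun j _ => ?_)
  exact contG_eE hP hx lam s hh (f := fun U w => V i j U w ^ 2) fun a => (hV i j a).pow 2

end contG

theorem GG_av {Q : Ω → ℝ} (X : Fin N → Ω → ℝ) {Bk Bl : Finset (Fin N)} (hBk : 0 < Bk.card)
    (hBl : 0 < Bl.card) (c : ℝ) (t : ℕ) (V : Fin N → Fin N → Ω → ℝ) :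
    av Bk Bl (fun i j => GG Q 𝓕 x (X i) (X j) t (fun a => -c * (X i a * X j a) + V i j a)) =
      Tpw X Q 𝓕 x Bk Bl c t + av Bk Bl (fun i j => Bil Q 𝓕 x (X i) (X j) t (V i j)) := by
  rw [Tpw_eq X hBk hBl c t, ← av_add]
  congr 1
  funext i j
  rw [GG_split]
  rfl

/-- **the averaged Schwinger–Dyson identity, matrix-dependent log-weight** -/
theorem integral_TpwG (ν : Measure (Fin N → Fin N → ℝ)) [IsProbabilityMeasure ν]
    (hν : ∀ᵐ U ∂ν, U ∈ OK N) (hleft : LeftInv ν) {Bk Bl : Finset (Fin N)}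
    (hd : Disjoint Bk Bl) (hBk : 0 < Bk.card) (hBl : 0 < Bl.card)
    (hP : IsProb P) (hx : IsExpo x) (lam : Fin N → ℝ) {lk ll : ℝ} (hlk : ∀ i ∈ Bk, lam i = lk)
    (hll : ∀ i ∈ Bl, lam i = ll) (s : Ω → Fin N → ℝ)
    {h : (Fin N → Fin N → ℝ) → Ω → ℝ} {dh : Fin N → Fin N → (Fin N → Fin N → ℝ) → Ω → ℝ}
    (hh : IsField h dh) (t : ℕ) :
    Integrable (fun U => Tpw (XU s U) (QG P 𝓕 x lam s h U) 𝓕 x Bk Bl (lk - ll) t +
      av Bk Bl (fun i j => Bil (QG P 𝓕 x lam s h U) 𝓕 x (XU s U i) (XU s U j) t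
        (dh i j U))) ν ∧
    ∫ U, (Tpw (XU s U) (QG P 𝓕 x lam s h U) 𝓕 x Bk Bl (lk - ll) t +
      av Bk Bl (fun i j => Bil (QG P 𝓕 x lam s h U) 𝓕 x (XU s U i) (XU s U j) t
        (dh i j U))) ∂ν = 0 := by
  simp only [← GG_av _ hBk hBl]
  have key : ∀ i ∈ Bk, ∀ j ∈ Bl,
      Integrable (fun U => GG (QG P 𝓕 x lam s h U) 𝓕 x (XU s U i) (XU s U j) t
        (fun a => -(lk - ll) * (XU s U i a * XU s U j a) + dh i j U a)) ν ∧
      ∫ U, GG (QG P 𝓕 x lam s h U) 𝓕 x (XU s U i) (XU s U j) t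
        (fun a => -(lk - ll) * (XU s U i a * XU s U j a) + dh i j U a) ∂ν = 0 := by
    intro i hi j hj
    have hij : i ≠ j := fun h => (Finset.disjoint_left.mp hd) hi (h ▸ hj)
    have h1 := sd_GG (𝓕 := 𝓕) ν hν hleft hij hP hx lam s hh t
    have e : ∀ U, VG lam s dh i j U = fun a => -(lk - ll) * (XU s U i a * XU s U j a) +
        dh i j U a := by
      intro U
      funext a
      unfold VG XU
      rw [hlk i hi, hll j hj]
      ring
    simp only [e] at h1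
    exact h1
  unfold av
  have hint : ∀ i ∈ Bk, Integrable (fun U => ∑ j ∈ Bl,
      GG (QG P 𝓕 x lam s h U) 𝓕 x (XU s U i) (XU s U j) t
        (fun a => -(lk - ll) * (XU s U i a * XU s U j a) + dh i j U a)) ν := fun i hi =>
    integrable_finsetSum _ fun j hj => (key i hi j hj).1
  refine ⟨(integrable_finsetSum _ hint).const_mul _, ?_⟩
  rw [integral_const_mul, integral_finsetSum _ hint]
  have : ∀ i ∈ Bk, ∫ U, ∑ j ∈ Bl, GG (QG P 𝓕 x lam s h U) 𝓕 x (XU s U i) (XU s U j) t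
        (fun a => -(lk - ll) * (XU s U i a * XU s U j a) + dh i j U a) ∂ν = 0 := by
    intro i hi
    rw [integral_finsetSum _ fun j hj => (key i hi j hj).1]
    exact Finset.sum_eq_zero fun j hj => (key i hi j hj).2
  rw [Finset.sum_eq_zero this, mul_zero]

section main

variable {D : Type*} [Fintype D]

/-- **Integrated left-rotation relation, matrix-dependent log-weight.** -/
theorem rel_leG (ν : Measure (Fin N → Fin N → ℝ)) [IsProbabilityMeasure ν]
    (hν : ∀ᵐ U ∂ν, U ∈ OK N) (hleft : LeftInv ν) {Bk Bl : Finset (Fin N)}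
    (hd : Disjoint Bk Bl) (hBk : 0 < Bk.card) (hBl : 0 < Bl.card)
    (hP : IsProb P) (hx : IsExpo x) (lam : Fin N → ℝ) {lk ll : ℝ} (hlk : ∀ i ∈ Bk, lam i = lk)
    (hll : ∀ i ∈ Bl, lam i = ll) (s : Ω → Fin N → ℝ) (hs : ∀ w, ∑ i, s w i ^ 2 ≤ N)
    {K : ℝ} (hKk : (N : ℝ) ≤ K * Bk.card) (hKl : (N : ℝ) ≤ K * Bl.card)
    {q : D → ℝ} (hq0 : ∀ d, 0 ≤ q d) (hq1 : ∑ d, q d = 1)
    {h : D → (Fin N → Fin N → ℝ) → Ω → ℝ}
    {dh : D → Fin N → Fin N → (Fin N → Fin N → ℝ) → Ω → ℝ} (hh : ∀ d, IsField (h d) (dh d))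
    {τ : D → ℕ → ℕ} (hτ : ∀ d, Monotone (τ d)) {n : ℕ} (hτL : ∀ d, τ d n = 𝓕.L)
    {mm : ℕ → ℝ} (hm0 : ∀ b, 0 ≤ mm b) (hm1 : ∀ b, mm b ≤ 1) {δ : ℝ} (hδ : 0 ≤ δ)
    (hlow : ∀ d m, m ≤ τ d 0 → x m ≤ δ)
    (hw : ∀ d b, b < n → ∀ m, τ d b < m → m ≤ τ d (b + 1) → |x m - mm (b + 1)| ≤ δ)
    {gk gl : ℕ → ℝ} (hgk : ∀ b, 0 ≤ gk b ∧ gk b ≤ K) (hgl : ∀ b, 0 ≤ gl b ∧ gl b ≤ K)
    {θ θ' : ℝ} (hθ : 0 < θ) (hθ' : 0 < θ') {a : ℕ} (ha : a ≤ n) {e π η : ℝ}
    (hek : dav q ν (fun d U => eC (XU s U) (QG P 𝓕 x lam s (h d) U) 𝓕 Bk (τ d) n gk) ≤ e)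
    (hel : dav q ν (fun d U => eC (XU s U) (QG P 𝓕 x lam s (h d) U) 𝓕 Bl (τ d) n gl) ≤ e)
    (hπ : dav q ν (fun d U => eP (XU s U) (QG P 𝓕 x lam s (h d) U) 𝓕 Bk Bl (τ d) n a) ≤ π)
    (hη : dav q ν (fun d U => av Bk Bl (fun i j =>
      eE (QG P 𝓕 x lam s (h d) U) (fun w => dh d i j U w ^ 2))) ≤ η) :
    |Rel mm n (lk - ll) gk gl a| ≤
      2 * e + |lk - ll| * (4 * δ * K ^ 2 + 6 * n * (θ * K ^ 2 + 1 / θ * π + 2 * K * e)) +
        3 / 2 * (θ' * K ^ 2 + 1 / θ' * η) := by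
  have hK0 : 0 ≤ K := (hgk 0).1.trans (hgk 0).2
  set c := lk - ll with hc
  set ek := fun (d : D) U => eC (XU s U) (QG P 𝓕 x lam s (h d) U) 𝓕 Bk (τ d) n gk
  set el := fun (d : D) U => eC (XU s U) (QG P 𝓕 x lam s (h d) U) 𝓕 Bl (τ d) n gl
  set pe := fun (d : D) U => eP (XU s U) (QG P 𝓕 x lam s (h d) U) 𝓕 Bk Bl (τ d) n a
  set de := fun (d : D) U => av Bk Bl (fun i j =>
      eE (QG P 𝓕 x lam s (h d) U) (fun w => dh d i j U w ^ 2))
  have ik : ∀ d, Integrable (ek d) ν := fun d =>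
    integrable_cont hν (contG_eC hP hx lam s (hh d).cont Bk (τ d) n gk)
  have il : ∀ d, Integrable (el d) ν := fun d =>
    integrable_cont hν (contG_eC hP hx lam s (hh d).cont Bl (τ d) n gl)
  have ip : ∀ d, Integrable (pe d) ν := fun d =>
    integrable_cont hν (contG_eP hP hx lam s (hh d).cont Bk Bl (τ d) n a)
  have ide : ∀ d, Integrable (de d) ν := fun d =>
    integrable_cont hν (contG_dh hP hx lam s (hh d).cont Bk Bl (hh d).dcont)
  set c1 := 1 + |c| * (6 * n * K) with hc1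
  set c2 := |c| * (6 * n * (1 / θ)) with hc2
  set c4 := 3 / 2 * (1 / θ') with hc4
  set c3 := |c| * (4 * δ * K ^ 2 + 6 * n * (θ * K ^ 2)) + 3 / 2 * (θ' * K ^ 2) with hc3
  have i1 : ∀ d, Integrable (fun U => c1 * (ek d U + el d U)) ν := fun d =>
    ((ik d).add (il d)).const_mul c1
  have i2 : ∀ d, Integrable (fun U => c2 * pe d U) ν := fun d => (ip d).const_mul c2
  have i4 : ∀ d, Integrable (fun U => c4 * de d U) ν := fun d => (ide d).const_mul c4
  have i12 : ∀ d, Integrable (fun U => c1 * (ek d U + el d U) + c2 * pe d U) ν := fun d =>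
    (i1 d).add (i2 d)
  have i124 : ∀ d, Integrable (fun U => c1 * (ek d U + el d U) + c2 * pe d U + c4 * de d U) ν :=
    fun d => (i12 d).add (i4 d)
  have ierr : ∀ d, Integrable (fun U => c1 * (ek d U + el d U) + c2 * pe d U + c4 * de d U + c3)
      ν := fun d => (i124 d).add (integrable_const c3)
  -- single `d`
  have h1 : ∀ d, |Rel mm n c gk gl a| ≤
      ∫ U, (c1 * (ek d U + el d U) + c2 * pe d U + c4 * de d U + c3) ∂ν := by
    intro d
    obtain ⟨iT, hT⟩ := integral_TpwG (𝓕 := 𝓕) ν hν hleft hd hBk hBl hP hx lam hlk hll s (hh d)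
      (τ d a)
    have e0 : Rel mm n c gk gl a = ∫ U, (Rel mm n c gk gl a -
        (Tpw (XU s U) (QG P 𝓕 x lam s (h d) U) 𝓕 x Bk Bl (lk - ll) (τ d a) +
          av Bk Bl (fun i j => Bil (QG P 𝓕 x lam s (h d) U) 𝓕 x (XU s U i) (XU s U j) (τ d a)
        (dh d i j U)))) ∂ν := by
      rw [integral_sub (integrable_const _) iT, hT]
      simp
    rw [e0]
    refine (abs_integral_le_integral_abs).trans ?_
    refine integral_mono_ae ((integrable_const _).sub iT).abs (ierr d) ?_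
    filter_upwards [hν] with U hU
    have hQ := QG_isProb (𝓕 := 𝓕) hP hx lam s (h d) U
    have hpw := pointwise (𝓕 := 𝓕) (XU s U) hQ hx hθ hBk hBl
      (block_XU_sq hU s hs hKk) (block_XU_sq hU s hs hKl) (hτ d) (hτL d) hm0 hm1 hδ (hlow d)
      (hw d) hgk hgl (lk - ll) ha
    have hex := av_Bil_le (𝓕 := 𝓕) (XU s U) hQ hx hθ' hBk hBl hK0
      (block_XU_sq hU s hs hKk) (block_XU_sq hU s hs hKl) (t := τ d a)
      ((hτL d) ▸ (hτ d) ha) (fun i j => dh d i j U)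
    have e1 : |Rel mm n c gk gl a -
        (Tpw (XU s U) (QG P 𝓕 x lam s (h d) U) 𝓕 x Bk Bl (lk - ll) (τ d a) +
          av Bk Bl (fun i j => Bil (QG P 𝓕 x lam s (h d) U) 𝓕 x (XU s U i) (XU s U j) (τ d a)
        (dh d i j U)))| ≤
        |Tpw (XU s U) (QG P 𝓕 x lam s (h d) U) 𝓕 x Bk Bl (lk - ll) (τ d a) -
          Rel mm n c gk gl a| +
        |av Bk Bl (fun i j => Bil (QG P 𝓕 x lam s (h d) U) 𝓕 x (XU s U i) (XU s U j) (τ d a)
        (dh d i j U))| := by
      rw [← abs_neg]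
      refine le_trans (le_of_eq ?_) (abs_add_le _ _)
      congr 1
      ring
    refine e1.trans ((add_le_add hpw hex).trans (le_of_eq ?_))
    simp only [hc1, hc2, hc3, hc4, ek, el, pe, de]
    ring
  have h2 : |Rel mm n c gk gl a| ≤
      dav q ν (fun d U => c1 * (ek d U + el d U) + c2 * pe d U + c4 * de d U + c3) := by
    have e0 : |Rel mm n c gk gl a| = ∑ d, q d * |Rel mm n c gk gl a| := by
      rw [← Finset.sum_mul, hq1, one_mul]
    rw [e0]
    exact Finset.sum_le_sum fun d _ => mul_le_mul_of_nonneg_left (h1 d) (hq0 d)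
  have h3 : dav q ν (fun d U => c1 * (ek d U + el d U) + c2 * pe d U + c4 * de d U + c3) =
      c1 * (dav q ν ek + dav q ν el) + c2 * dav q ν pe + c4 * dav q ν de + c3 := by
    rw [dav_add (f := fun d U => c1 * (ek d U + el d U) + c2 * pe d U + c4 * de d U)
      (g := fun _ _ => c3) i124 (fun d => integrable_const c3), dav_const hq1,
      dav_add (f := fun d U => c1 * (ek d U + el d U) + c2 * pe d U)
        (g := fun d U => c4 * de d U) i12 i4,
      dav_add (f := fun d U => c1 * (ek d U + el d U)) (g := fun d U => c2 * pe d U) i1 i2,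
      dav_smul, dav_smul, dav_smul, dav_add ik il]
  rw [h3] at h2
  refine h2.trans ?_
  have hc1' : 0 ≤ c1 := by positivity
  have hc2' : 0 ≤ c2 := by positivity
  have hc4' : 0 ≤ c4 := by positivity
  have h4 : c1 * (dav q ν ek + dav q ν el) ≤ c1 * (e + e) :=
    mul_le_mul_of_nonneg_left (add_le_add hek hel) hc1'
  have h5 : c2 * dav q ν pe ≤ c2 * π := mul_le_mul_of_nonneg_left hπ hc2'
  have h7 : c4 * dav q ν de ≤ c4 * η := mul_le_mul_of_nonneg_left hη hc4'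
  have h6 : c1 * (e + e) + c2 * π + c4 * η + c3 =
      2 * e + |c| * (4 * δ * K ^ 2 + 6 * n * (θ * K ^ 2 + 1 / θ * π + 2 * K * e)) +
        3 / 2 * (θ' * K ^ 2 + 1 / θ' * η) := by
    simp only [hc1, hc2, hc3, hc4]; ring
  linarith

/-- **Integrated left-rotation relation, spin purity, matrix-dependent log-weight.** -/
theorem rel_spinG (ν : Measure (Fin N → Fin N → ℝ)) [IsProbabilityMeasure ν]
    (hν : ∀ᵐ U ∂ν, U ∈ OK N) (hleft : LeftInv ν) (hN : 0 < N) {Bk Bl : Finset (Fin N)}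
    (hd : Disjoint Bk Bl)
    (hP : IsProb P) (hx : IsExpo x) (lam : Fin N → ℝ) {lk ll : ℝ} (hlk : ∀ i ∈ Bk, lam i = lk)
    (hll : ∀ i ∈ Bl, lam i = ll) (s : Ω → Fin N → ℝ) (hs : ∀ w, ∑ i, s w i ^ 2 ≤ N)
    {K : ℝ} (hKk : (N : ℝ) ≤ K * Bk.card) (hKl : (N : ℝ) ≤ K * Bl.card)
    {q : D → ℝ} (hq0 : ∀ d, 0 ≤ q d) (hq1 : ∑ d, q d = 1)
    {h : D → (Fin N → Fin N → ℝ) → Ω → ℝ}
    {dh : D → Fin N → Fin N → (Fin N → Fin N → ℝ) → Ω → ℝ} (hh : ∀ d, IsField (h d) (dh d))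
    {τ : D → ℕ → ℕ} (hτ : ∀ d, Monotone (τ d)) {n : ℕ} (hτL : ∀ d, τ d n = 𝓕.L)
    {mm : ℕ → ℝ} (hm0 : ∀ b, 0 ≤ mm b) (hm1 : ∀ b, mm b ≤ 1) {δ : ℝ} (hδ : 0 ≤ δ)
    (hlow : ∀ d m, m ≤ τ d 0 → x m ≤ δ)
    (hw : ∀ d b, b < n → ∀ m, τ d b < m → m ≤ τ d (b + 1) → |x m - mm (b + 1)| ≤ δ)
    {gk gl : ℕ → ℝ} (hgk : ∀ b, 0 ≤ gk b ∧ gk b ≤ K) (hgl : ∀ b, 0 ≤ gl b ∧ gl b ≤ K)
    {ρ κ : ℝ} (hρ : 0 < ρ) (hκ : 0 < κ) {a : ℕ} (ha : a ≤ n) {e : ℝ}
    (hek : dav q ν (fun d U => eC (XU s U) (QG P 𝓕 x lam s (h d) U) 𝓕 Bk (τ d) n gk) ≤ e)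
    (hel : dav q ν (fun d U => eC (XU s U) (QG P 𝓕 x lam s (h d) U) 𝓕 Bl (τ d) n gl) ≤ e)
    (hpa : ∀ b ≤ n, dav q ν (fun d U => avcS (QG P 𝓕 x lam s (h d) U) 𝓕 (fun i w => s w i)
      (τ d b) (τ d a)) ≤ ρ ^ 2)
    (hpn : ∀ b ≤ n, dav q ν (fun d U => avcS (QG P 𝓕 x lam s (h d) U) 𝓕 (fun i w => s w i)
      (τ d b) (τ d n)) ≤ ρ ^ 2)
    (hη : dav q ν (fun d U => av Bk Bl (fun i j =>
      eE (QG P 𝓕 x lam s (h d) U) (fun w => dh d i j U w ^ 2))) ≤ κ ^ 2) :
    |Rel mm n (lk - ll) gk gl a| ≤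
      2 * e + |lk - ll| * (4 * δ * K ^ 2 + 6 * n * ((2 * n + 3) * K ^ 2 * ρ + 2 * K * e)) +
        3 / 2 * κ * (K ^ 2 + 1) := by
  have hK0 : 0 ≤ K := (hgk 0).1.trans (hgk 0).2
  have hN' : (0:ℝ) < N := by exact_mod_cast hN
  have hBk : 0 < Bk.card := by
    rcases Nat.eq_zero_or_pos Bk.card with h | h
    · rw [h] at hKk; simp at hKk; linarith
    · exact h
  have hBl : 0 < Bl.card := by
    rcases Nat.eq_zero_or_pos Bl.card with h | h
    · rw [h] at hKl; simp at hKl; linarith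
    · exact h
  have icS : ∀ k m d, Integrable (fun U => avcS (QG P 𝓕 x lam s (h d) U) 𝓕 (fun i w => s w i)
      k m) ν := fun k m d => integrable_cont hν (contG_avcS hP hx lam s (hh d).cont k m)
  have hπ : dav q ν (fun d U => eP (XU s U) (QG P 𝓕 x lam s (h d) U) 𝓕 Bk Bl (τ d) n a) ≤
      K ^ 2 * ((n + 1) * (2 * ρ ^ 2)) := by
    have h1 : dav q ν (fun d U => eP (XU s U) (QG P 𝓕 x lam s (h d) U) 𝓕 Bk Bl (τ d) n a) ≤
        dav q ν (fun d U => K ^ 2 * ∑ b ∈ range (n + 1),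
          (avcS (QG P 𝓕 x lam s (h d) U) 𝓕 (fun i w => s w i) (τ d b) (τ d a) +
          avcS (QG P 𝓕 x lam s (h d) U) 𝓕 (fun i w => s w i) (τ d b) (τ d n))) := by
      refine dav_mono hq0
        (fun d => integrable_cont hν (contG_eP hP hx lam s (hh d).cont Bk Bl (τ d) n a))
        (fun d => (integrable_finsetSum _ fun b _ => (icS _ _ d).add (icS _ _ d)).const_mul _)
        fun d => ?_
      filter_upwards [hν] with U hU
      exact eP_le (QG_isProb hP hx lam s (h d) U) hU s hN hK0 hKk hKl (hτL d) a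
    refine h1.trans ?_
    rw [dav_smul]
    refine mul_le_mul_of_nonneg_left ?_ (by positivity)
    have h2 : dav q ν (fun d U => ∑ b ∈ range (n + 1),
          (avcS (QG P 𝓕 x lam s (h d) U) 𝓕 (fun i w => s w i) (τ d b) (τ d a) +
          avcS (QG P 𝓕 x lam s (h d) U) 𝓕 (fun i w => s w i) (τ d b) (τ d n))) =
        ∑ b ∈ range (n + 1), (dav q ν (fun d U => avcS (QG P 𝓕 x lam s (h d) U) 𝓕
            (fun i w => s w i) (τ d b) (τ d a)) +
          dav q ν (fun d U => avcS (QG P 𝓕 x lam s (h d) U) 𝓕 (fun i w => s w i)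
            (τ d b) (τ d n))) := by
      unfold dav
      simp only [← Finset.sum_add_distrib]
      rw [Finset.sum_comm]
      refine Finset.sum_congr rfl fun d _ => ?_
      have iS2 : ∀ b ∈ range (n + 1), Integrable (fun U =>
          avcS (QG P 𝓕 x lam s (h d) U) 𝓕 (fun i w => s w i) (τ d b) (τ d a) +
          avcS (QG P 𝓕 x lam s (h d) U) 𝓕 (fun i w => s w i) (τ d b) (τ d n)) ν :=
        fun b _ => (icS _ _ d).add (icS _ _ d)
      rw [integral_finsetSum _ iS2, Finset.mul_sum]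
      refine Finset.sum_congr rfl fun b _ => ?_
      rw [integral_add (icS _ _ d) (icS _ _ d), mul_add]
    rw [h2]
    have h3 : ∀ b ∈ range (n + 1), dav q ν (fun d U => avcS (QG P 𝓕 x lam s (h d) U) 𝓕
            (fun i w => s w i) (τ d b) (τ d a)) +
          dav q ν (fun d U => avcS (QG P 𝓕 x lam s (h d) U) 𝓕 (fun i w => s w i)
            (τ d b) (τ d n)) ≤ 2 * ρ ^ 2 := by
      intro b hb
      have hb' : b ≤ n := by have := Finset.mem_range.mp hb; omega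
      linarith [hpa b hb', hpn b hb']
    refine (Finset.sum_le_sum h3).trans (le_of_eq ?_)
    rw [Finset.sum_const, Finset.card_range, nsmul_eq_mul]
    push_cast
    ring
  refine (rel_leG ν hν hleft hd hBk hBl hP hx lam hlk hll s hs hKk hKl hq0 hq1 hh hτ hτL hm0 hm1
    hδ hlow hw hgk hgl hρ hκ ha hek hel hπ hη).trans (le_of_eq ?_)
  have h1 : 1 / ρ * (K ^ 2 * ((n + 1) * (2 * ρ ^ 2))) = K ^ 2 * ((n + 1) * 2) * ρ := by
    field_simp
  have h2 : 1 / κ * κ ^ 2 = κ := by field_simp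
  rw [h1, h2]
  ring

end main

/-! ### Linear fields -/

/-- log-weight `H0 + ∑_i z_i (U s)_i`. -/
def hlin (s : Ω → Fin N → ℝ) (H0 : Ω → ℝ) (z : Fin N → Ω → ℝ) (U : Fin N → Fin N → ℝ) (w : Ω) :
    ℝ := H0 w + ∑ i, z i w * xc (s w) i U

/-- its derivative along the rotation of rows `i, j`. -/
def dlin (s : Ω → Fin N → ℝ) (z : Fin N → Ω → ℝ) (i j : Fin N) (U : Fin N → Fin N → ℝ) (w : Ω) :
    ℝ := z j w * xc (s w) i U - z i w * xc (s w) j U

omit [Fintype Ω] in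
theorem isField_lin (s : Ω → Fin N → ℝ) (H0 : Ω → ℝ) (z : Fin N → Ω → ℝ) :
    IsField (hlin s H0 z) (dlin s z) where
  cont w := by
    unfold hlin
    exact continuous_const.add (continuous_finsetSum _ fun i _ =>
      continuous_const.mul (continuous_xc (s w) i))
  dcont i j w := by
    unfold dlin
    exact (continuous_const.mul (continuous_xc (s w) i)).sub
      (continuous_const.mul (continuous_xc (s w) j))
  der i j hij U w φ := by
    unfold hlin
    have h1 : HasDerivAt (fun φ => ∑ k, z k w * xc (s w) k (rot i j φ U))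
        (∑ k, z k w * dxc i j (s w) k (rot i j φ U)) φ :=
      HasDerivAt.fun_sum fun k _ => (hasDerivAt_xc hij (s w) k U φ).const_mul _
    refine (h1.const_add (H0 w)).congr_deriv ?_
    have h2 : ∑ k, z k w * dxc i j (s w) k (rot i j φ U) =
        ∑ k ∈ ({i, j} : Finset (Fin N)), z k w * dxc i j (s w) k (rot i j φ U) := by
      symm
      refine Finset.sum_subset (Finset.subset_univ _) fun k _ hk => ?_
      simp only [Finset.mem_insert, Finset.mem_singleton, not_or] at hk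
      unfold dxc
      rw [if_neg hk.1, if_neg hk.2]; ring
    rw [h2, Finset.sum_pair hij]
    unfold dxc dlin
    rw [if_pos rfl, if_neg hij.symm, if_pos rfl]
    ring

/-- bound of the derivatives of a linear field -/
theorem lin_bound {Q : Ω → ℝ} (hQ : IsProb Q) {U : Fin N → Fin N → ℝ} (hU : U ∈ OK N)
    (s : Ω → Fin N → ℝ) (hs : ∀ w, ∑ i, s w i ^ 2 ≤ N) {Bk Bl : Finset (Fin N)} {K : ℝ}
    (hN : 0 < N) (hK0 : 0 ≤ K) (hBk : (N : ℝ) ≤ K * Bk.card) (hBl : (N : ℝ) ≤ K * Bl.card)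
    (z : Fin N → Ω → ℝ) :
    av Bk Bl (fun i j => eE Q (fun w => dlin s z i j U w ^ 2)) ≤
      4 * K ^ 2 * ((N : ℝ)⁻¹ * eE Q (fun w => ∑ i, z i w ^ 2)) := by
  have hN' : (0:ℝ) < N := by exact_mod_cast hN
  have hk0 : (0:ℝ) < Bk.card := by
    rcases Nat.eq_zero_or_pos Bk.card with h | h
    · rw [h] at hBk; simp at hBk; linarith
    · exact_mod_cast h
  have hl0 : (0:ℝ) < Bl.card := by
    rcases Nat.eq_zero_or_pos Bl.card with h | h
    · rw [h] at hBl; simp at hBl; linarith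
    · exact_mod_cast h
  have hk0' : 0 < Bk.card := by exact_mod_cast hk0
  have hl0' : 0 < Bl.card := by exact_mod_cast hl0
  rw [av_eE, ← eE_smul, ← eE_smul]
  refine eE_mono hQ fun w => ?_
  have h1 : av Bk Bl (fun i j => dlin s z i j U w ^ 2) ≤
      av Bk Bl (fun i j => 2 * (xc (s w) i U ^ 2 * z j w ^ 2) +
        2 * (z i w ^ 2 * xc (s w) j U ^ 2)) := by
    refine av_mono _ _ fun i _ j _ => ?_
    unfold dlin
    nlinarith [sq_nonneg (z j w * xc (s w) i U + z i w * xc (s w) j U)]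
  refine h1.trans ?_
  rw [av_add, av_smul, av_smul, av_mul, av_mul]
  have hz0 : 0 ≤ ∑ i, z i w ^ 2 := Finset.sum_nonneg fun _ _ => sq_nonneg _
  have hinv : ∀ {B : Finset (Fin N)}, (0:ℝ) < B.card → (N : ℝ) ≤ K * B.card →
      (B.card : ℝ)⁻¹ ≤ K * (N : ℝ)⁻¹ := by
    intro B hB hKB
    rw [← div_eq_mul_inv, le_div_iff₀ hN', inv_mul_le_iff₀ hB]
    linarith
  have hz : ∀ {B : Finset (Fin N)}, (0:ℝ) < B.card → (N : ℝ) ≤ K * B.card →
      (B.card : ℝ)⁻¹ * ∑ i ∈ B, z i w ^ 2 ≤ K * ((N : ℝ)⁻¹ * ∑ i, z i w ^ 2) := by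
    intro B hB hKB
    have h2 : ∑ i ∈ B, z i w ^ 2 ≤ ∑ i, z i w ^ 2 :=
      Finset.sum_le_sum_of_subset_of_nonneg (Finset.subset_univ _) fun _ _ _ => sq_nonneg _
    calc (B.card : ℝ)⁻¹ * ∑ i ∈ B, z i w ^ 2 ≤ (K * (N : ℝ)⁻¹) * ∑ i, z i w ^ 2 :=
          mul_le_mul (hinv hB hKB) h2 (Finset.sum_nonneg fun _ _ => sq_nonneg _) (by positivity)
      _ = _ := by ring
  have hxk : (Bk.card : ℝ)⁻¹ * ∑ i ∈ Bk, xc (s w) i U ^ 2 ≤ K :=
    bm_le (XU s U) hk0' (block_XU_sq hU s hs hBk) w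
  have hxl : (Bl.card : ℝ)⁻¹ * ∑ i ∈ Bl, xc (s w) i U ^ 2 ≤ K :=
    bm_le (XU s U) hl0' (block_XU_sq hU s hs hBl) w
  have a1 : ((Bk.card : ℝ)⁻¹ * ∑ i ∈ Bk, xc (s w) i U ^ 2) *
      ((Bl.card : ℝ)⁻¹ * ∑ j ∈ Bl, z j w ^ 2) ≤ K * (K * ((N : ℝ)⁻¹ * ∑ i, z i w ^ 2)) :=
    mul_le_mul hxk (hz hl0 hBl)
      (mul_nonneg (by positivity) (Finset.sum_nonneg fun _ _ => sq_nonneg _)) hK0
  have a2 : ((Bk.card : ℝ)⁻¹ * ∑ i ∈ Bk, z i w ^ 2) *
      ((Bl.card : ℝ)⁻¹ * ∑ j ∈ Bl, xc (s w) j U ^ 2) ≤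
        (K * ((N : ℝ)⁻¹ * ∑ i, z i w ^ 2)) * K :=
    mul_le_mul (hz hk0 hBk) hxl
      (mul_nonneg (by positivity) (Finset.sum_nonneg fun _ _ => sq_nonneg _)) (by positivity)
  nlinarith [a1, a2]

end

end Crest.Agent.R164.RotRel
end

-- ▼ part R164/RotSys
section

/-!
Row 164: the left-rotation relations for the finite system of `Sys164.lean`.

`rotSys_rel`: concentration of the block overlaps at the levels `lv d b`, purity of the spins and
smallness of the small fields imply `SDAlg.Rel` for the averaged block overlaps `Gam`.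
-/

set_option autoImplicit false

namespace Crest.Agent.R164.RSys

open Finset MeasureTheory Crest.Agent.R141 Crest.Agent.R164.Rot Crest.Agent.R164.RotRel

noncomputable section

variable {p : Par} {N : ℕ} {A : Finset (Fin N → Bool)}

/-- the Hamiltonian for the matrix `U` -/
def Hs (n : ℕ) (A : Finset (Fin N → Bool)) (eig : Fin N → ℝ) (t : ℝ) (V : (Fin N → Bool) → ℝ)
    (a lam : Fin N → Fin p.nc → ℝ)
    (U : Fin N → Fin N → ℝ) : SY.SS p n A → ℝ :=
  SY.HS (SY.h0q eig (Matrix.of U) t V) a lam (SY.xU (Matrix.of U))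

variable (n : ℕ) (hA : A.Nonempty)

/-- the spins -/
def sp (ω : G.Om (SY.base p n A hA)) (i : Fin N) : ℝ := sv (ω.1.1.1 i)

/-- the part of the log-weight which does not depend on the matrix -/
def H0 (V : (Fin N → Bool) → ℝ) (a : Fin N → Fin p.nc → ℝ) (d : DD p N)
    (ω : G.Om (SY.base p n A hA)) : ℝ :=
  V ω.1.1.1 + (∑ g, ∑ i, a i g * (SY.zf ω.1.2.1 g i * sv (ω.1.1.1 i))) +
    G.WW (SY.base p n A hA) d ω

/-- the total small field at the coordinate `i` -/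
def zz (lam : Fin N → Fin p.nc → ℝ) (i : Fin N) (ω : G.Om (SY.base p n A hA)) : ℝ :=
  ∑ g, lam i g * SY.zf ω.1.2.2 g i

theorem UU_eq (eig : Fin N → ℝ) (t : ℝ) (V : (Fin N → Bool) → ℝ) (a lam : Fin N → Fin p.nc → ℝ)
    (U : Fin N → Fin N → ℝ) (d : DD p N) :
    G.UU (SY.base p n A hA) (Hs n A eig t V a lam U) d =
      HG (fun i => t * eig i) (sp n hA) (hlin (sp n hA) (H0 n hA V a d) (zz n hA lam)) U := by
  funext ω
  have e1 : SY.h0q eig (Matrix.of U) t V ω.1.1.1 =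
      quad (fun i => t * eig i) (sp n hA ω) U + V ω.1.1.1 := by
    unfold SY.h0q Mag.qd quad xc sp
    congr 1
    rw [← mul_assoc, mul_comm t, mul_assoc, Finset.mul_sum]
    congr 1
    refine Finset.sum_congr rfl fun i _ => ?_
    rw [← mul_assoc]
    rfl
  have e2 : ∑ g, ∑ i, lam i g * (SY.zf ω.1.2.2 g i * SY.xU (Matrix.of U) ω.1.1.1 i) =
      ∑ i, zz n hA lam i ω * xc (sp n hA ω) i U := by
    rw [Finset.sum_comm]
    refine Finset.sum_congr rfl fun i _ => ?_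
    unfold zz
    rw [Finset.sum_mul]
    refine Finset.sum_congr rfl fun g _ => ?_
    rw [← mul_assoc]
    rfl
  unfold G.UU Hs SY.HS HG hlin H0
  rw [e1, e2]
  ring

/-- the tilted law for the matrix `U` and the pointers `d` -/
def PQ (eig : Fin N → ℝ) (t : ℝ) (V : (Fin N → Bool) → ℝ) (a lam : Fin N → Fin p.nc → ℝ)
    (U : Fin N → Fin N → ℝ) (d : DD p N) : G.Om (SY.base p n A hA) → ℝ :=
  G.PP (SY.base p n A hA) (Hs n A eig t V a lam U) d

theorem PQ_eq (eig : Fin N → ℝ) (t : ℝ) (V : (Fin N → Bool) → ℝ) (a lam : Fin N → Fin p.nc → ℝ)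
    (U : Fin N → Fin N → ℝ) (d : DD p N) :
    PQ n hA eig t V a lam U d = QG (G.prior (SY.base p n A hA)) (G.fil (SY.base p n A hA)) p.xs
      (fun i => t * eig i) (sp n hA) (hlin (sp n hA) (H0 n hA V a d) (zz n hA lam)) U := by
  unfold PQ G.PP QG
  rw [UU_eq]

theorem PQ_isProb (eig : Fin N → ℝ) (t : ℝ) (V : (Fin N → Bool) → ℝ)
    (a lam : Fin N → Fin p.nc → ℝ) (U : Fin N → Fin N → ℝ) (d : DD p N) :
    IsProb (PQ n hA eig t V a lam U d) := G.PP_isProb _ _ _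

theorem sp_sq (ω : G.Om (SY.base p n A hA)) : ∑ i, sp n hA ω i ^ 2 = N := by
  have : ∀ i, sp n hA ω i ^ 2 = 1 := by
    intro i
    unfold sp sv
    split_ifs <;> norm_num
  simp only [this]
  simp

/-- the Hamiltonian depends continuously on the matrix. -/
theorem meas_Hs (eig : Fin N → ℝ) (t : ℝ) (V : (Fin N → Bool) → ℝ)
    (a lam : Fin N → Fin p.nc → ℝ) (s : SY.SS p n A) :
    Measurable fun U : Fin N → Fin N → ℝ => Hs n A eig t V a lam U s := by
  refine Continuous.measurable ?_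
  have hx : ∀ i, Continuous fun U : Fin N → Fin N → ℝ => (Matrix.of U).mulVec
      (Crest.ProbabilityR.InvariantGlass.spinVec s.1.1) i := fun i =>
    continuous_xc (Crest.ProbabilityR.InvariantGlass.spinVec s.1.1) i
  unfold Hs SY.HS SY.h0q Mag.qd SY.xU
  refine ((Continuous.add ?_ continuous_const).add continuous_const).add ?_
  · exact continuous_const.mul (continuous_const.mul (continuous_finsetSum _ fun i _ =>
      continuous_const.mul ((hx i).pow 2)))
  · exact continuous_finsetSum _ fun g _ => continuous_finsetSum _ fun i _ =>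
      continuous_const.mul (continuous_const.mul (hx i))

/-! ### Levels -/

/-- the level `b`: the step `sel` in the cell `c b`; the leaf for `b ≥ nn`. -/
def lv (c : ℕ → Fin p.nc) (sel : Fin p.nc → DD p N → Fin p.T) (nn : ℕ) (d : DD p N) (b : ℕ) : ℕ :=
  if b < nn then p.ct (c b) (sel (c b) d) else p.L

variable {c : ℕ → Fin p.nc} {sel : Fin p.nc → DD p N → Fin p.T} {nn : ℕ}

theorem lv_top (d : DD p N) : lv c sel nn d nn = p.L := by
  unfold lv; rw [if_neg (lt_irrefl _)]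

theorem lv_of_lt {b : ℕ} (h : b < nn) (d : DD p N) :
    lv c sel nn d b = p.ct (c b) (sel (c b) d) := by
  unfold lv; rw [if_pos h]

theorem lv_le_L (d : DD p N) (b : ℕ) : lv c sel nn d b ≤ p.L := by
  unfold lv
  split_ifs
  · exact (p.ct_lt_mt (sel (c b) d).2).le.trans (p.mt_lt_L (c b).2).le
  · exact le_rfl

theorem ct_mono {g g' : ℕ} (h : g < g') {t : ℕ} (ht : t < p.T) (t' : ℕ) :
    p.ct g t ≤ p.ct g' t' := by
  unfold Par.ct
  have : (g + 1) * (p.T + 1) ≤ g' * (p.T + 1) := Nat.mul_le_mul_right _ h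
  have h2 : (g + 1) * (p.T + 1) = g * (p.T + 1) + (p.T + 1) := by ring
  omega

theorem lv_mono (hc : ∀ b, b + 1 < nn → (c b : ℕ) < c (b + 1)) (d : DD p N) :
    Monotone (lv c sel nn d) := by
  refine monotone_nat_of_le_succ fun b => ?_
  by_cases h : b + 1 < nn
  · rw [lv_of_lt h, lv_of_lt (by omega)]
    exact ct_mono (hc b h) (sel (c b) d).2 _
  · have : lv c sel nn d (b + 1) = p.L := by unfold lv; rw [if_neg h]
    rw [this]; exact lv_le_L d b

theorem xs_ct (g : Fin p.nc) {t : ℕ} (ht : t < p.T) : p.xs (p.ct g t) = p.xi g := by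
  refine p.xs_cell g.2 ?_ (p.ct_lt_mt ht).le
  unfold Par.ct; omega

theorem lv_low {δ : ℝ} (hnn : 0 < nn) (h0 : p.xi (c 0) ≤ δ) (d : DD p N) (m : ℕ)
    (hm : m ≤ lv c sel nn d 0) : p.xs m ≤ δ := by
  refine (p.xs_expo.mono hm).trans ?_
  rw [lv_of_lt hnn, xs_ct _ (sel (c 0) d).2]
  exact h0

theorem lv_win {δ : ℝ} {mm : ℕ → ℝ} (hlo : ∀ b, b < nn → mm (b + 1) - δ ≤ p.xi (c b))
    (hhi : ∀ b, b + 1 < nn → p.xi (c (b + 1)) ≤ mm (b + 1) + δ) (htop : 1 ≤ mm nn + δ)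
    (d : DD p N) (b : ℕ) (hb : b < nn) (m : ℕ) (h1 : lv c sel nn d b < m)
    (h2 : m ≤ lv c sel nn d (b + 1)) : |p.xs m - mm (b + 1)| ≤ δ := by
  rw [lv_of_lt hb] at h1
  have a1 : p.xi (c b) ≤ p.xs m := by
    rw [← xs_ct (c b) (sel (c b) d).2]
    exact p.xs_expo.mono h1.le
  have a2 : p.xs m ≤ mm (b + 1) + δ := by
    by_cases h : b + 1 < nn
    · rw [lv_of_lt h] at h2
      refine (p.xs_expo.mono h2).trans ?_
      rw [xs_ct _ (sel (c (b + 1)) d).2]
      exact hhi b h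
    · have : b + 1 = nn := by omega
      rw [this]
      exact (p.xs_expo.le_one m).trans htop
  have a3 := hlo b hb
  rw [abs_le]
  constructor <;> linarith

/-! ### Overlaps -/

section main

variable {κ : Type} [Fintype κ] [DecidableEq κ]

/-- the block of the label `k` -/
def blk (lab : Fin N → κ) (k : κ) : Finset (Fin N) := univ.filter fun i => lab i = k

variable (eig : Fin N → ℝ) (t : ℝ) (V : (Fin N → Bool) → ℝ) (a lam : Fin N → Fin p.nc → ℝ)

/-- block overlap of the system at the level `l` -/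
def ro (B : Finset (Fin N)) (l : ℕ) (d : DD p N) (U : Fin N → Fin N → ℝ)
    (ω : G.Om (SY.base p n A hA)) : ℝ :=
  rr (XU (sp n hA) U) (PQ n hA eig t V a lam U d) (G.fil (SY.base p n A hA)) B l ω

/-- averaged block overlap at the level `b` -/
def Gam (μ : Measure (Fin N → Fin N → ℝ)) (c : ℕ → Fin p.nc)
    (sel : Fin p.nc → DD p N → Fin p.T) (nn : ℕ) (B : Finset (Fin N)) (b : ℕ) : ℝ :=
  dav (dw p N) μ (fun d U => eE (PQ n hA eig t V a lam U d)
    (ro n hA eig t V a lam B (lv c sel nn d b) d U))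

/-- averaged spin overlap at the level `b` -/
def pb (μ : Measure (Fin N → Fin N → ℝ)) (c : ℕ → Fin p.nc)
    (sel : Fin p.nc → DD p N → Fin p.T) (nn : ℕ) (b : ℕ) : ℝ :=
  dav (dw p N) μ (fun d U => eE (PQ n hA eig t V a lam U d) (fun ω => (N : ℝ)⁻¹ *
    ∑ i, (cE (PQ n hA eig t V a lam U d) ((G.fil (SY.base p n A hA)).F (lv c sel nn d b))
      (fun ω => sp n hA ω i) ω) ^ 2))

/-- concentration error at the level `b` -/
def cnc (μ : Measure (Fin N → Fin N → ℝ)) (c : ℕ → Fin p.nc)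
    (sel : Fin p.nc → DD p N → Fin p.T) (nn : ℕ) (B : Finset (Fin N)) (b : ℕ) (c0 : ℝ) : ℝ :=
  dav (dw p N) μ (fun d U => eE (PQ n hA eig t V a lam U d)
    (fun ω => |ro n hA eig t V a lam B (lv c sel nn d b) d U ω - c0|))

section cont

variable (d : DD p N)

theorem cont_eEf {f : (Fin N → Fin N → ℝ) → G.Om (SY.base p n A hA) → ℝ}
    (hf : ∀ ω, Continuous fun U => f U ω) :
    Continuous fun U => eE (PQ n hA eig t V a lam U d) (f U) := by
  simp only [PQ_eq]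
  exact contG_eE (G.prior_isProb _) p.xs_expo _ _ (isField_lin _ _ _).cont hf

theorem cont_cEf {f : (Fin N → Fin N → ℝ) → G.Om (SY.base p n A hA) → ℝ}
    (hf : ∀ ω, Continuous fun U => f U ω) (l : ℕ) (ω : G.Om (SY.base p n A hA)) :
    Continuous fun U => cE (PQ n hA eig t V a lam U d) ((G.fil (SY.base p n A hA)).F l)
      (f U) ω := by
  simp only [PQ_eq]
  exact contG_cE (G.prior_isProb _) p.xs_expo _ _ (isField_lin _ _ _).cont hf l ω

theorem cont_ro (B : Finset (Fin N)) (l : ℕ) (ω : G.Om (SY.base p n A hA)) :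
    Continuous fun U => ro n hA eig t V a lam B l d U ω := by
  unfold ro rr
  exact continuous_const.mul (continuous_finsetSum _ fun i _ =>
    (cont_cEf n hA eig t V a lam d (fun ω => cont_XU (sp n hA) i ω) l ω).pow 2)

end cont

variable {μ : Measure (Fin N → Fin N → ℝ)} [IsProbabilityMeasure μ]
variable {n hA eig t V a lam}

theorem int_ro (hμ : ∀ᵐ U ∂μ, U ∈ OK N) (d : DD p N) (B : Finset (Fin N)) (l : ℕ) :
    Integrable (fun U => eE (PQ n hA eig t V a lam U d) (ro n hA eig t V a lam B l d U)) μ :=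
  integrable_cont hμ (cont_eEf n hA eig t V a lam d fun ω => cont_ro n hA eig t V a lam d B l ω)

theorem int_cnc (hμ : ∀ᵐ U ∂μ, U ∈ OK N) (d : DD p N) (B : Finset (Fin N)) (l : ℕ) (c0 : ℝ) :
    Integrable (fun U => eE (PQ n hA eig t V a lam U d)
      (fun ω => |ro n hA eig t V a lam B l d U ω - c0|)) μ :=
  integrable_cont hμ (cont_eEf n hA eig t V a lam d (f := fun U ω =>
    |ro n hA eig t V a lam B l d U ω - c0|) fun ω =>
      ((cont_ro n hA eig t V a lam d B l ω).sub continuous_const).abs)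

variable {K : ℝ}

theorem ro_le {U : Fin N → Fin N → ℝ} (hU : U ∈ OK N) {B : Finset (Fin N)}
    (hN : 0 < N) (hK : (N : ℝ) ≤ K * B.card) (l : ℕ) (d : DD p N)
    (ω : G.Om (SY.base p n A hA)) : ro n hA eig t V a lam B l d U ω ≤ K := by
  have hN' : (0:ℝ) < N := by exact_mod_cast hN
  have hB : 0 < B.card := by
    rcases Nat.eq_zero_or_pos B.card with h | h
    · rw [h] at hK; simp at hK; linarith
    · exact h
  exact rr_le (XU (sp n hA) U) (PQ_isProb n hA eig t V a lam U d) hB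
    (block_XU_sq hU (sp n hA) (fun ω => (sp_sq n hA ω).le) hK) l ω

omit [IsProbabilityMeasure μ] in
theorem Gam_nonneg (B : Finset (Fin N)) (b : ℕ) :
    0 ≤ Gam n hA eig t V a lam μ c sel nn B b := by
  unfold Gam dav
  refine Finset.sum_nonneg fun d _ => mul_nonneg (dw_nonneg p N d) ?_
  exact integral_nonneg fun U => eE_nonneg (PQ_isProb n hA eig t V a lam U d) fun ω =>
    rr_nonneg _ _ _ _

theorem Gam_le (hμ : ∀ᵐ U ∂μ, U ∈ OK N) (hN : 0 < N) {B : Finset (Fin N)}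
    (hK : (N : ℝ) ≤ K * B.card) (b : ℕ) : Gam n hA eig t V a lam μ c sel nn B b ≤ K := by
  have h : Gam n hA eig t V a lam μ c sel nn B b ≤
      dav (dw p N) μ (fun (_ : DD p N) (_ : Fin N → Fin N → ℝ) => K) := by
    refine dav_mono (dw_nonneg p N) (fun d => int_ro hμ d B _) (fun _ => integrable_const K)
      fun d => ?_
    filter_upwards [hμ] with U hU
    exact eE_le_of_le (PQ_isProb n hA eig t V a lam U d) fun ω => ro_le hU hN hK _ d ω
  rwa [dav_const (dw_sum p hN)] at h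

theorem Gam_mono (hμ : ∀ᵐ U ∂μ, U ∈ OK N) (hc : ∀ b, b + 1 < nn → (c b : ℕ) < c (b + 1))
    (B : Finset (Fin N)) {b b' : ℕ} (h : b ≤ b') :
    Gam n hA eig t V a lam μ c sel nn B b ≤ Gam n hA eig t V a lam μ c sel nn B b' := by
  refine dav_mono (dw_nonneg p N) (fun d => int_ro hμ d B _) (fun d => int_ro hμ d B _) fun d => ?_
  refine Filter.Eventually.of_forall fun U => ?_
  exact OvC.eE_rr_mono (XU (sp n hA) U) (PQ_isProb n hA eig t V a lam U d) B (lv_mono hc d h)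

/-- recentering at the mean costs a factor 2 -/
theorem cnc_Gam (hμ : ∀ᵐ U ∂μ, U ∈ OK N) (hN : 0 < N) (B : Finset (Fin N)) (b : ℕ) (c0 : ℝ) :
    cnc n hA eig t V a lam μ c sel nn B b (Gam n hA eig t V a lam μ c sel nn B b) ≤
      2 * cnc n hA eig t V a lam μ c sel nn B b c0 := by
  have h1 : |Gam n hA eig t V a lam μ c sel nn B b - c0| ≤
      cnc n hA eig t V a lam μ c sel nn B b c0 := by
    have e : Gam n hA eig t V a lam μ c sel nn B b - c0 = ∑ d, dw p N d * ∫ U,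
        (eE (PQ n hA eig t V a lam U d) (ro n hA eig t V a lam B (lv c sel nn d b) d U) - c0) ∂μ := by
      have h2 : ∀ d, ∫ U, (eE (PQ n hA eig t V a lam U d)
          (ro n hA eig t V a lam B (lv c sel nn d b) d U) - c0) ∂μ =
          ∫ U, eE (PQ n hA eig t V a lam U d) (ro n hA eig t V a lam B (lv c sel nn d b) d U) ∂μ -
            c0 := by
        intro d
        rw [integral_sub (int_ro hμ d B _) (integrable_const c0)]
        simp
      simp only [h2, mul_sub, Finset.sum_sub_distrib]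
      rw [← Finset.sum_mul, dw_sum p hN, one_mul]
      rfl
    rw [e]
    unfold cnc dav
    refine (Finset.abs_sum_le_sum_abs _ _).trans (Finset.sum_le_sum fun d _ => ?_)
    rw [abs_mul, abs_of_nonneg (dw_nonneg p N d)]
    refine mul_le_mul_of_nonneg_left ?_ (dw_nonneg p N d)
    refine (abs_integral_le_integral_abs).trans ?_
    refine integral_mono ((int_ro hμ d B _).sub (integrable_const c0)).abs (int_cnc hμ d B _ c0)
      fun U => ?_
    have e2 : eE (PQ n hA eig t V a lam U d) (ro n hA eig t V a lam B (lv c sel nn d b) d U) - c0 =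
        eE (PQ n hA eig t V a lam U d)
          (fun ω => ro n hA eig t V a lam B (lv c sel nn d b) d U ω - c0) := by
      rw [eE_sub, eE_const (PQ_isProb n hA eig t V a lam U d)]
    show |eE (PQ n hA eig t V a lam U d) (ro n hA eig t V a lam B (lv c sel nn d b) d U) - c0| ≤ _
    rw [e2]
    exact Crest.Agent.R141.eE_abs_le (PQ_isProb n hA eig t V a lam U d) _
  have h3 : cnc n hA eig t V a lam μ c sel nn B b (Gam n hA eig t V a lam μ c sel nn B b) ≤
      cnc n hA eig t V a lam μ c sel nn B b c0 + |Gam n hA eig t V a lam μ c sel nn B b - c0| := by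
    have e : cnc n hA eig t V a lam μ c sel nn B b c0 +
        |Gam n hA eig t V a lam μ c sel nn B b - c0| =
        dav (dw p N) μ (fun d U => eE (PQ n hA eig t V a lam U d)
          (fun ω => |ro n hA eig t V a lam B (lv c sel nn d b) d U ω - c0|) +
            |Gam n hA eig t V a lam μ c sel nn B b - c0|) := by
      rw [dav_add (fun d => int_cnc hμ d B _ c0) (fun d => integrable_const _),
        dav_const (dw_sum p hN)]
      rfl
    rw [e]
    refine dav_mono (dw_nonneg p N) (fun d => int_cnc hμ d B _ _)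
      (fun d => (int_cnc hμ d B _ c0).add (integrable_const _)) fun d => ?_
    refine Filter.Eventually.of_forall fun U => ?_
    have hQ := PQ_isProb n hA eig t V a lam U d
    have e3 : eE (PQ n hA eig t V a lam U d)
          (fun ω => |ro n hA eig t V a lam B (lv c sel nn d b) d U ω - c0|) +
            |Gam n hA eig t V a lam μ c sel nn B b - c0| =
        eE (PQ n hA eig t V a lam U d)
          (fun ω => |ro n hA eig t V a lam B (lv c sel nn d b) d U ω - c0| +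
            |Gam n hA eig t V a lam μ c sel nn B b - c0|) := by
      rw [eE_add, eE_const hQ]
    rw [e3]
    refine eE_mono hQ fun ω => ?_
    have := abs_sub_le (ro n hA eig t V a lam B (lv c sel nn d b) d U ω) c0
      (Gam n hA eig t V a lam μ c sel nn B b)
    rw [abs_sub_comm c0] at this
    exact this
  linarith

/-! ### The spin overlap -/

/-- `|E_l x|² = |E_l s|²` -/
theorem sum_cE_XU {Q : G.Om (SY.base p n A hA) → ℝ} {U : Fin N → Fin N → ℝ} (hU : U ∈ OK N)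
    (r : Setoid (G.Om (SY.base p n A hA))) (ω : G.Om (SY.base p n A hA)) :
    ∑ i, (cE Q r (XU (sp n hA) U i) ω) ^ 2 = ∑ i, (cE Q r (fun ω => sp n hA ω i) ω) ^ 2 := by
  have : ∀ i, cE Q r (XU (sp n hA) U i) ω = ∑ q, U i q * cE Q r (fun ω => sp n hA ω q) ω := by
    intro i
    have e : XU (sp (p := p) n hA) U i = fun ω => ∑ q, U i q * sp n hA ω q := by
      funext ω; unfold XU xc Matrix.mulVec dotProduct; rfl
    rw [e, cE_sum]
    refine Finset.sum_congr rfl fun q _ => ?_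
    rw [cE_smul]
  simp only [this]
  exact OK_norm hU fun q => cE Q r (fun ω => sp n hA ω q) ω

theorem sum_blk (lab : Fin N → κ) (f : Fin N → ℝ) :
    ∑ k, ∑ i ∈ blk lab k, f i = ∑ i, f i := by
  unfold blk
  exact Finset.sum_fiberwise univ lab f

/-- the spin overlap is the weighted sum of the block overlaps -/
theorem sum_ro {U : Fin N → Fin N → ℝ} (hU : U ∈ OK N) (lab : Fin N → κ) (l : ℕ) (d : DD p N)
    (ω : G.Om (SY.base p n A hA)) :
    ∑ k, ((blk lab k).card / (N : ℝ)) * ro n hA eig t V a lam (blk lab k) l d U ω =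
      (N : ℝ)⁻¹ * ∑ i, (cE (PQ n hA eig t V a lam U d) ((G.fil (SY.base p n A hA)).F l)
        (fun ω => sp n hA ω i) ω) ^ 2 := by
  have h1 : ∀ k, ((blk lab k).card / (N : ℝ)) * ro n hA eig t V a lam (blk lab k) l d U ω =
      (N : ℝ)⁻¹ * ∑ i ∈ blk lab k, (cE (PQ n hA eig t V a lam U d)
        ((G.fil (SY.base p n A hA)).F l) (XU (sp n hA) U i) ω) ^ 2 := by
    intro k
    rw [← OvC.card_mul_rr (XU (sp n hA) U)]
    unfold ro
    ring
  simp only [h1]
  rw [← Finset.mul_sum, sum_blk lab, sum_cE_XU hU]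

theorem pb_eq (hμ : ∀ᵐ U ∂μ, U ∈ OK N) (lab : Fin N → κ) (b : ℕ) :
    pb n hA eig t V a lam μ c sel nn b =
      ∑ k, ((blk lab k).card / (N : ℝ)) * Gam n hA eig t V a lam μ c sel nn (blk lab k) b := by
  unfold pb Gam dav
  simp only [Finset.mul_sum]
  rw [Finset.sum_comm]
  refine Finset.sum_congr rfl fun d _ => ?_
  have e : ∀ k, (blk lab k).card / (N : ℝ) * (dw p N d * ∫ U, eE (PQ n hA eig t V a lam U d)
      (ro n hA eig t V a lam (blk lab k) (lv c sel nn d b) d U) ∂μ) =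
      dw p N d * ∫ U, ((blk lab k).card / (N : ℝ)) * eE (PQ n hA eig t V a lam U d)
      (ro n hA eig t V a lam (blk lab k) (lv c sel nn d b) d U) ∂μ := by
    intro k
    rw [integral_const_mul]; ring
  simp only [e]
  rw [← Finset.mul_sum, ← integral_finsetSum _ fun k _ => (int_ro hμ d (blk lab k) _).const_mul _]
  congr 1
  refine integral_congr_ae ?_
  filter_upwards [hμ] with U hU
  have e2 : ∀ k, (blk lab k).card / (N : ℝ) * eE (PQ n hA eig t V a lam U d)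
      (ro n hA eig t V a lam (blk lab k) (lv c sel nn d b) d U) =
      eE (PQ n hA eig t V a lam U d) (fun ω => (blk lab k).card / (N : ℝ) *
        ro n hA eig t V a lam (blk lab k) (lv c sel nn d b) d U ω) := by
    intro k; rw [eE_smul]
  simp only [e2]
  rw [← eE_sum]
  congr 1
  funext ω
  rw [sum_ro hU lab]
  rw [Finset.mul_sum]

omit [IsProbabilityMeasure μ] in
theorem pb_nonneg (b : ℕ) : 0 ≤ pb n hA eig t V a lam μ c sel nn b := by
  unfold pb dav
  refine Finset.sum_nonneg fun d _ => mul_nonneg (dw_nonneg p N d) ?_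
  exact integral_nonneg fun U => eE_nonneg (PQ_isProb n hA eig t V a lam U d) fun ω =>
    mul_nonneg (by positivity) (Finset.sum_nonneg fun _ _ => sq_nonneg _)

theorem pb_top (hN : 0 < N) : pb n hA eig t V a lam μ c sel nn nn = 1 := by
  have hN' : (N:ℝ) ≠ 0 := by exact_mod_cast hN.ne'
  unfold pb
  have e : ∀ (d : DD p N) (U : Fin N → Fin N → ℝ),
      eE (PQ n hA eig t V a lam U d) (fun ω => (N : ℝ)⁻¹ *
        ∑ i, (cE (PQ n hA eig t V a lam U d) ((G.fil (SY.base p n A hA)).F (lv c sel nn d nn))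
          (fun ω => sp n hA ω i) ω) ^ 2) = 1 := by
    intro d U
    have hQ := PQ_isProb n hA eig t V a lam U d
    have e1 : (fun ω => (N : ℝ)⁻¹ *
        ∑ i, (cE (PQ n hA eig t V a lam U d) ((G.fil (SY.base p n A hA)).F (lv c sel nn d nn))
          (fun ω => sp n hA ω i) ω) ^ 2) = fun _ => 1 := by
      funext ω
      rw [lv_top]
      have e2 : ∀ i, cE (PQ n hA eig t V a lam U d) ((G.fil (SY.base p n A hA)).F p.L)
          (fun ω => sp n hA ω i) ω = sp n hA ω i := fun i =>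
        cE_of_meas hQ (rmeas_of_ge (𝓕 := G.fil (SY.base p n A hA)) le_rfl _) ω
      simp only [e2]
      rw [sp_sq, inv_mul_cancel₀ hN']
    rw [e1, eE_const hQ]
  simp only [e]
  exact dav_const (dw_sum p hN) 1

/-! ### Purity -/

omit [IsProbabilityMeasure μ] in
theorem avcS_zero {Ω : Type*} [Fintype Ω] {Q : Ω → ℝ} (hQ : IsProb Q) {𝓕 : Filt Ω}
    (f : Fin N → Ω → ℝ) {k m : ℕ} (h : m ≤ k) : avcS Q 𝓕 f k m = 0 := by
  unfold avcS
  have e : ∀ i j w, covR Q (𝓕.F k) (cE Q (𝓕.F m) (f i)) (cE Q (𝓕.F m) (f j)) w = 0 := by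
    intro i j w
    have hm : ∀ i, RMeas (𝓕.F k) (cE Q (𝓕.F m) (f i)) := fun i =>
      (cE_meas Q (𝓕.F m) (f i)).mono (𝓕.antitone h)
    unfold covR
    rw [cE_mul_right (hm j), cE_of_meas hQ (hm i), cE_of_meas hQ (hm j)]
    ring
  simp only [e]
  simp [eE_const hQ]

/-- purity of the spins from the purity numbers -/
theorem dav_avcS (hμ : ∀ᵐ U ∂μ, U ∈ OK N) (hN : 0 < N)
    (hc : ∀ b, b + 1 < nn → (c b : ℕ) < c (b + 1)) {η : ℝ} (hη : 0 ≤ η)
    (hpur : ∀ b < nn, Ed p N (fun d => ∫ U, G.purNum (SY.base p n A hA)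
      (Hs n A eig t V a lam U) (c b, sel (c b) d) d ∂μ) ≤ η) {b b' : ℕ} (hb : b ≤ nn) :
    dav (dw p N) μ (fun d U => avcS (PQ n hA eig t V a lam U d) (G.fil (SY.base p n A hA))
      (fun i ω => sp n hA ω i) (lv c sel nn d b) (lv c sel nn d b')) ≤ η := by
  by_cases h : b' ≤ b
  · have e : ∀ (d : DD p N) (U : Fin N → Fin N → ℝ),
        avcS (PQ n hA eig t V a lam U d) (G.fil (SY.base p n A hA))
          (fun i ω => sp n hA ω i) (lv c sel nn d b) (lv c sel nn d b') = 0 := fun d U =>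
      avcS_zero (PQ_isProb n hA eig t V a lam U d) _ (lv_mono hc d h)
    simp only [e]
    rw [dav_const (dw_sum p hN)]
    exact hη
  · push Not at h
    rcases Nat.lt_or_ge b nn with hbn | hbn
    · refine le_trans ?_ (hpur b hbn)
      refine dav_mono (dw_nonneg p N) (fun d => ?_) (fun d => ?_) fun d => ?_
      · have : ∀ U, avcS (PQ n hA eig t V a lam U d) (G.fil (SY.base p n A hA))
          (fun i ω => sp n hA ω i) (lv c sel nn d b) (lv c sel nn d b') =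
          avcS (QG (G.prior (SY.base p n A hA)) (G.fil (SY.base p n A hA)) p.xs
      (fun i => t * eig i) (sp n hA) (hlin (sp n hA) (H0 n hA V a d) (zz n hA lam)) U)
          (G.fil (SY.base p n A hA))
          (fun i ω => sp n hA ω i) (lv c sel nn d b) (lv c sel nn d b') := by
          intro U; rw [PQ_eq]
        simp only [this]
        exact integrable_cont hμ (contG_avcS (G.prior_isProb _) p.xs_expo _ _
          (isField_lin _ _ _).cont _ _)
      · exact G.integrable_purNum (SY.base p n A hA) μ hN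
          (fun s => meas_Hs n eig t V a lam s) _ _
      · refine Filter.Eventually.of_forall fun U => ?_
        have h1 := G.avc2_le_purNum (SY.base p n A hA) hN (Hs n A eig t V a lam U) d
          (c b, sel (c b) d) (m := lv c sel nn d b') (by
            have := lv_mono (sel := sel) hc d h.le
            rw [lv_of_lt hbn] at this
            exact this) (lv_le_L d b')
        rw [lv_of_lt hbn]
        exact h1
    · have : b = nn := le_antisymm hb hbn
      subst this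
      have e : ∀ (d : DD p N) (U : Fin N → Fin N → ℝ),
          avcS (PQ n hA eig t V a lam U d) (G.fil (SY.base p n A hA))
            (fun i ω => sp n hA ω i) (lv c sel b d b) (lv c sel b d b') = 0 := fun d U =>
        avcS_zero (PQ_isProb n hA eig t V a lam U d) _ (by rw [lv_top]; exact lv_le_L d b')
      simp only [e]
      rw [dav_const (dw_sum p hN)]
      exact hη

/-! ### The relations -/

/-- the error of the relations -/
def epsR (K Cl : ℝ) (nn : ℕ) (e ρ κ δ : ℝ) : ℝ :=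
  2 * e + Cl * (4 * δ * K ^ 2 + 6 * nn * ((2 * nn + 3) * K ^ 2 * ρ + 2 * K * e)) +
    3 / 2 * κ * (K ^ 2 + 1)

/-- **The left-rotation relations for the system.** -/
theorem rotSys (hμ : Haar.RHaar μ) (hN : 0 < N) {Bk Bl : Finset (Fin N)} (hd : Disjoint Bk Bl)
    {lk ll : ℝ} (hlk : ∀ i ∈ Bk, eig i = lk) (hll : ∀ i ∈ Bl, eig i = ll)
    (hKk : (N : ℝ) ≤ K * Bk.card) (hKl : (N : ℝ) ≤ K * Bl.card) (hnn : 0 < nn)
    (hc : ∀ b, b + 1 < nn → (c b : ℕ) < c (b + 1)) {mm : ℕ → ℝ} (hm0 : ∀ b, 0 ≤ mm b)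
    (hm1 : ∀ b, mm b ≤ 1) {δ : ℝ} (hδ : 0 ≤ δ) (hlow : p.xi (c 0) ≤ δ)
    (hlo : ∀ b, b < nn → mm (b + 1) - δ ≤ p.xi (c b))
    (hhi : ∀ b, b + 1 < nn → p.xi (c (b + 1)) ≤ mm (b + 1) + δ) (htop : 1 ≤ mm nn + δ)
    {ρ κ' : ℝ} (hρ : 0 < ρ) (hκ : 0 < κ')
    (hpur : ∀ b < nn, Ed p N (fun d => ∫ U, G.purNum (SY.base p n A hA)
      (Hs n A eig t V a lam U) (c b, sel (c b) d) d ∂μ) ≤ ρ ^ 2)
    (hz : 4 * K ^ 2 * dav (dw p N) μ (fun d U => (N : ℝ)⁻¹ * eE (PQ n hA eig t V a lam U d)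
      (fun ω => ∑ i, zz n hA lam i ω ^ 2)) ≤ κ' ^ 2)
    {ck cl : ℕ → ℝ} {e0 : ℝ}
    (hck : ∀ b ≤ nn, cnc n hA eig t V a lam μ c sel nn Bk b (ck b) ≤ e0)
    (hcl : ∀ b ≤ nn, cnc n hA eig t V a lam μ c sel nn Bl b (cl b) ≤ e0)
    {Cl : ℝ} (hCl : |t * lk - t * ll| ≤ Cl) {b0 : ℕ} (hb0 : b0 ≤ nn) :
    |Gam n hA eig t V a lam μ c sel nn Bk b0 - Gam n hA eig t V a lam μ c sel nn Bl b0 -
      (t * lk - t * ll) * SDAlg.Br mm nn (Gam n hA eig t V a lam μ c sel nn Bk)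
        (Gam n hA eig t V a lam μ c sel nn Bl) b0| ≤
      epsR K Cl nn ((nn + 1) * (2 * e0)) ρ κ' δ := by
  have hOK : ∀ᵐ U ∂μ, U ∈ OK N := hμ.mem
  have hleft : LeftInv μ := hμ.left.inv
  have hN' : (0:ℝ) < N := by exact_mod_cast hN
  have hK0 : 0 ≤ K := by
    by_contra hneg
    push Not at hneg
    have h1 : K * Bk.card ≤ 0 := mul_nonpos_of_nonpos_of_nonneg hneg.le (Nat.cast_nonneg _)
    linarith
  set Gk := Gam n hA eig t V a lam μ c sel nn Bk with hGk
  set Gl := Gam n hA eig t V a lam μ c sel nn Bl with hGl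
  have hgk : ∀ b, 0 ≤ Gk b ∧ Gk b ≤ K := fun b => ⟨Gam_nonneg _ _, Gam_le hOK hN hKk b⟩
  have hgl : ∀ b, 0 ≤ Gl b ∧ Gl b ≤ K := fun b => ⟨Gam_nonneg _ _, Gam_le hOK hN hKl b⟩
  -- concentration
  have conc : ∀ (B : Finset (Fin N)) (cc : ℕ → ℝ),
      (∀ b ≤ nn, cnc n hA eig t V a lam μ c sel nn B b (cc b) ≤ e0) →
      dav (dw p N) μ (fun d U => eC (XU (sp n hA) U) (QG (G.prior (SY.base p n A hA))
        (G.fil (SY.base p n A hA)) p.xs (fun i => t * eig i) (sp n hA)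
        (hlin (sp n hA) (H0 n hA V a d) (zz n hA lam)) U) (G.fil (SY.base p n A hA)) B
        (lv c sel nn d) nn (Gam n hA eig t V a lam μ c sel nn B)) ≤ (nn + 1) * (2 * e0) := by
    intro B cc hcc
    have e1 : dav (dw p N) μ (fun d U => eC (XU (sp n hA) U) (QG (G.prior (SY.base p n A hA))
        (G.fil (SY.base p n A hA)) p.xs (fun i => t * eig i) (sp n hA)
        (hlin (sp n hA) (H0 n hA V a d) (zz n hA lam)) U) (G.fil (SY.base p n A hA)) B
        (lv c sel nn d) nn (Gam n hA eig t V a lam μ c sel nn B)) =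
        ∑ b ∈ range (nn + 1), cnc n hA eig t V a lam μ c sel nn B b
          (Gam n hA eig t V a lam μ c sel nn B b) := by
      unfold cnc dav
      rw [Finset.sum_comm]
      refine Finset.sum_congr rfl fun d _ => ?_
      rw [← Finset.mul_sum, ← integral_finsetSum _ fun b _ => int_cnc hOK d B _ _]
      congr 1
      refine integral_congr_ae (Filter.Eventually.of_forall fun U => ?_)
      simp only [← PQ_eq]
      rfl
    rw [e1]
    have e2 : ∀ b ∈ range (nn + 1), cnc n hA eig t V a lam μ c sel nn B b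
          (Gam n hA eig t V a lam μ c sel nn B b) ≤ 2 * e0 := by
      intro b hb
      have hb' : b ≤ nn := by have := Finset.mem_range.mp hb; omega
      refine (cnc_Gam hOK hN B b (cc b)).trans ?_
      linarith [hcc b hb']
    refine (Finset.sum_le_sum e2).trans (le_of_eq ?_)
    rw [Finset.sum_const, Finset.card_range, nsmul_eq_mul]
    push_cast
    ring
  -- purity
  have pur : ∀ b' b, b ≤ nn → dav (dw p N) μ (fun d U => avcS (QG (G.prior (SY.base p n A hA))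
        (G.fil (SY.base p n A hA)) p.xs (fun i => t * eig i) (sp n hA)
        (hlin (sp n hA) (H0 n hA V a d) (zz n hA lam)) U) (G.fil (SY.base p n A hA))
        (fun i w => sp n hA w i) (lv c sel nn d b) (lv c sel nn d b')) ≤ ρ ^ 2 := by
    intro b' b hb
    have := dav_avcS (n := n) (hA := hA) (eig := eig) (t := t) (V := V) (a := a) (lam := lam) (c := c)
      (sel := sel) (nn := nn) hOK hN hc (sq_nonneg ρ) hpur (b' := b') hb
    simp only [PQ_eq] at this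
    exact this
  -- fields
  have fld : dav (dw p N) μ (fun d U => av Bk Bl (fun i j =>
      eE (QG (G.prior (SY.base p n A hA))
        (G.fil (SY.base p n A hA)) p.xs (fun i => t * eig i) (sp n hA)
        (hlin (sp n hA) (H0 n hA V a d) (zz n hA lam)) U)
        (fun w => dlin (sp n hA) (zz n hA lam) i j U w ^ 2))) ≤ κ' ^ 2 := by
    refine le_trans ?_ hz
    rw [← dav_smul]
    refine dav_mono (dw_nonneg p N) (fun d => ?_) (fun d => ?_) fun d => ?_
    · exact integrable_cont hOK (contG_dh (G.prior_isProb _) p.xs_expo _ _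
        (isField_lin _ _ _).cont Bk Bl (isField_lin _ (H0 n hA V a d) _).dcont)
    · exact ((integrable_cont hOK (cont_eEf n hA eig t V a lam d (f := fun _ ω =>
        ∑ i, zz n hA lam i ω ^ 2) fun ω => continuous_const)).const_mul _).const_mul _
    · filter_upwards [hOK] with U hU
      have h1 := lin_bound (Q := QG (G.prior (SY.base p n A hA))
        (G.fil (SY.base p n A hA)) p.xs (fun i => t * eig i) (sp n hA)
        (hlin (sp n hA) (H0 n hA V a d) (zz n hA lam)) U)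
        (QG_isProb (G.prior_isProb _) p.xs_expo _ _ _ U) hU (sp n hA)
        (fun ω => (sp_sq n hA ω).le) hN hK0 hKk hKl (zz n hA lam)
      refine h1.trans (le_of_eq ?_)
      rw [← PQ_eq]
  have main := rel_spinG (𝓕 := G.fil (SY.base p n A hA)) μ hOK hleft hN hd
    (G.prior_isProb (SY.base p n A hA)) p.xs_expo (fun i => t * eig i)
    (lk := t * lk) (ll := t * ll) (fun i hi => by rw [hlk i hi]) (fun i hi => by rw [hll i hi])
    (sp n hA) (fun ω => (sp_sq n hA ω).le) hKk hKl (dw_nonneg p N) (dw_sum p hN)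
    (h := fun d => hlin (sp n hA) (H0 n hA V a d) (zz n hA lam))
    (dh := fun _ => dlin (sp n hA) (zz n hA lam))
    (fun d => isField_lin (sp n hA) (H0 n hA V a d) (zz n hA lam))
    (τ := lv c sel nn) (fun d => lv_mono hc d) (n := nn) (fun d => lv_top d) hm0 hm1 hδ
    (fun d m hm => lv_low hnn hlow d m hm)
    (fun d b hb m h1 h2 => lv_win hlo hhi htop d b hb m h1 h2)
    (gk := Gk) (gl := Gl) hgk hgl hρ hκ hb0
    (e := (nn + 1) * (2 * e0)) (conc Bk ck hck) (conc Bl cl hcl)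
    (fun b hb => pur b0 b hb) (fun b hb => pur nn b hb) fld
  have e3 : RotRel.Rel mm nn (t * lk - t * ll) Gk Gl b0 = Gk b0 - Gl b0 -
      (t * lk - t * ll) * SDAlg.Br mm nn Gk Gl b0 := by
    unfold RotRel.Rel SDAlg.Br RotRel.DD SDAlg.Dl
    rw [Finset.range_eq_Ico]
  rw [e3] at main
  refine main.trans ?_
  unfold epsR
  have hX : 0 ≤ 4 * δ * K ^ 2 + 6 * nn * ((2 * nn + 3) * K ^ 2 * ρ +
      2 * K * ((nn + 1) * (2 * e0))) := by
    have he0 : 0 ≤ e0 := by
      refine le_trans ?_ (hck 0 (Nat.zero_le _))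
      unfold cnc dav
      exact Finset.sum_nonneg fun d _ => mul_nonneg (dw_nonneg p N d)
        (integral_nonneg fun U => eE_nonneg (PQ_isProb n hA eig t V a lam U d) fun _ =>
          abs_nonneg _)
    positivity
  have := mul_le_mul_of_nonneg_right hCl hX
  linarith

/-- **`SDAlg.Rel` for the averaged overlaps of the system.** -/
theorem rotSys_rel (hμ : Haar.RHaar μ) (hN : 0 < N) (lab : Fin N → κ) {val : κ → ℝ}
    (hlab : ∀ i, eig i = val (lab i)) (hK : ∀ k, (N : ℝ) ≤ K * (blk lab k).card) (hnn : 0 < nn)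
    (hc : ∀ b, b + 1 < nn → (c b : ℕ) < c (b + 1)) {mm : ℕ → ℝ} (hmz : mm 0 = 0)
    (hmp : ∀ b, 1 ≤ b → b ≤ nn → 0 < mm b) (hmm : ∀ b, b < nn → mm b ≤ mm (b + 1))
    (hmn : mm nn = 1) (hm0 : ∀ b, 0 ≤ mm b) (hm1 : ∀ b, mm b ≤ 1)
    {δ : ℝ} (hδ : 0 ≤ δ) (hlow : p.xi (c 0) ≤ δ)
    (hlo : ∀ b, b < nn → mm (b + 1) - δ ≤ p.xi (c b))
    (hhi : ∀ b, b + 1 < nn → p.xi (c (b + 1)) ≤ mm (b + 1) + δ)
    {ρ κ' : ℝ} (hρ : 0 < ρ) (hκ : 0 < κ')
    (hpur : ∀ b < nn, Ed p N (fun d => ∫ U, G.purNum (SY.base p n A hA)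
      (Hs n A eig t V a lam U) (c b, sel (c b) d) d ∂μ) ≤ ρ ^ 2)
    (hz : 4 * K ^ 2 * dav (dw p N) μ (fun d U => (N : ℝ)⁻¹ * eE (PQ n hA eig t V a lam U d)
      (fun ω => ∑ i, zz n hA lam i ω ^ 2)) ≤ κ' ^ 2)
    {cc : κ → ℕ → ℝ} {e0 : ℝ}
    (hcc : ∀ k, ∀ b ≤ nn, cnc n hA eig t V a lam μ c sel nn (blk lab k) b (cc k b) ≤ e0)
    {Cl : ℝ} (hCl : ∀ k l, |t * val k - t * val l| ≤ Cl) (hCl0 : 0 ≤ Cl) {α : κ → ℝ} {eα : ℝ}
    (hα : ∑ k, |(blk lab k).card / (N : ℝ) - α k| ≤ eα) {ε : ℝ}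
    (hε1 : epsR K Cl nn ((nn + 1) * (2 * e0)) ρ κ' δ ≤ ε) (hε2 : eα * K ≤ ε) :
    SDAlg.Rel α (fun k => t * val k) nn mm
      (fun k => Gam n hA eig t V a lam μ c sel nn (blk lab k))
      (pb n hA eig t V a lam μ c sel nn) ε where
  m0 := hmz
  mpos := hmp
  mmono := hmm
  mn := hmn
  G0 k := Gam_nonneg _ _
  Gmono k b _ := Gam_mono hμ.mem hc _ (Nat.le_succ b)
  p0 := pb_nonneg 0
  pmono b _ := by
    rw [pb_eq hμ.mem lab, pb_eq hμ.mem lab]
    exact Finset.sum_le_sum fun k _ => mul_le_mul_of_nonneg_left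
      (Gam_mono hμ.mem hc _ (Nat.le_succ b)) (by positivity)
  pn := pb_top hN
  papp b _ := by
    rw [pb_eq hμ.mem lab, ← Finset.sum_sub_distrib]
    refine (Finset.abs_sum_le_sum_abs _ _).trans ?_
    refine le_trans ?_ hε2
    have hK0 : ∀ k : κ, 0 ≤ K := by
      intro k
      have hN' : (0:ℝ) < N := by exact_mod_cast hN
      by_contra hneg
      push Not at hneg
      have h1 : K * (blk lab k).card ≤ 0 :=
        mul_nonpos_of_nonpos_of_nonneg hneg.le (Nat.cast_nonneg _)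
      linarith [hK k]
    have h1 : ∀ k ∈ (univ : Finset κ), |(blk lab k).card / (N : ℝ) *
        Gam n hA eig t V a lam μ c sel nn (blk lab k) b -
        α k * Gam n hA eig t V a lam μ c sel nn (blk lab k) b| ≤
        |(blk lab k).card / (N : ℝ) - α k| * K := by
      intro k _
      rw [← sub_mul, abs_mul, abs_of_nonneg (Gam_nonneg (blk lab k) b)]
      exact mul_le_mul_of_nonneg_left (Gam_le hμ.mem hN (hK k) b) (abs_nonneg _)
    refine (Finset.sum_le_sum h1).trans ?_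
    rw [← Finset.sum_mul]
    have hκne : Nonempty κ := ⟨lab ⟨0, hN⟩⟩
    exact mul_le_mul_of_nonneg_right hα (hK0 hκne.some)
  rel k l b hb := by
    by_cases hkl : k = l
    · subst hkl
      simp only [sub_self, zero_mul, abs_zero]
      refine le_trans ?_ hε1
      have he0 : 0 ≤ e0 := by
        refine le_trans ?_ (hcc k 0 (Nat.zero_le _))
        unfold cnc dav
        exact Finset.sum_nonneg fun d _ => mul_nonneg (dw_nonneg p N d)
          (integral_nonneg fun U => eE_nonneg (PQ_isProb n hA eig t V a lam U d) fun _ =>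
            abs_nonneg _)
      have hK0 : 0 ≤ K := by
        have hN' : (0:ℝ) < N := by exact_mod_cast hN
        by_contra hneg
        push Not at hneg
        have h1 : K * (blk lab k).card ≤ 0 :=
          mul_nonpos_of_nonpos_of_nonneg hneg.le (Nat.cast_nonneg _)
        linarith [hK k]
      unfold epsR
      positivity
    · have hd : Disjoint (blk lab k) (blk lab l) := by
        rw [Finset.disjoint_left]
        intro i h1 h2
        unfold blk at h1 h2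
        rw [Finset.mem_filter] at h1 h2
        exact hkl (h1.2.symm.trans h2.2)
      refine le_trans ?_ hε1
      refine rotSys hμ hN hd (lk := val k) (ll := val l) ?_ ?_ (hK k) (hK l) hnn hc hm0 hm1 hδ
        hlow hlo hhi (by rw [hmn]; linarith) hρ hκ hpur hz (hcc k) (hcc l) (hCl k l) hb
      · intro i hi
        unfold blk at hi
        rw [Finset.mem_filter] at hi
        rw [hlab i, hi.2]
      · intro i hi
        unfold blk at hi
        rw [Finset.mem_filter] at hi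
        rw [hlab i, hi.2]

end main

end

end Crest.Agent.R164.RSys
end

-- ▼ part R164/LStr5
section

/-!
Row 164, LSTRUCT-1, part 5: the system at fixed size.

`cells`: choice of the cells (helper278's `OvC.good_cells` for helper888's `RSys` notation).
`xi_low`, `xi_up`: exponents of the cells.  `small_fields`: hypothesis `hz` of `rotSys_rel`.
-/

set_option autoImplicit false

namespace Crest.Agent.R164.LStr

open Finset MeasureTheory Crest.Agent.R141 Crest.Agent.R164 Crest.Agent.R164.RSys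
open Crest.Agent.R164.Rot (OK xc)
open Crest.Agent.R164.RotRel (rr dav dav_add dav_smul dav_const dav_mono XU integrable_cont)

noncomputable section

variable {p : Par} {N n : ℕ} {A : Finset (Fin N → Bool)} {hA : A.Nonempty}
  {κ : Type} [Fintype κ] [DecidableEq κ]
  {eig : Fin N → ℝ} {t : ℝ} {V : (Fin N → Bool) → ℝ} {a lam : Fin N → Fin p.nc → ℝ}
  {μ : Measure (Fin N → Fin N → ℝ)} [IsProbabilityMeasure μ]

theorem continuous_h0q (σ : Fin N → Bool) :
    Continuous fun U : Fin N → Fin N → ℝ => SY.h0q eig (Matrix.of U) t V σ := by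
  unfold SY.h0q Mag.qd
  refine (continuous_const.mul (continuous_const.mul (continuous_finsetSum _ fun i _ =>
    continuous_const.mul ?_))).add continuous_const
  exact (Rot.continuous_xc (Crest.ProbabilityR.InvariantGlass.spinVec σ) i).pow 2

/-- **Choice of the cells.** -/
theorem cells (hμ : ∀ᵐ U ∂μ, U ∈ OK N) (hN : 0 < N) (hn : 0 < n) (lab : Fin N → κ)
    (hB : ∀ k, 0 < (blk lab k).card) {K : ℝ} (hK : ∀ k, (N : ℝ) ≤ K * (blk lab k).card)
    (bk : κ → ℕ → ℝ) (hlam : ∀ i (g : Fin p.nc), lam i g = bk (lab i) g) {κ0 Λ : ℝ}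
    (hκ0 : 0 < κ0) (hbk : ∀ k g, κ0 ≤ bk k g) (hbΛ : ∀ k g, bk k g ≤ Λ)
    (hsmall : Λ * Real.sqrt N ≤ Real.sqrt n / 8) (dd : κ → ℕ → ℝ) {e : ℝ} (he : 0 ≤ e)
    (hconc : ∀ k g, g < p.nc → dav (dw p N) μ (fun d U =>
      eE (PQ n hA eig t V a lam U d) (fun ω => |OvC.OH n hA p (blk lab k) g U ω - dd k g|)) ≤ e)
    {nw wc : ℕ} (hwc : 2 ≤ wc) (hp : p.nc = nw * wc) (sel : Fin p.nc → DD p N → Fin p.T)
    (hK0 : 0 ≤ K) :
    ∃ c : ℕ → Fin p.nc, (∀ b < nw, b * wc ≤ c b ∧ (c b : ℕ) < (b + 1) * wc) ∧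
      ∀ k, ∀ b ≤ nw, ∃ c0, cnc n hA eig t V a lam μ c sel nw (blk lab k) b c0 ≤
        OvC.errC (Fintype.card κ) p.nc (wc - 1) K κ0 e
          (52 * Λ ^ 2 * Real.sqrt N ^ 3 / Real.sqrt n) +
        K * ((e + 52 * Λ ^ 2 * Real.sqrt N ^ 3 / Real.sqrt n) / κ0 + ((p.nc : ℝ) + 1)⁻¹) := by
  set err : ℝ := 52 * Λ ^ 2 * Real.sqrt N ^ 3 / Real.sqrt n with herr
  have herr0 : 0 ≤ err := by rw [herr]; positivity
  have hdata := OvC.data_sys (n := n) (hA := hA)
    (h0 := fun U => SY.h0q eig (Matrix.of U) t V) (a := a) (lam := lam) hN hn μ hμ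
    (fun σ => continuous_h0q σ) (fun k => blk lab k) hB hK bk
    (fun k i hi g => by
      have h1 : lab i = k := (Finset.mem_filter.1 hi).2
      rw [hlam, h1]) hκ0 hbk hbΛ hsmall dd he hconc
  rw [← herr] at hdata
  have hw1 : 0 < wc - 1 := by omega
  obtain ⟨cell, hc1, hc2⟩ := OvC.good_cells hdata (fun b => b * wc) hw1 (J := nw) (by
    intro b hb
    have h1 : (b + 1) * wc ≤ nw * wc := Nat.mul_le_mul_right _ hb
    have h2 : (b + 1) * wc = b * wc + wc := by ring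
    show b * wc + (wc - 1) < p.nc
    omega)
  have hlt : ∀ b < nw, cell b < p.nc := by
    intro b hb
    have h1 : (b + 1) * wc ≤ nw * wc := Nat.mul_le_mul_right _ hb
    have h2 : (b + 1) * wc = b * wc + wc := by ring
    have h3 := (hc1 b hb).2
    omega
  set c : ℕ → Fin p.nc := fun b => if h : cell b < p.nc then ⟨cell b, h⟩ else ⟨0, p.hnc⟩ with hc
  have hcb : ∀ b < nw, (c b : ℕ) = cell b := by
    intro b hb
    simp only [hc, dif_pos (hlt b hb)]
  refine ⟨c, ?_, ?_⟩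
  · intro b hb
    rw [hcb b hb]
    have h3 := hc1 b hb
    have h2 : (b + 1) * wc = b * wc + wc := by ring
    refine ⟨h3.1, ?_⟩
    have := h3.2
    omega
  · intro k b hb
    have e1 : 0 ≤ OvC.errC (Fintype.card κ) p.nc (wc - 1) K κ0 e err := by
      unfold OvC.errC
      positivity
    have e2 : 0 ≤ K * ((e + err) / κ0 + ((p.nc : ℝ) + 1)⁻¹) := by positivity
    rcases Nat.lt_or_ge b nw with hb' | hb'
    · obtain ⟨c0, hc0⟩ := hc2 b hb' k (fun d => RSys.lv c sel nw d b) (fun d => by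
        have h1 : RSys.lv c sel nw d b = p.ct (c b) (sel (c b) d) := RSys.lv_of_lt hb' d
        have h2 := OvC.ct_mem p (g := (c b : ℕ)) (sel (c b) d).2
        rw [hcb b hb'] at h2
        show OvC.stp p (cell b) ≤ RSys.lv c sel nw d b ∧ RSys.lv c sel nw d b < OvC.stp p (cell b + 1)
        rw [h1, hcb b hb']
        exact h2)
      refine ⟨c0, le_trans (le_of_eq ?_) (hc0.trans (le_add_of_nonneg_right e2))⟩
      rfl
    · have hbe : b = nw := le_antisymm hb hb'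
      obtain ⟨c0, hc0⟩ := OvC.leaf_conc hdata k
      refine ⟨c0, le_trans (le_of_eq ?_) (hc0.trans (le_add_of_nonneg_left e1))⟩
      have h1 : ∀ d, RSys.lv c sel nw d b = (G.fil (SY.base p n A hA)).L := by
        intro d
        rw [hbe, RSys.lv_top]
        rfl
      unfold cnc OvC.Cm
      simp only [h1]
      rfl

/-- lower bound of the exponents. -/
theorem xi_low (p : Par) {nw wc : ℕ} (hp : p.nc = nw * wc) {b g : ℕ} (hb : b ≤ nw)
    (hnw : 0 < nw) (hg : b * wc ≤ g) : (b : ℝ) / nw ≤ p.xi g := by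
  have hnw' : (0 : ℝ) < nw := by exact_mod_cast hnw
  have hbn : (b : ℝ) ≤ nw := by exact_mod_cast hb
  have h1 : (b : ℝ) * wc ≤ g := by exact_mod_cast hg
  unfold Par.xi
  have h5 : ((p.nc : ℝ)) = nw * wc := by rw [hp]; push_cast; ring
  rw [h5, div_le_div_iff₀ hnw' (by positivity)]
  nlinarith

/-- upper bound of the exponents. -/
theorem xi_up (p : Par) {nw wc : ℕ} (hp : p.nc = nw * wc) {b g : ℕ}
    (hnw : 0 < nw) (hg : g < (b + 1) * wc) : p.xi g ≤ ((b : ℝ) + 1) / nw := by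
  have hnw' : (0 : ℝ) < nw := by exact_mod_cast hnw
  have h1 : (g : ℝ) + 1 ≤ (b + 1) * wc := by exact_mod_cast hg
  unfold Par.xi
  have h5 : ((p.nc : ℝ)) = nw * wc := by rw [hp]; push_cast; ring
  rw [h5, div_le_div_iff₀ (by positivity) hnw']
  nlinarith

/-- the constant of the second moments of the small fields. -/
def CZ (p : Par) (Lam CV Am : ℝ) : ℝ :=
  p.nc * (16 * (Lam / 2 + CV + 2 * Am ^ 2 * p.nc + 2 * p.nc) + 8 * (p.nc * p.T * p.τ) +
    32 * p.nc)

theorem CZ_nonneg (p : Par) {Lam CV Am : ℝ} (h1 : 0 ≤ Lam) (h2 : 0 ≤ CV) : 0 ≤ CZ p Lam CV Am := by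
  have := p.hτ0.le
  unfold CZ
  positivity

/-- hypothesis `hz` of `rotSys_rel`. -/
theorem small_fields (hμ : ∀ᵐ U ∂μ, U ∈ OK N) (hN : 0 < N) (hnb : p.nb = 0) {Lam CV Am Lm : ℝ}
    (hCV : 0 ≤ CV) (heig : ∀ i, |eig i| ≤ Lam) (ht : |t| ≤ 1) (hV : ∀ σ, |V σ| ≤ CV * N)
    (ha : ∀ i g, |a i g| ≤ Am) (hl : ∀ i g, |lam i g| ≤ Lm) (hLm : Lm ≤ 1) (hLm0 : 0 ≤ Lm)
    (K : ℝ) :
    4 * K ^ 2 * dav (dw p N) μ (fun d U => (N : ℝ)⁻¹ * eE (PQ n hA eig t V a lam U d)
      (fun ω => ∑ i, zz n hA lam i ω ^ 2)) ≤ 4 * K ^ 2 * (Lm ^ 2 * CZ p Lam CV Am) := by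
  have hN' : (0 : ℝ) < N := by exact_mod_cast hN
  have hN1 : (1 : ℝ) ≤ N := by exact_mod_cast hN
  have hLam : 0 ≤ Lam := (abs_nonneg _).trans (heig ⟨0, hN⟩)
  refine mul_le_mul_of_nonneg_left ?_ (by positivity)
  have h1 : ∀ d, ∀ᵐ U ∂μ, (N : ℝ)⁻¹ * eE (PQ n hA eig t V a lam U d)
      (fun ω => ∑ i, zz n hA lam i ω ^ 2) ≤ Lm ^ 2 * CZ p Lam CV Am := by
    intro d
    filter_upwards [hμ] with U hU
    have h0 : ∀ σ, |SY.h0q eig (Matrix.of U) t V σ| ≤ (Lam / 2 + CV) * N := by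
      intro σ
      unfold SY.h0q
      refine (abs_add_le _ _).trans ?_
      rw [abs_mul]
      have h2 := abs_qd_le heig hU σ
      have h3 : |t| * |Mag.qd eig (Matrix.of U) σ| ≤ 1 * (Lam / 2 * N) :=
        mul_le_mul ht h2 (abs_nonneg _) zero_le_one
      have := hV σ
      linarith
    have hH : ∀ s : SY.SS p n A, |Hs n A eig t V a lam U s| ≤
        ((Lam / 2 + CV) * N + 2 * Am ^ 2 * p.nc * N + 2 * Lm ^ 2 * p.nc * N) +
          1 / 8 * CSys.Ts s := fun s =>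
      abs_HS_le h0 ha hl (fun σ => (OvC.sum_xM_sq hU σ).le) s
    have h4 := small_sq_le hA hnb hH hl d
    have h5 : (N : ℝ)⁻¹ * eE (PQ n hA eig t V a lam U d) (fun ω => ∑ i, zz n hA lam i ω ^ 2) ≤
        (N : ℝ)⁻¹ * (Lm ^ 2 * p.nc * (16 * ((Lam / 2 + CV) * N + 2 * Am ^ 2 * p.nc * N +
          2 * Lm ^ 2 * p.nc * N) + 8 * (p.nc * p.T * p.τ) + 32 * (N * p.nc))) :=
      mul_le_mul_of_nonneg_left h4 (by positivity)
    refine h5.trans ?_
    have hτ := p.hτ0.le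
    have hc : (0 : ℝ) ≤ p.nc := Nat.cast_nonneg _
    have h6 : Lm ^ 2 ≤ 1 := by nlinarith
    have h7 : (16 * ((Lam / 2 + CV) * N + 2 * Am ^ 2 * p.nc * N +
          2 * Lm ^ 2 * p.nc * N) + 8 * (p.nc * p.T * p.τ) + 32 * (N * p.nc)) ≤
        N * (16 * (Lam / 2 + CV + 2 * Am ^ 2 * p.nc + 2 * p.nc) + 8 * (p.nc * p.T * p.τ) +
          32 * p.nc) := by
      have h8 : 2 * Lm ^ 2 * p.nc * N ≤ 2 * p.nc * N := by
        have := mul_le_mul_of_nonneg_right h6 (mul_nonneg hc hN'.le)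
        nlinarith
      have h9 : 8 * ((p.nc : ℝ) * p.T * p.τ) ≤ N * (8 * (p.nc * p.T * p.τ)) := by
        have : 0 ≤ 8 * ((p.nc : ℝ) * p.T * p.τ) := by positivity
        nlinarith
      nlinarith
    calc (N : ℝ)⁻¹ * (Lm ^ 2 * p.nc * (16 * ((Lam / 2 + CV) * N + 2 * Am ^ 2 * p.nc * N +
          2 * Lm ^ 2 * p.nc * N) + 8 * (p.nc * p.T * p.τ) + 32 * (N * p.nc))) ≤
        (N : ℝ)⁻¹ * (Lm ^ 2 * p.nc * (N * (16 * (Lam / 2 + CV + 2 * Am ^ 2 * p.nc + 2 * p.nc) +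
          8 * (p.nc * p.T * p.τ) + 32 * p.nc))) := by
          refine mul_le_mul_of_nonneg_left (mul_le_mul_of_nonneg_left h7 (by positivity))
            (by positivity)
      _ = Lm ^ 2 * CZ p Lam CV Am := by
          unfold CZ
          field_simp
  have h2 : dav (dw p N) μ (fun d U => (N : ℝ)⁻¹ * eE (PQ n hA eig t V a lam U d)
      (fun ω => ∑ i, zz n hA lam i ω ^ 2)) ≤
      dav (dw p N) μ (fun _ _ => Lm ^ 2 * CZ p Lam CV Am) := by
    refine dav_mono (dw_nonneg p N) (fun d => ?_) (fun d => integrable_const _) h1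
    exact (integrable_cont hμ (cont_eEf n hA eig t V a lam d (f := fun _ ω =>
        ∑ i, zz n hA lam i ω ^ 2) fun ω => continuous_const)).const_mul _
  rwa [dav_const (dw_sum p hN)] at h2

end

end Crest.Agent.R164.LStr
end

-- ▼ part R164/LStr6
section

/-!
Row 164, LSTRUCT-1, part 6: the structure theorem with all quantifiers.
-/

set_option autoImplicit false

namespace Crest.Agent.R164.LStr

open Finset MeasureTheory Crest.Agent.R141 Crest.Agent.R164 Crest.Agent.R164.RSys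
open Crest.Agent.R164.Rot (OK xc)
open Crest.Agent.R164.RotRel (rr dav dav_add dav_smul dav_const dav_mono XU integrable_cont)

noncomputable section

/-- `SDAlg.Rel` only depends on `m b` for `b ≤ n`. -/
theorem rel_congr_m {κ : Type} [Fintype κ] {α θ : κ → ℝ} {n : ℕ} {m m' : ℕ → ℝ}
    {G : κ → ℕ → ℝ} {q : ℕ → ℝ} {ε : ℝ} (hm : ∀ b, b ≤ n → m b = m' b)
    (h : SDAlg.Rel α θ n m G q ε) : SDAlg.Rel α θ n m' G q ε := by
  have hDl : ∀ (F : ℕ → ℝ) a, SDAlg.Dl m' n F a = SDAlg.Dl m n F a := by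
    intro F a
    unfold SDAlg.Dl
    refine Finset.sum_congr rfl fun b hb => ?_
    rw [Finset.mem_Ico] at hb
    rw [hm (b + 1) (by omega)]
  exact {
    m0 := by rw [← hm 0 (Nat.zero_le n)]; exact h.m0
    mpos := fun b h1 h2 => by rw [← hm b h2]; exact h.mpos b h1 h2
    mmono := fun b hb => by rw [← hm b hb.le, ← hm (b + 1) hb]; exact h.mmono b hb
    mn := by rw [← hm n le_rfl]; exact h.mn
    G0 := h.G0
    Gmono := h.Gmono
    p0 := h.p0
    pmono := h.pmono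
    pn := h.pn
    papp := h.papp
    rel := by
      intro k l a ha
      have e : SDAlg.Br m' n (G k) (G l) a = SDAlg.Br m n (G k) (G l) a := by
        unfold SDAlg.Br
        rw [hDl, hDl]
        congr 1
        refine Finset.sum_congr rfl fun b hb => ?_
        rw [Finset.mem_range] at hb
        rw [hm (b + 1) (by omega)]
      rw [e]
      exact h.rel k l a ha }

/-- concentration of the observables of the small fields. -/
def DC {p : Par} {N : ℕ} (n : ℕ) {A : Finset (Fin N → Bool)} (hA : A.Nonempty) {κ : Type}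
    [Fintype κ] [DecidableEq κ] (μ : Measure (Fin N → Fin N → ℝ)) (lab : Fin N → κ)
    (eig : Fin N → ℝ) (t : ℝ) (V : (Fin N → Bool) → ℝ) (a lam : Fin N → Fin p.nc → ℝ)
    (δ : ℝ) : Prop :=
  ∀ (k : κ) (g : ℕ), g < p.nc → ∃ dd : ℝ, dav (dw p N) μ (fun d U =>
    eE (PQ n hA eig t V a lam U d) (fun ω => |OvC.OH n hA p (blk lab k) g U ω - dd|)) ≤ δ

theorem exists_wm {κ : Type} [Fintype κ] [Nonempty κ] {w : κ → ℝ} (hw : ∀ k, 0 < w k) :
    ∃ wm : ℝ, 0 < wm ∧ ∀ k, wm ≤ w k := by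
  obtain ⟨k0, -, hk0⟩ := Finset.exists_min_image (univ : Finset κ) w Finset.univ_nonempty
  exact ⟨w k0, hw k0, fun k => hk0 k (Finset.mem_univ k)⟩

theorem err_le {β δ1 : ℝ} (hβ0 : 0 ≤ β) (hβ : 2 * β ≤ 1) (hδ1 : 0 < δ1) {N n : ℕ}
    (hn : (52 / δ1) ^ 2 * (N : ℝ) ^ 3 ≤ n) (hn0 : 0 < n) :
    52 * (2 * β) ^ 2 * Real.sqrt N ^ 3 / Real.sqrt n ≤ δ1 := by
  have hn' : (0 : ℝ) < n := by exact_mod_cast hn0
  have hs : 0 < Real.sqrt n := Real.sqrt_pos.2 hn'
  rw [div_le_iff₀ hs]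
  have h1 : (2 * β) ^ 2 ≤ 1 := by nlinarith
  have h2 : 0 ≤ Real.sqrt N ^ 3 := by positivity
  have h3 : 52 / δ1 * Real.sqrt N ^ 3 ≤ Real.sqrt n := by
    apply Real.le_sqrt_of_sq_le
    rw [mul_pow, ← pow_mul, mul_comm 3 2, pow_mul, Real.sq_sqrt (Nat.cast_nonneg N)]
    exact hn
  calc 52 * (2 * β) ^ 2 * Real.sqrt N ^ 3 ≤ 52 * 1 * Real.sqrt N ^ 3 := by
        refine mul_le_mul_of_nonneg_right ?_ h2
        linarith
    _ = δ1 * (52 / δ1 * Real.sqrt N ^ 3) := by field_simp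
    _ ≤ δ1 * Real.sqrt n := mul_le_mul_of_nonneg_left h3 hδ1.le

theorem small_le {β : ℝ} (hβ : 2 * β ≤ 1) {N n : ℕ} (hn : 64 * N ≤ n) :
    2 * β * Real.sqrt N ≤ Real.sqrt n / 8 := by
  have h1 : Real.sqrt N ≤ Real.sqrt n / 8 := by
    rw [le_div_iff₀ (by norm_num)]
    have h2 : Real.sqrt N * 8 = Real.sqrt (64 * N) := by
      rw [Real.sqrt_mul (by norm_num)]
      have : Real.sqrt 64 = 8 := by
        rw [show (64 : ℝ) = 8 ^ 2 by norm_num, Real.sqrt_sq (by norm_num)]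
      rw [this, mul_comm]
    rw [h2]
    exact Real.sqrt_le_sqrt (by exact_mod_cast hn)
  calc 2 * β * Real.sqrt N ≤ 1 * Real.sqrt N :=
        mul_le_mul_of_nonneg_right hβ (Real.sqrt_nonneg _)
    _ ≤ _ := by rw [one_mul]; exact h1

/-- **LSTRUCT-1: the structure theorem**, explicit constants; `p` does not depend on `CV`. -/
theorem lstr_core {κ : Type} [Fintype κ] [DecidableEq κ] [Nonempty κ] {w val : κ → ℝ}
    {wm : ℝ} (hwm0 : 0 < wm) (hwm : ∀ k, wm ≤ w k)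
    {Lam : ℝ} (hval : ∀ k, |val k| ≤ Lam) (M : ℕ) (e0 : ℝ) (he0 : 0 < e0) :
    ∃ (wc : ℕ) (p : Par), 2 ≤ wc ∧ p.nc = (M + 1) * wc ∧ p.nb = 0 ∧
      ∀ CV : ℝ, 0 ≤ CV → ∀ Am : ℝ, ∃ βm : ℝ, 0 < βm ∧
      ∀ β : ℝ, 0 < β → β ≤ βm → ∃ δ : ℝ, 0 < δ ∧
      Fintype.card κ * (δ * (2 / wm)) ≤ 1 / ((M : ℝ) + 1) ∧
      ∃ (N0 : ℕ) (n0 : ℕ → ℕ), ∀ N, N0 ≤ N → ∀ n, n0 N ≤ n →
      ∀ (A : Finset (Fin N → Bool)) (hA : A.Nonempty) (μ : Measure (Fin N → Fin N → ℝ)),
      IsProbabilityMeasure μ → Haar.RHaar μ → ∀ lab : Fin N → κ,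
      (∀ k, |((blk lab k).card : ℝ) / N - w k| ≤ δ) → ∀ t : ℝ, |t| ≤ 1 →
      ∀ V : (Fin N → Bool) → ℝ, (∀ σ, |V σ| ≤ CV * N) → ∀ a : Fin N → Fin p.nc → ℝ,
      (∀ i g, |a i g| ≤ Am) → ∀ bk : κ → Fin p.nc → ℝ, (∀ k g, β ≤ bk k g ∧ bk k g ≤ 2 * β) →
      DC n hA μ lab (fun i => val (lab i)) t V a (fun i g => bk (lab i) g) δ →
      ∃ (c : ℕ → Fin p.nc) (sel : Fin p.nc → DD p N → Fin p.T),
        (∀ b ≤ M, b * wc ≤ c b ∧ (c b : ℕ) < (b + 1) * wc) ∧
        SDAlg.Rel w (fun k => t * val k) (M + 1) (fun b => (b : ℝ) / ((M : ℝ) + 1))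
          (fun k => Gam n hA (fun i => val (lab i)) t V a (fun i g => bk (lab i) g) μ c sel
            (M + 1) (blk lab k))
          (pb n hA (fun i => val (lab i)) t V a (fun i g => bk (lab i) g) μ c sel (M + 1))
          ((8 * Lam * (2 / wm) ^ 2 + 3) / ((M : ℝ) + 1)) ∧
        (∀ k, ∀ b ≤ M + 1, cnc n hA (fun i => val (lab i)) t V a (fun i g => bk (lab i) g) μ c
          sel (M + 1) (blk lab k) b (Gam n hA (fun i => val (lab i)) t V a
            (fun i g => bk (lab i) g) μ c sel (M + 1) (blk lab k) b) ≤ e0) ∧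
        (∀ b ≤ M, Ed p N (fun d => ∫ U, G.purNum (SY.base p n A hA)
          (Hs n A (fun i => val (lab i)) t V a (fun i g => bk (lab i) g) U)
          (c b, sel (c b) d) d ∂μ) ≤ e0) ∧
        (∀ k, (N : ℝ) ≤ 2 / wm * (blk lab k).card) := by
  have hLam : 0 ≤ Lam := (abs_nonneg _).trans (hval (Classical.arbitrary κ))
  set K : ℝ := 2 / wm with hKdef
  have hK : 0 < K := by positivity
  set κc : ℝ := (Fintype.card κ : ℝ) with hκc
  have hκ1 : 1 ≤ κc := by
    rw [hκc]; exact_mod_cast Fintype.card_pos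
  have hκ0 : 0 < κc := by linarith
  set R : ℝ := (M : ℝ) + 1 with hR
  have hR1 : 1 ≤ R := by rw [hR]; linarith [Nat.cast_nonneg (α := ℝ) M]
  have hR0 : 0 < R := by linarith
  -- constants
  set X1 : ℝ := (R + 1) * 2 * (2 + 12 * (2 * Lam) * R * K) with hX1
  have hX1p : 0 < X1 := by positivity
  set e1 : ℝ := min (e0 / 2) (1 / (R * X1)) with he1
  have he1p : 0 < e1 := by rw [he1]; positivity
  have he1a : e1 ≤ e0 / 2 := min_le_left _ _
  have he1b : e1 * X1 ≤ 1 / R := by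
    have h : e1 ≤ 1 / (R * X1) := min_le_right _ _
    rw [le_div_iff₀ (by positivity)] at h
    rw [le_div_iff₀ hR0]
    linarith
  set X2 : ℝ := 2 * Lam * (6 * R * ((2 * R + 3) * K ^ 2)) + 1 with hX2
  have hX2p : 0 < X2 := by positivity
  set ρ : ℝ := min (1 / (R * X2)) (min 1 e0) with hρ
  have hρp : 0 < ρ := by rw [hρ]; positivity
  have hρ1 : ρ ≤ 1 := (min_le_right _ _).trans (min_le_left _ _)
  have hρe : ρ ^ 2 ≤ e0 := by
    have h1 : ρ ≤ e0 := (min_le_right _ _).trans (min_le_right _ _)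
    nlinarith
  have hρb : ρ * X2 ≤ 1 / R := by
    have h : ρ ≤ 1 / (R * X2) := min_le_left _ _
    rw [le_div_iff₀ (by positivity)] at h
    rw [le_div_iff₀ hR0]
    linarith
  obtain ⟨wc1, hwc1⟩ := exists_nat_gt (4 * κc * K / e1)
  have hwc1p : (0 : ℝ) < wc1 := lt_of_le_of_lt (by positivity) hwc1
  have hwc1n : 0 < wc1 := by exact_mod_cast hwc1p
  have hwq : κc * K / wc1 ≤ e1 / 4 := by
    rw [div_lt_iff₀ he1p] at hwc1
    rw [div_le_iff₀ hwc1p]
    linarith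
  obtain ⟨p, hp1, hp2, NP, hNP⟩ := G.spin_purity ((M + 1) * (wc1 + 1)) (by positivity)
    (sq_pos_of_pos hρp)
  refine ⟨wc1 + 1, p, by omega, hp1, hp2, ?_⟩
  intro CV hCV Am
  have hncR : (p.nc : ℝ) = R * (wc1 + 1) := by rw [hp1, hR]; push_cast; ring
  have hnc1 : (wc1 : ℝ) ≤ (p.nc : ℝ) + 1 := by rw [hncR]; nlinarith
  have hKn : K * ((p.nc : ℝ) + 1)⁻¹ ≤ e1 / 4 := by
    refine le_trans ?_ hwq
    rw [← div_eq_mul_inv]
    exact div_le_div₀ (by positivity) (by nlinarith) hwc1p hnc1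
  set Z : ℝ := Real.sqrt (CZ p Lam CV Am) with hZ
  have hZ0 : 0 ≤ Z := Real.sqrt_nonneg _
  have hZ2 : Z ^ 2 = CZ p Lam CV Am := Real.sq_sqrt (CZ_nonneg p hLam hCV)
  set X3 : ℝ := (4 * K * Z + 1) * (3 / 2 * (K ^ 2 + 1)) with hX3
  have hX3p : 0 < X3 := by positivity
  refine ⟨min (1 / 2) (1 / (R * X3)), by positivity, ?_⟩
  intro β hβ hβm
  have hβ1 : 2 * β ≤ 1 := by
    have := hβm.trans (min_le_left _ _)
    linarith
  have hβX : β * X3 ≤ 1 / R := by
    have h : β ≤ 1 / (R * X3) := hβm.trans (min_le_right _ _)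
    rw [le_div_iff₀ (by positivity)] at h
    rw [le_div_iff₀ hR0]
    linarith
  set δ1 : ℝ := β * e1 / (16 * K * ((p.nc : ℝ) + 1)) with hδ1
  have hδ1p : 0 < δ1 := by positivity
  have hX4 : 0 < 1 / (κc * K * R) := by positivity
  refine ⟨min δ1 (min (wm / 2) (1 / (κc * K * R))), by positivity, ?_, max NP 1,
    fun N => ⌈(52 / δ1) ^ 2 * (N : ℝ) ^ 3⌉₊ + 64 * N + 1, ?_⟩
  · have h : min δ1 (min (wm / 2) (1 / (κc * K * R))) ≤ 1 / (κc * K * R) :=
      (min_le_right _ _).trans (min_le_right _ _)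
    rw [le_div_iff₀ (by positivity)] at h
    rw [le_div_iff₀ hR0]
    linarith
  intro N hN n hn A hA μ hμ1 hμ lab hlab t ht V hV a ha bk hbk hDC
  set δ : ℝ := min δ1 (min (wm / 2) (1 / (κc * K * R))) with hδ
  have hδa : δ ≤ δ1 := min_le_left _ _
  have hδb : δ ≤ wm / 2 := (min_le_right _ _).trans (min_le_left _ _)
  have hδc : κc * δ * K ≤ 1 / R := by
    have h : δ ≤ 1 / (κc * K * R) := (min_le_right _ _).trans (min_le_right _ _)
    rw [le_div_iff₀ (by positivity)] at h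
    rw [le_div_iff₀ hR0]
    linarith
  have hδp : 0 < δ := by rw [hδ]; positivity
  have hNpos : 0 < N := lt_of_lt_of_le one_pos ((le_max_right _ _).trans hN)
  have hN' : (0 : ℝ) < N := by exact_mod_cast hNpos
  have hn : ⌈(52 / δ1) ^ 2 * (N : ℝ) ^ 3⌉₊ + 64 * N + 1 ≤ n := hn
  have hnpos : 0 < n := by omega
  have hn1 : (52 / δ1) ^ 2 * (N : ℝ) ^ 3 ≤ n := by
    refine (Nat.le_ceil _).trans ?_
    exact_mod_cast (by omega : ⌈(52 / δ1) ^ 2 * (N : ℝ) ^ 3⌉₊ ≤ n)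
  have hn2 : 64 * N ≤ n := by omega
  -- blocks
  have hKc : ∀ k, (N : ℝ) ≤ K * (blk lab k).card := by
    intro k
    have h1 := (abs_le.1 (hlab k)).1
    have h2 := hwm k
    have h3 : wm / 2 ≤ ((blk lab k).card : ℝ) / N := by linarith
    rw [le_div_iff₀ hN'] at h3
    rw [hKdef, div_mul_eq_mul_div, le_div_iff₀ hwm0]
    linarith
  have hBc : ∀ k, 0 < (blk lab k).card := by
    intro k
    rcases Nat.eq_zero_or_pos (blk lab k).card with h | h
    · have := hKc k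
      rw [h] at this
      simp at this
      linarith
    · exact h
  -- purity
  obtain ⟨sel, hsel⟩ := hNP N ((le_max_left _ _).trans hN) (SY.base p n A hA)
    (Fin N → Fin N → ℝ) μ (fun U s => Hs n A (fun i => val (lab i)) t V a
      (fun i g => bk (lab i) g) U s)
    (fun s => meas_Hs n (fun i => val (lab i)) t V a (fun i g => bk (lab i) g) s)
  -- cells
  have hdd : ∀ (k : κ) (g : ℕ), ∃ dd : ℝ, g < p.nc → dav (dw p N) μ (fun d U =>
      eE (PQ n hA (fun i => val (lab i)) t V a (fun i g => bk (lab i) g) U d)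
        (fun ω => |OvC.OH n hA p (blk lab k) g U ω - dd|)) ≤ δ := by
    intro k g
    by_cases hg : g < p.nc
    · obtain ⟨dd, h⟩ := hDC k g hg
      exact ⟨dd, fun _ => h⟩
    · exact ⟨0, fun h => absurd h hg⟩
  choose dd hdd using hdd
  have hbk' : ∀ (k : κ) (g : ℕ), β ≤ (if h : g < p.nc then bk k ⟨g, h⟩ else β) ∧
      (if h : g < p.nc then bk k ⟨g, h⟩ else β) ≤ 2 * β := by
    intro k g
    split_ifs with h
    · exact hbk k ⟨g, h⟩
    · exact ⟨le_rfl, by linarith⟩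
  obtain ⟨c, hc1, hc2⟩ := cells (n := n) (hA := hA) (eig := fun i => val (lab i)) (t := t)
    (V := V) (a := a) (lam := fun i g => bk (lab i) g) (μ := μ) hμ.mem hNpos hnpos lab hBc hKc
    (fun k g => if h : g < p.nc then bk k ⟨g, h⟩ else β)
    (fun i g => by
      show bk (lab i) g = if h : (g : ℕ) < p.nc then bk (lab i) ⟨(g : ℕ), h⟩ else β
      rw [dif_pos g.2]) hβ (fun k g => (hbk' k g).1) (fun k g => (hbk' k g).2)
    (small_le hβ1 hn2) dd hδp.le (fun k g hg => hdd k g hg) (nw := M + 1) (wc := wc1 + 1)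
    (by omega) hp1 sel hK.le
  have herr : 52 * (2 * β) ^ 2 * Real.sqrt N ^ 3 / Real.sqrt n ≤ δ1 :=
    err_le hβ.le hβ1 hδ1p hn1 hnpos
  set err : ℝ := 52 * (2 * β) ^ 2 * Real.sqrt N ^ 3 / Real.sqrt n with herrd
  have herr0 : 0 ≤ err := by rw [herrd]; positivity
  have hE1 : OvC.errC (Fintype.card κ) p.nc (wc1 + 1 - 1) K β δ err +
      K * ((δ + err) / β + ((p.nc : ℝ) + 1)⁻¹) ≤ e1 := by
    have hnc0 : (0 : ℝ) < (p.nc : ℝ) + 1 := by positivity
    have h1 : (δ + err) / β ≤ e1 / (8 * K * ((p.nc : ℝ) + 1)) := by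
      rw [div_le_iff₀ hβ]
      have h2 : e1 / (8 * K * ((p.nc : ℝ) + 1)) * β = 2 * δ1 := by
        rw [hδ1]; field_simp; ring
      rw [h2]; linarith
    have h3 : (K * ((p.nc : ℝ) + 1)) * (2 * ((δ + err) / β)) ≤ e1 / 4 := by
      have h4 : (K * ((p.nc : ℝ) + 1)) * (2 * ((δ + err) / β)) ≤
          (K * ((p.nc : ℝ) + 1)) * (2 * (e1 / (8 * K * ((p.nc : ℝ) + 1)))) :=
        mul_le_mul_of_nonneg_left (mul_le_mul_of_nonneg_left h1 (by norm_num)) (by positivity)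
      refine h4.trans (le_of_eq ?_)
      field_simp
      norm_num
    have h5 : K * ((δ + err) / β) ≤ e1 / 4 := by
      have h6 : K * ((δ + err) / β) ≤ K * (e1 / (8 * K * ((p.nc : ℝ) + 1))) :=
        mul_le_mul_of_nonneg_left h1 hK.le
      refine h6.trans ?_
      have h7 : K * (e1 / (8 * K * ((p.nc : ℝ) + 1))) = e1 / (8 * ((p.nc : ℝ) + 1)) := by
        field_simp
      rw [h7]
      refine div_le_div_of_nonneg_left he1p.le (by norm_num) ?_
      have : (0 : ℝ) ≤ p.nc := Nat.cast_nonneg _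
      linarith
    have h8 : ((wc1 + 1 - 1 : ℕ) : ℝ) = wc1 := by
      rw [Nat.add_sub_cancel]
    unfold OvC.errC
    rw [h8, mul_add]
    have h9 : (Fintype.card κ : ℝ) * K / wc1 ≤ e1 / 4 := hwq
    linarith
  have hcc : ∀ k, ∀ b ≤ M + 1, ∃ c0, cnc n hA (fun i => val (lab i)) t V a
      (fun i g => bk (lab i) g) μ c sel (M + 1) (blk lab k) b c0 ≤ e1 := by
    intro k b hb
    obtain ⟨c0, h⟩ := hc2 k b hb
    exact ⟨c0, h.trans hE1⟩
  have hcc' : ∀ (k : κ) (b : ℕ), ∃ c0, b ≤ M + 1 → cnc n hA (fun i => val (lab i)) t V a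
      (fun i g => bk (lab i) g) μ c sel (M + 1) (blk lab k) b c0 ≤ e1 := by
    intro k b
    by_cases hb : b ≤ M + 1
    · obtain ⟨c0, h⟩ := hcc k b hb
      exact ⟨c0, fun _ => h⟩
    · exact ⟨0, fun h => absurd h hb⟩
  choose cc hcc' using hcc'
  have hwin : ∀ b < M + 1, b * (wc1 + 1) ≤ c b ∧ (c b : ℕ) < (b + 1) * (wc1 + 1) := hc1
  have hcm : ∀ b, b + 1 < M + 1 → (c b : ℕ) < c (b + 1) := by
    intro b hb
    have h1 := (hwin b (by omega)).2
    have h2 := (hwin (b + 1) hb).1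
    omega
  refine ⟨c, sel, fun b hb => hwin b (by omega), ?_, ?_, ?_, hKc⟩
  · -- the relations
    have hRc : ((M + 1 : ℕ) : ℝ) = R := by rw [hR]; push_cast; ring
    have hRi : (0 : ℝ) ≤ 1 / R := by positivity
    refine rel_congr_m (m := fun b => min 1 ((b : ℝ) / R)) ?_ ?_
    · intro b hb
      have h1 : (b : ℝ) / R ≤ 1 := by
        rw [div_le_one hR0, ← hRc]
        exact_mod_cast hb
      exact min_eq_right h1
    · refine rotSys_rel (K := K) (nn := M + 1) (mm := fun b => min 1 ((b : ℝ) / R)) hμ hNpos lab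
        (val := val) (fun i => rfl) hKc (Nat.succ_pos M) hcm (by simp) ?_ ?_ ?_ ?_ ?_
        (δ := 1 / R) hRi ?_ ?_ ?_ (ρ := ρ) (κ' := β * (4 * K * Z + 1)) hρp (by positivity)
        (fun b _ => hsel (c b)) ?_ (cc := cc) (e0 := e1) (fun k b hb => hcc' k b hb)
        (Cl := 2 * Lam) ?_ (by positivity) (eα := κc * δ) ?_ ?_ ?_
      · intro b hb1 _
        have : (0 : ℝ) < b := by exact_mod_cast hb1
        positivity
      · intro b _
        refine min_le_min le_rfl (div_le_div_of_nonneg_right ?_ hR0.le)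
        push_cast; linarith
      · show min 1 (((M + 1 : ℕ) : ℝ) / R) = 1
        rw [hRc, div_self hR0.ne', min_self]
      · intro b; positivity
      · intro b; exact min_le_left _ _
      · have h := xi_up p hp1 (b := 0) (g := c 0) (Nat.succ_pos M) (hwin 0 (Nat.succ_pos M)).2
        rw [hRc] at h
        simpa using h
      · intro b hb
        have h := xi_low p hp1 (b := b) (g := c b) hb.le (Nat.succ_pos M) (hwin b hb).1
        rw [hRc] at h
        have h2 : min 1 (((b + 1 : ℕ) : ℝ) / R) ≤ (b : ℝ) / R + 1 / R := by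
          refine (min_le_right _ _).trans (le_of_eq ?_)
          push_cast; ring
        show min 1 (((b + 1 : ℕ) : ℝ) / R) - 1 / R ≤ p.xi (c b)
        linarith
      · intro b hb
        have h := xi_up p hp1 (b := b + 1) (g := c (b + 1)) (Nat.succ_pos M) (hwin (b + 1) hb).2
        rw [hRc] at h
        have h2 : min 1 (((b + 1 : ℕ) : ℝ) / R) = ((b + 1 : ℕ) : ℝ) / R := by
          refine min_eq_right ?_
          rw [div_le_one hR0, ← hRc]
          exact_mod_cast hb.le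
        show p.xi (c (b + 1)) ≤ min 1 (((b + 1 : ℕ) : ℝ) / R) + 1 / R
        rw [h2]
        refine h.trans (le_of_eq ?_)
        push_cast; ring
      · -- small fields
        refine (small_fields (Lam := Lam) (CV := CV) (Am := Am) (Lm := 2 * β) hμ.mem hNpos hp2 hCV
          (fun i => hval (lab i)) ht hV ha (fun i g => ?_) hβ1 (by positivity) K).trans ?_
        · have h := hbk (lab i) g
          rw [abs_of_nonneg (hβ.le.trans h.1)]
          exact h.2
        · rw [← hZ2]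
          have h1 : 4 * K ^ 2 * ((2 * β) ^ 2 * Z ^ 2) = (β * (4 * K * Z)) ^ 2 := by ring
          rw [h1]
          refine pow_le_pow_left₀ (by positivity) ?_ 2
          refine mul_le_mul_of_nonneg_left ?_ hβ.le
          linarith
      · -- Cl
        intro k l
        have h1 : |t * val k - t * val l| ≤ |t| * |val k - val l| := by
          rw [← mul_sub, abs_mul]
        refine h1.trans ?_
        have h2 : |val k - val l| ≤ 2 * Lam := by
          have a1 := abs_le.1 (hval k)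
          have a2 := abs_le.1 (hval l)
          rw [abs_le]
          constructor <;> linarith [a1.1, a1.2, a2.1, a2.2]
        calc |t| * |val k - val l| ≤ 1 * (2 * Lam) :=
              mul_le_mul ht h2 (abs_nonneg _) zero_le_one
          _ = 2 * Lam := one_mul _
      · -- eα
        refine (Finset.sum_le_sum fun k _ => hlab k).trans (le_of_eq ?_)
        rw [Finset.sum_const, Finset.card_univ, nsmul_eq_mul]
      · -- ε1
        unfold epsR
        rw [hRc]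
        have t1 : 2 * ((R + 1) * (2 * e1)) +
            2 * Lam * (6 * R * (2 * K * ((R + 1) * (2 * e1)))) = e1 * X1 := by
          rw [hX1]; ring
        have t2 : 2 * Lam * (6 * R * ((2 * R + 3) * K ^ 2 * ρ)) ≤ ρ * X2 := by
          rw [hX2]
          have : 2 * Lam * (6 * R * ((2 * R + 3) * K ^ 2 * ρ)) =
            ρ * (2 * Lam * (6 * R * ((2 * R + 3) * K ^ 2))) := by ring
          rw [this]
          exact mul_le_mul_of_nonneg_left (by linarith) hρp.le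
        have t3 : 3 / 2 * (β * (4 * K * Z + 1)) * (K ^ 2 + 1) = β * X3 := by
          rw [hX3]; ring
        have t4 : 2 * Lam * (4 * (1 / R) * K ^ 2) = 8 * Lam * K ^ 2 / R := by ring
        have t5 : (8 * Lam * K ^ 2 + 3) / R = 8 * Lam * K ^ 2 / R + 3 * (1 / R) := by ring
        have t6 : 2 * ((R + 1) * (2 * e1)) + 2 * Lam * (4 * (1 / R) * K ^ 2 +
            6 * R * ((2 * R + 3) * K ^ 2 * ρ + 2 * K * ((R + 1) * (2 * e1)))) +
            3 / 2 * (β * (4 * K * Z + 1)) * (K ^ 2 + 1) =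
            (2 * ((R + 1) * (2 * e1)) +
            2 * Lam * (6 * R * (2 * K * ((R + 1) * (2 * e1))))) +
            2 * Lam * (4 * (1 / R) * K ^ 2) + 2 * Lam * (6 * R * ((2 * R + 3) * K ^ 2 * ρ)) +
            3 / 2 * (β * (4 * K * Z + 1)) * (K ^ 2 + 1) := by ring
        rw [t6, t1, t3, t4, t5]
        linarith
      · -- ε2
        refine hδc.trans ?_
        refine div_le_div_of_nonneg_right ?_ hR0.le
        nlinarith [mul_nonneg hLam (sq_nonneg K)]
  · intro k b hb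
    refine (cnc_Gam hμ.mem hNpos (blk lab k) b (cc k b)).trans ?_
    linarith [hcc' k b hb]
  · intro b _
    exact (hsel (c b)).trans hρe

/-- **LSTRUCT-1: the structure theorem**, constants and `p` before `CV`. -/
theorem lstr_main' {κ : Type} [Fintype κ] [DecidableEq κ] [Nonempty κ] {w val : κ → ℝ}
    (hw : ∀ k, 0 < w k) {Lam : ℝ} (hval : ∀ k, |val k| ≤ Lam) :
    ∃ C K : ℝ, 1 ≤ C ∧ 0 < K ∧ ∀ (M : ℕ) (e0 : ℝ), 0 < e0 → ∃ (wc : ℕ) (p : Par),
      2 ≤ wc ∧ p.nc = (M + 1) * wc ∧ p.nb = 0 ∧ ∀ CV : ℝ, 0 ≤ CV → ∀ Am : ℝ, ∃ βm : ℝ, 0 < βm ∧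
      ∀ β : ℝ, 0 < β → β ≤ βm → ∃ δ : ℝ, 0 < δ ∧ Fintype.card κ * (δ * K) ≤ 1 / ((M : ℝ) + 1) ∧
      ∃ (N0 : ℕ) (n0 : ℕ → ℕ), ∀ N, N0 ≤ N → ∀ n, n0 N ≤ n →
      ∀ (A : Finset (Fin N → Bool)) (hA : A.Nonempty) (μ : Measure (Fin N → Fin N → ℝ)),
      IsProbabilityMeasure μ → Haar.RHaar μ → ∀ lab : Fin N → κ,
      (∀ k, |((blk lab k).card : ℝ) / N - w k| ≤ δ) → ∀ t : ℝ, |t| ≤ 1 →
      ∀ V : (Fin N → Bool) → ℝ, (∀ σ, |V σ| ≤ CV * N) → ∀ a : Fin N → Fin p.nc → ℝ,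
      (∀ i g, |a i g| ≤ Am) → ∀ bk : κ → Fin p.nc → ℝ, (∀ k g, β ≤ bk k g ∧ bk k g ≤ 2 * β) →
      DC n hA μ lab (fun i => val (lab i)) t V a (fun i g => bk (lab i) g) δ →
      ∃ (c : ℕ → Fin p.nc) (sel : Fin p.nc → DD p N → Fin p.T),
        (∀ b ≤ M, b * wc ≤ c b ∧ (c b : ℕ) < (b + 1) * wc) ∧
        SDAlg.Rel w (fun k => t * val k) (M + 1) (fun b => (b : ℝ) / ((M : ℝ) + 1))
          (fun k => Gam n hA (fun i => val (lab i)) t V a (fun i g => bk (lab i) g) μ c sel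
            (M + 1) (blk lab k))
          (pb n hA (fun i => val (lab i)) t V a (fun i g => bk (lab i) g) μ c sel (M + 1))
          (C / ((M : ℝ) + 1)) ∧
        (∀ k, ∀ b ≤ M + 1, cnc n hA (fun i => val (lab i)) t V a (fun i g => bk (lab i) g) μ c
          sel (M + 1) (blk lab k) b (Gam n hA (fun i => val (lab i)) t V a
            (fun i g => bk (lab i) g) μ c sel (M + 1) (blk lab k) b) ≤ e0) ∧
        (∀ b ≤ M, Ed p N (fun d => ∫ U, G.purNum (SY.base p n A hA)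
          (Hs n A (fun i => val (lab i)) t V a (fun i g => bk (lab i) g) U)
          (c b, sel (c b) d) d ∂μ) ≤ e0) ∧
        (∀ k, (N : ℝ) ≤ K * (blk lab k).card) := by
  obtain ⟨wm, hwm0, hwm⟩ := exists_wm hw
  have hLam : 0 ≤ Lam := (abs_nonneg _).trans (hval (Classical.arbitrary κ))
  have hK : 0 < 2 / wm := by positivity
  exact ⟨8 * Lam * (2 / wm) ^ 2 + 3, 2 / wm, by nlinarith [mul_nonneg hLam (sq_nonneg (2 / wm))],
    hK, fun M e0 he0 => lstr_core hwm0 hwm hval M e0 he0⟩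

/-- **LSTRUCT-1: the structure theorem.** -/
theorem lstr_main {κ : Type} [Fintype κ] [DecidableEq κ] [Nonempty κ] {w val : κ → ℝ}
    (hw : ∀ k, 0 < w k) {Lam : ℝ} (hval : ∀ k, |val k| ≤ Lam) {CV : ℝ} (hCV : 0 ≤ CV) :
    ∃ C K : ℝ, 1 ≤ C ∧ 0 < K ∧ ∀ (M : ℕ) (e0 : ℝ), 0 < e0 → ∃ (wc : ℕ) (p : Par),
      2 ≤ wc ∧ p.nc = (M + 1) * wc ∧ p.nb = 0 ∧ ∀ Am : ℝ, ∃ βm : ℝ, 0 < βm ∧
      ∀ β : ℝ, 0 < β → β ≤ βm → ∃ δ : ℝ, 0 < δ ∧ Fintype.card κ * (δ * K) ≤ 1 / ((M : ℝ) + 1) ∧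
      ∃ (N0 : ℕ) (n0 : ℕ → ℕ), ∀ N, N0 ≤ N → ∀ n, n0 N ≤ n →
      ∀ (A : Finset (Fin N → Bool)) (hA : A.Nonempty) (μ : Measure (Fin N → Fin N → ℝ)),
      IsProbabilityMeasure μ → Haar.RHaar μ → ∀ lab : Fin N → κ,
      (∀ k, |((blk lab k).card : ℝ) / N - w k| ≤ δ) → ∀ t : ℝ, |t| ≤ 1 →
      ∀ V : (Fin N → Bool) → ℝ, (∀ σ, |V σ| ≤ CV * N) → ∀ a : Fin N → Fin p.nc → ℝ,
      (∀ i g, |a i g| ≤ Am) → ∀ bk : κ → Fin p.nc → ℝ, (∀ k g, β ≤ bk k g ∧ bk k g ≤ 2 * β) →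
      DC n hA μ lab (fun i => val (lab i)) t V a (fun i g => bk (lab i) g) δ →
      ∃ (c : ℕ → Fin p.nc) (sel : Fin p.nc → DD p N → Fin p.T),
        (∀ b ≤ M, b * wc ≤ c b ∧ (c b : ℕ) < (b + 1) * wc) ∧
        SDAlg.Rel w (fun k => t * val k) (M + 1) (fun b => (b : ℝ) / ((M : ℝ) + 1))
          (fun k => Gam n hA (fun i => val (lab i)) t V a (fun i g => bk (lab i) g) μ c sel
            (M + 1) (blk lab k))
          (pb n hA (fun i => val (lab i)) t V a (fun i g => bk (lab i) g) μ c sel (M + 1))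
          (C / ((M : ℝ) + 1)) ∧
        (∀ k, ∀ b ≤ M + 1, cnc n hA (fun i => val (lab i)) t V a (fun i g => bk (lab i) g) μ c
          sel (M + 1) (blk lab k) b (Gam n hA (fun i => val (lab i)) t V a
            (fun i g => bk (lab i) g) μ c sel (M + 1) (blk lab k) b) ≤ e0) ∧
        (∀ b ≤ M, Ed p N (fun d => ∫ U, G.purNum (SY.base p n A hA)
          (Hs n A (fun i => val (lab i)) t V a (fun i g => bk (lab i) g) U)
          (c b, sel (c b) d) d ∂μ) ≤ e0) ∧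
        (∀ k, (N : ℝ) ≤ K * (blk lab k).card) := by
  obtain ⟨C, K, hC, hK, main⟩ := lstr_main' hw hval
  refine ⟨C, K, hC, hK, fun M e0 he0 => ?_⟩
  obtain ⟨wc, p, h1, h2, h3, h4⟩ := main M e0 he0
  exact ⟨wc, p, h1, h2, h3, h4 CV hCV⟩

end

end Crest.Agent.R164.LStr
end

-- ▼ part R164/LStr7

/-!
Row 164, LSTRUCT-1, part 7: the input `US.HStr` of the upper bound assembly (helper466).
-/

set_option autoImplicit false

namespace Crest.Agent.R164.LStr

open Finset MeasureTheory Crest.Agent.R141 Crest.Agent.R164 Crest.Agent.R164.RSys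
open Crest.Agent.R164.Rot (OK xc)
open Crest.Agent.R164.RotRel (rr dav dav_add dav_smul dav_const dav_mono XU integrable_cont)

noncomputable section

theorem rel_mono_eps {κ : Type} [Fintype κ] {α θ : κ → ℝ} {n : ℕ} {m : ℕ → ℝ}
    {G : κ → ℕ → ℝ} {q : ℕ → ℝ} {ε ε' : ℝ} (hε : ε ≤ ε')
    (h : SDAlg.Rel α θ n m G q ε) : SDAlg.Rel α θ n m G q ε' where
  m0 := h.m0
  mpos := h.mpos
  mmono := h.mmono
  mn := h.mn
  G0 := h.G0
  Gmono := h.Gmono
  p0 := h.p0
  pmono := h.pmono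
  pn := h.pn
  papp b hb := (h.papp b hb).trans hε
  rel k l a ha := (h.rel k l a ha).trans hε

section sys

variable {p : Par} {N n : ℕ} {A : Finset (Fin N → Bool)} {hA : A.Nonempty}
  {κ : Type} [Fintype κ] [DecidableEq κ]
  {t : ℝ} {V : (Fin N → Bool) → ℝ} {a lam : Fin N → Fin p.nc → ℝ}
  {μ : Measure (Fin N → Fin N → ℝ)} [IsProbabilityMeasure μ]

/-- the overlap at the leaf -/
theorem ro_leaf (eig : Fin N → ℝ) (B : Finset (Fin N)) (hB : 0 < B.card) (d : DD p N)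
    (U : Fin N → Fin N → ℝ) (ω : G.Om (SY.base p n A hA)) :
    (B.card : ℝ) * ro n hA eig t V a lam B p.L d U ω = ∑ i ∈ B, OvC.xM U ω.1.1.1 i ^ 2 := by
  unfold ro rr
  have hc : (B.card : ℝ) ≠ 0 := by positivity
  rw [← mul_assoc, mul_inv_cancel₀ hc, one_mul]
  refine Finset.sum_congr rfl fun i _ => ?_
  have e : cE (PQ n hA eig t V a lam U d) ((G.fil (SY.base p n A hA)).F p.L)
      (XU (sp n hA) U i) ω = XU (sp n hA) U i ω :=
    cE_of_meas (PQ_isProb n hA eig t V a lam U d)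
      (rmeas_of_ge (𝓕 := G.fil (SY.base p n A hA)) le_rfl _) ω
  rw [e]
  rfl

/-- **The energy.** -/
theorem energy_eq (hμ : ∀ᵐ U ∂μ, U ∈ OK N) (hN : 0 < N) (lab : Fin N → κ) (val : κ → ℝ)
    (hB : ∀ k, 0 < (blk lab k).card) (c : ℕ → Fin p.nc) (sel : Fin p.nc → DD p N → Fin p.T)
    (nn : ℕ) :
    (N : ℝ)⁻¹ * dav (dw p N) μ (fun d U => eE (PQ n hA (fun i => val (lab i)) t V a lam U d)
      (fun ω => Mag.qd (fun i => val (lab i)) (Matrix.of U) ω.1.1.1)) =
    1 / 2 * ∑ k, ((blk lab k).card / (N : ℝ)) * (val k *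
      Gam n hA (fun i => val (lab i)) t V a lam μ c sel nn (blk lab k) nn) := by
  set eig : Fin N → ℝ := fun i => val (lab i) with heig
  have hN' : (N : ℝ) ≠ 0 := by positivity
  have key : ∀ (d : DD p N) (U : Fin N → Fin N → ℝ),
      (N : ℝ)⁻¹ * eE (PQ n hA eig t V a lam U d)
        (fun ω => Mag.qd eig (Matrix.of U) ω.1.1.1) =
      ∑ k, (1 / 2 * (((blk lab k).card / (N : ℝ)) * val k)) *
        eE (PQ n hA eig t V a lam U d) (ro n hA eig t V a lam (blk lab k) (RSys.lv c sel nn d nn) d U) := by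
    intro d U
    rw [RSys.lv_top, ← eE_smul]
    have e1 : ∀ k, (1 / 2 * (((blk lab k).card / (N : ℝ)) * val k)) *
        eE (PQ n hA eig t V a lam U d) (ro n hA eig t V a lam (blk lab k) p.L d U) =
        eE (PQ n hA eig t V a lam U d) (fun ω => (1 / 2 * (((blk lab k).card / (N : ℝ)) * val k)) *
          ro n hA eig t V a lam (blk lab k) p.L d U ω) := by
      intro k; rw [eE_smul]
    simp only [e1]
    rw [← eE_sum]
    congr 1
    funext ω
    have e2 : ∀ k, (1 / 2 * (((blk lab k).card / (N : ℝ)) * val k)) *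
          ro n hA eig t V a lam (blk lab k) p.L d U ω =
        (N : ℝ)⁻¹ * (1 / 2 * ∑ i ∈ blk lab k, eig i * OvC.xM U ω.1.1.1 i ^ 2) := by
      intro k
      have e3 : ∑ i ∈ blk lab k, eig i * OvC.xM U ω.1.1.1 i ^ 2 =
          val k * ∑ i ∈ blk lab k, OvC.xM U ω.1.1.1 i ^ 2 := by
        rw [Finset.mul_sum]
        refine Finset.sum_congr rfl fun i hi => ?_
        have h1 : lab i = k := (Finset.mem_filter.1 hi).2
        rw [heig]
        simp only [h1]
      rw [e3, ← ro_leaf (n := n) (hA := hA) (t := t) (V := V) (a := a) (lam := lam) eig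
        (blk lab k) (hB k) d U ω]
      ring
    simp only [e2]
    rw [← Finset.mul_sum, ← Finset.mul_sum, sum_blk lab]
    rfl
  rw [← dav_smul]
  simp only [key]
  rw [OvC.dav_sum univ fun k _ d => (int_ro hμ d (blk lab k) _).const_mul _, Finset.mul_sum]
  refine Finset.sum_congr rfl fun k _ => ?_
  rw [dav_smul]
  unfold Gam
  ring

/-- the averaged spin overlap is monotone in the level. -/
theorem pb_ge (eig : Fin N → ℝ) (c : ℕ → Fin p.nc) (sel : Fin p.nc → DD p N → Fin p.T) (nn : ℕ)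
    (b g : ℕ) (hg : ∀ d, p.mt g ≤ RSys.lv c sel nn d b) (hμ : ∀ᵐ U ∂μ, U ∈ OK N) :
    dav (dw p N) μ (fun d U => eE (PQ n hA eig t V a lam U d) (fun ω => (N : ℝ)⁻¹ *
      ∑ i, (cE (PQ n hA eig t V a lam U d) ((G.fil (SY.base p n A hA)).F (p.mt g))
        (fun ω => sp n hA ω i) ω) ^ 2)) ≤ pb n hA eig t V a lam μ c sel nn b := by
  have hint : ∀ (l : ℕ) (d : DD p N), Integrable (fun U => eE (PQ n hA eig t V a lam U d)
      (fun ω => (N : ℝ)⁻¹ * ∑ i, (cE (PQ n hA eig t V a lam U d)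
        ((G.fil (SY.base p n A hA)).F l) (fun ω => sp n hA ω i) ω) ^ 2)) μ := by
    intro l d
    refine integrable_cont hμ (cont_eEf n hA eig t V a lam d (f := fun U ω => (N : ℝ)⁻¹ * ∑ i,
      (cE (PQ n hA eig t V a lam U d) ((G.fil (SY.base p n A hA)).F l)
        (fun ω => sp n hA ω i) ω) ^ 2) fun ω => ?_)
    exact continuous_const.mul (continuous_finsetSum _ fun i _ =>
      (cont_cEf n hA eig t V a lam d (f := fun _ ω => sp n hA ω i)
        (fun _ => continuous_const) l ω).pow 2)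
  unfold pb
  refine dav_mono (dw_nonneg p N) (fun d => hint _ d) (fun d => hint _ d) fun d => ?_
  refine Filter.Eventually.of_forall fun U => ?_
  have hQ := PQ_isProb n hA eig t V a lam U d
  rw [eE_smul, eE_smul, eE_sum, eE_sum]
  refine mul_le_mul_of_nonneg_left (Finset.sum_le_sum fun i _ => ?_) (by positivity)
  have hr : (G.fil (SY.base p n A hA)).F (RSys.lv c sel nn d b) ≤
      (G.fil (SY.base p n A hA)).F (p.mt g) := (G.fil (SY.base p n A hA)).anti' (hg d)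
  rw [← eE_cE hQ ((G.fil (SY.base p n A hA)).F (p.mt g)) (fun ω =>
    (cE (PQ n hA eig t V a lam U d) ((G.fil (SY.base p n A hA)).F (RSys.lv c sel nn d b))
      (fun ω => sp n hA ω i) ω) ^ 2)]
  refine eE_mono hQ fun w => ?_
  have h1 := cE_sq_le hQ ((G.fil (SY.base p n A hA)).F (p.mt g))
    (cE (PQ n hA eig t V a lam U d) ((G.fil (SY.base p n A hA)).F (RSys.lv c sel nn d b))
      (fun ω => sp n hA ω i)) w
  rwa [cE_tower hQ hr] at h1

end sys

/-- **The input of helper466.** -/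
theorem hStr (K : ℕ) {w val : Fin (K + 1) → ℝ} (hw : ∀ k, 0 < w k) : US.HStr K w val := by
  obtain ⟨Lam, hLam⟩ : ∃ Lam : ℝ, ∀ k, |val k| ≤ Lam := by
    obtain ⟨k0, -, hk0⟩ := Finset.exists_max_image (univ : Finset (Fin (K + 1)))
      (fun k => |val k|) Finset.univ_nonempty
    exact ⟨|val k0|, fun k => hk0 k (Finset.mem_univ k)⟩
  have hLam0 : 0 ≤ Lam := (abs_nonneg _).trans (hLam 0)
  obtain ⟨C, KK, hC, hKK, main⟩ := lstr_main hw hLam (CV := 0) le_rfl
  refine ⟨C + Lam, by linarith, fun M => ?_⟩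
  obtain ⟨wc, p, hwc, hp, hnb, main⟩ := main M 1 one_pos
  refine ⟨wc, p, by omega, hp, hnb, fun Amax => ?_⟩
  obtain ⟨βm, hβm, main⟩ := main Amax
  refine ⟨βm ^ 2, by positivity, fun η hη hηm => ?_⟩
  have hs : 0 < Real.sqrt η := Real.sqrt_pos.2 hη
  have hsm : Real.sqrt η ≤ βm := by
    rw [← Real.sqrt_sq hβm.le]; exact Real.sqrt_le_sqrt hηm
  obtain ⟨δ, hδ, hδK, N0, n0, main⟩ := main (Real.sqrt η) hs hsm
  refine ⟨δ, hδ, max N0 1, n0, ?_⟩
  intro N hN n hn A hA ν hν1 hν lab hlab t ht a ha l hl hD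
  have hNpos : 0 < N := lt_of_lt_of_le one_pos ((le_max_right _ _).trans hN)
  have hN' : (0 : ℝ) < N := by exact_mod_cast hNpos
  have hR0 : (0 : ℝ) < (M : ℝ) + 1 := by positivity
  have hDC : DC n hA ν lab (fun i => val (lab i)) t (fun _ => 0) (fun _ => a)
      (fun i g => Real.sqrt η * l (lab i, g)) δ := by
    intro k g hg
    obtain ⟨dd, h⟩ := hD (k, ⟨g, hg⟩)
    refine ⟨dd, le_trans (le_of_eq ?_) h⟩
    have e : ∀ (U : Fin N → Fin N → ℝ) (ω : G.Om (SY.base p n A hA)),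
        OvC.OH n hA p (blk lab k) g U ω = US.Dobs A n lab (k, ⟨g, hg⟩) U ω.1 := by
      intro U ω
      unfold OvC.OH US.Dobs blk
      congr 1
      rw [Finset.sum_filter]
      refine Finset.sum_congr rfl fun i _ => ?_
      simp only [dif_pos hg]
      rfl
    simp only [e]
    rfl
  obtain ⟨c, sel, h1, h2, -, -, h5⟩ := main N ((le_max_left _ _).trans hN) n hn A hA ν hν1 hν lab
    hlab t (by rw [abs_of_nonneg ht.1]; exact ht.2) (fun _ => 0) (fun _ => by simp)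
    (fun _ => a) (fun _ g => by rw [abs_of_nonneg (ha g).1]; exact (ha g).2)
    (fun k g => Real.sqrt η * l (k, g)) (fun k g => by
      have := hl (k, g)
      constructor
      · nlinarith [this.1]
      · nlinarith [this.2]) hDC
  set Γ : Fin (K + 1) → ℕ → ℝ := fun k => Gam n hA (fun i => val (lab i)) t (fun _ => 0)
    (fun _ => a) (fun i g => Real.sqrt η * l (lab i, g)) ν c sel (M + 1) (blk lab k) with hΓ
  refine ⟨fun b => (c b : ℕ), Γ, pb n hA (fun i => val (lab i)) t (fun _ => 0) (fun _ => a)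
    (fun i g => Real.sqrt η * l (lab i, g)) ν c sel (M + 1), h1, ?_, ?_, ?_⟩
  · exact rel_mono_eps (div_le_div_of_nonneg_right (by linarith) hR0.le) h2
  · intro b hb g hg
    have hlv : ∀ d, p.mt g ≤ RSys.lv c sel (M + 1) d b := by
      intro d
      rw [RSys.lv_of_lt (by omega : b < M + 1)]
      unfold Par.mt Par.ct
      have hg' : g + 1 ≤ (c b : ℕ) := hg
      have h6 : (g + 1) * (p.T + 1) ≤ (c b : ℕ) * (p.T + 1) := Nat.mul_le_mul_right _ hg'
      omega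
    refine le_trans (le_of_eq ?_) (pb_ge (n := n) (hA := hA) (t := t) (V := fun _ => 0)
      (a := fun _ => a) (lam := fun i g => Real.sqrt η * l (lab i, g)) (μ := ν)
      (fun i => val (lab i)) c sel (M + 1) b g hlv hν.mem)
    unfold US.Rb
    have e : ∀ (d : DD p N) (U : Fin N → Fin N → ℝ),
        eE (PQ n hA (fun i => val (lab i)) t (fun _ => 0) (fun _ => a)
          (fun i g => Real.sqrt η * l (lab i, g)) U d) (fun ω => (N : ℝ)⁻¹ *
      ∑ i, (cE (PQ n hA (fun i => val (lab i)) t (fun _ => 0) (fun _ => a)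
          (fun i g => Real.sqrt η * l (lab i, g)) U d) ((G.fil (SY.base p n A hA)).F (p.mt g))
        (fun ω => sp n hA ω i) ω) ^ 2) =
        (N : ℝ)⁻¹ * US.Rs hA (US.PU (n := n) hA lab val η t a l U d) (p.mt g) := by
      intro d U
      rw [eE_smul, eE_sum]
      rfl
    simp only [e]
    rw [dav_smul]
    rfl
  · have hBc : ∀ k, 0 < (blk lab k).card := by
      intro k
      rcases Nat.eq_zero_or_pos (blk lab k).card with h | h
      · have := h5 k
        rw [h] at this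
        simp at this
        linarith
      · exact h
    have hE := energy_eq (n := n) (hA := hA) (t := t) (V := fun _ => 0) (a := fun _ => a)
      (lam := fun i g => Real.sqrt η * l (lab i, g)) (μ := ν) hν.mem hNpos lab val hBc c sel
      (M + 1)
    have hE' : (N : ℝ)⁻¹ * US.Eo n hA ν lab val η t a l (US.Vt A n p lab val) =
        1 / 2 * ∑ k, ((blk lab k).card / (N : ℝ)) * (val k * Γ k (M + 1)) := by
      rw [hΓ, ← hE]
      rfl
    rw [hE', ← mul_sub, ← Finset.sum_sub_distrib, abs_mul, abs_of_pos (by norm_num : (0:ℝ) < 1 / 2)]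
    have h6 : ∀ k ∈ (univ : Finset (Fin (K + 1))),
        |(blk lab k).card / (N : ℝ) * (val k * Γ k (M + 1)) - w k * (val k * Γ k (M + 1))| ≤
          δ * (Lam * KK) := by
      intro k _
      rw [← sub_mul, abs_mul, abs_mul]
      refine mul_le_mul (hlab k) (mul_le_mul (hLam k) ?_ (abs_nonneg _) hLam0)
        (by positivity) hδ.le
      rw [abs_of_nonneg (Gam_nonneg _ _)]
      exact Gam_le hν.mem hNpos (h5 k) _
    have h7 := (Finset.abs_sum_le_sum_abs _ _).trans (Finset.sum_le_sum h6)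
    rw [Finset.sum_const, Finset.card_univ, nsmul_eq_mul] at h7
    have h8 : (Fintype.card (Fin (K + 1)) : ℝ) * (δ * (Lam * KK)) ≤ Lam * (1 / ((M : ℝ) + 1)) := by
      have := mul_le_mul_of_nonneg_left hδK hLam0
      linarith
    have h9 : 1 / 2 * |∑ k, ((blk lab k).card / (N : ℝ) * (val k * Γ k (M + 1)) -
        w k * (val k * Γ k (M + 1)))| ≤ Lam * (1 / ((M : ℝ) + 1)) := by
      have h10 : 0 ≤ |∑ k, ((blk lab k).card / (N : ℝ) * (val k * Γ k (M + 1)) -
        w k * (val k * Γ k (M + 1)))| := abs_nonneg _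
      linarith
    refine h9.trans ?_
    rw [mul_one_div]
    exact div_le_div_of_nonneg_right (by linarith) hR0.le

end

end Crest.Agent.R164.LStr
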