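import Crest.Agent.R164.OvAvg
import Crest.Agent.R164.ConcSys1
import Crest.Agent.R164.GSpin

/-!
Row 164, module OvConc for the system `SY.HS` (site-dependent strengths): integration by parts for
block observables, and the instance of `OvC.Data`.
-/

set_option autoImplicit false

namespace Crest.Agent.R164.OvC

open Finset MeasureTheory Crest.Agent.R141 Crest.Agent.R164 Crest.Agent.R164.SY
open Crest.Agent.R164.RotRel (rr rr_nonneg eC dav dav_add dav_smul dav_const dav_mono)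
open Crest.Agent.R164.Rot (OK)

noncomputable section

/-! ### Integration by parts for a block -/

section one

variable {p : Par} {N n : ℕ} {A : Finset (Fin N → Bool)} (hA : A.Nonempty)
  (h0 : (Fin N → Bool) → ℝ) (a lam : Fin N → Fin p.nc → ℝ)
  (X : (Fin N → Bool) → Fin N → ℝ) (d : DD p N)

/-- the law of the system -/
abbrev PH : G.Om (base p n A hA) → ℝ := G.PP (base p n A hA) (HS h0 a lam X) d

/-- the coordinates as functions on the configuration space -/
def xo (X : (Fin N → Bool) → Fin N → ℝ) (i : Fin N) (ω : G.Om (base p n A hA)) : ℝ := X ω.1.1.1 i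

/-- the starting level of cell `g` -/
def stp (p : Par) (g : ℕ) : ℕ := g * (p.T + 1)


theorem stp_mono (p : Par) : Monotone (stp p) := fun _ _ h => Nat.mul_le_mul_right _ h

theorem HUU_sflip (g : Fin p.nc) (i : Fin N) (t : Fin n) (ω : G.Om (base p n A hA)) :
    G.UU (base p n A hA) (HS h0 a lam X) d (sflip hA g i t ω) =
      G.UU (base p n A hA) (HS h0 a lam X) d ω -
        2 * ((Real.sqrt n)⁻¹ * lam i g) * (2 * sval hA g i t ω - 1) * X ω.1.1.1 i := by
  unfold G.UU
  rw [CSys.WW_sflip, CSys.two_sval]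
  have := HS_sflip h0 a lam X ω.1 g i t
  have e : HS h0 a lam X (sflip hA g i t ω).1 = HS h0 a lam X (ω.1.1, ω.1.2.1, cupd ω.1.2.2 g i t) :=
    rfl
  rw [e, this]
  ring


/-- integration by parts for the small field `(g,i)`. -/
theorem hibp_small (hn : 0 < n) (g : Fin p.nc) (i : Fin N) {f : G.Om (base p n A hA) → ℝ}
    (hf : ∀ t ω, f (sflip hA g i t ω) = f ω) {K Kf : ℝ} (hXK : ∀ σ, |X σ i| ≤ K)
    (hfK : ∀ ω, |f ω| ≤ Kf) (hc : |lam i g| * K ≤ Real.sqrt n / 8) {l : ℕ} (hl : l < p.mt g)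
    (ω : G.Om (base p n A hA)) :
    |cE (PH hA h0 a lam X d) ((G.fil (base p n A hA)).F l) (fun w => zf w.1.2.2 g i * f w) ω -
      lam i g * cE (PH hA h0 a lam X d) ((G.fil (base p n A hA)).F l)
        (fun w => f w * CSys.scr hA (PH hA h0 a lam X d) g (xo hA X i) w) ω| ≤
      52 * (lam i g) ^ 2 * K ^ 2 * Kf / Real.sqrt n := by
  have h := CSys.ibp_field (𝓕 := G.fil (base p n A hA)) (G.prior_isProb (base p n A hA)) p.xs_expo
    (p.mt_lt_L g.2).le hn (fun t => scoin hA g i t)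
    (U := G.UU (base p n A hA) (HS h0 a lam X) d) (v := xo hA X i) (f := f)
    (c := lam i g) (K := K) (Kf := Kf) (fun t ω => HUU_sflip hA h0 a lam X d g i t ω)
    (fun t ω => rfl) hf (fun ω => hXK _) hfK hc hl ω
  have hL : (G.fil (base p n A hA)).L = p.L := rfl
  simp only [CSys.two_sval, hL, p.xs_last le_rfl, one_mul] at h
  have e : ∀ w : G.Om (base p n A hA), xo hA X i w - ∑ j ∈ Ico (p.mt g) p.L,
      (p.xs (j + 1) - p.xs j) * cE (PH hA h0 a lam X d) ((G.fil (base p n A hA)).F j)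
        (xo hA X i) w = CSys.scr hA (PH hA h0 a lam X d) g (xo hA X i) w := by
    intro w
    unfold CSys.scr
    rw [CSys.sum_incr_xs p _ g.2]
  have e2 : tl (G.prior (base p n A hA)) (G.fil (base p n A hA)) p.xs
      (G.UU (base p n A hA) (HS h0 a lam X) d) = PH hA h0 a lam X d := rfl
  rw [e2] at h
  simp only [e] at h
  exact h


/-- `T_g` of the abstract module in terms of `scr`. -/
theorem Tg_eq_scr (P : G.Om (base p n A hA) → ℝ) (Y : Fin N → G.Om (base p n A hA) → ℝ)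
    (I : Finset (Fin N)) (nN : ℝ) (g : Fin p.nc) (ω : G.Om (base p n A hA)) :
    Tg Y P (G.fil (base p n A hA)) I nN ((p.nc : ℝ) + 1)⁻¹ (fun g => stp p (g + 1)) p.nc g ω =
      nN⁻¹ * ∑ i ∈ I, Y i ω * CSys.scr hA P g (Y i) ω := rfl

/-- integration by parts for the block observable of the small fields. -/
theorem ibp_block (hn : 0 < n) (g : Fin p.nc) (I : Finset (Fin N)) {κ : ℝ}
    (hκ : ∀ i ∈ I, lam i g = κ) {f : G.Om (base p n A hA) → ℝ}
    (hf : ∀ i t ω, f (sflip hA g i t ω) = f ω) (hfK : ∀ ω, |f ω| ≤ 1) {K : ℝ} (hK0 : 0 ≤ K)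
    (hXK : ∀ σ i, |X σ i| ≤ K) (hc : |κ| * K ≤ Real.sqrt n / 8) {l : ℕ} (hl : l < p.mt g)
    (ω : G.Om (base p n A hA)) :
    |cE (PH hA h0 a lam X d) ((G.fil (base p n A hA)).F l)
        (fun w => ((N : ℝ)⁻¹ * ∑ i ∈ I, zf w.1.2.2 g i * xo hA X i w) * f w) ω -
      κ * cE (PH hA h0 a lam X d) ((G.fil (base p n A hA)).F l) (fun w => f w *
        Tg (xo hA X) (PH hA h0 a lam X d) (G.fil (base p n A hA)) I N ((p.nc : ℝ) + 1)⁻¹
          (fun g => stp p (g + 1)) p.nc g w) ω| ≤ 52 * κ ^ 2 * K ^ 3 / Real.sqrt n := by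
  have hsn : 0 < Real.sqrt n := Real.sqrt_pos.mpr (by exact_mod_cast hn)
  set P := PH hA h0 a lam X d with hP
  set F := (G.fil (base p n A hA)).F with hF
  have h1 : ∀ i ∈ I, |cE P (F l) (fun w => zf w.1.2.2 g i * (xo hA X i w * f w)) ω -
      κ * cE P (F l) (fun w => (xo hA X i w * f w) * CSys.scr hA P g (xo hA X i) w) ω| ≤
      52 * κ ^ 2 * K ^ 3 / Real.sqrt n := by
    intro i hi
    have h2 := hibp_small hA h0 a lam X d hn g i (f := fun w => xo hA X i w * f w)
      (fun t ω => by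
        have : xo hA X i (sflip hA g i t ω) = xo hA X i ω := rfl
        simp only [this, hf]) (K := K) (Kf := K)
      (fun σ => hXK σ i) (fun ω => by
        rw [abs_mul]
        calc |xo hA X i ω| * |f ω| ≤ K * 1 :=
              mul_le_mul (hXK _ i) (hfK ω) (abs_nonneg _) hK0
          _ = K := mul_one _)
      (by rw [hκ i hi]; exact hc) hl ω
    rw [hκ i hi] at h2
    refine h2.trans (le_of_eq ?_)
    ring
  have e1 : cE P (F l)
        (fun w => ((N : ℝ)⁻¹ * ∑ i ∈ I, zf w.1.2.2 g i * xo hA X i w) * f w) ω =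
      (N : ℝ)⁻¹ * ∑ i ∈ I, cE P (F l)
        (fun w => zf w.1.2.2 g i * (xo hA X i w * f w)) ω := by
    rw [← cE_sum, ← cE_smul]
    congr 1; funext w
    rw [mul_assoc, Finset.sum_mul]
    congr 1
    exact Finset.sum_congr rfl fun i _ => by ring
  have e2 : κ * cE P (F l) (fun w => f w *
        Tg (xo hA X) P (G.fil (base p n A hA)) I N ((p.nc : ℝ) + 1)⁻¹
          (fun g => stp p (g + 1)) p.nc g w) ω =
      (N : ℝ)⁻¹ * ∑ i ∈ I, κ * cE P (F l)
        (fun w => (xo hA X i w * f w) * CSys.scr hA P g (xo hA X i) w) ω := by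
    rw [← Finset.mul_sum, ← cE_sum, mul_left_comm, ← cE_smul P _ ((N : ℝ)⁻¹)]
    congr 2; funext w
    rw [Tg_eq_scr, mul_left_comm, Finset.mul_sum]
    congr 1
    exact Finset.sum_congr rfl fun i _ => by ring
  rw [e1, e2, ← mul_sub, ← Finset.sum_sub_distrib, abs_mul, abs_of_nonneg (by positivity)]
  have h3 : |∑ i ∈ I, (cE P (F l) (fun w => zf w.1.2.2 g i * (xo hA X i w * f w)) ω -
      κ * cE P (F l) (fun w => (xo hA X i w * f w) * CSys.scr hA P g (xo hA X i) w) ω)| ≤
      N * (52 * κ ^ 2 * K ^ 3 / Real.sqrt n) := by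
    refine (Finset.abs_sum_le_sum_abs _ _).trans ((Finset.sum_le_sum h1).trans ?_)
    rw [Finset.sum_const, nsmul_eq_mul]
    refine mul_le_mul_of_nonneg_right ?_ (by positivity)
    have := Finset.card_le_univ I
    rw [Fintype.card_fin] at this
    exact_mod_cast this
  rcases Nat.eq_zero_or_pos N with h | h
  · subst h
    simp
    positivity
  · have hN : (0 : ℝ) < N := by exact_mod_cast h
    calc (N : ℝ)⁻¹ * _ ≤ (N : ℝ)⁻¹ * (N * (52 * κ ^ 2 * K ^ 3 / Real.sqrt n)) :=
          mul_le_mul_of_nonneg_left h3 (by positivity)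
      _ = 52 * κ ^ 2 * K ^ 3 / Real.sqrt n := by field_simp


end one

/-! ### The instance of `Data` -/

section two

variable {p : Par} {N : ℕ} (n : ℕ) {A : Finset (Fin N → Bool)} (hA : A.Nonempty)
  (h0 : (Fin N → Fin N → ℝ) → (Fin N → Bool) → ℝ) (a lam : Fin N → Fin p.nc → ℝ)

/-- `x = U s` -/
def xM (U : Fin N → Fin N → ℝ) : (Fin N → Bool) → Fin N → ℝ := xU (Matrix.of U)

/-- the law of the system for the matrix `U`. -/
def QH (d : DD p N) (U : Fin N → Fin N → ℝ) : G.Om (base p n A hA) → ℝ :=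
  PH hA (h0 U) a lam (xM U) d

/-- the coordinates `x = U s` -/
def XH (p : Par) (U : Fin N → Fin N → ℝ) (i : Fin N) (ω : G.Om (base p n A hA)) : ℝ := xM U ω.1.1.1 i

/-- field observable of the block `I` and the cell `g`. -/
def OH (p : Par) (I : Finset (Fin N)) (g : ℕ) (U : Fin N → Fin N → ℝ) (ω : G.Om (base p n A hA)) : ℝ :=
  (N : ℝ)⁻¹ * ∑ i ∈ I, (if h : g < p.nc then zf ω.1.2.2 ⟨g, h⟩ i else 0) * xM U ω.1.1.1 i

theorem continuous_xM (σ : Fin N → Bool) (i : Fin N) : Continuous fun U => xM U σ i :=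
  Rot.continuous_xc (Crest.ProbabilityR.InvariantGlass.spinVec σ) i

theorem continuous_HS (hh0 : ∀ σ, Continuous fun U => h0 U σ) (s : SS p n A) :
    Continuous fun U => HS (h0 U) a lam (xM U) s := by
  unfold HS
  refine ((hh0 _).add continuous_const).add (continuous_finsetSum _ fun g _ =>
    continuous_finsetSum _ fun i _ => continuous_const.mul (continuous_const.mul ?_))
  exact continuous_xM _ _

theorem continuous_UUH (hh0 : ∀ σ, Continuous fun U => h0 U σ) (d : DD p N)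
    (ω : G.Om (base p n A hA)) :
    Continuous fun U => G.UU (base p n A hA) (HS (h0 U) a lam (xM U)) d ω := by
  unfold G.UU
  exact (continuous_HS n h0 a lam hh0 _).add continuous_const

theorem continuous_cE_QH (hh0 : ∀ σ, Continuous fun U => h0 U σ) (d : DD p N)
    {f : (Fin N → Fin N → ℝ) → G.Om (base p n A hA) → ℝ} (hf : ∀ a, Continuous fun u => f u a)
    (k : ℕ) (ω : G.Om (base p n A hA)) :
    Continuous fun U => cE (QH n hA h0 a lam d U) ((G.fil (base p n A hA)).F k) (f U) ω :=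
  Rot.continuous_cE_tl (G.prior_isProb (base p n A hA)) p.xs_expo.pos
    (continuous_UUH n hA h0 a lam hh0 d) hf k ω

theorem continuous_eE_QH (hh0 : ∀ σ, Continuous fun U => h0 U σ) (d : DD p N)
    {f : (Fin N → Fin N → ℝ) → G.Om (base p n A hA) → ℝ} (hf : ∀ a, Continuous fun u => f u a) :
    Continuous fun U => eE (QH n hA h0 a lam d U) (f U) :=
  Rot.continuous_eE_tl (G.prior_isProb (base p n A hA)) p.xs_expo.pos
    (continuous_UUH n hA h0 a lam hh0 d) hf

theorem continuous_rr_QH (hh0 : ∀ σ, Continuous fun U => h0 U σ) (d : DD p N)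
    (I : Finset (Fin N)) (l : ℕ) (ω : G.Om (base p n A hA)) :
    Continuous fun U => rr (XH n hA p U) (QH n hA h0 a lam d U) (G.fil (base p n A hA)) I l ω := by
  unfold rr
  exact continuous_const.mul (continuous_finsetSum _ fun i _ =>
    (continuous_cE_QH n hA h0 a lam hh0 d (f := fun U => XH n hA p U i)
      (fun a => continuous_xM _ _) l ω).pow 2)

theorem continuous_OH (I : Finset (Fin N)) (g : ℕ) (ω : G.Om (base p n A hA)) :
    Continuous fun U => OH n hA p I g U ω := by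
  unfold OH
  exact continuous_const.mul (continuous_finsetSum _ fun i _ =>
    continuous_const.mul (continuous_xM _ _))

theorem QH_isProb (d : DD p N) (U : Fin N → Fin N → ℝ) : IsProb (QH n hA h0 a lam d U) :=
  G.PP_isProb _ _ _

theorem sum_xM_sq {U : Fin N → Fin N → ℝ} (hU : U ∈ OK N) (σ : Fin N → Bool) :
    ∑ i, xM U σ i ^ 2 = N := by
  have h := RotRel.OK_norm hU (Crest.ProbabilityR.InvariantGlass.spinVec σ)
  have e : ∀ i, xM U σ i = ∑ q, U i q * Crest.ProbabilityR.InvariantGlass.spinVec σ q := fun i =>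
    rfl
  simp only [e, h]
  have h1 : ∀ q, Crest.ProbabilityR.InvariantGlass.spinVec σ q ^ 2 = 1 := by
    intro q
    rw [← sv_eq_spinVec, ← sq_abs, sv_abs, one_pow]
  simp [h1]

theorem block_xM_sq {U : Fin N → Fin N → ℝ} (hU : U ∈ OK N) (σ : Fin N → Bool)
    (I : Finset (Fin N)) : ∑ i ∈ I, xM U σ i ^ 2 ≤ N := by
  rw [← sum_xM_sq hU σ]
  exact Finset.sum_le_sum_of_subset_of_nonneg (Finset.subset_univ I) fun _ _ _ => sq_nonneg _

theorem abs_xM_le {U : Fin N → Fin N → ℝ} (hU : U ∈ OK N) (σ : Fin N → Bool) (i : Fin N) :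
    |xM U σ i| ≤ Real.sqrt N := by
  apply Real.abs_le_sqrt
  have := block_xM_sq hU σ {i}
  simpa using this

/-- **The instance.** Only input: concentration of the field observables. -/
theorem data_sys (hN : 0 < N) (hn : 0 < n) (ν : Measure (Fin N → Fin N → ℝ))
    [IsProbabilityMeasure ν] (hν : ∀ᵐ U ∂ν, U ∈ OK N) (hh0 : ∀ σ, Continuous fun U => h0 U σ)
    {κ : Type*} (B : κ → Finset (Fin N)) (hB : ∀ k, 0 < (B k).card) {K : ℝ}
    (hK : ∀ k, (N : ℝ) ≤ K * (B k).card) (bk : κ → ℕ → ℝ)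
    (hlam : ∀ k, ∀ i ∈ B k, ∀ g : Fin p.nc, lam i g = bk k g) {κ0 Λ : ℝ} (hκ0 : 0 < κ0)
    (hbk : ∀ k g, κ0 ≤ bk k g) (hbΛ : ∀ k g, bk k g ≤ Λ)
    (hsmall : Λ * Real.sqrt N ≤ Real.sqrt n / 8) (dd : κ → ℕ → ℝ) {e : ℝ} (he : 0 ≤ e)
    (hconc : ∀ k g, g < p.nc → dav (dw p N) ν (fun d U =>
      eE (QH n hA h0 a lam d U) (fun ω => |OH n hA p (B k) g U ω - dd k g|)) ≤ e) :
    Data (dw p N) ν (QH n hA h0 a lam) (G.fil (base p n A hA)) (XH n hA p) B p.nc (stp p)
      (fun k g U => OH n hA p (B k) g U) bk dd N K κ0 e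
      (52 * Λ ^ 2 * Real.sqrt N ^ 3 / Real.sqrt n) := by
  have hn' : (0 : ℝ) < Real.sqrt n := Real.sqrt_pos.mpr (by exact_mod_cast hn)
  have hb : ∀ (k : κ) (g : ℕ), 0 ≤ bk k g := fun k g => hκ0.le.trans (hbk k g)
  have herr : ∀ (k : κ) (g : ℕ), 52 * (bk k g) ^ 2 * Real.sqrt N ^ 3 / Real.sqrt n ≤
      52 * Λ ^ 2 * Real.sqrt N ^ 3 / Real.sqrt n := by
    intro k g
    have h1 : (bk k g) ^ 2 ≤ Λ ^ 2 := pow_le_pow_left₀ (hb k g) (hbΛ k g) 2
    gcongr
  have hcs : ∀ (k : κ) (g : ℕ), |bk k g| * Real.sqrt N ≤ Real.sqrt n / 8 := by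
    intro k g
    rw [abs_of_nonneg (hb k g)]
    exact (mul_le_mul_of_nonneg_right (hbΛ k g) (Real.sqrt_nonneg _)).trans hsmall
  refine ⟨fun d => dw_nonneg p N d, dw_sum p hN, fun d U => QH_isProb n hA h0 a lam d U, p.hnc,
    by exact_mod_cast hN, hB, hK, ?_, stp_mono p, hκ0, hbk, he, by positivity, ?_, ?_, hconc,
    ?_, ?_, ?_⟩
  · filter_upwards [hν] with U hU
    intro k ω
    exact block_xM_sq hU ω.1.1.1 (B k)
  · intro d
    filter_upwards [hν] with U hU
    intro k g hg l hl ω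
    have h1 := ibp_block hA (h0 U) a lam (xM U) d hn ⟨g, hg⟩ (B k) (κ := bk k g)
      (fun i hi => hlam k i hi ⟨g, hg⟩) (f := fun _ => 1) (fun _ _ _ => rfl) (fun _ => by simp)
      (Real.sqrt_nonneg N) (fun σ i => abs_xM_le hU σ i) (hcs k g) (l := l) hl ω
    simp only [mul_one, one_mul] at h1
    have e1 : (fun w : G.Om (base p n A hA) => (N : ℝ)⁻¹ * ∑ i ∈ B k,
        zf w.1.2.2 (⟨g, hg⟩ : Fin p.nc) i * xo hA (xM U) i w) = OH n hA p (B k) g U := by
      funext w
      unfold OH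
      simp only [dif_pos hg]
      rfl
    rw [e1] at h1
    exact h1.trans (herr k g)
  · intro d
    filter_upwards [hν] with U hU
    intro k ω
    have hg : p.nc - 1 < p.nc := by have := p.hnc; omega
    have h1 := ibp_block hA (h0 U) a lam (xM U) d hn ⟨p.nc - 1, hg⟩ (B k) (κ := bk k (p.nc - 1))
      (fun i hi => hlam k i hi ⟨p.nc - 1, hg⟩)
      (f := sg (dd k (p.nc - 1) / bk k (p.nc - 1)) (Sq (XH n hA p U) (B k) N))
      (fun _ _ _ => rfl) (fun ω => abs_sg _ _ ω)
      (Real.sqrt_nonneg N) (fun σ i => abs_xM_le hU σ i) (hcs k (p.nc - 1)) (l := 0)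
      (mt_pos _) ω
    have e1 : (fun w : G.Om (base p n A hA) => ((N : ℝ)⁻¹ * ∑ i ∈ B k,
        zf w.1.2.2 (⟨p.nc - 1, hg⟩ : Fin p.nc) i * xo hA (xM U) i w) *
        sg (dd k (p.nc - 1) / bk k (p.nc - 1)) (Sq (XH n hA p U) (B k) N) w) =
        fun w => OH n hA p (B k) (p.nc - 1) U w *
          sg (dd k (p.nc - 1) / bk k (p.nc - 1)) (Sq (XH n hA p U) (B k) N) w := by
      funext w
      unfold OH
      simp only [dif_pos hg]
      rfl
    rw [e1] at h1
    exact h1.trans (herr k (p.nc - 1))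
  · intro d k g
    refine RotRel.integrable_cont hν (continuous_eE_QH n hA h0 a lam hh0 d
      (f := fun U ω => |OH n hA p (B k) g U ω - dd k g|) fun ω => ?_)
    exact ((continuous_OH n hA (B k) g ω).sub continuous_const).abs
  · intro d k l
    exact RotRel.integrable_cont hν (continuous_eE_QH n hA h0 a lam hh0 d
      (fun ω => continuous_rr_QH n hA h0 a lam hh0 d (B k) l ω))
  · intro d k l c
    refine RotRel.integrable_cont hν (continuous_eE_QH n hA h0 a lam hh0 d
      (f := fun U ω => |rr (XH n hA p U) (QH n hA h0 a lam d U) (G.fil (base p n A hA)) (B k) l ω - c|)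
      fun ω => ?_)
    exact ((continuous_rr_QH n hA h0 a lam hh0 d (B k) l ω).sub continuous_const).abs

/-- the levels of the enriched system lie inside the cells. -/
theorem ct_mem (p : Par) {g : ℕ} {t : ℕ} (ht : t < p.T) :
    stp p g ≤ p.ct g t ∧ p.ct g t < stp p (g + 1) := by
  unfold stp Par.ct
  constructor
  · omega
  · nlinarith

end two

end

end Crest.Agent.R164.OvC
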