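import Crest.Agent.R164.CavW1
import Crest.Agent.R164.CavG8
import Crest.Agent.R164.LabMom
import Crest.Agent.R164.ExactG4
import Crest.Agent.R164.CavG9
import Crest.Agent.R164.EDb
import Crest.Agent.R164.LLimA1
import Crest.Agent.R164.CavF
import Crest.Agent.R164.OvSys
import Crest.Agent.R164.LGDef
import Crest.Agent.R164.LIbp
import Crest.Agent.R164.EDp
import Crest.Agent.R164.EDn
import Crest.Agent.R164.LIbpm
import Crest.Agent.R164.LStr7
import Crest.Agent.R164.LStruct2E

-- ▼ part R164/CavW2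
section

/-!
Row 164: the label variable (sums of coin fields, revealed cell by cell) satisfies the central limit
hypothesis `Clt` of the Gaussian cavity limit.
-/

set_option autoImplicit false

namespace Crest.Agent.R164.CavG

open MeasureTheory ProbabilityTheory Finset Crest.Agent.R141
open Crest.Agent.R164.ED (uQ uQ_isProb eE_uQ zz)
open Crest.Agent.R164.CoinG (bavg csum sg bavg_const_mul)

noncomputable section

section agree

variable {κ X : Type*} [Fintype κ] [DecidableEq κ] [Fintype X]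

/-- agreement on the cells of `S`. -/
def agr (S : Finset κ) : Setoid (κ → X) where
  r c c' := ∀ g ∈ S, c g = c' g
  iseqv :=
    { refl := fun _ _ _ => rfl
      symm := fun h g hg => (h g hg).symm
      trans := fun h h' g hg => (h g hg).trans (h' g hg) }

/-- keep the cells of `S`, resample the others. -/
def mix (S : Finset κ) (c c' : κ → X) : κ → X := fun g => if g ∈ S then c g else c' g

omit [Fintype κ] [Fintype X] in
theorem mix_inv (S : Finset κ) : Function.Involutive fun p : (κ → X) × (κ → X) =>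
    (mix S p.1 p.2, mix S p.2 p.1) := by
  intro p
  refine Prod.ext ?_ ?_
  · funext g
    by_cases h : g ∈ S <;> simp [mix, h]
  · funext g
    by_cases h : g ∈ S <;> simp [mix, h]

/-- conditional expectation = resampling. -/
theorem cE_agr [Nonempty X] (S : Finset κ) (f : (κ → X) → ℝ) (c : κ → X) :
    cE (uQ (κ → X)) (agr S) f c = eE (uQ (κ → X)) (fun c' => f (mix S c c')) := by
  classical
  have hP : IsProb (uQ (κ → X)) := uQ_isProb
  set A : (κ → X) → ℝ := fun c => eE (uQ (κ → X)) (fun c' => f (mix S c c')) with hA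
  have hAm : ∀ a b, agr S a b → A a = A b := by
    intro a b hab
    simp only [hA]
    congr 1
    funext c'
    congr 1
    funext g
    unfold mix
    by_cases hg : g ∈ S
    · rw [if_pos hg, if_pos hg]; exact hab g hg
    · rw [if_neg hg, if_neg hg]
  have key : ∀ g : (κ → X) → ℝ, (∀ a b, agr S a b → g a = g b) →
      eE (uQ (κ → X)) (fun c => g c * A c) = eE (uQ (κ → X)) (fun c => g c * f c) := by
    intro g hg
    have e1 : ∀ c, g c * A c = (Fintype.card (κ → X) : ℝ)⁻¹ * ∑ c', (g (mix S c c') *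
        f (mix S c c')) := by
      intro c
      simp only [hA]
      rw [eE_uQ, mul_left_comm, Finset.mul_sum]
      congr 1
      refine Finset.sum_congr rfl fun c' _ => ?_
      rw [hg c (mix S c c') (fun k hk => by unfold mix; rw [if_pos hk])]
    rw [eE_uQ, eE_uQ]
    congr 1
    rw [Finset.sum_congr rfl fun c _ => e1 c, ← Finset.mul_sum,
      ← Fintype.sum_prod_type' (f := fun c c' => g (mix S c c') * f (mix S c c'))]
    have e2 := Equiv.sum_comp ((mix_inv S).toPerm : Equiv.Perm ((κ → X) × (κ → X)))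
      (fun p : (κ → X) × (κ → X) => g p.1 * f p.1)
    have e3 : ∑ p : (κ → X) × (κ → X), g (mix S p.1 p.2) * f (mix S p.1 p.2) =
        ∑ p : (κ → X) × (κ → X), g p.1 * f p.1 := e2
    rw [e3, Fintype.sum_prod_type' (f := fun c (_ : κ → X) => g c * f c)]
    simp only [Finset.sum_const, Finset.card_univ, nsmul_eq_mul]
    rw [← Finset.mul_sum, ← mul_assoc, inv_mul_cancel₀
      (by exact_mod_cast Fintype.card_ne_zero), one_mul]
  have h1 := key (fun a => if agr S c a then 1 else 0) (fun a b hab => by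
    have : agr S c a ↔ agr S c b :=
      ⟨fun h => (agr S).trans h hab, fun h => (agr S).trans h ((agr S).symm hab)⟩
    simp only [this])
  have h2 : ∀ F : (κ → X) → ℝ, eE (uQ (κ → X)) (fun a => (if agr S c a then 1 else 0) * F a) =
      ∑ ω' ∈ univ.filter (fun ω' => agr S c ω'), uQ (κ → X) ω' * F ω' := by
    intro F
    unfold eE
    rw [Finset.sum_filter]
    refine Finset.sum_congr rfl fun a _ => ?_
    by_cases h : agr S c a
    · simp only [h, if_true]; ring
    · simp only [h, if_false]; ring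
  rw [h2, h2] at h1
  show cE (uQ (κ → X)) (agr S) f c = A c
  unfold cE
  rw [← h1]
  have h3 : ∑ ω' ∈ univ.filter (fun ω' => agr S c ω'), uQ (κ → X) ω' * A ω' =
      (∑ ω' ∈ univ.filter (fun ω' => agr S c ω'), uQ (κ → X) ω') * A c := by
    rw [Finset.sum_mul]
    refine Finset.sum_congr rfl fun a ha => ?_
    rw [hAm c a (Finset.mem_filter.1 ha).2]
  rw [h3, mul_comm, mul_div_assoc, div_self (cls_pos hP (agr S) c).ne', mul_one]

/-- resampling one cell. -/
theorem eE_resample [Nonempty X] (g : κ) (F : (κ → X) → ℝ) :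
    eE (uQ (κ → X)) F = eE (uQ (κ → X)) (fun c =>
      (Fintype.card X : ℝ)⁻¹ * ∑ x, F (Function.update c g x)) := by
  rw [eE_uQ, eE_uQ]
  congr 1
  rw [← Finset.mul_sum, ← Fintype.sum_prod_type' (f := fun c x => F (Function.update c g x))]
  have hinv : Function.Involutive fun p : (κ → X) × X => (Function.update p.1 g p.2, p.1 g) := by
    intro p
    simp
  have e2 := Equiv.sum_comp (hinv.toPerm : Equiv.Perm ((κ → X) × X))
    (fun p : (κ → X) × X => F p.1)
  have e3 : ∑ p : (κ → X) × X, F (Function.update p.1 g p.2) = ∑ p : (κ → X) × X, F p.1 := e2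
  rw [e3, Fintype.sum_prod_type' (f := fun c (_ : X) => F c)]
  simp only [Finset.sum_const, Finset.card_univ, nsmul_eq_mul]
  rw [← Finset.mul_sum, ← mul_assoc, inv_mul_cancel₀
    (by exact_mod_cast Fintype.card_ne_zero), one_mul]

end agree

section clt

variable {κ : Type*} [Fintype κ] [DecidableEq κ] {n : ℕ}


theorem avg_eq_bavg (φ : ℝ → ℝ) :
    (Fintype.card (Fin n → Bool) : ℝ)⁻¹ * ∑ x : Fin n → Bool, φ (csum n x) = bavg n φ := by
  unfold bavg
  congr 1
  rw [Fintype.card_fun, Fintype.card_bool, Fintype.card_fin]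
  push_cast
  rw [one_div, inv_pow]

theorem gauss_add {L : ℝ} {h : ℝ → ℝ} (hh : ∀ a b, |h a - h b| ≤ L * |a - b|)
    (t a b : ℝ) : ∫ s, ∫ s', h (t + a * s + b * s') ∂(gaussianReal 0 1) ∂(gaussianReal 0 1) =
      ∫ s, h (t + Real.sqrt (a ^ 2 + b ^ 2) * s) ∂(gaussianReal 0 1) := by
  have hc : Continuous h := cont_of_lip1 hh
  have hL : 0 ≤ L := by
    have := (abs_nonneg _).trans (hh 1 0)
    simpa using this
  set F : (Unit ⊕ Unit → ℝ) → ℝ := fun y => h (t + a * y (.inl ()) + b * y (.inr ())) with hF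
  have hFL : Lip (L * (|a| + |b|)) F := by
    intro y y'
    refine (hh _ _).trans ?_
    rw [Fintype.sum_sum_type]
    simp only [Finset.univ_unique, Finset.sum_singleton]
    rw [mul_assoc]
    refine mul_le_mul_of_nonneg_left ?_ hL
    have e : t + a * y (.inl ()) + b * y (.inr ()) - (t + a * y' (.inl ()) + b * y' (.inr ())) =
        a * (y (.inl ()) - y' (.inl ())) + b * (y (.inr ()) - y' (.inr ())) := by ring
    rw [e]
    refine (abs_add_le _ _).trans ?_
    rw [abs_mul, abs_mul]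
    have h1 := abs_nonneg a
    have h2 := abs_nonneg b
    have h3 := abs_nonneg (y (.inl ()) - y' (.inl ()))
    have h4 := abs_nonneg (y (.inr ()) - y' (.inr ()))
    show |a| * |y (.inl ()) - y' (.inl ())| + |b| * |y (.inr ()) - y' (.inr ())| ≤
      (|a| + |b|) * (|y (.inl ()) - y' (.inl ())| + |y (.inr ()) - y' (.inr ())|)
    nlinarith [mul_nonneg h1 h4, mul_nonneg h2 h3]
  have hi : Integrable F (gm (Unit ⊕ Unit)) := by
    have := integrable_shift (fun _ : Unit ⊕ Unit => (1 : ℝ)) hFL 0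
    simpa using this
  have h1 := integral_sum_gm hi
  have h2 : ∫ y, F y ∂(gm (Unit ⊕ Unit)) =
      ∫ s, h (t + Real.sqrt (a ^ 2 + b ^ 2) * s) ∂(gaussianReal 0 1) := by
    have h3 := integral_one (κ := Unit ⊕ Unit) (Sum.elim (fun _ => a) (fun _ => b))
      (F := fun u => h (t + u)) (hc.measurable.comp (measurable_const_add t))
    simp only [Fintype.sum_sum_type, Finset.univ_unique, Finset.sum_singleton, Sum.elim_inl,
      Sum.elim_inr] at h3
    rw [← h3]
    congr 1
    funext y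
    simp only [hF, add_assoc]
  rw [← h2, h1]
  have h4 : ∀ s : ℝ, ∫ s', h (t + a * s + b * s') ∂(gaussianReal 0 1) =
      ∫ g1 : Unit → ℝ, h (t + a * s + b * g1 ()) ∂(gm Unit) := by
    intro s
    exact (integral_eval_gm (κ := Unit) () (F := fun s' => h (t + a * s + b * s'))
      (hc.measurable.comp (by fun_prop))).symm
  simp_rw [h4]
  have hmeas : Measurable fun s : ℝ => ∫ g1 : Unit → ℝ, h (t + a * s + b * g1 ()) ∂(gm Unit) := by
    have : Measurable (Function.uncurry fun (s : ℝ) (g1 : Unit → ℝ) =>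
        h (t + a * s + b * g1 ())) := hc.measurable.comp (by fun_prop)
    exact this.stronglyMeasurable.integral_prod_right.measurable
  exact (integral_eval_gm (κ := Unit) () hmeas).symm

/-- smoothing of a Lipschitz function. -/
theorem lip_smooth {L : ℝ} {h : ℝ → ℝ} (hh : ∀ a b, |h a - h b| ≤ L * |a - b|) (b : ℝ) :
    ∀ u v, |∫ s, h (u + b * s) ∂(gaussianReal 0 1) - ∫ s, h (v + b * s) ∂(gaussianReal 0 1)| ≤
      L * |u - v| := by
  intro u v
  have hc : Continuous h := cont_of_lip1 hh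
  have hi : ∀ u, Integrable (fun s => h (u + b * s)) (gaussianReal 0 1) := by
    intro u
    refine ((integrable_const |h u|).add (integrable_abs_gaussian.const_mul (L * |b|))).mono'
      (hc.comp (by fun_prop)).aestronglyMeasurable (ae_of_all _ fun s => ?_)
    rw [Real.norm_eq_abs]
    have h1 := hh (u + b * s) u
    have h2 : |h (u + b * s)| ≤ |h u| + |h (u + b * s) - h u| := by
      have := abs_add_le (h u) (h (u + b * s) - h u)
      simpa using this
    simp only [add_sub_cancel_left, abs_mul] at h1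
    simp only [Pi.add_apply]
    linarith
  rw [← integral_sub (hi u) (hi v)]
  refine abs_integral_le_integral_abs.trans ?_
  refine (integral_mono ((hi u).sub (hi v)).abs (integrable_const (L * |u - v|)) fun s => ?_).trans
    (by simp)
  refine (hh _ _).trans (le_of_eq ?_)
  congr 2
  ring

/-- quantitative property of the number of coins. -/
def W1 (n : ℕ) (ε : ℝ) : Prop := ∀ h : ℝ → ℝ, (∀ a b, |h a - h b| ≤ |a - b|) →
      |bavg n h - ∫ s, h s ∂(gaussianReal 0 1)| ≤ ε

/-- the central limit theorem for sums of coin fields. -/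
theorem coin_clt {ε : ℝ} (hn : W1 n ε) (b : κ → ℝ) (T : Finset κ) {L : ℝ} (hL : 0 ≤ L) :
    ∀ {h : ℝ → ℝ}, (∀ a b, |h a - h b| ≤ L * |a - b|) → ∀ t : ℝ,
    |eE (uQ (κ → Fin n → Bool)) (fun c => h (t + ∑ g ∈ T, b g * zz g c)) -
      ∫ s, h (t + Real.sqrt (∑ g ∈ T, b g ^ 2) * s) ∂(gaussianReal 0 1)| ≤
      L * ((∑ g ∈ T, |b g|) * ε) := by
  have hP : IsProb (uQ (κ → Fin n → Bool)) := uQ_isProb
  induction T using Finset.induction_on with
  | empty =>
    intro h _ t
    simp only [Finset.sum_empty, add_zero, Real.sqrt_zero, zero_mul, mul_zero]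
    rw [eE_const hP]
    simp
  | insert g T hg ih =>
    intro h hh t
    set h1 : ℝ → ℝ := fun u => ∫ s, h (u + b g * s) ∂(gaussianReal 0 1) with hh1
    have hh1L : ∀ a b, |h1 a - h1 b| ≤ L * |a - b| := lip_smooth hh (b g)
    have e1 : eE (uQ (κ → Fin n → Bool)) (fun c => h (t + ∑ g ∈ insert g T, b g * zz g c)) =
        eE (uQ (κ → Fin n → Bool)) (fun c =>
          bavg n (fun s => h ((t + ∑ g ∈ T, b g * zz g c) + b g * s))) := by
      rw [eE_resample g]
      congr 1
      funext c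
      rw [← avg_eq_bavg]
      congr 1
      refine Finset.sum_congr rfl fun x _ => ?_
      congr 1
      rw [Finset.sum_insert hg]
      have e2 : ∑ g' ∈ T, b g' * zz g' (Function.update c g x) = ∑ g' ∈ T, b g' * zz g' c := by
        refine Finset.sum_congr rfl fun g' hg' => ?_
        have hne : g' ≠ g := fun h => hg (h ▸ hg')
        unfold zz
        rw [Function.update_of_ne hne]
      have e3 : zz g (Function.update c g x) = csum n x := by
        unfold zz
        rw [Function.update_self]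
        rfl
      rw [e2, e3]
      ring
    have h2 : |eE (uQ (κ → Fin n → Bool)) (fun c => h (t + ∑ g ∈ insert g T, b g * zz g c)) -
        eE (uQ (κ → Fin n → Bool)) (fun c => h1 (t + ∑ g ∈ T, b g * zz g c))| ≤
        L * |b g| * ε := by
      rw [e1, ← eE_sub]
      refine (eE_abs_le hP _).trans (eE_le_of_le hP fun c => ?_)
      refine bavg_lip hn (by positivity) fun u v => ?_
      refine (hh _ _).trans (le_of_eq ?_)
      rw [mul_assoc, ← abs_mul]
      congr 2
      ring
    have h3 := ih hh1L t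
    have h4 : ∫ s, h1 (t + Real.sqrt (∑ g ∈ T, b g ^ 2) * s) ∂(gaussianReal 0 1) =
        ∫ s, h (t + Real.sqrt (∑ g ∈ insert g T, b g ^ 2) * s) ∂(gaussianReal 0 1) := by
      have h5 := gauss_add hh t (Real.sqrt (∑ g ∈ T, b g ^ 2)) (b g)
      rw [Real.sq_sqrt (Finset.sum_nonneg fun _ _ => sq_nonneg _)] at h5
      rw [Finset.sum_insert hg, add_comm (b g ^ 2), ← h5]
    rw [h4] at h3
    have h6 := abs_sub_le
      (eE (uQ (κ → Fin n → Bool)) (fun c => h (t + ∑ g ∈ insert g T, b g * zz g c)))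
      (eE (uQ (κ → Fin n → Bool)) (fun c => h1 (t + ∑ g ∈ T, b g * zz g c)))
      (∫ s, h (t + Real.sqrt (∑ g ∈ insert g T, b g ^ 2) * s) ∂(gaussianReal 0 1))
    refine h6.trans ((add_le_add h2 h3).trans (le_of_eq ?_))
    rw [Finset.sum_insert hg]
    ring

end clt

end

end Crest.Agent.R164.CavG
end

-- ▼ part R164/CavW3
section

/-!
Row 164: the central limit hypothesis `Clt` for the label variable `labY b = ∑ g, b g * zz g`.
-/

set_option autoImplicit false

namespace Crest.Agent.R164.CavG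

open MeasureTheory ProbabilityTheory Finset Crest.Agent.R141
open Crest.Agent.R164.ED (uQ uQ_isProb eE_uQ zz eE_exp_zz_sq)

noncomputable section

section label

variable {κ : Type*} [Fintype κ] [DecidableEq κ] {n : ℕ}

/-- the label variable. -/
def labY (b : κ → ℝ) (c : κ → Fin n → Bool) : ℝ := ∑ g, b g * zz g c

/-- cells still present at depth `m`: all cells for the leaf, the revealed cells `S (m-1)` at depth
`m ≥ 1`. -/
def RS (S : ℕ → Finset κ) : ℕ → Finset κ
  | 0 => univ
  | m + 1 => S m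

/-- label variances. -/
def labV (J : ℕ) (S : ℕ → Finset κ) (b : κ → ℝ) (m : ℕ) : ℝ :=
  if m ≤ J then ∑ g ∈ RS S m \ RS S (m + 1), b g ^ 2 else ∑ g ∈ RS S m, b g ^ 2

omit [Fintype κ] in
theorem zz_mix (S : Finset κ) (c c' : κ → Fin n → Bool) (g : κ) :
    zz g (mix S c c') = if g ∈ S then zz g c else zz g c' := by
  unfold zz mix
  by_cases h : g ∈ S
  · simp only [h, if_true]
  · simp only [h, if_false]

theorem eE_zz (g : κ) : eE (uQ (κ → Fin n → Bool)) (fun c => zz g c) = 0 := by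
  have hinv : Function.Involutive fun c : κ → Fin n → Bool => fun k t => !(c k t) := by
    intro c
    funext k t
    simp
  have e2 := Equiv.sum_comp (hinv.toPerm : Equiv.Perm (κ → Fin n → Bool)) (fun c => zz g c)
  have e3 : ∑ c : κ → Fin n → Bool, zz g (fun k t => !(c k t)) =
      ∑ c : κ → Fin n → Bool, zz g c := e2
  have e4 : ∀ c : κ → Fin n → Bool, zz g (fun k t => !(c k t)) = - zz g c := by
    intro c
    unfold zz
    rw [← mul_neg, ← Finset.sum_neg_distrib]
    congr 1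
    refine Finset.sum_congr rfl fun t _ => ?_
    have hb : ∀ b : Bool, sv (!b) = -sv b := by
      intro b; cases b <;> simp [sv]
    exact hb _
  simp only [e4, Finset.sum_neg_distrib] at e3
  have e5 : ∑ c : κ → Fin n → Bool, zz g c = 0 := by linarith
  rw [eE_uQ, e5, mul_zero]

theorem YY_label {J : ℕ} {S : ℕ → Finset κ} {s : ℕ → Setoid (κ → Fin n → Bool)}
    (hs : ∀ m ≤ J, s m = agr (S m)) (b : κ → ℝ) {m : ℕ} (hm : m ≤ J + 1)
    (c : κ → Fin n → Bool) :
    YY (uQ (κ → Fin n → Bool)) s (labY b) m c = ∑ g ∈ RS S m, b g * zz g c := by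
  have hP : IsProb (uQ (κ → Fin n → Bool)) := uQ_isProb
  cases m with
  | zero => rfl
  | succ m =>
    show cE (uQ (κ → Fin n → Bool)) (s m) (labY b) c = ∑ g ∈ S m, b g * zz g c
    rw [hs m (by omega), cE_agr]
    have e1 : (fun c' => labY b (mix (S m) c c')) = fun c' : κ → Fin n → Bool =>
        (∑ g ∈ S m, b g * zz g c) + ∑ g ∈ (S m)ᶜ, b g * zz g c' := by
      funext c'
      unfold labY
      rw [← Finset.sum_add_sum_compl (S m)]
      congr 1
      · refine Finset.sum_congr rfl fun g hg => ?_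
        rw [zz_mix, if_pos hg]
      · refine Finset.sum_congr rfl fun g hg => ?_
        rw [zz_mix, if_neg (Finset.mem_compl.1 hg)]
    rw [e1, eE_add _ (fun _ => ∑ g ∈ S m, b g * zz g c), eE_const hP, eE_sum]
    have e2 : ∀ g, eE (uQ (κ → Fin n → Bool)) (fun c' => b g * zz g c') = 0 := by
      intro g
      rw [eE_smul, eE_zz, mul_zero]
    simp [e2]

/-- **The central limit hypothesis holds for coin labels.** -/
theorem clt_label {J : ℕ} {ε B1 : ℝ} (hn : W1 n ε) (hε : 0 ≤ ε) {S : ℕ → Finset κ}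
    (hS : ∀ m, m < J → S (m + 1) ⊆ S m) {s : ℕ → Setoid (κ → Fin n → Bool)}
    (hs : ∀ m ≤ J, s m = agr (S m)) {b : κ → ℝ} (hb : ∑ g, |b g| ≤ B1) :
    Clt (uQ (κ → Fin n → Bool)) s J (labY b) (labV J S b) (B1 * ε) := by
  have hB : ∀ T : Finset κ, ∑ g ∈ T, |b g| ≤ B1 := fun T =>
    (Finset.sum_le_sum_of_subset_of_nonneg (Finset.subset_univ T)
      (fun g _ _ => abs_nonneg _)).trans hb
  have hRS : ∀ m ≤ J, RS S (m + 1) ⊆ RS S m := by
    intro m hm
    cases m with
    | zero => exact Finset.subset_univ _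
    | succ m => exact hS m (by omega)
  constructor
  · intro m hm L h hL hh l
    rw [hs m hm, cE_agr, YY_label hs b (by omega) l]
    have e1 : ∀ c' : κ → Fin n → Bool,
        YY (uQ (κ → Fin n → Bool)) s (labY b) m (mix (S m) l c') =
        (∑ g ∈ RS S (m + 1), b g * zz g l) + ∑ g ∈ RS S m \ RS S (m + 1), b g * zz g c' := by
      intro c'
      rw [YY_label hs b (by omega), ← Finset.sum_sdiff (hRS m hm), add_comm]
      congr 1
      · refine Finset.sum_congr rfl fun g hg => ?_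
        have hg' : g ∈ S m := hg
        rw [zz_mix, if_pos hg']
      · refine Finset.sum_congr rfl fun g hg => ?_
        have hg' : g ∉ S m := (Finset.mem_sdiff.1 hg).2
        rw [zz_mix, if_neg hg']
    simp_rw [e1]
    have e2 : labV J S b m = ∑ g ∈ RS S m \ RS S (m + 1), b g ^ 2 := if_pos hm
    rw [e2]
    refine (coin_clt hn b _ hL hh _).trans ?_
    exact mul_le_mul_of_nonneg_left (mul_le_mul_of_nonneg_right (hB _) hε) hL
  · intro L h hL hh
    have e1 : ∀ c' : κ → Fin n → Bool, YY (uQ (κ → Fin n → Bool)) s (labY b) (J + 1) c' =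
        0 + ∑ g ∈ RS S (J + 1), b g * zz g c' := by
      intro c'
      rw [YY_label hs b le_rfl, zero_add]
    simp_rw [e1]
    have e2 : labV J S b (J + 1) = ∑ g ∈ RS S (J + 1), b g ^ 2 := if_neg (by omega)
    rw [e2]
    have h1 := coin_clt hn b (RS S (J + 1)) hL hh 0
    have e3 : (fun s => h (0 + Real.sqrt (∑ g ∈ RS S (J + 1), b g ^ 2) * s)) =
        fun s => h (Real.sqrt (∑ g ∈ RS S (J + 1), b g ^ 2) * s) := by
      funext s; rw [zero_add]
    rw [e3] at h1
    refine h1.trans ?_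
    exact mul_le_mul_of_nonneg_left (mul_le_mul_of_nonneg_right (hB _) hε) hL

theorem labV_nonneg (J : ℕ) (S : ℕ → Finset κ) (b : κ → ℝ) (m : ℕ) : 0 ≤ labV J S b m := by
  unfold labV
  split_ifs <;> exact Finset.sum_nonneg fun _ _ => sq_nonneg _

theorem labV_le (J : ℕ) (S : ℕ → Finset κ) (b : κ → ℝ) (m : ℕ) :
    labV J S b m ≤ ∑ g, b g ^ 2 := by
  unfold labV
  split_ifs <;> exact Finset.sum_le_sum_of_subset_of_nonneg (Finset.subset_univ _)
    (fun g _ _ => sq_nonneg _)

theorem eE_zz_sq_le (g : κ) : eE (uQ (κ → Fin n → Bool)) (fun c => zz g c ^ 2) ≤ 4 := by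
  have hP : IsProb (uQ (κ → Fin n → Bool)) := uQ_isProb
  have h1 := eE_exp_zz_sq (n := n) g
  have h2 : eE (uQ (κ → Fin n → Bool)) (fun c => 1 + 1 / 4 * zz g c ^ 2) ≤
      eE (uQ (κ → Fin n → Bool)) (fun c => Real.exp (1 / 4 * zz g c ^ 2)) :=
    eE_mono hP fun c => by
      have := Real.add_one_le_exp (1 / 4 * zz g c ^ 2)
      linarith
  rw [eE_add _ (fun _ => (1 : ℝ)), eE_const hP, eE_smul] at h2
  linarith

/-- second moment of the label variable. -/
theorem eE_labY_sq_le (b : κ → ℝ) :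
    eE (uQ (κ → Fin n → Bool)) (fun c => labY b c ^ 2) ≤ 4 * (∑ g, |b g|) ^ 2 := by
  have hP : IsProb (uQ (κ → Fin n → Bool)) := uQ_isProb
  have h1 : ∀ c : κ → Fin n → Bool, labY b c ^ 2 ≤ (∑ g, |b g|) * ∑ g, |b g| * zz g c ^ 2 := by
    intro c
    have h2 := Finset.sum_mul_sq_le_sq_mul_sq univ (fun g => Real.sqrt |b g|)
      (fun g => Real.sqrt |b g| * |zz g c|)
    have e1 : ∀ g, Real.sqrt |b g| * (Real.sqrt |b g| * |zz g c|) = |b g * zz g c| := by
      intro g
      rw [← mul_assoc, Real.mul_self_sqrt (abs_nonneg _), abs_mul]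
    have e2 : ∀ g, Real.sqrt |b g| ^ 2 = |b g| := fun g => Real.sq_sqrt (abs_nonneg _)
    have e3 : ∀ g, (Real.sqrt |b g| * |zz g c|) ^ 2 = |b g| * zz g c ^ 2 := fun g => by
      rw [mul_pow, e2, sq_abs]
    simp only [e1, e2, e3] at h2
    refine le_trans ?_ h2
    unfold labY
    rw [← sq_abs]
    exact pow_le_pow_left₀ (abs_nonneg _) (Finset.abs_sum_le_sum_abs _ _) 2
  refine (eE_mono hP h1).trans ?_
  rw [eE_smul, eE_sum]
  have h3 : ∀ g, eE (uQ (κ → Fin n → Bool)) (fun c => |b g| * zz g c ^ 2) ≤ |b g| * 4 := by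
    intro g
    rw [eE_smul]
    exact mul_le_mul_of_nonneg_left (eE_zz_sq_le g) (abs_nonneg _)
  have h4 : 0 ≤ ∑ g, |b g| := Finset.sum_nonneg fun _ _ => abs_nonneg _
  refine (mul_le_mul_of_nonneg_left (Finset.sum_le_sum fun g _ => h3 g) h4).trans (le_of_eq ?_)
  rw [← Finset.sum_mul]
  ring

end label

end

end Crest.Agent.R164.CavG
private theorem rz_89024d1a5d : type_of% @_root_.Crest.Agent.R164.CavG.RS.eq_1 := @_root_.Crest.Agent.R164.CavG.RS.eq_1 -- L25
end

-- ▼ part R164/LLimA0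
section

/-!
Row 164, L side (GL6, helper639), part 0: the truncated weight is Lipschitz on boxes.
-/

set_option autoImplicit false

namespace Crest.Agent.R164.CavG

open MeasureTheory ProbabilityTheory Finset
open Crest.Agent.R164.EG (WF Fr Qf m1 oc0 oc1 ocy dot dot_oc0 dot_oc1 dot_ocy)
open Crest.Agent.R164.ED (psi psi_lipschitz abs_psi_le)

noncomputable section

/-- arguments: label variable and block fields. -/
def toOpt {β : Type*} (z : Unit ⊕ β → ℝ) : Option β → ℝ :=
  fun o => o.elim (z (.inl ())) fun k => z (.inr k)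

/-- the weight in the variables `Unit ⊕ β`. -/
def WU {K : ℕ} (w val : Fin (K + 1) → ℝ) (b : ℝ) (l : Fin (K + 1)) (cs : ℝ)
    (z : Unit ⊕ Fin (K + 1) → ℝ) : ℝ := cs + WF w val b l (toOpt z)

/-- size parameter of the spectrum. -/
def aW {K : ℕ} (w val : Fin (K + 1) → ℝ) : ℝ := |m1 w val| + ∑ k, |val k|

/-- Lipschitz constants on boxes. -/
def LW {K : ℕ} (w val : Fin (K + 1) → ℝ) (R : ℝ) : ℝ :=
  3 * aW w val * ((K : ℝ) + 1) * R + aW w val + 1

theorem aW_nonneg {K : ℕ} (w val : Fin (K + 1) → ℝ) : 0 ≤ aW w val :=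
  add_nonneg (abs_nonneg _) (Finset.sum_nonneg fun _ _ => abs_nonneg _)

theorem abs_val_sub_le {K : ℕ} (w val : Fin (K + 1) → ℝ) (l : Fin (K + 1)) :
    |val l - m1 w val| ≤ aW w val := by
  have h1 := Finset.single_le_sum (f := fun k => |val k|) (fun k _ => abs_nonneg _)
    (Finset.mem_univ l)
  have h2 := abs_sub (val l) (m1 w val)
  unfold aW
  have h3 : |val l| ≤ ∑ k, |val k| := h1
  linarith

theorem WU_eq {K : ℕ} (w val : Fin (K + 1) → ℝ) (b : ℝ) (l : Fin (K + 1)) (cs : ℝ)
    (z : Unit ⊕ Fin (K + 1) → ℝ) : WU w val b l cs z = cs + m1 w val / 2 -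
      ((m1 w val - val l) * (∑ k, z (.inr k)) ^ 2 +
        2 * (∑ k, z (.inr k)) * (∑ k, (val k - m1 w val) * z (.inr k))) / 2 +
      Real.log (Real.cosh (∑ k, (val k - m1 w val) * z (.inr k) + z (.inl ()) + b)) := by
  unfold WU WF Fr
  rw [dot_oc0, dot_oc1, dot_ocy]
  have e1 : ∀ k : Fin (K + 1), toOpt z (some k) = z (.inr k) := fun _ => rfl
  have e2 : toOpt z none = z (.inl ()) := rfl
  simp only [e1, e2]
  have e3 : ∑ k, (val k - m1 w val) * z (.inr k) =
      ∑ k, val k * z (.inr k) - m1 w val * ∑ k, z (.inr k) := by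
    rw [Finset.mul_sum, ← Finset.sum_sub_distrib]
    exact Finset.sum_congr rfl fun k _ => by ring
  rw [e3]
  unfold Qf
  ring_nf

theorem log_cosh_sub_le (x y : ℝ) :
    |Real.log (Real.cosh x) - Real.log (Real.cosh y)| ≤ |x - y| := by
  have := Crest.Agent.R164.GTilt.lip_log_cosh x y
  exact this

theorem WU_lip {K : ℕ} (w val : Fin (K + 1) → ℝ) (b : ℝ) (l : Fin (K + 1)) (cs : ℝ) {R : ℝ}
    (hR : 0 ≤ R) (z z' : Unit ⊕ Fin (K + 1) → ℝ) (hz : ∀ k, |z k| ≤ R) (hz' : ∀ k, |z' k| ≤ R) :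
    |WU w val b l cs z - WU w val b l cs z'| ≤ LW w val R * ∑ k, |z k - z' k| := by
  set a := aW w val with ha
  have ha0 : 0 ≤ a := aW_nonneg w val
  set S : ℝ := ∑ k : Fin (K + 1), |z (.inr k) - z' (.inr k)| with hS
  have hS0 : 0 ≤ S := Finset.sum_nonneg fun _ _ => abs_nonneg _
  have hsum : ∑ k, |z k - z' k| = |z (.inl ()) - z' (.inl ())| + S := by
    rw [Fintype.sum_sum_type]
    simp [hS]
  rw [WU_eq, WU_eq, hsum]
  set x := ∑ k : Fin (K + 1), z (.inr k) with hx
  set x' := ∑ k : Fin (K + 1), z' (.inr k) with hx'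
  set u := ∑ k : Fin (K + 1), (val k - m1 w val) * z (.inr k) with hu
  set u' := ∑ k : Fin (K + 1), (val k - m1 w val) * z' (.inr k) with hu'
  have bx : ∀ y : Unit ⊕ Fin (K + 1) → ℝ, (∀ k, |y k| ≤ R) →
      |∑ k : Fin (K + 1), y (.inr k)| ≤ ((K : ℝ) + 1) * R := by
    intro y hy
    refine (Finset.abs_sum_le_sum_abs _ _).trans ?_
    refine (Finset.sum_le_sum fun k _ => hy (.inr k)).trans (le_of_eq ?_)
    simp
  have bu : ∀ y : Unit ⊕ Fin (K + 1) → ℝ, (∀ k, |y k| ≤ R) →
      |∑ k : Fin (K + 1), (val k - m1 w val) * y (.inr k)| ≤ a * (((K : ℝ) + 1) * R) := by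
    intro y hy
    refine (Finset.abs_sum_le_sum_abs _ _).trans ?_
    refine (Finset.sum_le_sum (g := fun _ => a * R) fun k _ => ?_).trans (le_of_eq ?_)
    · rw [abs_mul]
      exact mul_le_mul (abs_val_sub_le w val k) (hy _) (abs_nonneg _) ha0
    · simp; ring
  have dx : |x - x'| ≤ S := by
    rw [hx, hx', ← Finset.sum_sub_distrib]
    exact Finset.abs_sum_le_sum_abs _ _
  have du : |u - u'| ≤ a * S := by
    rw [hu, hu', ← Finset.sum_sub_distrib, hS, Finset.mul_sum]
    refine (Finset.abs_sum_le_sum_abs _ _).trans (Finset.sum_le_sum fun k _ => ?_)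
    rw [← mul_sub, abs_mul]
    exact mul_le_mul_of_nonneg_right (abs_val_sub_le w val k) (abs_nonneg _)
  have b1 := bx z hz
  have b2 := bx z' hz'
  have b3 := bu z hz
  have b4 := bu z' hz'
  rw [← hx] at b1
  rw [← hx'] at b2
  rw [← hu] at b3
  rw [← hu'] at b4
  set n := ((K : ℝ) + 1) with hn
  have hn0 : 0 ≤ n := by positivity
  have hnR : 0 ≤ n * R := by positivity
  have t1 : |(m1 w val - val l) * x ^ 2 - (m1 w val - val l) * x' ^ 2| ≤ a * (2 * (n * R)) * S := by
    have e : (m1 w val - val l) * x ^ 2 - (m1 w val - val l) * x' ^ 2 =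
        (m1 w val - val l) * ((x + x') * (x - x')) := by ring
    rw [e, abs_mul, abs_mul, mul_assoc]
    have h1 : |m1 w val - val l| ≤ a := by rw [abs_sub_comm]; exact abs_val_sub_le w val l
    have h2 : |x + x'| ≤ 2 * (n * R) := (abs_add_le _ _).trans (by linarith)
    exact mul_le_mul h1 (mul_le_mul h2 dx (abs_nonneg _) (by positivity)) (by positivity) ha0
  have t2 : |x * u - x' * u'| ≤ 2 * (a * (n * R)) * S := by
    have e : x * u - x' * u' = (x - x') * u + x' * (u - u') := by ring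
    rw [e]
    refine (abs_add_le _ _).trans ?_
    rw [abs_mul, abs_mul]
    have h1 := mul_le_mul dx b3 (abs_nonneg _) hS0
    have h2 := mul_le_mul b2 du (abs_nonneg _) hnR
    refine (add_le_add h1 h2).trans (le_of_eq (by ring))
  have t3 := log_cosh_sub_le (u + z (.inl ()) + b) (u' + z' (.inl ()) + b)
  have t4 : |u + z (.inl ()) + b - (u' + z' (.inl ()) + b)| ≤
      a * S + |z (.inl ()) - z' (.inl ())| := by
    have e : u + z (.inl ()) + b - (u' + z' (.inl ()) + b) =
        (u - u') + (z (.inl ()) - z' (.inl ())) := by ring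
    rw [e]
    exact (abs_add_le _ _).trans (by linarith)
  have t5 := t3.trans t4
  set D := |z (.inl ()) - z' (.inl ())| with hD
  have hD0 : 0 ≤ D := abs_nonneg _
  unfold LW
  rw [← ha, ← hn]
  have g1 := abs_le.1 t1
  have g2 := abs_le.1 t2
  have g3 := abs_le.1 t5
  have hrhs : (3 * a * n * R + a + 1) * (D + S) =
      a * (2 * (n * R)) * S / 2 + 2 * (a * (n * R)) * S + a * S + D + S +
        (3 * a * n * R + a) * D := by ring
  have hpos : 0 ≤ (3 * a * n * R + a) * D := by positivity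
  rw [hrhs, abs_le]
  have e0 : cs + m1 w val / 2 - ((m1 w val - val l) * x ^ 2 + 2 * x * u) / 2 +
      Real.log (Real.cosh (u + z (.inl ()) + b)) -
      (cs + m1 w val / 2 - ((m1 w val - val l) * x' ^ 2 + 2 * x' * u') / 2 +
      Real.log (Real.cosh (u' + z' (.inl ()) + b))) =
      -(((m1 w val - val l) * x ^ 2 - (m1 w val - val l) * x' ^ 2) / 2) - (x * u - x' * u') +
      (Real.log (Real.cosh (u + z (.inl ()) + b)) -
        Real.log (Real.cosh (u' + z' (.inl ()) + b))) := by ring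
  rw [e0]
  obtain ⟨g1a, g1b⟩ := g1
  obtain ⟨g2a, g2b⟩ := g2
  obtain ⟨g3a, g3b⟩ := g3
  generalize (m1 w val - val l) * x ^ 2 - (m1 w val - val l) * x' ^ 2 = T1 at *
  generalize x * u - x' * u' = T2 at *
  generalize Real.log (Real.cosh (u + z (.inl ()) + b)) -
    Real.log (Real.cosh (u' + z' (.inl ()) + b)) = T3 at *
  generalize a * (2 * (n * R)) * S = A1 at *
  generalize 2 * (a * (n * R)) * S = A2 at *
  generalize (3 * a * n * R + a) * D = A3 at *
  generalize a * S = A4 at *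
  constructor <;> linarith

/-- **the truncated weight is Lipschitz on boxes.** -/
theorem psiW_locLip {K : ℕ} (w val : Fin (K + 1) → ℝ) (b : ℝ) (l : Fin (K + 1)) (cs : ℝ)
    {Kt : ℝ} (hKt : 0 ≤ Kt) : LocLip (LW w val) (fun z => psi Kt (WU w val b l cs z)) where
  nonneg R hR := by
    have := aW_nonneg w val
    unfold LW
    positivity
  lip R hR z z' hz hz' := (psi_lipschitz hKt _ _).trans
    (WU_lip w val b l cs hR z z' hz hz')

theorem psiW_bound {K : ℕ} (w val : Fin (K + 1) → ℝ) (b : ℝ) (l : Fin (K + 1)) (cs : ℝ)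
    {Kt : ℝ} (hKt : 0 ≤ Kt) (z : Unit ⊕ Fin (K + 1) → ℝ) :
    |psi Kt (WU w val b l cs z)| ≤ Kt + 1 := abs_psi_le hKt _

end

end Crest.Agent.R164.CavG
end

-- ▼ part R164/LLimA2
section

/-!
Row 164, L side (GL6, helper639), part 2: the coins of one site (`LS`, `lsF`, `lsP` of `EDb`) satisfy
the central limit hypothesis.
-/

set_option autoImplicit false

namespace Crest.Agent.R164.CavG

open MeasureTheory ProbabilityTheory Finset Crest.Agent.R141
open Crest.Agent.R164.ED (uQ uQ_isProb eE_uQ zz LC LS lsF lsP lsr zl lsP_isProb aE)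

noncomputable section

section transport

variable {Λ Λ' : Type*} [Fintype Λ] [Fintype Λ'] {P2 : Λ → ℝ} {Q2 : Λ' → ℝ} {s : ℕ → Setoid Λ}
  {s' : ℕ → Setoid Λ'} {J : ℕ} {Y : Λ → ℝ} {bv : ℕ → ℝ} {dl : ℝ}

theorem YY_prod (hQ2 : IsProb Q2) (m : ℕ) (u : Λ × Λ') :
    YY (pP P2 Q2) (fun n => (s n).prod (s' n)) (fun u => Y u.1) m u = YY P2 s Y m u.1 := by
  cases m with
  | zero => rfl
  | succ m => exact PF.cE_prod_fst hQ2 Y u.1 u.2

/-- an irrelevant independent factor. -/
theorem Clt.prod_fst (hQ2 : IsProb Q2) (h : Clt P2 s J Y bv dl) :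
    Clt (pP P2 Q2) (fun n => (s n).prod (s' n)) J (fun u => Y u.1) bv dl where
  step m hm L f hL hf u := by
    have e1 : (fun b : Λ × Λ' => f (YY (pP P2 Q2) (fun n => (s n).prod (s' n))
        (fun u => Y u.1) m b)) = fun b => (fun a => f (YY P2 s Y m a)) b.1 := by
      funext b; rw [YY_prod hQ2]
    rw [e1, YY_prod hQ2]
    have e2 : cE (pP P2 Q2) ((s m).prod (s' m)) (fun b => (fun a => f (YY P2 s Y m a)) b.1) u =
        cE P2 (s m) (fun a => f (YY P2 s Y m a)) u.1 :=
      PF.cE_prod_fst (P := P2) hQ2 (fun a => f (YY P2 s Y m a)) u.1 u.2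
    rw [e2]
    exact h.step m hm L f hL hf u.1
  bot L f hL hf := by
    have e1 : (fun b : Λ × Λ' => f (YY (pP P2 Q2) (fun n => (s n).prod (s' n))
        (fun u => Y u.1) (J + 1) b)) = fun b => (fun a => f (YY P2 s Y (J + 1) a)) b.1 := by
      funext b; rw [YY_prod hQ2]
    rw [e1]
    have e2 : eE (pP P2 Q2) (fun b => (fun a => f (YY P2 s Y (J + 1) a)) b.1) =
        eE P2 (fun a => f (YY P2 s Y (J + 1) a)) :=
      PF.eE_prod_fst (P := P2) hQ2 (fun a => f (YY P2 s Y (J + 1) a))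
    rw [e2]
    exact h.bot L f hL hf

theorem Clt.mono {dl' : ℝ} (h : Clt P2 s J Y bv dl) (hd : dl ≤ dl') : Clt P2 s J Y bv dl' where
  step m hm L f hL hf u := (h.step m hm L f hL hf u).trans (mul_le_mul_of_nonneg_left hd hL)
  bot L f hL hf := (h.bot L f hL hf).trans (mul_le_mul_of_nonneg_left hd hL)

end transport

section site

variable {p : Par} {n : ℕ}

/-- the cells revealed at level `k`. -/
def Sk (p : Par) (k : ℕ) : Finset (Fin p.nc) := univ.filter fun g => p.mt g ≤ k

theorem Sk_mono {k k' : ℕ} (h : k ≤ k') : Sk p k ⊆ Sk p k' := by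
  intro g hg
  rw [Sk, Finset.mem_filter] at hg ⊢
  exact ⟨hg.1, hg.2.trans h⟩

theorem lsF_F (k : ℕ) : (lsF p n).F k = (agr (Sk p k)).prod (agr (Sk p k)) := by
  ext a b
  constructor
  · intro h
    have h : lsr p n k a b := h
    exact ⟨fun g hg => h.1 g (Finset.mem_filter.1 hg).2,
      fun g hg => h.2 g (Finset.mem_filter.1 hg).2⟩
  · intro h
    show lsr p n k a b
    exact ⟨fun g hg => h.1 g (Finset.mem_filter.2 ⟨Finset.mem_univ _, hg⟩),
      fun g hg => h.2 g (Finset.mem_filter.2 ⟨Finset.mem_univ _, hg⟩)⟩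

theorem lsP_eq : lsP p n = pP (uQ (LC p n)) (uQ (LC p n)) := by
  funext u
  unfold lsP pP uQ
  rw [Fintype.card_prod]
  push_cast
  rw [mul_inv]

/-- variances of the label increments along the levels `t`. -/
def lsV (p : Par) (J : ℕ) (t : ℕ → ℕ) (b : Fin p.nc → ℝ) : ℕ → ℝ :=
  labV J (fun m => Sk p (t (J - m))) b


/-- **The central limit hypothesis for the coins of the new site.** -/
theorem clt_ls {J : ℕ} {ε B1 : ℝ} (hn : W1 n ε) (hε : 0 ≤ ε) {t : ℕ → ℕ} (ht : Monotone t)
    {b : Fin p.nc → ℝ} (hb : ∑ g, |b g| ≤ B1) :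
    Clt (lsP p n) (fun m => (lsF p n).F (t (J - m))) J (fun l => ∑ g, b g * zl l.1 g)
      (lsV p J t b) (B1 * ε) := by
  have h1 := clt_label (J := J) hn hε (S := fun m => Sk p (t (J - m)))
    (fun m hm => Sk_mono (ht (by omega))) (s := fun m => agr (Sk p (t (J - m))))
    (fun m _ => rfl) hb
  have h2 := Clt.prod_fst (Q2 := uQ (LC p n)) (s' := fun m => agr (Sk p (t (J - m))))
    uQ_isProb h1
  rw [← lsP_eq] at h2
  have e : (fun m => (lsF p n).F (t (J - m))) =
      fun m => (agr (Sk p (t (J - m)))).prod (agr (Sk p (t (J - m)))) :=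
    funext fun m => lsF_F _
  rw [e]
  exact h2

theorem eE_ls_sq_le (b : Fin p.nc → ℝ) :
    eE (lsP p n) (fun l => (∑ g, b g * zl l.1 g) ^ 2) ≤ 4 * (∑ g, |b g|) ^ 2 := by
  rw [lsP_eq]
  have h : eE (pP (uQ (LC p n)) (uQ (LC p n))) (fun l => (∑ g, b g * zl l.1 g) ^ 2) =
      eE (uQ (LC p n)) (fun c => labY b c ^ 2) :=
    PF.eE_prod_fst uQ_isProb (fun c : LC p n => labY b c ^ 2)
  rw [h]
  exact eE_labY_sq_le b

/-- label variances in terms of the levels -/
theorem lsV_mid {J : ℕ} {t : ℕ → ℕ} (b : Fin p.nc → ℝ) {m : ℕ} (h0 : m ≠ 0)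
    (hm : m ≤ J) : lsV p J t b m =
      ∑ g : Fin p.nc, if t (J - m) < p.mt g ∧ p.mt g ≤ t (J - m + 1) then b g ^ 2 else 0 := by
  obtain ⟨m, rfl⟩ : ∃ k, m = k + 1 := ⟨m - 1, by omega⟩
  unfold lsV labV
  rw [if_pos hm, ← Finset.sum_filter]
  refine Finset.sum_congr ?_ fun _ _ => rfl
  ext g
  have e1 : J - (m + 1) + 1 = J - m := by omega
  simp only [RS, Sk, Finset.mem_sdiff, Finset.mem_filter, Finset.mem_univ, true_and, not_le, e1]
  tauto

theorem lsV_zero {J : ℕ} {t : ℕ → ℕ} (b : Fin p.nc → ℝ) :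
    lsV p J t b 0 = ∑ g : Fin p.nc, if t J < p.mt g then b g ^ 2 else 0 := by
  unfold lsV labV
  rw [if_pos (Nat.zero_le J), ← Finset.sum_filter]
  refine Finset.sum_congr ?_ fun _ _ => rfl
  ext g
  simp only [RS, Sk, Finset.mem_sdiff, Finset.mem_filter, Finset.mem_univ, true_and, not_le,
    Nat.sub_zero]

theorem lsV_bot {J : ℕ} {t : ℕ → ℕ} (b : Fin p.nc → ℝ) :
    lsV p J t b (J + 1) = ∑ g : Fin p.nc, if p.mt g ≤ t 0 then b g ^ 2 else 0 := by
  unfold lsV labV
  rw [if_neg (by omega), ← Finset.sum_filter]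
  refine Finset.sum_congr ?_ fun _ _ => rfl
  ext g
  simp only [RS, Sk, Finset.mem_filter, Finset.mem_univ, true_and, Nat.sub_self]

end site

end

end Crest.Agent.R164.CavG
end

-- ▼ part R164/LLimA3
section

/-!
Row 164, L side (GL6, helper639), part 3: `cavF` versus the nested Gaussian functional.
-/

set_option autoImplicit false

namespace Crest.Agent.R164.CavG

open MeasureTheory ProbabilityTheory Finset Crest.Agent.R141
open Crest.Agent.R164.ED (LC LS lsF lsP lsr zl lsP_isProb aE wid wx Z0 Z1 yb zc psi stP stF cavW cavF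
  BU OU psi_lipschitz abs_psi_le)
open Crest.Agent.R164.EG (WF WF_eq m1)
open Crest.Agent.R164.Haar (gam)

noncomputable section

theorem wid_WU {K : ℕ} (w val : Fin (K + 1) → ℝ) (bb : ℝ) (l : Fin (K + 1)) (cs : ℝ)
    (z : Unit ⊕ Fin (K + 1) → ℝ) :
    wid (m1 w val) (val l) (∑ k, z (.inr k)) (∑ k, val k * z (.inr k)) (bb + z (.inl ()))
      (fun _ => cs) = WU w val bb l cs z := by
  unfold WU
  rw [WF_eq]
  have e1 : ∀ k : Fin (K + 1), toOpt z (some k) = z (.inr k) := fun _ => rfl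
  have e2 : toOpt z none = z (.inl ()) := rfl
  simp only [e1, e2]
  unfold wid wx
  set z0 := ∑ k : Fin (K + 1), z (.inr k)
  set z1 := ∑ k : Fin (K + 1), val k * z (.inr k)
  set y := z (.inl ())
  have s1 : sv true = 1 := rfl
  have s2 : sv false = -1 := rfl
  rw [s1, s2]
  have a1 : (1 - z0) * z1 + 1 / 2 * m1 w val * (1 - z0) ^ 2 + 1 / 2 * val l * z0 ^ 2 + cs +
      1 * (bb + y) = cs + ((1 - z0) * z1 + 1 / 2 * (1 - z0) ^ 2 * m1 w val +
        1 / 2 * val l * z0 ^ 2 + bb + y) := by ring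
  have a2 : (-1 - z0) * z1 + 1 / 2 * m1 w val * (-1 - z0) ^ 2 + 1 / 2 * val l * z0 ^ 2 + cs +
      -1 * (bb + y) = cs + ((-1 - z0) * z1 + 1 / 2 * (-1 - z0) ^ 2 * m1 w val +
        1 / 2 * val l * z0 ^ 2 - bb - y) := by ring
  rw [a1, a2, Real.exp_add cs, Real.exp_add cs, ← mul_add, mul_div_assoc,
    Real.log_mul (Real.exp_pos _).ne' (by positivity), Real.log_exp]
  congr 2
  ring

/-- the last coordinate does not matter. -/
theorem integral_castSucc {N : ℕ} {F : (Fin N → ℝ) → ℝ} (hF : Measurable F) :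
    ∫ G, F (fun i => G i.castSucc) ∂(gam (Fin (N + 1))) = ∫ ζ, F ζ ∂(gm (Fin N)) := by
  have h := integral_lin (ι := Fin N) (κ := Fin (N + 1)) (κ' := Fin N)
    (fun a i => if i = a.castSucc then 1 else 0) (fun a i => if i = a then 1 else 0)
    (fun a b => by
      simp only [mul_ite, mul_one, mul_zero]
      rw [Finset.sum_ite_eq' univ b.castSucc, Finset.sum_ite_eq' univ b]
      simp only [Finset.mem_univ, if_true]
      by_cases hab : b = a
      · subst hab; simp
      · rw [if_neg (fun h => hab (Fin.castSucc_injective N h)), if_neg hab]) hF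
  have e1 : ∀ G : Fin (N + 1) → ℝ, lin (fun (a : Fin N) (i : Fin (N + 1)) =>
      if i = a.castSucc then (1 : ℝ) else 0) G = fun a => G a.castSucc := by
    intro G
    funext a
    simp [lin]
  have e2 : ∀ ζ : Fin N → ℝ, lin (fun (a : Fin N) (i : Fin N) =>
      if i = a then (1 : ℝ) else 0) ζ = ζ := by
    intro ζ
    funext a
    simp [lin]
  simp only [e1, e2] at h
  exact h

section fields

variable {N K : ℕ} (kap : Fin N → Fin (K + 1)) (x ζ : Fin N → ℝ)

theorem sum_zf : ∑ k, zf kap x ζ k = ∑ i, x i * ζ i := by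
  unfold zf
  rw [Finset.sum_comm]
  refine Finset.sum_congr rfl fun i _ => ?_
  rw [← Finset.sum_mul]
  congr 1
  rw [Finset.sum_ite_eq univ (kap i) (fun _ => x i)]
  simp

theorem sum_val_zf (val : Fin (K + 1) → ℝ) :
    ∑ k, val k * zf kap x ζ k = ∑ i, val (kap i) * x i * ζ i := by
  unfold zf
  simp only [Finset.mul_sum]
  rw [Finset.sum_comm]
  refine Finset.sum_congr rfl fun i _ => ?_
  have : ∀ k, val k * ((if kap i = k then x i else 0) * ζ i) =
      if kap i = k then val k * x i * ζ i else 0 := by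
    intro k; split_ifs <;> ring
  simp only [this]
  rw [Finset.sum_ite_eq univ (kap i) (fun k => val k * x i * ζ i)]
  simp

end fields

variable {p : Par} {N : ℕ}

/-- the normalised rows `N^{-1/2} U s`. -/
def xN {n : ℕ} (V : Haar.Mat (Fin N)) (ω : OU p N n) (i : Fin N) : ℝ :=
  (Real.sqrt N)⁻¹ * SY.xU (Matrix.of V) ω.1.1.1 i

theorem cavW_eq {K n : ℕ} (w val : Fin (K + 1) → ℝ) {eig : Fin (N + 1) → ℝ}
    {kap : Fin N → Fin (K + 1)} {l : Fin (K + 1)} (h1 : ∀ i, eig (Fin.castSucc i) = val (kap i))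
    (h2 : eig (Fin.last N) = val l) (b : Fin p.nc → ℝ) (bb cs Kt : ℝ)
    (q : Haar.Mat (Fin N) × (Fin (N + 1) → ℝ)) (u : OU p N n × LS p n) :
    cavW eig (m1 w val) b bb cs Kt q u = psi Kt (WU w val bb l cs
      (cmb (∑ g, b g * zl u.2.1 g) (zf kap (xN q.1 u.1) (fun i => q.2 i.castSucc)))) := by
  unfold cavW
  rw [← wid_WU, h2]
  congr 1
  have e1 : Z0 q.1 q.2 u.1.1.1.1 = ∑ k : Fin (K + 1),
      (cmb (∑ g, b g * zl u.2.1 g) (zf kap (xN q.1 u.1) (fun i => q.2 i.castSucc)) :
        Unit ⊕ Fin (K + 1) → ℝ) (.inr k) := by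
    show Z0 q.1 q.2 u.1.1.1.1 = ∑ k : Fin (K + 1), zf kap (xN q.1 u.1) (fun i => q.2 i.castSucc) k
    rw [sum_zf]
    unfold Z0 zc xN
    rw [Finset.mul_sum]
    exact Finset.sum_congr rfl fun i _ => by ring
  have e2 : Z1 eig q.1 q.2 u.1.1.1.1 = ∑ k : Fin (K + 1), val k *
      (cmb (∑ g, b g * zl u.2.1 g) (zf kap (xN q.1 u.1) (fun i => q.2 i.castSucc)) :
        Unit ⊕ Fin (K + 1) → ℝ) (.inr k) := by
    show Z1 eig q.1 q.2 u.1.1.1.1 = ∑ k : Fin (K + 1), val k *
      zf kap (xN q.1 u.1) (fun i => q.2 i.castSucc) k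
    rw [sum_val_zf]
    unfold Z1 zc xN
    rw [Finset.mul_sum]
    refine Finset.sum_congr rfl fun i _ => ?_
    simp only [h1 i]
    ring
  rw [e1, e2]
  rfl

theorem stF_zero (n : ℕ) : (stF p N n).F 0 = ⊤ := by
  have h1 : (G.fil (BU p N n)).F 0 = ⊤ := SY.fil_zero _
  have h2 : (lsF p n).F 0 = ⊤ := by
    ext a b
    constructor
    · intro _; trivial
    · intro _
      show lsr p n 0 a b
      have hm : ∀ g : Fin p.nc, ¬ p.mt g ≤ 0 := by
        intro g hg
        unfold Par.mt at hg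
        have : 0 < ((g : ℕ) + 1) * (p.T + 1) := by positivity
        omega
      exact ⟨fun g hg => absurd hg (hm g), fun g hg => absurd hg (hm g)⟩
  show ((G.fil (BU p N n)).F 0).prod ((lsF p n).F 0) = ⊤
  rw [h1, h2]
  ext a b
  constructor
  · intro _; trivial
  · intro _; exact ⟨trivial, trivial⟩

theorem Clt.congr {Λ : Type*} [Fintype Λ] {P2 : Λ → ℝ} {s : ℕ → Setoid Λ} {J : ℕ} {Y : Λ → ℝ}
    {bv bv' : ℕ → ℝ} {dl : ℝ} (h : Clt P2 s J Y bv dl) (hb : ∀ m ≤ J + 1, bv m = bv' m) :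
    Clt P2 s J Y bv' dl where
  step m hm L f hL hf u := by
    rw [← hb m (by omega)]
    exact h.step m hm L f hL hf u
  bot L f hL hf := by
    rw [← hb (J + 1) le_rfl]
    exact h.bot L f hL hf

theorem measurable_xN {n : ℕ} (ω : OU p N n) (i : Fin N) :
    Measurable fun V : Haar.Mat (Fin N) => xN V ω i := by
  unfold xN
  exact ((OvC.continuous_xM ω.1.1.1 i).measurable).const_mul _

theorem sum_xN_sq {n : ℕ} (hN : 0 < N) {V : Haar.Mat (Fin N)} (hV : V ∈ Rot.OK N)
    (ω : OU p N n) : ∑ i, xN V ω i ^ 2 = 1 := by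
  have hN' : (0 : ℝ) < N := by exact_mod_cast hN
  have h := OvC.sum_xM_sq hV ω.1.1.1
  unfold xN
  simp only [mul_pow]
  rw [← Finset.mul_sum]
  have h2 : ∑ i, SY.xU (Matrix.of V) ω.1.1.1 i ^ 2 = (N : ℝ) := h
  rw [h2, inv_pow, Real.sq_sqrt hN'.le]
  exact inv_mul_cancel₀ hN'.ne'


end

end Crest.Agent.R164.CavG
end

-- ▼ part R164/CavBr
section

/-!
Row 164, L side (helper716): the bridge between helper893's truncated cavity functional `LG.cavF`
and helper639's `ED.cavF`.
-/

set_option autoImplicit false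

namespace Crest.Agent.R164.CavG

open MeasureTheory ProbabilityTheory Finset Crest.Agent.R141
open Crest.Agent.R164.ED (LC LS lsF lsP lsr zl lsP_isProb aE wid wx Z0 Z1 yb zc psi stP stF cavW cavF
  BU OU psi_lipschitz abs_psi_le)
open Crest.Agent.R164.EG (WF WF_eq m1)
open Crest.Agent.R164.Haar (gam)

noncomputable section

variable {p : Par} {N : ℕ}

set_option maxHeartbeats 1000000 in
/-- `ED.cavF` as an iterated integral over the Haar matrix and the Gaussian vector of the new row -/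
theorem cavF_iter {K n : ℕ} (w val : Fin (K + 1) → ℝ) {Kt : ℝ} (hKt : 0 ≤ Kt)
    {mu : Measure (Haar.Mat (Fin N))} [IsProbabilityMeasure mu]
    {H0 : Haar.Mat (Fin N) → SY.SS p n (univ : Finset (Fin N → Bool)) → ℝ}
    (hH0 : ∀ s, Measurable fun V => H0 V s) {eig : Fin (N + 1) → ℝ} {kap : Fin N → Fin (K + 1)}
    {l : Fin (K + 1)} (h1 : ∀ i, eig (Fin.castSucc i) = val (kap i))
    (h2 : eig (Fin.last N) = val l) (b : Fin p.nc → ℝ) (bb cs : ℝ) :
    cavF mu n H0 eig (m1 w val) b bb cs Kt =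
      ∫ V, Ed p N (fun e => ∫ ζ, aE (stP p N n (H0 V) e) (stF p N n) p.xs
        (fun u => psi Kt (WU w val bb l cs (cmb (∑ g, b g * zl u.2.1 g)
          (zf kap (xN V u.1) ζ)))) ∂(gm (Fin N))) ∂mu := by
  set wf : (Unit ⊕ Fin (K + 1) → ℝ) → ℝ := fun z => psi Kt (WU w val bb l cs z) with hwf
  have hwm : Measurable wf := (psiW_locLip w val bb l cs hKt).measurable
  have hwc := psiW_bound w val bb l cs hKt
  set Hf : DD p N → Haar.Mat (Fin N) × (Fin N → ℝ) → ℝ := fun e q =>
    aE (pP (G.PP (BU p N n) (H0 q.1) e) (lsP p n)) (stF p N n) p.xs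
      (fun u => wf (cmb (∑ g, b g * zl u.2.1 g) (zf kap (xN q.1 u.1) q.2))) with hHf
  have hHm : ∀ e, Measurable (Hf e) := by
    intro e
    refine measurable_aEp (Z := Haar.Mat (Fin N) × (Fin N → ℝ))
      (P := fun q => pP (G.PP (BU p N n) (H0 q.1) e) (lsP p n))
      (U := fun q u => wf (cmb (∑ g, b g * zl u.2.1 g) (zf kap (xN q.1 u.1) q.2)))
      (stF p N n) p.xs (fun a => ?_) (fun a => ?_)
    · exact ((G.meas_PP _ hH0 e a.1).comp measurable_fst).mul_const _
    · exact measurable_field (Y := fun l : LS p n => ∑ g, b g * zl l.1 g)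
        (fun ω i => measurable_xN ω i) hwm a
  have hHb : ∀ e q, |Hf e q| ≤ Kt + 1 := by
    intro e q
    have hPP := pP_isProb (G.PP_isProb (BU p N n) (H0 q.1) e) (lsP_isProb (p := p) (n := n))
    show |aE _ _ _ _| ≤ _
    unfold aE
    refine (eE_abs_le hPP _).trans (eE_le_of_le hPP fun u => ?_)
    exact A_abs_le hPP p.xs_expo.pos (fun q => hwc _) 0 u
  have hcs : Measurable fun G : Fin (N + 1) → ℝ => fun i : Fin N => G i.castSucc := by fun_prop
  have e1 : cavF mu n H0 eig (m1 w val) b bb cs Kt = ∫ q : Haar.Mat (Fin N) × (Fin (N + 1) → ℝ),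
      ∑ e, dw p N e * Hf e (q.1, fun i => q.2 i.castSucc) ∂(mu.prod (gam (Fin (N + 1)))) := by
    unfold cavF Ed
    congr 1
    funext q
    refine Finset.sum_congr rfl fun e _ => ?_
    congr 1
    have e2 : cavW eig (m1 w val) b bb cs Kt q = fun u : OU p N n × LS p n =>
        wf (cmb (∑ g, b g * zl u.2.1 g) (zf kap (xN q.1 u.1) (fun i => q.2 i.castSucc))) :=
      funext fun u => cavW_eq w val h1 h2 b bb cs Kt q u
    rw [e2]
    rfl
  have hint : Integrable (fun q : Haar.Mat (Fin N) × (Fin (N + 1) → ℝ) =>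
      ∑ e, dw p N e * Hf e (q.1, fun i => q.2 i.castSucc)) (mu.prod (gam (Fin (N + 1)))) := by
    refine integrable_finsetSum _ fun e _ => Integrable.const_mul ?_ _
    refine Integrable.of_bound (C := Kt + 1) ((hHm e).comp (measurable_fst.prodMk
      (hcs.comp measurable_snd))).aestronglyMeasurable (ae_of_all _ fun q => ?_)
    rw [Real.norm_eq_abs]
    exact hHb e _
  rw [e1, integral_prod _ hint]
  congr 1
  funext V
  have hiG : ∀ e, Integrable (fun G : Fin (N + 1) → ℝ => Hf e (V, fun i => G i.castSucc))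
      (gam (Fin (N + 1))) := fun e =>
    Integrable.of_bound (C := Kt + 1) ((hHm e).comp (measurable_const.prodMk
      hcs)).aestronglyMeasurable (ae_of_all _ fun q => by
        rw [Real.norm_eq_abs]; exact hHb e _)
  rw [integral_finsetSum _ fun e _ => (hiG e).const_mul _]
  refine Finset.sum_congr rfl fun e _ => ?_
  rw [integral_const_mul]
  congr 1
  exact integral_castSucc (F := fun ζ => Hf e (V, ζ))
    ((hHm e).comp (measurable_const.prodMk measurable_id))

/-- the weight of `LG.cavF` -/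
theorem WU_zero {K : ℕ} (w val : Fin (K + 1) → ℝ) (b : ℝ) (l : Fin (K + 1))
    (z : Unit ⊕ Fin (K + 1) → ℝ) : WU w val b l 0 z = LLimB.WS w val b l z := by
  unfold WU LLimB.WS
  rw [zero_add]
  congr 1
  funext o
  rcases o with _ | o <;> rfl

/-- **bridge**: `LG.cavF` is `ED.cavF` -/
theorem lgCavF_eq (X : LG.Glob) (n : ℕ) (Kp : ℝ) (θ : LD.Prm p X.K X.J) (L : Fin N → X.LB) {tr : ℝ}
    (htr : 0 ≤ tr) (k : Fin (X.K + 1)) (b : ℝ) (a : Fin p.nc → ℝ) {eig : Fin (N + 1) → ℝ}
    (h1 : ∀ i : Fin N, eig i.castSucc = X.val (LG.Glob.kap L i))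
    (h2 : eig (Fin.last N) = X.val k) :
    LG.cavF X n Kp θ L tr k b a =
      ED.cavF (X.nu N) n (fun V => LG.Hm X n Kp θ L V) eig (m1 X.w X.val) a b 0 tr := by
  have := X.hnu N
  have hm : ∀ s : SY.SS p n (univ : Finset (Fin N → Bool)),
      Measurable fun V => LG.Hm X n Kp θ L V s := fun s =>
    LD.measurable_HL X.val X.c X.t Kp θ (LG.Glob.kap L) (LG.Glob.lab L) s
  have h := cavF_iter (mu := X.nu N) (H0 := fun V => LG.Hm X n Kp θ L V) X.w X.val htr hm h1 h2
    a b 0
  simp only [WU_zero] at h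
  exact h.symm

end

end Crest.Agent.R164.CavG
end

-- ▼ part R164/EDiffLG
section

/-!
Row 164, L side (helper466): (GL7) `LG.EDIFF` from the E-DIFF theorem `ED.EDIFF0` in `ED` names.
-/

set_option autoImplicit false
set_option linter.unusedSectionVars false

namespace Crest.Agent.R164.EDL

open Crest.Agent.R164.LG
open Finset MeasureTheory Filter Topology Crest.Agent.R141 Crest.Agent.R164 Crest.Agent.R164.Haar
open Crest.Agent.R164.LD (Prm HL EPh EO PL TO RJ MO)
open Crest.Agent.R164.ED (sk sj eigS aS lmS W0S W1S cstL bbL HN HN1 vT BU)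

noncomputable section

variable (X : Glob) {p : Par} {N : ℕ}

theorem kap_snoc (L : Fin N → X.LB) (k : Fin (X.K + 1)) (j : Fin X.J) :
    Glob.kap (Fin.snoc L (k, j) : Fin (N + 1) → X.LB) = sk (Glob.kap L) k := by
  funext i
  unfold Glob.kap sk
  refine Fin.lastCases ?_ (fun i => ?_) i
  · rw [Fin.snoc_last, Fin.snoc_last]
  · rw [Fin.snoc_castSucc, Fin.snoc_castSucc]

theorem lab_snoc (L : Fin N → X.LB) (k : Fin (X.K + 1)) (j : Fin X.J) :
    Glob.lab (Fin.snoc L (k, j) : Fin (N + 1) → X.LB) = sj (Glob.lab L) j := by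
  funext i
  unfold Glob.lab sj
  refine Fin.lastCases ?_ (fun i => ?_) i
  · rw [Fin.snoc_last, Fin.snoc_last]
  · rw [Fin.snoc_castSucc, Fin.snoc_castSucc]

theorem al_pos (x : X.LB) : 0 < X.al x := by
  have h : (0:ℝ) < ((X.γ x.2 : ℚ) : ℝ) := by exact_mod_cast X.hγ x.2
  exact mul_pos (X.hw _) h

theorem w_le_one (k : Fin (X.K + 1)) : X.w k ≤ 1 := by
  rw [← X.hs]
  exact Finset.single_le_sum (f := X.w) (fun i _ => (X.hw i).le) (Finset.mem_univ k)

theorem al_le_one (x : X.LB) : X.al x ≤ 1 := by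
  unfold Glob.al LabTr.pr
  have h1 := w_le_one X x.1
  have h2 : ((X.γ x.2 : ℚ) : ℝ) ≤ 1 := by
    have h3 : (∑ j, ((X.γ j : ℚ) : ℝ)) = 1 := by exact_mod_cast X.hγs
    rw [← h3]
    exact Finset.single_le_sum (f := fun j => ((X.γ j : ℚ) : ℝ))
      (fun i _ => by exact_mod_cast (X.hγ i).le) (Finset.mem_univ x.2)
  have h4 : (0:ℝ) ≤ ((X.γ x.2 : ℚ) : ℝ) := by exact_mod_cast (X.hγ x.2).le
  calc X.w x.1 * ((X.γ x.2 : ℚ) : ℝ) ≤ 1 * 1 := mul_le_mul h1 h2 h4 zero_le_one
    _ = 1 := one_mul 1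

/-- a positive lower bound of the halves of the proportions -/
def g0 : ℝ := (1 + ∑ x, 2 * (X.al x)⁻¹)⁻¹

theorem g0_pos : 0 < g0 X := by
  unfold g0
  have : 0 ≤ ∑ x, 2 * (X.al x)⁻¹ :=
    Finset.sum_nonneg fun x _ => mul_nonneg zero_le_two (inv_nonneg.2 (al_pos X x).le)
  positivity

theorem g0_le (x : X.LB) : g0 X ≤ X.al x / 2 := by
  unfold g0
  have h0 := al_pos X x
  have h1 : 2 * (X.al x)⁻¹ ≤ ∑ x, 2 * (X.al x)⁻¹ :=
    Finset.single_le_sum (f := fun x => 2 * (X.al x)⁻¹)
      (fun x _ => mul_nonneg zero_le_two (inv_nonneg.2 (al_pos X x).le)) (Finset.mem_univ x)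
  have h2 : 2 * (X.al x)⁻¹ ≤ 1 + ∑ x, 2 * (X.al x)⁻¹ := by linarith
  have h3 : 0 < 2 * (X.al x)⁻¹ := by positivity
  have h4 := inv_anti₀ h3 h2
  refine h4.trans (le_of_eq ?_)
  rw [mul_inv, inv_inv]
  ring

theorem cnt_ge' {d0 : ℝ} (hd : Small X d0) {L : Fin N → X.LB}
    (hL : LabAvg.Good X.al d0 L) (x : X.LB) : g0 X * N ≤ (LabAvg.cnt L x : ℝ) := by
  have h1 := (abs_le.1 (hL x)).1
  have h2 := hd.2 x
  have h5 := g0_le X x
  have hN : (0 : ℝ) ≤ N := Nat.cast_nonneg N
  have h3 := mul_le_mul_of_nonneg_left h2 hN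
  have h6 := mul_le_mul_of_nonneg_left h5 hN
  linarith

/-- the sites of the group of the last site -/
theorem site_count {d0 : ℝ} (hd : Small X d0) {L : Fin N → X.LB} (hL : LabAvg.Good X.al d0 L)
    (j : Fin X.J) : g0 X * ((N + 1 : ℕ) : ℝ) ≤
      ((Finset.univ.filter fun i => sj (Glob.lab L) j i = j).card : ℝ) := by
  have h1 := cnt_ge' X hd hL (0, j)
  have h2 : (LabAvg.cnt L ((0 : Fin (X.K + 1)), j) : ℝ) + 1 ≤
      ((Finset.univ.filter fun i => sj (Glob.lab L) j i = j).card : ℝ) := by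
    rw [Finset.card_filter, Fin.sum_univ_castSucc]
    simp only [ED.sj_castSucc, ED.sj_last, if_true]
    push_cast
    refine add_le_add ?_ le_rfl
    unfold LabAvg.cnt
    rw [Finset.card_filter]
    push_cast
    refine Finset.sum_le_sum fun i _ => ?_
    by_cases h : L i = ((0 : Fin (X.K + 1)), j)
    · have : Glob.lab L i = j := by unfold Glob.lab; rw [h]
      rw [if_pos h, if_pos this]
    · rw [if_neg h]
      split_ifs <;> norm_num
  have h3 := g0_le X ((0 : Fin (X.K + 1)), j)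
  have h4 := al_le_one X ((0 : Fin (X.K + 1)), j)
  push_cast
  nlinarith

/-- the rows of the block of the last row -/
theorem row_count {d0 : ℝ} (hd : Small X d0) {L : Fin N → X.LB} (hL : LabAvg.Good X.al d0 L)
    (k : Fin (X.K + 1)) (j : Fin X.J) : g0 X * ((N + 1 : ℕ) : ℝ) ≤
      ((Finset.univ.filter fun i => sk (Glob.kap L) k i = k).card : ℝ) := by
  have h1 := cnt_ge' X hd hL (k, j)
  have h2 : (LabAvg.cnt L (k, j) : ℝ) + 1 ≤
      ((Finset.univ.filter fun i => sk (Glob.kap L) k i = k).card : ℝ) := by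
    rw [Finset.card_filter, Fin.sum_univ_castSucc]
    simp only [ED.sk_castSucc, ED.sk_last, if_true]
    push_cast
    refine add_le_add ?_ le_rfl
    unfold LabAvg.cnt
    rw [Finset.card_filter]
    push_cast
    refine Finset.sum_le_sum fun i _ => ?_
    by_cases h : L i = (k, j)
    · have : Glob.kap L i = k := by unfold Glob.kap; rw [h]
      rw [if_pos h, if_pos this]
    · rw [if_neg h]
      split_ifs <;> norm_num
  have h3 := g0_le X (k, j)
  have h4 := al_le_one X (k, j)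
  push_cast
  nlinarith

/-- the mean eigenvalue of a good label vector -/
theorem mean_eig {d0 : ℝ} (hN : 0 < N) {L : Fin N → X.LB}
    (hL : LabAvg.Good X.al d0 L) :
    |(N : ℝ)⁻¹ * ∑ i : Fin N, X.val (Glob.kap L i) - EG.m1 X.w X.val| ≤
      (∑ k, |X.val k|) * (X.J * d0) := by
  have hN' : (0:ℝ) < N := by exact_mod_cast hN
  have hγs : (∑ j, ((X.γ j : ℚ) : ℝ)) = 1 := by exact_mod_cast X.hγs
  -- grouping
  have e1 : ∑ i : Fin N, X.val (Glob.kap L i) =
      ∑ x : X.LB, (LabAvg.cnt L x : ℝ) * X.val x.1 := by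
    have h1 : ∀ i : Fin N, X.val (Glob.kap L i) =
        ∑ x : X.LB, if L i = x then X.val x.1 else 0 := by
      intro i
      rw [Finset.sum_ite_eq Finset.univ (L i) (fun x : X.LB => X.val x.1),
        if_pos (Finset.mem_univ _)]
      rfl
    rw [Finset.sum_congr rfl fun i _ => h1 i, Finset.sum_comm]
    refine Finset.sum_congr rfl fun x _ => ?_
    unfold LabAvg.cnt
    rw [Finset.card_filter]
    push_cast
    rw [Finset.sum_mul]
    refine Finset.sum_congr rfl fun i _ => ?_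
    split_ifs <;> ring
  have e2 : EG.m1 X.w X.val = ∑ x : X.LB, X.al x * X.val x.1 := by
    unfold EG.m1 Glob.al LabTr.pr
    rw [Fintype.sum_prod_type]
    refine Finset.sum_congr rfl fun k _ => ?_
    simp only
    rw [← Finset.sum_mul, ← Finset.mul_sum, hγs, mul_one]
  rw [e1, e2, Finset.mul_sum, ← Finset.sum_sub_distrib]
  refine (Finset.abs_sum_le_sum_abs _ _).trans ?_
  have h3 : ∀ x : X.LB, |(N : ℝ)⁻¹ * ((LabAvg.cnt L x : ℝ) * X.val x.1) - X.al x * X.val x.1| ≤
      |X.val x.1| * d0 := by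
    intro x
    have e3 : (N : ℝ)⁻¹ * ((LabAvg.cnt L x : ℝ) * X.val x.1) - X.al x * X.val x.1 =
        X.val x.1 * ((N : ℝ)⁻¹ * ((LabAvg.cnt L x : ℝ) - N * X.al x)) := by
      field_simp
    rw [e3, abs_mul]
    refine mul_le_mul_of_nonneg_left ?_ (abs_nonneg _)
    rw [abs_mul, abs_of_pos (inv_pos.2 hN')]
    have := mul_le_mul_of_nonneg_left (hL x) (inv_pos.2 hN').le
    refine this.trans (le_of_eq ?_)
    field_simp
  refine (Finset.sum_le_sum fun x _ => h3 x).trans (le_of_eq ?_)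
  rw [Fintype.sum_prod_type]
  simp only [Finset.sum_const, Finset.card_univ, Fintype.card_fin, nsmul_eq_mul]
  rw [Finset.sum_mul]
  exact Finset.sum_congr rfl fun k _ => by ring

/-- bound of the eigenvalues -/
def Lam : ℝ := ∑ k, |X.val k|

theorem Lam_nonneg : 0 ≤ Lam X := Finset.sum_nonneg fun _ _ => abs_nonneg _

theorem abs_val_le (k : Fin (X.K + 1)) : |X.val k| ≤ Lam X :=
  Finset.single_le_sum (f := fun k => |X.val k|) (fun _ _ => abs_nonneg _) (Finset.mem_univ k)

theorem abs_m1_le : |EG.m1 X.w X.val| ≤ Lam X := by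
  unfold EG.m1 Lam
  refine (Finset.abs_sum_le_sum_abs _ _).trans (Finset.sum_le_sum fun k _ => ?_)
  rw [abs_mul, abs_of_pos (X.hw k)]
  calc X.w k * |X.val k| ≤ 1 * |X.val k| :=
        mul_le_mul_of_nonneg_right (w_le_one X k) (abs_nonneg _)
    _ = |X.val k| := one_mul _

/-- bound of the potentials -/
def BB (E Kmax : ℝ) : ℝ := ∑ j, |X.c j| + 12 * Kmax + |E|

theorem abs_c_le (j : Fin X.J) : |X.c j| ≤ ∑ j, |X.c j| :=
  Finset.single_le_sum (f := fun j => |X.c j|) (fun _ _ => abs_nonneg _) (Finset.mem_univ j)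

theorem ehyp {E A Kmax η d0 : ℝ} (hd : Small X d0) {Kp : ℝ} (hKp : 0 ≤ Kp) (hKm : Kp ≤ Kmax)
    {θ : Prm p X.K X.J} (hθ : Bd X E A η θ) {L : Fin N → X.LB} (hL : LabAvg.Good X.al d0 L)
    (k : Fin (X.K + 1)) (j : Fin X.J) :
    ED.EHyp (X.nu N) (X.nu (N + 1)) (eigS X.val (Glob.kap L) k)
      (W0S X.c X.t Kp θ (Glob.lab L)) (W1S X.c X.t Kp θ (Glob.lab L) j)
      (aS θ (Glob.lab L) j) (lmS θ (Glob.kap L) k) (Lam X) (EG.m1 X.w X.val)
      (BB X E Kmax) (BB X E Kmax) A (g0 X) η := by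
  have ht : ∀ j, |X.t j| ≤ 1 := fun j => (X.ht j).le
  have hR : ∀ j, |θ.el j| ≤ |E| := fun j => (hθ.el j).trans (le_abs_self E)
  have hN0 : (0:ℝ) ≤ N := Nat.cast_nonneg N
  have hB1 : ∑ j, |X.c j| + 4 * Kp + |E| ≤ BB X E Kmax := by unfold BB; linarith
  refine ⟨X.hnu N, X.hnu (N + 1), X.hR N, X.hR (N + 1), fun i => abs_val_le X _, abs_m1_le X,
    fun σ => ?_, fun σ => ?_, fun σ c => ?_, fun i => hθ.am _, fun i => hθ.lm _,
    ⟨Finset.univ.filter fun i => sj (Glob.lab L) j i = j, site_count X hd hL j, fun i hi => ?_⟩,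
    ⟨Finset.univ.filter fun i => sk (Glob.kap L) k i = k, row_count X hd hL k j,
      fun i hi => ?_⟩⟩
  · exact (ED.abs_W0S_le X.c X.t Kp θ (Glob.lab L) hKp ht hR σ).trans
      (mul_le_mul_of_nonneg_right hB1 hN0)
  · refine (ED.abs_W1S_le X.c X.t Kp θ (Glob.lab L) j hKp ht hR σ).trans ?_
    push_cast
    exact mul_le_mul_of_nonneg_right hB1 (by positivity)
  · refine (ED.abs_vT_le X.c X.t Kp θ (Glob.lab L) j hKp ht hR σ c).trans ?_
    have := abs_c_le X j
    unfold BB
    linarith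
  · exact ED.inv_site X.val X.c X.t Kp θ (Glob.kap L) (Glob.lab L) k j (Finset.mem_filter.1 hi).2
  · exact ED.inv_row X.val X.c X.t Kp θ (Glob.kap L) (Glob.lab L) k j (Finset.mem_filter.1 hi).2

/-- the fluctuation of the increment of the potential -/
def Dl (Kp : ℝ) (L : Fin N → X.LB) (mb : Fin X.J → ℝ) (j : Fin X.J) (σ : Fin N → Bool) : ℝ :=
  if X.t j = 0 then 0 else
    4 * Kp * |Mag.mag (Glob.lab L) σ j - mb j| + 4 * Kp / (Mag.rJ (Glob.lab L) j + 1)

theorem dhyp {n : ℕ} (hN : 0 < N) {E A Kmax η d0 δ : ℝ} (hd : Small X d0) {Kp : ℝ}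
    (hKp : 0 ≤ Kp) (hKm : Kp ≤ Kmax) {θ : Prm p X.K X.J} (hθ : Bd X E A η θ) {L : Fin N → X.LB}
    (hL : LabAvg.Good X.al d0 L) {mb : Fin X.J → ℝ} (hmb : ∀ j, |mb j| ≤ 1) {dc : ℝ}
    (hdc : ∀ j, X.t j ≠ 0 →
      Eo X n Kp θ L (fun _ _ ω => |MO n (Glob.lab L) j ω - mb j|) ≤ dc)
    (hδ0 : 0 ≤ δ) (hδ : 4 * Kmax * dc + 4 * Kmax / (g0 X * N) ≤ δ)
    (k : Fin (X.K + 1)) (j : Fin X.J) :
    ED.DHyp (X.nu N) n (eigS X.val (Glob.kap L) k)
      (W0S X.c X.t Kp θ (Glob.lab L)) (W1S X.c X.t Kp θ (Glob.lab L) j)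
      (aS θ (Glob.lab L) j) (lmS θ (Glob.kap L) k) (cc X Kp mb j) (bb X Kp θ.el mb j)
      (BB X E Kmax) (Dl X Kp L mb j) δ := by
  have ht : ∀ j, |X.t j| ≤ 1 := fun j => (X.ht j).le
  have hc := abs_c_le X j
  have hcs0 : 0 ≤ ∑ j, |X.c j| := Finset.sum_nonneg fun _ _ => abs_nonneg _
  have hE0 := abs_nonneg E
  have hEl : |θ.el j| ≤ |E| := (hθ.el j).trans (le_abs_self E)
  have hr0 : 0 ≤ Mag.rJ (Glob.lab L) j := Mag.rJ_nonneg _ _
  have hm1 := abs_le.1 (hmb j)
  have ht1 := abs_le.1 (ht j)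
  refine ⟨?_, ?_, fun σ => ?_, fun σ e => ?_, ?_⟩
  · unfold cc BB
    split_ifs
    · rw [abs_zero]; linarith
    · rw [abs_mul, abs_of_nonneg hKp]
      have h1 : |mb j ^ 2 - X.t j ^ 2| ≤ 1 := by
        rw [abs_le]
        constructor <;> nlinarith [hm1.1, hm1.2, ht1.1, ht1.2]
      have h2 := mul_le_mul_of_nonneg_left h1 hKp
      linarith
  · unfold bb BB
    refine (abs_add_le _ _).trans ?_
    have h1 : |if X.t j = 0 then (0:ℝ) else X.c j - 2 * Kp * (mb j - X.t j)| ≤
        |X.c j| + 4 * Kp := by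
      split_ifs
      · rw [abs_zero]; positivity
      · refine (abs_sub _ _).trans ?_
        have h2 : |2 * Kp * (mb j - X.t j)| ≤ 4 * Kp := by
          rw [abs_mul, abs_of_nonneg (by positivity : 0 ≤ 2 * Kp)]
          have h3 : |mb j - X.t j| ≤ 2 := by
            rw [abs_le]; constructor <;> linarith [hm1.1, hm1.2, ht1.1, ht1.2]
          nlinarith [mul_le_mul_of_nonneg_left h3 hKp]
        linarith
    linarith
  · unfold Dl
    split_ifs
    · exact le_rfl
    · have : 0 ≤ 4 * Kp / (Mag.rJ (Glob.lab L) j + 1) := by positivity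
      have : 0 ≤ 4 * Kp * |Mag.mag (Glob.lab L) σ j - mb j| := by positivity
      linarith
  · have h1 := ED.vT_lin X.c X.t Kp θ (Glob.lab L) j hKp (hmb j) σ e
    by_cases h0 : X.t j = 0
    · have h2 := ED.vT_eq X.c X.t Kp θ (Glob.lab L) j σ e
      rw [h2]
      unfold cc bb Dl
      simp only [if_pos h0]
      have e1 : (0 : ℝ) + θ.el j * sv e - (0 + (0 + θ.el j) * sv e) = 0 := by ring
      rw [e1, abs_zero]
    · have e1 : Dl X Kp L mb j σ = 4 * Kp * |Mag.mag (Glob.lab L) σ j - mb j| +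
          4 * Kp / (Mag.rJ (Glob.lab L) j + 1) := by
        unfold Dl; rw [if_neg h0]
      rw [e1]
      exact h1
  · have hn := X.hnu N
    have e1 : ∫ V, Ed p N (fun d => eE (G.PP (BU p N n) (HN (eigS X.val (Glob.kap L) k)
          (W0S X.c X.t Kp θ (Glob.lab L)) (aS θ (Glob.lab L) j) (lmS θ (Glob.kap L) k) V) d)
          (fun w => Dl X Kp L mb j w.1.1.1)) ∂(X.nu N) =
        Eo X n Kp θ L (fun _ _ w => Dl X Kp L mb j w.1.1.1) := by
      unfold Eo EO
      simp only [ED.PL_eq_PP X.val X.c X.t Kp θ (Glob.kap L) (Glob.lab L) k j]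
    rw [e1]
    by_cases h0 : X.t j = 0
    · have e2 : (fun (_ : Mat (Fin N)) (_ : DD p N) (w : G.Om (LD.B p N n)) =>
          Dl X Kp L mb j w.1.1.1) = fun _ _ _ => (0:ℝ) := by
        funext _ _ w
        unfold Dl
        rw [if_pos h0]
      rw [e2]
      unfold Eo
      rw [LD.EO_const X.val X.c X.t Kp θ (Glob.kap L) (Glob.lab L) hN 0]
      exact hδ0
    · have e2 : (fun (_ : Mat (Fin N)) (_ : DD p N) (w : G.Om (LD.B p N n)) =>
          Dl X Kp L mb j w.1.1.1) = fun _ _ w =>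
          4 * Kp * |MO n (Glob.lab L) j w - mb j| +
            4 * Kp / (Mag.rJ (Glob.lab L) j + 1) := by
        funext _ _ w
        unfold Dl
        rw [if_neg h0]
        rfl
      have hA1 : LD.OAdm (p := p) (n := n) (X.nu N)
          (fun _ _ ω => |MO n (Glob.lab L) j ω - mb j|) :=
        LD.OAdm.const fun _ ω => |MO n (Glob.lab L) j ω - mb j|
      rw [e2]
      have e3 : Eo X n Kp θ L (fun _ _ w => 4 * Kp * |MO n (Glob.lab L) j w - mb j| +
            4 * Kp / (Mag.rJ (Glob.lab L) j + 1)) =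
          4 * Kp * Eo X n Kp θ L (fun _ _ w => |MO n (Glob.lab L) j w - mb j|) +
            4 * Kp / (Mag.rJ (Glob.lab L) j + 1) := by
        unfold Eo
        rw [LD.EO_add X.val X.c X.t Kp θ (Glob.kap L) (Glob.lab L) (hA1.smul (4 * Kp))
          (LD.OAdm.const fun _ _ => 4 * Kp / (Mag.rJ (Glob.lab L) j + 1)),
          LD.EO_smul X.val X.c X.t Kp θ (Glob.kap L) (Glob.lab L) hA1,
          LD.EO_const X.val X.c X.t Kp θ (Glob.kap L) (Glob.lab L) hN]
      rw [e3]
      have hdj := hdc j h0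
      have hN' : (0:ℝ) < N := by exact_mod_cast hN
      have hg := g0_pos X
      have hr1 : g0 X * N ≤ Mag.rJ (Glob.lab L) j + 1 := by
        have h1 := cnt_ge' X hd hL (0, j)
        have h2 : (LabAvg.cnt L ((0 : Fin (X.K + 1)), j) : ℝ) ≤ Mag.rJ (Glob.lab L) j := by
          unfold Mag.rJ LabAvg.cnt
          have : (Finset.univ.filter fun i => L i = ((0 : Fin (X.K + 1)), j)).card ≤
              (Finset.univ.filter fun i => Glob.lab L i = j).card := by
            refine Finset.card_le_card fun i hi => ?_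
            rw [Finset.mem_filter] at hi ⊢
            refine ⟨hi.1, ?_⟩
            unfold Glob.lab
            rw [hi.2]
          exact_mod_cast this
        linarith
      have hdc0 : 0 ≤ Eo X n Kp θ L (fun _ _ w => |MO n (Glob.lab L) j w - mb j|) := by
        unfold Eo
        have h1 := LD.EO_mono' X.val X.c X.t Kp θ (Glob.kap L) (Glob.lab L)
          (LD.OAdm.const (mu := X.nu N) (n := n) (p := p) fun _ _ => (0:ℝ)) hA1
          (fun d => Filter.Eventually.of_forall fun U ω => abs_nonneg _)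
        rw [LD.EO_const X.val X.c X.t Kp θ (Glob.kap L) (Glob.lab L) hN] at h1
        exact h1
      have hKm0 : 0 ≤ Kmax := hKp.trans hKm
      have h4 : 4 * Kp * Eo X n Kp θ L (fun _ _ w => |MO n (Glob.lab L) j w - mb j|) ≤
          4 * Kmax * dc := by
        have : 4 * Kp * Eo X n Kp θ L (fun _ _ w => |MO n (Glob.lab L) j w - mb j|) ≤
            4 * Kmax * Eo X n Kp θ L (fun _ _ w => |MO n (Glob.lab L) j w - mb j|) :=
          mul_le_mul_of_nonneg_right (by linarith) hdc0
        exact this.trans (mul_le_mul_of_nonneg_left hdj (by linarith))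
      have h5 : 4 * Kp / (Mag.rJ (Glob.lab L) j + 1) ≤ 4 * Kmax / (g0 X * N) := by
        refine div_le_div₀ (by linarith) (by linarith) (by positivity) hr1
      linarith

theorem ph_snoc (n : ℕ) (Kp : ℝ) (θ : Prm p X.K X.J) (L : Fin N → X.LB)
    (k : Fin (X.K + 1)) (j : Fin X.J) :
    Ph X n Kp θ (Fin.snoc L (k, j) : Fin (N + 1) → X.LB) =
      ED.IP (X.nu (N + 1)) n (HN1 (eigS X.val (Glob.kap L) k)
        (W1S X.c X.t Kp θ (Glob.lab L) j) (aS θ (Glob.lab L) j) (lmS θ (Glob.kap L) k)) := by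
  unfold Ph
  rw [kap_snoc, lab_snoc]
  rfl

theorem ph_eq (n : ℕ) (Kp : ℝ) (θ : Prm p X.K X.J) (L : Fin N → X.LB)
    (k : Fin (X.K + 1)) (j : Fin X.J) :
    Ph X n Kp θ L = ED.IP (X.nu N) n (HN (eigS X.val (Glob.kap L) k)
        (W0S X.c X.t Kp θ (Glob.lab L)) (aS θ (Glob.lab L) j) (lmS θ (Glob.kap L) k)) :=
  ED.EPh_eq X.val X.c X.t Kp θ (Glob.kap L) (Glob.lab L) k j (X.nu N)

theorem t1_eq (n : ℕ) (Kp : ℝ) (θ : Prm p X.K X.J) (L : Fin N → X.LB)
    (k : Fin (X.K + 1)) (j : Fin X.J) (g : Fin p.nc) :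
    T1 X n Kp θ L k j g = GX.EE (p := p) (n := n)
      (univ_nonempty (α := Fin (N + 1) → Bool)) (X.nu (N + 1)) (eigS X.val (Glob.kap L) k) 1
      (W1S X.c X.t Kp θ (Glob.lab L) j) (aS θ (Glob.lab L) j) (lmS θ (Glob.kap L) k)
      (fun _ _ w => SY.zf w.1.2.1 g (Fin.last N) * sv (w.1.1.1 (Fin.last N))) := by
  have := X.hnu (N + 1)
  unfold T1 Eo
  rw [kap_snoc, lab_snoc]
  exact (ED.EO_TO_last X.val X.c X.t Kp θ (Glob.kap L) (Glob.lab L) k j (X.hR (N + 1)) g).symm

theorem m1_eq (n : ℕ) (Kp : ℝ) (θ : Prm p X.K X.J) (L : Fin N → X.LB)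
    (k : Fin (X.K + 1)) (j : Fin X.J) :
    M1 X n Kp θ L k j = GX.EE (p := p) (n := n)
      (univ_nonempty (α := Fin (N + 1) → Bool)) (X.nu (N + 1)) (eigS X.val (Glob.kap L) k) 1
      (W1S X.c X.t Kp θ (Glob.lab L) j) (aS θ (Glob.lab L) j) (lmS θ (Glob.kap L) k)
      (fun _ _ w => sv (w.1.1.1 (Fin.last N))) := by
  have := X.hnu (N + 1)
  unfold M1 Eo
  rw [kap_snoc, lab_snoc]
  exact (ED.EO_MO_last X.val X.c X.t Kp θ (Glob.kap L) (Glob.lab L) k j (X.hR (N + 1))).symm

theorem cavF_eq' (n : ℕ) (Kp : ℝ) (θ : Prm p X.K X.J) (L : Fin N → X.LB) {tr : ℝ}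
    (htr : 0 ≤ tr) (k : Fin (X.K + 1)) (j : Fin X.J) (b : ℝ) (a : Fin p.nc → ℝ) :
    cavF X n Kp θ L tr k b a =
      ED.cavF (X.nu N) n (HN (eigS X.val (Glob.kap L) k) (W0S X.c X.t Kp θ (Glob.lab L))
        (aS θ (Glob.lab L) j) (lmS θ (Glob.kap L) k)) (eigS X.val (Glob.kap L) k)
        (EG.m1 X.w X.val) a b 0 tr := by
  rw [CavG.lgCavF_eq X n Kp θ L htr k b a (eig := eigS X.val (Glob.kap L) k)
    (fun i => ED.eigS_castSucc X.val (Glob.kap L) k i) (ED.eigS_last X.val (Glob.kap L) k)]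
  congr 1
  funext V
  exact ED.HL_eq_HN X.val X.c X.t Kp θ (Glob.kap L) (Glob.lab L) k j V

/-- **(GL7)** -/
theorem ediff (h : ED.EDIFF0) : EDIFF X := by
  intro E A Kmax
  obtain ⟨Cd, hCd, h1⟩ := h (Lam X) (BB X E Kmax) (BB X E Kmax) A (g0 X) (g0_pos X)
  refine ⟨Cd, hCd, fun ε hε => ?_⟩
  obtain ⟨K0, h2⟩ := h1 ε hε
  refine ⟨max K0 0, fun tr htr => ?_⟩
  have htr0 : 0 ≤ tr := (le_max_right _ _).trans htr
  obtain ⟨η, hη, h3⟩ := h2 tr ((le_max_left _ _).trans htr)
  have hL0 := Lam_nonneg X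
  have hJ0 : (0:ℝ) ≤ X.J := Nat.cast_nonneg _
  have hg := g0_pos X
  refine ⟨η, η / (Lam X * X.J + 1), hη, by positivity, fun d0 hd hd1 p hp => ?_⟩
  obtain ⟨Na, h4⟩ := h3 p hp
  have hK1 : 0 < |Kmax| + 1 := by positivity
  refine ⟨η / (8 * (|Kmax| + 1)), by positivity,
    max (max Na 1) (Nat.ceil (8 * |Kmax| / (g0 X * η))), fun N hN => ⟨1, ?_⟩⟩
  intro n hn Kp hKp hKm θ hθ L hL mb hmb hdc k j
  have hNa : Na ≤ N := (le_max_left _ _).trans ((le_max_left _ _).trans hN)
  have hN1 : 1 ≤ N := (le_max_right _ _).trans ((le_max_left _ _).trans hN)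
  have hN2 : 8 * |Kmax| / (g0 X * η) ≤ N :=
    (Nat.le_ceil _).trans (by exact_mod_cast (le_max_right _ _).trans hN)
  have hN' : (0:ℝ) < N := by exact_mod_cast hN1
  have hKm0 : 0 ≤ Kmax := hKp.trans hKm
  rw [abs_of_nonneg hKm0] at hN2 hdc hK1
  have hδ : 4 * Kmax * (η / (8 * (Kmax + 1))) + 4 * Kmax / (g0 X * N) ≤ η := by
    have a1 : 4 * Kmax * (η / (8 * (Kmax + 1))) ≤ η / 2 := by
      rw [mul_div_assoc', div_le_div_iff₀ (by positivity) (by norm_num)]
      nlinarith
    have a2 : 4 * Kmax / (g0 X * N) ≤ η / 2 := by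
      rw [div_le_iff₀ (by positivity)] at hN2 ⊢
      nlinarith
    linarith
  have hmean : |(N : ℝ)⁻¹ * ∑ i : Fin N, eigS X.val (Glob.kap L) k i.castSucc -
      EG.m1 X.w X.val| ≤ η := by
    simp only [ED.eigS_castSucc]
    refine (mean_eig X hN1 hL).trans ?_
    have hd0 := hd.1
    have a1 : Lam X * (X.J * d0) ≤ Lam X * X.J * (η / (Lam X * X.J + 1)) := by
      rw [← mul_assoc]
      exact mul_le_mul_of_nonneg_left hd1 (by positivity)
    refine a1.trans ?_
    rw [mul_div_assoc', div_le_iff₀ (by positivity)]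
    nlinarith [mul_nonneg hL0 hJ0]
  have h5 := h4 N hNa n (by omega) (X.nu N) (X.nu (N + 1)) (eigS X.val (Glob.kap L) k)
    (W0S X.c X.t Kp θ (Glob.lab L)) (W1S X.c X.t Kp θ (Glob.lab L) j)
    (aS θ (Glob.lab L) j) (lmS θ (Glob.kap L) k) (EG.m1 X.w X.val) (cc X Kp mb j)
    (bb X Kp θ.el mb j) (Dl X Kp L mb j)
    (ehyp X hd hKp hKm hθ hL k j)
    (dhyp X hN1 hd hKp hKm hθ hL hmb hdc hη.le hδ k j) hmean
  rw [← ph_snoc, ← ph_eq, ED.aS_last] at h5
  obtain ⟨h6, h7, h8⟩ := h5
  refine ⟨?_, fun g s hs => ?_, fun s hs => ?_⟩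
  · rw [cavF_eq' X n Kp θ L htr0 k j]
    exact h6
  · rw [cavF_eq' X n Kp θ L htr0 k j, cavF_eq' X n Kp θ L htr0 k j, t1_eq]
    exact h7 g s hs
  · rw [cavF_eq' X n Kp θ L htr0 k j, cavF_eq' X n Kp θ L htr0 k j, m1_eq]
    exact h8 s hs

end

end Crest.Agent.R164.EDL

namespace Crest.Agent.R164.LG

/-- **(GL7)** -/
theorem ediff (X : Glob) (h : ED.EDIFF0) : EDIFF X := EDL.ediff X h

end Crest.Agent.R164.LG
end

-- ▼ part R164/LStr8
section

/-!
Row 164, L side, (GL8): the structure module `LG.STRUCT`.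
-/

set_option autoImplicit false

namespace Crest.Agent.R164.LStr

open Finset MeasureTheory Crest.Agent.R141 Crest.Agent.R164 Crest.Agent.R164.RSys
open Crest.Agent.R164.Rot (OK xc)
open Crest.Agent.R164.RotRel (rr dav dav_add dav_smul dav_const dav_mono XU integrable_cont)

noncomputable section

/-! ### Strictness -/

theorem cE_pos_of {Ω : Type*} [Fintype Ω] {P : Ω → ℝ} (hP : IsProb P) {r : Setoid Ω} {f : Ω → ℝ}
    (h : ∀ a, 0 ≤ f a) {ω a : Ω} (ha : r ω a) (hfa : 0 < f a) : 0 < cE P r f ω := by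
  classical
  unfold cE
  refine div_pos ?_ (cls_pos hP r ω)
  refine Finset.sum_pos' (fun i _ => mul_nonneg (hP.pos i).le (h i)) ⟨a, ?_, ?_⟩
  · simpa using ha
  · exact mul_pos (hP.pos a) hfa

theorem cE_sq_lt_one {Ω : Type*} [Fintype Ω] {P : Ω → ℝ} (hP : IsProb P) {r : Setoid Ω}
    {f : Ω → ℝ} (h : ∀ a, |f a| ≤ 1) {ω a b : Ω} (ha : r ω a) (hb : r ω b) (hfa : f a < 1)
    (hfb : -1 < f b) : (cE P r f ω) ^ 2 < 1 := by
  have h1 : 0 < cE P r (fun x => 1 - f x) ω :=
    cE_pos_of hP (fun x => by linarith [(abs_le.1 (h x)).2]) ha (by linarith)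
  have h2 : 0 < cE P r (fun x => 1 + f x) ω :=
    cE_pos_of hP (fun x => by linarith [(abs_le.1 (h x)).1]) hb (by linarith)
  rw [cE_sub, cE_const hP] at h1
  rw [cE_add, cE_const hP] at h2
  nlinarith

section strict

variable {p : Par} {N n : ℕ} {t : ℝ} {V : (Fin N → Bool) → ℝ} {a lam : Fin N → Fin p.nc → ℝ}
  {μ : Measure (Fin N → Fin N → ℝ)} [IsProbabilityMeasure μ]

/-- the configuration with a changed spin -/
def flipAt (i : Fin N) (v : Bool) (ω : G.Om (LD.B p N n)) : G.Om (LD.B p N n) :=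
  ((⟨Function.update ω.1.1.1 i v, Finset.mem_univ _⟩, ω.1.2), ω.2)

theorem flipAt_rel (i : Fin N) (v : Bool) (ω : G.Om (LD.B p N n)) {l : ℕ} (hl : l < p.L) :
    (G.fil (LD.B p N n)).F l ω (flipAt i v ω) := by
  show G.frel (LD.B p N n) l ω (flipAt i v ω)
  refine ⟨fun _ _ _ _ => rfl, fun _ _ _ => rfl, ?_⟩
  show SY.srel l ω.1 (flipAt i v ω).1
  exact ⟨fun _ _ => rfl, fun _ _ => rfl, fun h => absurd h (by omega)⟩

theorem ov_lt_one {P : G.Om (LD.B p N n) → ℝ} (hP : IsProb P) (hN : 0 < N) {l : ℕ}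
    (hl : l < p.L) (ω : G.Om (LD.B p N n)) :
    (N : ℝ)⁻¹ * ∑ i, (cE P ((G.fil (LD.B p N n)).F l)
      (fun ω => sp n (LD.univ_ne N) ω i) ω) ^ 2 < 1 := by
  have hN' : (0 : ℝ) < N := by exact_mod_cast hN
  have h1 : ∑ i : Fin N, (cE P ((G.fil (LD.B p N n)).F l)
      (fun ω => sp n (LD.univ_ne N) ω i) ω) ^ 2 < ∑ _i : Fin N, (1 : ℝ) := by
    refine Finset.sum_lt_sum_of_nonempty ⟨⟨0, hN⟩, Finset.mem_univ _⟩ fun i _ => ?_
    refine cE_sq_lt_one hP (fun ω => ?_) (flipAt_rel i false ω hl) (flipAt_rel i true ω hl) ?_ ?_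
    · unfold sp; exact (sv_abs _).le
    · show sv ((Function.update ω.1.1.1 i false) i) < 1
      rw [Function.update_self]
      norm_num [sv]
    · show -1 < sv ((Function.update ω.1.1.1 i true) i)
      rw [Function.update_self]
      norm_num [sv]
  rw [Finset.sum_const, Finset.card_univ, Fintype.card_fin, nsmul_eq_mul, mul_one] at h1
  rw [inv_mul_lt_iff₀ hN']
  linarith

/-- strict inequality for averages -/
theorem dav_lt_one (hN : 0 < N) {f : DD p N → (Fin N → Fin N → ℝ) → ℝ}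
    (hi : ∀ d, Integrable (f d) μ) (h : ∀ d U, f d U < 1) : dav (dw p N) μ f < 1 := by
  have h1 : ∀ d, ∫ U, f d U ∂μ < 1 := by
    intro d
    have h2 : 0 < ∫ U, (1 - f d U) ∂μ := by
      have hi' : Integrable (fun U => 1 - f d U) μ := (integrable_const 1).sub (hi d)
      rw [integral_pos_iff_support_of_nonneg (fun U => by
        show (0 : ℝ) ≤ 1 - f d U
        linarith [h d U]) hi']
      have : Function.support (fun U => 1 - f d U) = Set.univ := by
        ext U
        simp only [Function.mem_support, Set.mem_univ, iff_true]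
        have := h d U
        intro h3
        linarith
      rw [this]
      simp
    rw [integral_sub (integrable_const 1) (hi d)] at h2
    simp at h2
    exact h2
  unfold dav
  have h3 : ∑ d, dw p N d * ∫ U, f d U ∂μ < ∑ d, dw p N d * 1 := by
    have : Nonempty (DD p N) := by
      by_contra hc
      rw [not_nonempty_iff] at hc
      have := dw_sum p hN
      simp at this
    refine Finset.sum_lt_sum_of_nonempty Finset.univ_nonempty fun d _ => ?_
    exact mul_lt_mul_of_pos_left (h1 d) (dw_pos p hN d)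
  simp only [mul_one] at h3
  rwa [dw_sum p hN] at h3

theorem pb_lt_one (hμ : ∀ᵐ U ∂μ, U ∈ OK N) (hN : 0 < N) (eig : Fin N → ℝ)
    (c : ℕ → Fin p.nc) (sel : Fin p.nc → DD p N → Fin p.T) {nn b : ℕ} (hb : b < nn) :
    pb n (LD.univ_ne N) eig t V a lam μ c sel nn b < 1 := by
  unfold pb
  refine dav_lt_one hN (fun d => ?_) fun d U => ?_
  · refine integrable_cont hμ (cont_eEf n (LD.univ_ne N) eig t V a lam d
      (f := fun U ω => (N : ℝ)⁻¹ * ∑ i,
      (cE (PQ n (LD.univ_ne N) eig t V a lam U d) ((G.fil (SY.base p n _ (LD.univ_ne N))).F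
        (RSys.lv c sel nn d b)) (fun ω => sp n (LD.univ_ne N) ω i) ω) ^ 2) fun ω => ?_)
    exact continuous_const.mul (continuous_finsetSum _ fun i _ =>
      (cont_cEf n (LD.univ_ne N) eig t V a lam d (f := fun _ ω => sp n (LD.univ_ne N) ω i)
        (fun _ => continuous_const) _ ω).pow 2)
  · have hQ := PQ_isProb n (LD.univ_ne N) eig t V a lam U d
    have hl : RSys.lv c sel nn d b < p.L := by
      rw [RSys.lv_of_lt hb]
      exact lt_of_lt_of_le (p.ct_lt_mt (sel (c b) d).2) (p.mt_lt_L (c b).2).le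
    obtain ⟨ω0, -, hω0⟩ := Finset.exists_max_image (univ : Finset (G.Om (LD.B p N n)))
      (fun ω => (N : ℝ)⁻¹ * ∑ i, (cE (PQ n (LD.univ_ne N) eig t V a lam U d)
        ((G.fil (LD.B p N n)).F (RSys.lv c sel nn d b))
        (fun ω => sp n (LD.univ_ne N) ω i) ω) ^ 2) Finset.univ_nonempty
    refine lt_of_le_of_lt (eE_le_of_le hQ fun ω => hω0 ω (Finset.mem_univ ω)) ?_
    exact ov_lt_one hQ hN hl ω0

end strict

/-! ### Block overlaps and purity in the notation of the cavity limit -/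

section sys

variable {p : Par} {N n : ℕ} {A : Finset (Fin N → Bool)} {hA : A.Nonempty}
  {κ : Type} [Fintype κ] [DecidableEq κ] {eig : Fin N → ℝ}
  {t : ℝ} {V : (Fin N → Bool) → ℝ} {a lam : Fin N → Fin p.nc → ℝ}

/-- the scaled application -/
def xs (n : ℕ) (hA : A.Nonempty) (U : Fin N → Fin N → ℝ) (ω : G.Om (SY.base p n A hA))
    (i : Fin N) : ℝ := (Real.sqrt N)⁻¹ * SY.xU (Matrix.of U) ω.1.1.1 i

theorem xs_eq (U : Fin N → Fin N → ℝ) (i : Fin N) :
    (fun ω => xs (p := p) n hA U ω i) = fun ω => (Real.sqrt N)⁻¹ * XU (sp n hA) U i ω := rfl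

theorem sqrt_inv_sq : ((Real.sqrt N)⁻¹ : ℝ) ^ 2 = (N : ℝ)⁻¹ := by
  rw [inv_pow, Real.sq_sqrt (Nat.cast_nonneg _)]

theorem ip_eq (lab : Fin N → κ) (k : κ) (l : ℕ) (d : DD p N) (U : Fin N → Fin N → ℝ)
    (ω : G.Om (SY.base p n A hA)) :
    CavG.ip lab k (CavG.cEv (PQ n hA eig t V a lam U d) ((G.fil (SY.base p n A hA)).F l)
        (xs n hA U) ω)
      (CavG.cEv (PQ n hA eig t V a lam U d) ((G.fil (SY.base p n A hA)).F l) (xs n hA U) ω) =
      ((blk lab k).card / (N : ℝ)) * ro n hA eig t V a lam (blk lab k) l d U ω := by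
  have e : ((blk lab k).card / (N : ℝ)) * ro n hA eig t V a lam (blk lab k) l d U ω =
      (N : ℝ)⁻¹ * ∑ i ∈ blk lab k, (cE (PQ n hA eig t V a lam U d)
        ((G.fil (SY.base p n A hA)).F l) (XU (sp n hA) U i) ω) ^ 2 := by
    rw [← OvC.card_mul_rr (XU (sp n hA) U)]
    unfold ro
    ring
  rw [e]
  unfold CavG.ip CavG.cEv blk
  rw [Finset.sum_filter, Finset.mul_sum]
  refine Finset.sum_congr rfl fun i _ => ?_
  split_ifs with h
  · rw [xs_eq, cE_smul, ← sqrt_inv_sq]
    ring
  · rw [mul_zero]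

theorem pur_le (hN : 0 < N) {U : Fin N → Fin N → ℝ} (hU : U ∈ OK N) (k : Stp p) (d : DD p N) :
    CavG.pur (PQ n hA eig t V a lam U d) ((G.fil (SY.base p n A hA)).F (p.ct k.1 k.2))
      (xs n hA U) ≤ G.purNum (SY.base p n A hA) (Hs n A eig t V a lam U) k d := by
  have hQ := PQ_isProb n hA eig t V a lam U d
  refine le_trans (le_of_eq ?_) (G.avc2_le_purNum (SY.base p n A hA) hN
    (Hs n A eig t V a lam U) d k (m := p.L)
    ((p.ct_lt_mt k.2.2).le.trans (p.mt_lt_L k.1.2).le) le_rfl)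
  have e1 : ∀ (i j : Fin N) (ω : G.Om (SY.base p n A hA)),
      CavG.cvr (PQ n hA eig t V a lam U d) ((G.fil (SY.base p n A hA)).F (p.ct k.1 k.2))
        (xs n hA U) i j ω = (N : ℝ)⁻¹ * covR (PQ n hA eig t V a lam U d)
        ((G.fil (SY.base p n A hA)).F (p.ct k.1 k.2)) (XU (sp n hA) U i) (XU (sp n hA) U j) ω := by
    intro i j ω
    set r := (G.fil (SY.base p n A hA)).F (p.ct k.1 k.2) with hr
    set P := PQ n hA eig t V a lam U d with hPd
    unfold CavG.cvr CavG.dv CavG.cEv covR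
    have e2 : (fun a : G.Om (SY.base p n A hA) =>
        (xs n hA U a i - cE P r (fun a => xs n hA U a i) ω) *
        (xs n hA U a j - cE P r (fun a => xs n hA U a j) ω)) = fun a => (N : ℝ)⁻¹ *
        ((XU (sp n hA) U i a * XU (sp n hA) U j a) - cE P r (XU (sp n hA) U i) ω *
          XU (sp n hA) U j a - cE P r (XU (sp n hA) U j) ω * XU (sp n hA) U i a +
          cE P r (XU (sp n hA) U i) ω * cE P r (XU (sp n hA) U j) ω) := by
      funext a
      rw [xs_eq, xs_eq, cE_smul, cE_smul, ← sqrt_inv_sq]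
      show ((Real.sqrt N)⁻¹ * XU (sp n hA) U i a - _) * ((Real.sqrt N)⁻¹ * XU (sp n hA) U j a - _)
        = _
      ring
    rw [e2, cE_smul, cE_add, cE_sub, cE_sub, cE_smul, cE_smul, cE_const hQ]
    ring
  unfold CavG.pur G.avc2
  simp only [e1]
  have e3 : ∀ ω, ∑ i, ∑ j, ((N : ℝ)⁻¹ * covR (PQ n hA eig t V a lam U d)
        ((G.fil (SY.base p n A hA)).F (p.ct k.1 k.2)) (XU (sp n hA) U i)
        (XU (sp n hA) U j) ω) ^ 2 = ((N : ℝ) ^ 2)⁻¹ * ∑ i, ∑ j,
        covR (PQ n hA eig t V a lam U d) ((G.fil (SY.base p n A hA)).F (p.ct k.1 k.2))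
          (fun ω => sp n hA ω i) (fun ω => sp n hA ω j) ω ^ 2 := by
    intro ω
    rw [← RotRel.frob hU _ (fun i ω => sp n hA ω i) (fun i => XU (sp n hA) U i)
      (fun i ω => by unfold XU xc Matrix.mulVec dotProduct; rfl) ω, Finset.mul_sum]
    refine Finset.sum_congr rfl fun i _ => ?_
    rw [Finset.mul_sum]
    refine Finset.sum_congr rfl fun j _ => ?_
    rw [mul_pow, inv_pow]
  simp only [e3]
  rw [eE_smul]
  congr 1
  rw [eE_sum]
  refine Finset.sum_congr rfl fun i _ => ?_
  rw [eE_sum]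
  refine Finset.sum_congr rfl fun j _ => ?_
  have e4 : ∀ i, cE (G.PP (SY.base p n A hA) (Hs n A eig t V a lam U) d)
      ((G.fil (SY.base p n A hA)).F p.L) (fun ω => (SY.base p n A hA).f i ω.1) =
      fun ω => sp n hA ω i := by
    intro i
    funext ω
    exact cE_of_meas (PQ_isProb n hA eig t V a lam U d)
      (rmeas_of_ge (𝓕 := G.fil (SY.base p n A hA)) le_rfl _) ω
  rw [e4, e4]
  rfl

end sys

/-! ### Averages -/

section avg

variable {p : Par} {N K J n : ℕ} {mu : Measure (Fin N → Fin N → ℝ)} [IsProbabilityMeasure mu]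

/-- double average of a continuous observable -/
theorem EO_dav (hμ : ∀ᵐ U ∂mu, U ∈ OK N) (val : Fin (K + 1) → ℝ) (c t : Fin J → ℝ) (Kp : ℝ)
    (θ : LD.Prm p K J) (kap : Fin N → Fin (K + 1)) (lab : Fin N → Fin J)
    {O : (Fin N → Fin N → ℝ) → DD p N → G.Om (LD.B p N n) → ℝ}
    (hO : ∀ d ω, Continuous fun U => O U d ω) :
    LD.EO mu n val c t Kp θ kap lab O =
      dav (dw p N) mu (fun d U => eE (LD.PL n val c t Kp θ kap lab U d) (O U d)) := by
  unfold LD.EO dav Ed
  rw [integral_finsetSum _ fun d _ => ?_]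
  · refine Finset.sum_congr rfl fun d _ => ?_
    rw [integral_const_mul]
  · exact (integrable_cont hμ (cont_eEf n (LD.univ_ne N) (fun i => val (kap i)) 1
      (LD.VL c t Kp θ.el lab) (fun i g => θ.am (lab i) g) (fun i g => θ.lm (kap i) g) d
      (f := fun U ω => O U d ω) (hO d))).const_mul _

end avg

/-- **(GL8)** -/
theorem struct (X : LG.Glob) : LG.STRUCT X := by
  obtain ⟨Lam, hLam⟩ : ∃ Lam : ℝ, ∀ k, |X.val k| ≤ Lam := by
    obtain ⟨k0, -, hk0⟩ := Finset.exists_max_image (univ : Finset (Fin (X.K + 1)))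
      (fun k => |X.val k|) Finset.univ_nonempty
    exact ⟨|X.val k0|, fun k => hk0 k (Finset.mem_univ k)⟩
  obtain ⟨C, K1, hC, hK1, main⟩ := lstr_main' X.hw hLam
  set Δ : ℝ := X.val (Fin.last X.K) - X.val 0 with hΔd
  set A' : ℝ := ∑ k, 2 / X.w k with hA'
  have hatoms : SDAlg.Rel.Atoms X.w X.val (Fin.last X.K) A' Δ := {
    pos := X.hw
    sum := X.hs
    top := fun k => X.hv.monotone (Fin.le_last k)
    gap := fun k => by
      have := X.hv.monotone (Fin.zero_le k)
      rw [hΔd]; linarith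
    bd := fun k => Finset.single_le_sum (f := fun k => 2 / X.w k)
      (fun i _ => (div_pos two_pos (X.hw i)).le) (Finset.mem_univ k)
    hΔ := by
      have := X.hv.monotone (Fin.zero_le (Fin.last X.K))
      rw [hΔd]; linarith }
  set CC := SDAlg.Rel.CC A' Δ with hCC
  have hCC0 : 0 ≤ CC := SDAlg.Rel.CC_nonneg hatoms.A_nonneg hatoms.hΔ
  have hC0 : 0 < C := by linarith
  intro E A Kmax es hes
  have hJ : (0 : ℝ) < (X.J : ℝ) + 1 := by positivity
  -- choice of n1
  obtain ⟨n1, hn1⟩ : ∃ n1 : ℕ, ∀ n' : ℕ, n1 ≤ n' → C / ((n' : ℝ) + 1) ≤ 1 ∧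
      1 / ((n' : ℝ) + 1) + CC * Real.sqrt (C / ((n' : ℝ) + 1)) ≤ es / 2 := by
    obtain ⟨m1, hm1⟩ := exists_nat_gt C
    obtain ⟨m2, hm2⟩ := exists_nat_gt (4 / es)
    obtain ⟨m3, hm3⟩ := exists_nat_gt (C * (4 * (CC + 1) / es) ^ 2)
    refine ⟨max m1 (max m2 m3), fun n' hn' => ?_⟩
    have a1 : (m1 : ℝ) ≤ n' := by exact_mod_cast (le_max_left _ _).trans hn'
    have a2 : (m2 : ℝ) ≤ n' := by
      exact_mod_cast ((le_max_left _ _).trans (le_max_right _ _)).trans hn'
    have a3 : (m3 : ℝ) ≤ n' := by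
      exact_mod_cast ((le_max_right _ _).trans (le_max_right _ _)).trans hn'
    have hp : (0 : ℝ) < (n' : ℝ) + 1 := by positivity
    refine ⟨?_, ?_⟩
    · rw [div_le_one hp]; linarith
    · have b1 : 1 / ((n' : ℝ) + 1) ≤ es / 4 := by
        rw [div_le_iff₀ hp]
        rw [div_lt_iff₀ hes] at hm2
        nlinarith
      have b2 : Real.sqrt (C / ((n' : ℝ) + 1)) ≤ es / (4 * (CC + 1)) := by
        apply Real.sqrt_le_iff.2
        refine ⟨by positivity, ?_⟩
        rw [div_le_iff₀ hp]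
        have h1 : C * (4 * (CC + 1) / es) ^ 2 ≤ (n' : ℝ) + 1 := by linarith
        calc C = (es / (4 * (CC + 1))) ^ 2 * (C * (4 * (CC + 1) / es) ^ 2) := by field_simp
          _ ≤ (es / (4 * (CC + 1))) ^ 2 * ((n' : ℝ) + 1) :=
            mul_le_mul_of_nonneg_left h1 (sq_nonneg _)
      have b3 : CC * Real.sqrt (C / ((n' : ℝ) + 1)) ≤ es / 4 := by
        have h1 : CC * Real.sqrt (C / ((n' : ℝ) + 1)) ≤ (CC + 1) * (es / (4 * (CC + 1))) :=
          mul_le_mul (by linarith) b2 (Real.sqrt_nonneg _) (by linarith)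
        refine h1.trans (le_of_eq ?_)
        field_simp
      linarith
  refine ⟨n1, fun n' hn' => ?_⟩
  obtain ⟨hCn, hes2⟩ := hn1 n' hn'
  have hp1 : (0 : ℝ) < (n' : ℝ) + 1 := by positivity
  obtain ⟨wc, p, hwc, hnc, hnb, main⟩ := main n' (es / 2) (by positivity)
  refine ⟨wc, by omega, p, hnb, hnc, ?_⟩
  obtain ⟨βm, hβm, main⟩ := main (∑ j, |X.c j| + 4 * |Kmax| + |E|) (by positivity) A
  refine ⟨βm, hβm, fun lo hlo hlo' act => ?_⟩
  obtain ⟨δ, hδ, hδK, N0, n0, main⟩ := main lo hlo hlo'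
  have hdD : δ / ((X.J : ℝ) + 1) ≤ δ := by
    rw [div_le_iff₀ hJ]
    nlinarith [Nat.cast_nonneg (α := ℝ) X.J]
  refine ⟨δ / ((X.J : ℝ) + 1), by positivity, max N0 1, fun N hN => ⟨n0 N, ?_⟩⟩
  intro n hn Kp hKp hKm θ hel ham hsm L hG hEr
  have hNpos : 0 < N := lt_of_lt_of_le one_pos ((le_max_right _ _).trans hN)
  have hN' : (0 : ℝ) < N := by exact_mod_cast hNpos
  haveI := X.hnu N
  have hR := X.hR N
  -- proportions
  have hlab : ∀ k, |((blk (LG.Glob.kap L) k).card : ℝ) / N - X.w k| ≤ δ := by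
    intro k
    have h1 : ((blk (LG.Glob.kap L) k).card : ℝ) = ∑ j, (LabAvg.cnt L (k, j) : ℝ) := by
      have h2 := Finset.card_eq_sum_card_fiberwise (s := blk (LG.Glob.kap L) k)
        (f := fun i => (L i).2) (t := Finset.univ) (fun i _ => Finset.mem_coe.2 (Finset.mem_univ _))
      rw [h2]
      push_cast
      refine Finset.sum_congr rfl fun j _ => ?_
      congr 2
      unfold blk LG.Glob.kap
      ext i
      simp only [Finset.mem_filter, Finset.mem_univ, true_and]
      exact (Prod.mk_inj (a₁ := (L i).1) (b₁ := (L i).2)).symm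
    have h3 : ((blk (LG.Glob.kap L) k).card : ℝ) - N * X.w k =
        ∑ j, ((LabAvg.cnt L (k, j) : ℝ) - N * X.al (k, j)) := by
      rw [Finset.sum_sub_distrib, ← h1]
      congr 1
      have h4 : ∑ j, ((X.γ j : ℚ) : ℝ) = 1 := by exact_mod_cast X.hγs
      have h4' : ∀ j, (N : ℝ) * X.al (k, j) = (N * X.w k) * ((X.γ j : ℚ) : ℝ) := by
        intro j
        show (N : ℝ) * (X.w k * ((X.γ j : ℚ) : ℝ)) = _
        ring
      simp only [h4']
      rw [← Finset.mul_sum, h4, mul_one]
    have h5 : |((blk (LG.Glob.kap L) k).card : ℝ) - N * X.w k| ≤ δ * N := by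
      rw [h3]
      refine (Finset.abs_sum_le_sum_abs _ _).trans
        ((Finset.sum_le_sum fun j _ => hG (k, j)).trans ?_)
      rw [Finset.sum_const, Finset.card_univ, Fintype.card_fin, nsmul_eq_mul]
      have h6 : (X.J : ℝ) * (δ / ((X.J : ℝ) + 1)) ≤ δ := by
        rw [mul_div_assoc', div_le_iff₀ hJ]
        nlinarith
      nlinarith
    have h7 : ((blk (LG.Glob.kap L) k).card : ℝ) / N - X.w k =
        (((blk (LG.Glob.kap L) k).card : ℝ) - N * X.w k) / N := by
      field_simp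
    rw [h7, abs_div, abs_of_pos hN', div_le_iff₀ hN']
    exact h5
  set kap := LG.Glob.kap L with hkap
  set lab := LG.Glob.lab L with hlabd
  have hV : ∀ σ, |LD.VL X.c X.t Kp (LS2.prm act θ).el lab σ| ≤
      (∑ j, |X.c j| + 4 * |Kmax| + |E|) * N := by
    intro σ
    refine (LS2.abs_VL_le X.c X.t Kp (fun j => (X.ht j).le) hKp hel σ).trans ?_
    refine mul_le_mul_of_nonneg_right ?_ hN'.le
    have a1 := le_abs_self Kmax
    have a2 := le_abs_self E
    linarith
  have hDC : DC n (LD.univ_ne N) (X.nu N) kap (fun i => X.val (kap i)) 1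
      (LD.VL X.c X.t Kp (LS2.prm act θ).el lab) (fun i g => (LS2.prm act θ).am (lab i) g)
      (fun i g => θ (Sum.inr (Sum.inr (kap i, g)))) δ := by
    intro k g hg
    refine ⟨LS2.ddK n X.val X.c X.t Kp kap lab (X.nu N) θ k g, ?_⟩
    exact (LS2.conc_OH (ν' := X.nu (N + 1)) n X.val X.c X.t Kp kap lab (fun j => (X.ht j).le) hKp
      θ k hg).trans (hEr.trans hdD)
  obtain ⟨c, sel, h1, h2, h3, h4, h5⟩ := main N ((le_max_left _ _).trans hN) n hn Finset.univ
    (LD.univ_ne N) (X.nu N) (X.hnu N) hR kap hlab 1 (by norm_num)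
    (LD.VL X.c X.t Kp (LS2.prm act θ).el lab) hV (fun i g => (LS2.prm act θ).am (lab i) g)
    (fun i g => ham (lab i) g) (fun k g => θ (Sum.inr (Sum.inr (k, g)))) hsm hDC
  -- abbreviations
  set V := LD.VL X.c X.t Kp (LS2.prm act θ).el lab with hVd
  set am : Fin N → Fin p.nc → ℝ := fun i g => (LS2.prm act θ).am (lab i) g with hamd
  set lm : Fin N → Fin p.nc → ℝ := fun i g => θ (Sum.inr (Sum.inr (kap i, g))) with hlmd
  set eig : Fin N → ℝ := fun i => X.val (kap i) with heig
  set P : ℕ → ℝ := pb n (LD.univ_ne N) eig 1 V am lm (X.nu N) c sel (n' + 1) with hPd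
  set Γ : Fin (X.K + 1) → ℕ → ℝ := fun k => Gam n (LD.univ_ne N) eig 1 V am lm (X.nu N) c sel
    (n' + 1) (blk kap k) with hΓd
  have hRel : SDAlg.Rel X.w X.val (n' + 1) (LG.mu n') Γ P (C / ((n' : ℝ) + 1)) := by
    have e : (fun k => (1 : ℝ) * X.val k) = X.val := funext fun k => one_mul _
    rw [e] at h2
    exact h2
  have hOK : ∀ᵐ U ∂(X.nu N), U ∈ OK N := hR.mem
  have hclose : ∀ k, ∀ i ≤ n' + 1, |Γ k i - SDAlg.Ghat X.w (SDAlg.gap X.val 1) (n' + 1)
      (LG.mu n') P k i| ≤ CC * Real.sqrt (C / ((n' : ℝ) + 1)) := by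
    intro k i hi
    have h := SDAlg.Rel.gamma_close hatoms hRel (by positivity) hCn hi k
    have e : (fun k => X.val (Fin.last X.K) - X.val k) = SDAlg.gap X.val 1 := by
      funext k; unfold SDAlg.gap; ring
    rw [e] at h
    exact h
  refine ⟨fun d i => RSys.lv c sel (n' + 1) d i, P, ?_⟩
  have hcw : ∀ k, ((blk kap k).card : ℝ) / N ≤ 1 := by
    intro k
    rw [div_le_one hN']
    have : (blk kap k).card ≤ (Finset.univ : Finset (Fin N)).card :=
      Finset.card_le_card (Finset.subset_univ _)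
    rw [Finset.card_univ, Fintype.card_fin] at this
    exact_mod_cast this
  have hwk : ∀ k, X.w k ≤ 1 := by
    intro k
    rw [← X.hs]
    exact Finset.single_le_sum (f := X.w) (fun i _ => (X.hw i).le) (Finset.mem_univ k)
  exact {
    hp := hnc
    cell := by
      intro d i hi
      refine ⟨c i, sel (c i) d, (h1 i hi).1, (h1 i hi).2, (sel (c i) d).2, ?_⟩
      exact RSys.lv_of_lt (by omega) d
    top := fun d => RSys.lv_top d
    step := {
      m0 := by simp [LG.mu]
      mlt := by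
        intro b _
        unfold LG.mu
        refine div_lt_div_of_pos_right ?_ hp1
        push_cast; linarith
      mn := by
        unfold LG.mu
        push_cast
        exact div_self hp1.ne'
      p0 := hRel.p0
      pmono := hRel.pmono
      pn := hRel.pn }
    lt1 := pb_lt_one hOK hNpos eig c sel (Nat.succ_pos n')
    Peq := by
      intro i hi
      show P i = LD.EO (X.nu N) n X.val X.c X.t Kp (LS2.prm act θ) kap lab _
      rw [EO_dav hOK]
      · rfl
      · intro d ω
        exact continuous_const.mul (continuous_finsetSum _ fun i _ =>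
          (cont_cEf n (LD.univ_ne N) eig 1 V am lm d (f := fun _ ω => sp n (LD.univ_ne N) ω i)
            (fun _ => continuous_const) _ ω).pow 2)
    ov := by
      intro i hi k
      have e1 : ∀ (U : Fin N → Fin N → ℝ) (d : DD p N) (ω : G.Om (LD.B p N n)),
          CavG.ip kap k
            (CavG.cEv (LG.Pl X n Kp (LS2.prm act θ) L U d)
              ((G.fil (LD.B p N n)).F (RSys.lv c sel (n' + 1) d i)) (LG.xn n U) ω)
            (CavG.cEv (LG.Pl X n Kp (LS2.prm act θ) L U d)
              ((G.fil (LD.B p N n)).F (RSys.lv c sel (n' + 1) d i)) (LG.xn n U) ω) =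
          ((blk kap k).card / (N : ℝ)) * ro n (LD.univ_ne N) eig 1 V am lm (blk kap k)
            (RSys.lv c sel (n' + 1) d i) d U ω := fun U d ω =>
        ip_eq (n := n) (hA := LD.univ_ne N) (eig := eig) (t := 1) (V := V) (a := am) (lam := lm)
          kap k (RSys.lv c sel (n' + 1) d i) d U ω
      simp only [← hkap]
      simp only [e1]
      set g0 : ℝ := X.w k * SDAlg.Ghat X.w (SDAlg.gap X.val 1) (n' + 1) (LG.mu n') P k i with hg0
      show LD.EO (X.nu N) n X.val X.c X.t Kp (LS2.prm act θ) kap lab _ ≤ es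
      rw [EO_dav hOK]
      · set r0 : ℝ := ((blk kap k).card : ℝ) / N with hr0
        have hr00 : 0 ≤ r0 := by positivity
        have hb : |r0 * Γ k i - g0| ≤ 1 / ((n' : ℝ) + 1) +
            CC * Real.sqrt (C / ((n' : ℝ) + 1)) := by
          have a1 : r0 * Γ k i - g0 = (r0 - X.w k) * Γ k i + X.w k * (Γ k i -
              SDAlg.Ghat X.w (SDAlg.gap X.val 1) (n' + 1) (LG.mu n') P k i) := by
            rw [hg0]; ring
          rw [a1]
          refine (abs_add_le _ _).trans (add_le_add ?_ ?_)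
          · rw [abs_mul, abs_of_nonneg (Gam_nonneg (blk kap k) i)]
            have a2 : |r0 - X.w k| * Γ k i ≤ δ * K1 :=
              mul_le_mul (hlab k) (Gam_le hOK hNpos (h5 k) i) (Gam_nonneg _ _) hδ.le
            have a3 : (1 : ℝ) ≤ (Fintype.card (Fin (X.K + 1)) : ℝ) := by
              exact_mod_cast Fintype.card_pos
            have a4 : 0 ≤ δ * K1 := by positivity
            nlinarith
          · rw [abs_mul, abs_of_pos (X.hw k)]
            have a2 := hclose k i hi
            have a3 : 0 ≤ CC * Real.sqrt (C / ((n' : ℝ) + 1)) :=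
              mul_nonneg hCC0 (Real.sqrt_nonneg _)
            calc X.w k * |Γ k i - SDAlg.Ghat X.w (SDAlg.gap X.val 1) (n' + 1) (LG.mu n') P k i|
                ≤ 1 * (CC * Real.sqrt (C / ((n' : ℝ) + 1))) :=
                  mul_le_mul (hwk k) a2 (abs_nonneg _) zero_le_one
              _ = _ := one_mul _
        have hint : ∀ d, Integrable (fun U => eE (LD.PL n X.val X.c X.t Kp (LS2.prm act θ) kap lab U d)
            (fun ω => |r0 * ro n (LD.univ_ne N) eig 1 V am lm (blk kap k)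
              (RSys.lv c sel (n' + 1) d i) d U ω - g0|)) (X.nu N) := fun d =>
          integrable_cont hOK (cont_eEf n (LD.univ_ne N) eig 1 V am lm d (f := fun U ω =>
            |r0 * ro n (LD.univ_ne N) eig 1 V am lm (blk kap k)
              (RSys.lv c sel (n' + 1) d i) d U ω - g0|) fun ω =>
              ((continuous_const.mul (cont_ro n (LD.univ_ne N) eig 1 V am lm d (blk kap k)
                (RSys.lv c sel (n' + 1) d i) ω)).sub continuous_const).abs)
        have hc := h3 k i hi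
        have hle : dav (dw p N) (X.nu N) (fun d U =>
            eE (LD.PL n X.val X.c X.t Kp (LS2.prm act θ) kap lab U d)
            (fun ω => |r0 * ro n (LD.univ_ne N) eig 1 V am lm (blk kap k)
              (RSys.lv c sel (n' + 1) d i) d U ω - g0|)) ≤
            dav (dw p N) (X.nu N) (fun d U => eE (PQ n (LD.univ_ne N) eig 1 V am lm U d)
              (fun ω => |ro n (LD.univ_ne N) eig 1 V am lm (blk kap k)
                (RSys.lv c sel (n' + 1) d i) d U ω - Γ k i|) + |r0 * Γ k i - g0|) := by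
          refine dav_mono (dw_nonneg p N) hint (fun d => (int_cnc hOK d (blk kap k) _ _).add
            (integrable_const _)) fun d => Filter.Eventually.of_forall fun U => ?_
          have hQ := PQ_isProb n (LD.univ_ne N) eig 1 V am lm U d
          have a1 : eE (PQ n (LD.univ_ne N) eig 1 V am lm U d)
              (fun ω => |ro n (LD.univ_ne N) eig 1 V am lm (blk kap k)
                (RSys.lv c sel (n' + 1) d i) d U ω - Γ k i|) + |r0 * Γ k i - g0| =
              eE (PQ n (LD.univ_ne N) eig 1 V am lm U d)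
              (fun ω => |ro n (LD.univ_ne N) eig 1 V am lm (blk kap k)
                (RSys.lv c sel (n' + 1) d i) d U ω - Γ k i| + |r0 * Γ k i - g0|) := by
            rw [eE_add, eE_const hQ]
          rw [a1]
          refine eE_mono hQ fun ω => ?_
          have a2 : r0 * ro n (LD.univ_ne N) eig 1 V am lm (blk kap k)
                (RSys.lv c sel (n' + 1) d i) d U ω - g0 =
              r0 * (ro n (LD.univ_ne N) eig 1 V am lm (blk kap k)
                (RSys.lv c sel (n' + 1) d i) d U ω - Γ k i) + (r0 * Γ k i - g0) := by ring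
          rw [a2]
          refine (abs_add_le _ _).trans (add_le_add ?_ le_rfl)
          rw [abs_mul, abs_of_nonneg hr00]
          have a3 := abs_nonneg (ro n (LD.univ_ne N) eig 1 V am lm (blk kap k)
                (RSys.lv c sel (n' + 1) d i) d U ω - Γ k i)
          have a4 := hcw k
          nlinarith
        refine hle.trans ?_
        rw [dav_add (fun d => int_cnc hOK d (blk kap k) _ _) (fun _ => integrable_const _),
          dav_const (dw_sum p hNpos)]
        have a5 : dav (dw p N) (X.nu N) (fun d U => eE (PQ n (LD.univ_ne N) eig 1 V am lm U d)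
              (fun ω => |ro n (LD.univ_ne N) eig 1 V am lm (blk kap k)
                (RSys.lv c sel (n' + 1) d i) d U ω - Γ k i|)) ≤ es / 2 := hc
        linarith
      · intro d ω
        exact ((continuous_const.mul (cont_ro n (LD.univ_ne N) eig 1 V am lm d (blk kap k)
          (RSys.lv c sel (n' + 1) d i) ω)).sub continuous_const).abs
    pu := by
      intro i hi
      have hm : ∀ s, Measurable fun U : Fin N → Fin N → ℝ => Hs n Finset.univ eig 1 V am lm U s :=
        fun s => meas_Hs n eig 1 V am lm s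
      have hint : ∀ d, Integrable (fun U => G.purNum (LD.B p N n)
          (Hs n Finset.univ eig 1 V am lm U) (c i, sel (c i) d) d) (X.nu N) := fun d =>
        G.integrable_purNum (LD.B p N n) (X.nu N) hNpos hm _ d
      have a1 : ∫ U, Ed p N (fun d => CavG.pur (LG.Pl X n Kp (LS2.prm act θ) L U d)
          ((G.fil (LD.B p N n)).F (RSys.lv c sel (n' + 1) d i)) (LG.xn n U)) ∂(X.nu N) ≤
          ∫ U, Ed p N (fun d => G.purNum (LD.B p N n)
            (Hs n Finset.univ eig 1 V am lm U) (c i, sel (c i) d) d) ∂(X.nu N) := by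
        refine integral_mono_of_nonneg (Filter.Eventually.of_forall fun U => ?_) ?_ ?_
        · exact Finset.sum_nonneg fun d _ => mul_nonneg (dw_nonneg p N d)
            (CavG.pur_nonneg (G.PP_isProb _ _ _) _)
        · exact integrable_finsetSum _ fun d _ => (hint d).const_mul _
        · filter_upwards [hOK] with U hU
          refine Ed_mono p N fun d => ?_
          have h := pur_le (n := n) (hA := LD.univ_ne N) (eig := eig) (t := 1) (V := V) (a := am)
            (lam := lm) hNpos hU (c i, sel (c i) d) d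
          rw [RSys.lv_of_lt (by omega : i < n' + 1)]
          exact h
      refine a1.trans ?_
      have a2 : ∫ U, Ed p N (fun d => G.purNum (LD.B p N n)
            (Hs n Finset.univ eig 1 V am lm U) (c i, sel (c i) d) d) ∂(X.nu N) =
          Ed p N (fun d => ∫ U, G.purNum (LD.B p N n)
            (Hs n Finset.univ eig 1 V am lm U) (c i, sel (c i) d) d ∂(X.nu N)) := by
        unfold Ed
        rw [integral_finsetSum _ fun d _ => (hint d).const_mul _]
        refine Finset.sum_congr rfl fun d _ => ?_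
        rw [integral_const_mul]
      rw [a2]
      have a3 := h4 i hi
      have a4 : Ed p N (fun d => ∫ U, G.purNum (LD.B p N n)
            (Hs n Finset.univ eig 1 V am lm U) (c i, sel (c i) d) d ∂(X.nu N)) ≤ es / 2 := a3
      linarith }

end

end Crest.Agent.R164.LStr
end

-- ▼ part R164/LLimA4
section

/-!
Row 164, L side (GL6, helper639), part 4: the levels of `StrD` are adapted to the coarse exponents; the
label variances along these levels are the coarse variances `cb (bvf ..)`.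
-/

set_option autoImplicit false

namespace Crest.Agent.R164.CavG

open MeasureTheory ProbabilityTheory Finset Crest.Agent.R141
open Crest.Agent.R164.GEx (cb)
open Crest.Agent.R164.LG (amF bvf cellA)

noncomputable section

/-- the level `lv i` lies in the window `i` (of `wc` cells). -/
def InWin (p : Par) (n' wc : ℕ) (lv : ℕ → ℕ) : Prop :=
  ∀ i, i ≤ n' → i * wc * (p.T + 1) < lv i ∧ lv i < (i + 1) * wc * (p.T + 1)

theorem inWin_of_cell {p : Par} {n' wc : ℕ} {lv : ℕ → ℕ}
    (h : ∀ i, i ≤ n' → ∃ g t, i * wc ≤ g ∧ g < (i + 1) * wc ∧ t < p.T ∧ lv i = p.ct g t) :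
    InWin p n' wc lv := by
  intro i hi
  obtain ⟨g, t, h1, h2, h3, h4⟩ := h i hi
  rw [h4]
  unfold Par.ct
  have h5 : i * wc * (p.T + 1) ≤ g * (p.T + 1) := Nat.mul_le_mul_right _ h1
  have h6 : (g + 1) * (p.T + 1) ≤ (i + 1) * wc * (p.T + 1) := Nat.mul_le_mul_right _ h2
  have h7 : (g + 1) * (p.T + 1) = g * (p.T + 1) + (p.T + 1) := by ring
  constructor <;> omega

/-- coarse levels -/
def tt (q J : ℕ) (lv : ℕ → ℕ) (j : ℕ) : ℕ := lv (q * min j J)

theorem tt_of_le {q J : ℕ} (lv : ℕ → ℕ) {j : ℕ} (h : j ≤ J) : tt q J lv j = lv (q * j) := by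
  unfold tt
  rw [min_eq_left h]

theorem xs_ge {p : Par} {a l : ℕ} (ha : a ≤ p.nc) (h : a * (p.T + 1) < l) :
    (a : ℝ) / p.nc ≤ p.xs l := by
  have hnc : (0 : ℝ) < p.nc := by exact_mod_cast p.hnc
  have ha' : (a : ℝ) ≤ p.nc := by exact_mod_cast ha
  have h1 : a ≤ (l - 1) / (p.T + 1) := by
    rw [Nat.le_div_iff_mul_le (show 0 < p.T + 1 from Nat.succ_pos _)]
    omega
  have h1' : (a : ℝ) ≤ (((l - 1) / (p.T + 1) : ℕ) : ℝ) := by exact_mod_cast h1
  unfold Par.xs
  refine le_min ?_ ?_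
  · rw [div_le_one hnc]; exact ha'
  · rw [div_le_div_iff₀ hnc (by positivity)]
    nlinarith

theorem xs_le {p : Par} {a l : ℕ} (ha0 : 0 < a) (h : l < a * (p.T + 1)) :
    p.xs l ≤ (a : ℝ) / p.nc := by
  have hnc : (0 : ℝ) < p.nc := by exact_mod_cast p.hnc
  have h1 : (l - 1) / (p.T + 1) < a := by
    rw [Nat.div_lt_iff_lt_mul (show 0 < p.T + 1 from Nat.succ_pos _)]
    omega
  have h1' : (((l - 1) / (p.T + 1) : ℕ) : ℝ) + 1 ≤ a := by exact_mod_cast h1
  unfold Par.xs
  refine (min_le_right _ _).trans ?_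
  rw [div_le_div_iff₀ (by positivity) hnc]
  have ha : (0 : ℝ) ≤ a := by positivity
  nlinarith

section

variable {p : Par} {n' wc q J : ℕ} {lv : ℕ → ℕ}

theorem InWin.lt (h : InWin p n' wc lv) {i j : ℕ} (hij : i < j) (hj : j ≤ n') : lv i < lv j := by
  have h1 := (h i (by omega)).2
  have h2 := (h j hj).1
  have h3 : (i + 1) * wc * (p.T + 1) ≤ j * wc * (p.T + 1) :=
    Nat.mul_le_mul_right _ (Nat.mul_le_mul_right _ hij)
  omega

theorem qj_le (hn : n' + 1 = q * (J + 1)) (hq : 0 < q) {j : ℕ} (hj : j ≤ J) : q * j ≤ n' := by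
  have h1 : q * j ≤ q * J := Nat.mul_le_mul_left _ hj
  have h2 : q * (J + 1) = q * J + q := by ring
  omega

theorem tt_mono (h : InWin p n' wc lv) (hn : n' + 1 = q * (J + 1)) (hq : 0 < q) :
    Monotone (tt q J lv) := by
  intro i j hij
  unfold tt
  have h1 : min i J ≤ min j J := min_le_min_right _ hij
  rcases h1.eq_or_lt with h2 | h2
  · rw [h2]
  · exact (h.lt (Nat.mul_lt_mul_of_pos_left h2 hq) (qj_le hn hq (min_le_right _ _))).le

/-- **the exponents are adapted to the coarse levels.** -/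
theorem levels_tt (h : InWin p n' wc lv) (hp : p.nc = (n' + 1) * wc)
    (hn : n' + 1 = q * (J + 1)) (hq : 0 < q) (hwc : 0 < wc) :
    Levels p.xs J (tt q J lv) p.L (1 / ((J : ℝ) + 1)) := by
  have hJ : (0 : ℝ) < (J : ℝ) + 1 := by positivity
  have hq' : (0 : ℝ) < q := by exact_mod_cast hq
  have hq1 : (1 : ℝ) ≤ q := by exact_mod_cast hq
  have hwc' : (0 : ℝ) < wc := by exact_mod_cast hwc
  have hp' : (p.nc : ℝ) = q * ((J : ℝ) + 1) * wc := by
    rw [hp, hn]; push_cast; ring
  have hcell : ∀ j, j ≤ J → q * j * wc ≤ p.nc := by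
    intro j hj
    rw [hp]
    exact Nat.mul_le_mul_right _ ((qj_le hn hq hj).trans (by omega))
  have elo : ∀ j : ℕ, (((q * j * wc : ℕ) : ℝ)) / p.nc = j / ((J : ℝ) + 1) := by
    intro j
    rw [hp']; push_cast
    field_simp
  have ehi : ∀ j : ℕ, ((((q * j + 1) * wc : ℕ) : ℝ)) / p.nc ≤ j / ((J : ℝ) + 1) +
      1 / ((J : ℝ) + 1) := by
    intro j
    rw [hp']; push_cast
    rw [← add_div, div_le_div_iff₀ (by positivity) hJ]
    have : ((q : ℝ) * j + 1) * wc * (J + 1) ≤ (j + 1) * (q * (J + 1) * wc) ↔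
        (1 : ℝ) * (wc * (J + 1)) ≤ q * (wc * (J + 1)) := by
      constructor <;> intro h <;> nlinarith
    rw [this]
    exact mul_le_mul_of_nonneg_right hq1 (by positivity)
  refine ⟨p.xs_expo, by positivity, tt_mono h hn hq, ?_, ?_, ?_, ?_⟩
  · rw [tt_of_le lv le_rfl]
    have h1 := (h (q * J) (qj_le hn hq le_rfl)).2
    have h2 : (q * J + 1) * wc ≤ p.nc := by
      rw [hp]
      exact Nat.mul_le_mul_right _ (by have := qj_le hn hq (le_refl J); omega)
    have h3 := Nat.mul_le_mul_right (p.T + 1) h2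
    unfold Par.L
    omega
  · intro l hl
    rw [tt_of_le lv (Nat.zero_le _), Nat.mul_zero] at hl
    have h1 := (h 0 (Nat.zero_le _)).2
    have h2 := xs_le (p := p) (a := (q * 0 + 1) * wc) (l := l) (by positivity)
      (by simpa using lt_of_le_of_lt hl h1)
    refine h2.trans ((ehi 0).trans ?_)
    simp
  · intro j hj1 hj l hl1 hl2
    rw [tt_of_le lv (by omega)] at hl1
    rw [tt_of_le lv hj] at hl2
    have h1 := (h (q * (j - 1)) (qj_le hn hq (by omega))).1
    have h2 := (h (q * j) (qj_le hn hq hj)).2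
    have h3 := xs_ge (p := p) (hcell (j - 1) (by omega)) (h1.trans hl1)
    have h4 := xs_le (p := p) (a := (q * j + 1) * wc) (l := l) (by positivity)
      (lt_of_le_of_lt hl2 h2)
    rw [elo] at h3
    have h5 := h4.trans (ehi j)
    have h6 : ((j - 1 : ℕ) : ℝ) = j - 1 := by
      rw [Nat.cast_sub hj1]; simp
    rw [h6, sub_div] at h3
    rw [abs_le]
    constructor <;> linarith
  · intro l hl1 hl2
    rw [tt_of_le lv le_rfl] at hl1
    have h1 := (h (q * J) (qj_le hn hq le_rfl)).1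
    have h3 := xs_ge (p := p) (hcell J le_rfl) (h1.trans hl1)
    rw [elo] at h3
    have h7 : (J : ℝ) / ((J : ℝ) + 1) = 1 - 1 / ((J : ℝ) + 1) := by
      field_simp; ring
    rw [h7] at h3
    linarith

end

section label

variable {p : Par} {M n' wc q J s : ℕ} {lv : ℕ → ℕ}

theorem cellA_add {B : ℕ} (hB : 0 < B) (i : ℕ) : cellA B i + 1 = (i + 1) * B := by
  unfold cellA
  have : 0 < (i + 1) * B := by positivity
  omega

theorem cellA_inj {B : ℕ} (hB : 0 < B) {i j : ℕ} (h : cellA B i = cellA B j) : i = j := by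
  have h1 := cellA_add hB i
  have h2 := cellA_add hB j
  rw [h] at h1
  have h3 : (i + 1) * B = (j + 1) * B := h1.symm.trans h2
  have := Nat.eq_of_mul_eq_mul_right hB h3
  omega

theorem amF_sq {B : ℕ} (hB : 0 < B) (a : Fin M → ℝ) (g : Fin p.nc) :
    amF p B a g ^ 2 = ∑ i : Fin M, if (g : ℕ) = cellA B i then a i ^ 2 else 0 := by
  unfold amF
  by_cases h : ∃ i : Fin M, (g : ℕ) = cellA B i
  · obtain ⟨i, hi⟩ := h
    have h1 : ∀ j : Fin M, ((g : ℕ) = cellA B j) ↔ j = i := by
      intro j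
      constructor
      · intro hj
        exact Fin.ext (cellA_inj hB (hj.symm.trans hi))
      · rintro rfl
        exact hi
    simp only [h1]
    rw [Finset.sum_ite_eq' univ i, Finset.sum_ite_eq' univ i]
    simp
  · push Not at h
    have h1 : ∀ j : Fin M, ((g : ℕ) = cellA B j) ↔ False := fun j => iff_false_intro (h j)
    simp only [h1]
    simp

theorem sum_abs_amF_le {B : ℕ} (a : Fin M → ℝ) {A : ℝ} (ha : ∀ i, |a i| ≤ A) :
    ∑ g, |amF p B a g| ≤ M * A := by
  have h1 : ∀ g : Fin p.nc, |amF p B a g| ≤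
      ∑ i : Fin M, if (g : ℕ) = cellA B i then |a i| else 0 := by
    intro g
    unfold amF
    refine (Finset.abs_sum_le_sum_abs _ _).trans (Finset.sum_le_sum fun i _ => ?_)
    split_ifs <;> simp
  refine (Finset.sum_le_sum fun g _ => h1 g).trans ?_
  rw [Finset.sum_comm]
  refine (Finset.sum_le_sum (g := fun _ => A) fun i _ => ?_).trans (le_of_eq (by simp))
  have hA : 0 ≤ A := (abs_nonneg _).trans (ha i)
  by_cases h : ∃ g : Fin p.nc, (g : ℕ) = cellA B i
  · obtain ⟨g, hg⟩ := h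
    have h2 : ∀ g' : Fin p.nc, ((g' : ℕ) = cellA B i) ↔ g' = g := by
      intro g'
      constructor
      · intro h; exact Fin.ext (h.trans hg.symm)
      · rintro rfl; exact hg
    simp only [h2]
    rw [Finset.sum_ite_eq' univ g]
    simpa using ha i
  · push Not at h
    have h2 : ∀ g' : Fin p.nc, ((g' : ℕ) = cellA B i) ↔ False := fun g' => iff_false_intro (h g')
    simp only [h2]
    simpa using hA

/-- sums of squares over the cells with a property of the label step -/
theorem sum_amF_sq {B : ℕ} (hB : 0 < B) (hM : M * B ≤ p.nc) (a : Fin M → ℝ) (c : ℕ → Prop)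
    [DecidablePred c] : (∑ g : Fin p.nc, if c (p.mt g) then amF p B a g ^ 2 else 0) =
      ∑ i : Fin M, if c (((i : ℕ) + 1) * B * (p.T + 1)) then a i ^ 2 else 0 := by
  have hlt : ∀ i : Fin M, cellA B i < p.nc := by
    intro i
    have h1 := cellA_add hB (i : ℕ)
    have h2 : ((i : ℕ) + 1) * B ≤ M * B := Nat.mul_le_mul_right _ i.2
    omega
  have e1 : ∀ g : Fin p.nc, (if c (p.mt g) then amF p B a g ^ 2 else 0) =
      ∑ i : Fin M, if g = (⟨cellA B i, hlt i⟩ : Fin p.nc) then
        (if c (((i : ℕ) + 1) * B * (p.T + 1)) then a i ^ 2 else 0) else 0 := by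
    intro g
    rw [amF_sq hB]
    by_cases hc : c (p.mt g)
    · rw [if_pos hc]
      refine Finset.sum_congr rfl fun i _ => ?_
      by_cases hg : (g : ℕ) = cellA B i
      · rw [if_pos hg, if_pos (Fin.ext hg), if_pos]
        have : p.mt g = ((i : ℕ) + 1) * B * (p.T + 1) := by
          unfold Par.mt
          rw [hg, cellA_add hB]
        rw [← this]; exact hc
      · rw [if_neg hg, if_neg (fun h => hg (congrArg Fin.val h))]
    · rw [if_neg hc]
      symm
      refine Finset.sum_eq_zero fun i _ => ?_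
      by_cases hg : g = (⟨cellA B i, hlt i⟩ : Fin p.nc)
      · rw [if_pos hg, if_neg]
        have : p.mt g = ((i : ℕ) + 1) * B * (p.T + 1) := by
          unfold Par.mt
          rw [hg, cellA_add hB]
        rw [← this]; exact hc
      · rw [if_neg hg]
  simp only [e1]
  rw [Finset.sum_comm]
  refine Finset.sum_congr rfl fun i _ => ?_
  rw [Finset.sum_ite_eq' univ]
  simp

/-- position of the label steps relative to the coarse levels -/
theorem lv_lt_iff (h : InWin p n' wc lv) (hn : n' + 1 = q * (J + 1)) (hq : 0 < q) {i j : ℕ}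
    (hj : j ≤ J) : lv (q * j) < i * (q * wc) * (p.T + 1) ↔ j < i := by
  have h1 := h (q * j) (qj_le hn hq hj)
  constructor
  · intro h2
    by_contra h3
    have h4 : i ≤ j := by omega
    have h5 : i * (q * wc) * (p.T + 1) ≤ q * j * wc * (p.T + 1) := by
      have : i * (q * wc) ≤ j * (q * wc) := Nat.mul_le_mul_right _ h4
      calc i * (q * wc) * (p.T + 1) ≤ j * (q * wc) * (p.T + 1) := Nat.mul_le_mul_right _ this
        _ = q * j * wc * (p.T + 1) := by ring
    omega
  · intro h2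
    have h3 : q * j + 1 ≤ i * q := by
      calc q * j + 1 ≤ q * j + q := by omega
        _ = (j + 1) * q := by ring
        _ ≤ i * q := Nat.mul_le_mul_right _ h2
    have h4 : (q * j + 1) * wc * (p.T + 1) ≤ i * (q * wc) * (p.T + 1) := by
      calc (q * j + 1) * wc * (p.T + 1) ≤ i * q * wc * (p.T + 1) :=
          Nat.mul_le_mul_right _ (Nat.mul_le_mul_right _ h3)
        _ = i * (q * wc) * (p.T + 1) := by ring
    omega

/-- **the label variances along the coarse levels.** -/
theorem lsV_tt (h : InWin p n' wc lv) (hp : p.nc = (n' + 1) * wc)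
    (hn : n' + 1 = q * (J + 1)) (hq : 0 < q) (hwc : 0 < wc) (hs : J + 1 = (M + 1) * s)
    (a : Fin M → ℝ) {m : ℕ} (hm : m ≤ J + 1) :
    lsV p J (tt q J lv) (amF p (q * s * wc) a) m = cb J q (bvf n' (q * s) a) m := by
  have hs0 : 0 < s := by
    rcases Nat.eq_zero_or_pos s with h0 | h0
    · rw [h0] at hs; simp at hs
    · exact h0
  have hB : 0 < q * s * wc := by positivity
  have hMB : M * (q * s * wc) ≤ p.nc := by
    rw [hp, hn, hs]
    calc M * (q * s * wc) ≤ (M + 1) * (q * s * wc) := Nat.mul_le_mul_right _ (by omega)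
      _ = q * ((M + 1) * s) * wc := by ring
  have hpos : ∀ i : ℕ, (i + 1) * (q * s * wc) * (p.T + 1) = ((i + 1) * s) * (q * wc) * (p.T + 1) := by
    intro i; ring
  have hile : ∀ i : Fin M, ((i : ℕ) + 1) * s ≤ J := by
    intro i
    have h1 : ((i : ℕ) + 1) * s ≤ M * s := Nat.mul_le_mul_right _ i.2
    have h2 : (M + 1) * s = M * s + s := by ring
    omega
  have hige : ∀ i : Fin M, 1 ≤ ((i : ℕ) + 1) * s := fun i => Nat.mul_pos (by omega) hs0
  -- the right side
  have hR : cb J q (bvf n' (q * s) a) m =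
      ∑ i : Fin M, if m = J + 1 - ((i : ℕ) + 1) * s then a i ^ 2 else 0 := by
    have e0 : ∀ i : Fin M, n' + 1 - ((i : ℕ) + 1) * (q * s) = q * (J + 1 - ((i : ℕ) + 1) * s) := by
      intro i
      rw [hn, Nat.mul_sub]
      congr 1
      ring
    unfold cb
    by_cases hmJ : m ≤ J
    · rw [if_pos hmJ]
      unfold bvf
      rw [Finset.sum_comm]
      refine Finset.sum_congr rfl fun i _ => ?_
      have e1 : ∀ r ∈ range q, (if q * m + r = n' + 1 - ((i : ℕ) + 1) * (q * s) then a i ^ 2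
          else 0) = if r = 0 then (if m = J + 1 - ((i : ℕ) + 1) * s then a i ^ 2 else 0) else 0 := by
        intro r hr
        have hr' : r < q := Finset.mem_range.1 hr
        rw [e0 i]
        by_cases h1 : q * m + r = q * (J + 1 - ((i : ℕ) + 1) * s)
        · have h2 : r = 0 ∧ m = J + 1 - ((i : ℕ) + 1) * s := by
            set y := J + 1 - ((i : ℕ) + 1) * s
            have h3 : m ≤ y := by
              by_contra h4
              have h5 : y + 1 ≤ m := by omega
              have h6 := Nat.mul_le_mul_left q h5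
              have h7 : q * (y + 1) = q * y + q := by ring
              omega
            have h4 : ¬ m + 1 ≤ y := by
              intro h4
              have h6 := Nat.mul_le_mul_left q h4
              have h7 : q * (m + 1) = q * m + q := by ring
              omega
            have h5 : m = y := by omega
            subst h5
            exact ⟨by omega, rfl⟩
          rw [if_pos h1, if_pos h2.1, if_pos h2.2]
        · rw [if_neg h1]
          by_cases h2 : r = 0
          · rw [if_pos h2, if_neg]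
            intro h3
            exact h1 (by rw [h2, ← h3]; ring)
          · rw [if_neg h2]
      rw [Finset.sum_congr rfl e1, Finset.sum_ite_eq' (range q) 0]
      rw [if_pos (Finset.mem_range.2 hq)]
    · rw [if_neg hmJ]
      have hm' : m = J + 1 := by omega
      unfold bvf
      refine Finset.sum_congr rfl fun i _ => ?_
      rw [e0 i, hm']
      have h1 := hige i
      have h2 := hile i
      rw [if_neg, if_neg]
      · omega
      · intro h3
        have := Nat.eq_of_mul_eq_mul_left hq h3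
        omega
  rw [hR]
  -- the left side
  rcases Nat.eq_zero_or_pos m with hm0 | hm0
  · subst hm0
    rw [lsV_zero]
    rw [sum_amF_sq hB hMB a (fun l => tt q J lv J < l)]
    refine Finset.sum_congr rfl fun i _ => ?_
    rw [tt_of_le lv le_rfl]
    have h1 := hile i
    rw [if_neg, if_neg]
    · omega
    · rw [hpos, lv_lt_iff h hn hq le_rfl]
      omega
  · rcases Nat.lt_or_ge J m with hmJ | hmJ
    · have hm' : m = J + 1 := by omega
      subst hm'
      rw [lsV_bot]
      rw [sum_amF_sq hB hMB a (fun l => l ≤ tt q J lv 0)]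
      refine Finset.sum_congr rfl fun i _ => ?_
      rw [tt_of_le lv (Nat.zero_le _)]
      have h1 := hige i
      have h2 := hile i
      rw [if_neg, if_neg]
      · omega
      · rw [hpos, not_le, lv_lt_iff h hn hq (Nat.zero_le _)]
        omega
    · rw [lsV_mid _ (by omega) hmJ]
      rw [sum_amF_sq hB hMB a (fun l => tt q J lv (J - m) < l ∧ l ≤ tt q J lv (J - m + 1))]
      refine Finset.sum_congr rfl fun i _ => ?_
      rw [tt_of_le lv (Nat.sub_le _ _), tt_of_le lv (show J - m + 1 ≤ J by omega), hpos]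
      have h1 := hile i
      have h3 : (lv (q * (J - m)) < ((i : ℕ) + 1) * s * (q * wc) * (p.T + 1) ∧
          ((i : ℕ) + 1) * s * (q * wc) * (p.T + 1) ≤ lv (q * (J - m + 1))) ↔
          m = J + 1 - ((i : ℕ) + 1) * s := by
        rw [lv_lt_iff h hn hq (Nat.sub_le _ _), ← not_lt,
          lv_lt_iff h hn hq (show J - m + 1 ≤ J by omega)]
        omega
      by_cases h4 : m = J + 1 - ((i : ℕ) + 1) * s
      · rw [if_pos h4, if_pos (h3.2 h4)]
      · rw [if_neg h4, if_neg (fun h => h4 (h3.1 h))]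

end label

end

end Crest.Agent.R164.CavG
end

-- ▼ part R164/LLimA5

/-!
Row 164, L side (GL6, helper639), part 5: `LG.LLIMA`.
-/

set_option autoImplicit false

namespace Crest.Agent.R164.CavG

open MeasureTheory ProbabilityTheory Finset Crest.Agent.R141

noncomputable section

section avg

variable {β : Type*} [Fintype β] [DecidableEq β] {Ω κ : Type*} [Fintype Ω] [Fintype κ]
  {Z : Type*} [MeasurableSpace Z] {μ : Measure Z} [IsProbabilityMeasure μ] {D : Type*} [Fintype D]
  {q : D → ℝ} {P : D → Z → Ω → ℝ} {r : D → ℕ → Setoid Ω} {kap : κ → β} {x : Z → Ω → κ → ℝ}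
  {Q : ℕ → β → ℝ} {J : ℕ}

/-- one overlap deviation -/
def dvA (P : Ω → ℝ) (r : ℕ → Setoid Ω) (kap : κ → β) (x : Ω → κ → ℝ) (Q : ℕ → β → ℝ) (n : ℕ)
    (k : β) : ℝ := eE P (fun ω => |ip kap k (XX P r x n ω) (XX P r x n ω) - Q n k|)

omit [Fintype β] in
theorem measurable_dvA {P : Z → Ω → ℝ} {r : ℕ → Setoid Ω} (hP : ∀ a, Measurable fun z => P z a)
    (hx : ∀ a i, Measurable fun z => x z a i) (n : ℕ) (k : β) :
    Measurable fun z => dvA (P z) r kap (x z) Q n k := by
  unfold dvA
  refine measurable_eEp hP fun ω => ?_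
  have h : Measurable fun z => ip kap k (XX (P z) r (x z) n ω) (XX (P z) r (x z) n ω) := by
    unfold ip
    refine Finset.measurable_fun_sum _ fun i _ => ?_
    split_ifs
    · exact (measurable_XX hP hx r n ω i).mul (measurable_XX hP hx r n ω i)
    · exact measurable_const
  exact continuous_abs.measurable.comp (h.sub_const (Q n k))

theorem measurable_pur {P : Z → Ω → ℝ} (r : Setoid Ω) (hP : ∀ a, Measurable fun z => P z a)
    (hx : ∀ a i, Measurable fun z => x z a i) : Measurable fun z => pur (P z) r (x z) := by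
  unfold pur
  refine measurable_eEp hP fun ω => ?_
  refine Finset.measurable_fun_sum _ fun i _ => Finset.measurable_fun_sum _ fun j _ => ?_
  refine Measurable.pow_const ?_ 2
  unfold cvr dv cEv
  refine measurable_cEp hP (fun a => ?_) r ω
  exact ((hx a i).sub (measurable_cEp hP (fun a => hx a i) r ω)).mul
    ((hx a j).sub (measurable_cEp hP (fun a => hx a j) r ω))

omit [Fintype β] in
theorem dvA_nonneg {P : Ω → ℝ} (hP : IsProb P) (r : ℕ → Setoid Ω) (x : Ω → κ → ℝ) (n : ℕ)
    (k : β) : 0 ≤ dvA P r kap x Q n k := eE_nonneg hP fun _ => abs_nonneg _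

omit [Fintype β] in
theorem dvA_le {P : Ω → ℝ} (hP : IsProb P) (r : ℕ → Setoid Ω) {x : Ω → κ → ℝ} {C : ℝ}
    (hC : ∀ ω, ∑ i, x ω i ^ 2 ≤ C) (n : ℕ) (k : β) : dvA P r kap x Q n k ≤ C + |Q n k| := by
  refine eE_le_of_le hP fun ω => ?_
  have h3 : ∑ i, XX P r x n ω i ^ 2 ≤ C := by
    cases n with
    | zero => exact hC ω
    | succ n => exact sum_sq_cEv_le hP hC ω
  have h4 := (ip_self_le kap k (XX P r x n ω)).trans h3
  have h5 := ip_self_nonneg kap k (XX P r x n ω)
  refine (abs_sub _ _).trans ?_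
  rw [abs_of_nonneg h5]
  linarith

/-- the averaged deviation from the averages of its terms -/
theorem avg_Dev_le {C es : ℝ} (hC : ∀ᵐ z ∂μ, ∀ ω, ∑ i, x z ω i ^ 2 ≤ C)
    (hP : ∀ e z, IsProb (P e z)) (hPm : ∀ e ω, Measurable fun z => P e z ω)
    (hxm : ∀ ω i, Measurable fun z => x z ω i)
    (hA : ∀ n, n ≤ J + 1 → ∀ k, ∫ z, ∑ e, q e * dvA (P e z) (r e) kap (x z) Q n k ∂μ ≤ es)
    (hB : ∀ n, n ≤ J → ∫ z, ∑ e, q e * pur (P e z) (r e n) (x z) ∂μ ≤ es) :
    ∫ z, ∑ e, q e * Dev (P e z) (r e) J kap (x z) Q ∂μ ≤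
      (((J : ℝ) + 2) * Fintype.card β + ((J : ℝ) + 1)) * es := by
  have hiA : ∀ n k, Integrable (fun z => ∑ e, q e * dvA (P e z) (r e) kap (x z) Q n k) μ := by
    intro n k
    refine integrable_finsetSum _ fun e _ => Integrable.const_mul ?_ _
    refine Integrable.of_bound (C := C + |Q n k|)
      (measurable_dvA (hPm e) hxm n k).aestronglyMeasurable ?_
    filter_upwards [hC] with z hz
    rw [Real.norm_eq_abs, abs_of_nonneg (dvA_nonneg (hP e z) _ _ _ _)]
    exact dvA_le (hP e z) _ hz n k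
  have hiB : ∀ n, Integrable (fun z => ∑ e, q e * pur (P e z) (r e n) (x z)) μ := by
    intro n
    refine integrable_finsetSum _ fun e _ => Integrable.const_mul ?_ _
    refine Integrable.of_bound (C := C ^ 2)
      (measurable_pur (r e n) (hPm e) hxm).aestronglyMeasurable ?_
    filter_upwards [hC] with z hz
    rw [Real.norm_eq_abs, abs_of_nonneg (pur_nonneg (hP e z) _)]
    exact pur_le (hP e z) _ hz
  have e1 : (fun z => ∑ e, q e * Dev (P e z) (r e) J kap (x z) Q) = fun z =>
      (∑ n ∈ range (J + 2), ∑ k, ∑ e, q e * dvA (P e z) (r e) kap (x z) Q n k) +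
        ∑ n ∈ range (J + 1), ∑ e, q e * pur (P e z) (r e n) (x z) := by
    funext z
    have e2 : ∀ e, q e * Dev (P e z) (r e) J kap (x z) Q =
        (∑ n ∈ range (J + 2), ∑ k, q e * dvA (P e z) (r e) kap (x z) Q n k) +
          ∑ n ∈ range (J + 1), q e * pur (P e z) (r e n) (x z) := by
      intro e
      unfold Dev dvA
      rw [mul_add, Finset.mul_sum, Finset.mul_sum]
      congr 1
      exact Finset.sum_congr rfl fun n _ => by rw [Finset.mul_sum]
    simp only [e2]
    rw [Finset.sum_add_distrib]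
    congr 1
    · rw [Finset.sum_comm]
      refine Finset.sum_congr rfl fun n _ => ?_
      rw [Finset.sum_comm]
    · rw [Finset.sum_comm]
  rw [e1, integral_add (integrable_finsetSum _ fun n _ => integrable_finsetSum _ fun k _ => hiA n k)
    (integrable_finsetSum _ fun n _ => hiB n),
    integral_finsetSum _ (fun n _ => integrable_finsetSum _ fun k _ => hiA n k),
    integral_finsetSum _ (fun n _ => hiB n)]
  have h1 : ∀ n ∈ range (J + 2), ∫ z, ∑ k, ∑ e, q e * dvA (P e z) (r e) kap (x z) Q n k ∂μ ≤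
      Fintype.card β * es := by
    intro n hn
    rw [integral_finsetSum _ (fun k _ => hiA n k)]
    refine (Finset.sum_le_sum fun k _ => hA n (by have := Finset.mem_range.1 hn; omega) k).trans
      (le_of_eq ?_)
    rw [Finset.sum_const, Finset.card_univ, nsmul_eq_mul]
  have h2 : ∀ n ∈ range (J + 1), ∫ z, ∑ e, q e * pur (P e z) (r e n) (x z) ∂μ ≤ es :=
    fun n hn => hB n (by have := Finset.mem_range.1 hn; omega)
  refine (add_le_add (Finset.sum_le_sum h1) (Finset.sum_le_sum h2)).trans (le_of_eq ?_)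
  rw [Finset.sum_const, Finset.sum_const, Finset.card_range, Finset.card_range, nsmul_eq_mul,
    nsmul_eq_mul]
  push_cast
  ring

end avg

theorem WS_eq_WU {K : ℕ} (w val : Fin (K + 1) → ℝ) (b : ℝ) (k : Fin (K + 1))
    (z : Unit ⊕ Fin (K + 1) → ℝ) : LLimB.WS w val b k z = WU w val b k 0 z := by
  unfold LLimB.WS WU
  rw [zero_add]
  congr 1
  funext o
  rcases o with _ | l <;> rfl

end

end Crest.Agent.R164.CavG

namespace Crest.Agent.R164.LG

open MeasureTheory ProbabilityTheory Finset Crest.Agent.R141 Crest.Agent.R164.Haar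
open Crest.Agent.R164.CavG
open Crest.Agent.R164.ED (psi zl stP stF LS lsF lsP lsP_isProb BU OU)

noncomputable section

set_option maxHeartbeats 1000000 in
/-- **(GL6)** from the system to the coarse Gaussian functional. -/
theorem llima (X : Glob) : LLIMA X := by
  intro M A Bm ε hε tr htr
  set c1 : ℝ := 15 * (tr + 1) ^ 2 * Real.exp (4 * (tr + 1)) with hc1
  have hc1p : 0 < c1 := by positivity
  obtain ⟨J0, hJ0⟩ := exists_nat_gt (c1 / (ε / 3))
  refine ⟨J0, ?_⟩
  intro J hJ s hs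
  set B1 : ℝ := M * |A| with hB1
  have hB1p : 0 ≤ B1 := by positivity
  obtain ⟨d, hd, hmain⟩ := cavity_avg (Fin (X.K + 1)) J (tr + 1) 1 (4 * B1 ^ 2) (1 + B1 ^ 2)
    (LW X.w X.val) (by positivity) zero_le_one (by positivity) (by positivity)
    (ε := ε / 3) (by positivity)
  set Cst : ℝ := ((J : ℝ) + 2) * Fintype.card (Fin (X.K + 1)) + ((J : ℝ) + 1) with hCst
  have hCstp : 0 < Cst := by positivity
  obtain ⟨n0, hn0⟩ := bavg_W1 (ε := d / (B1 + 1)) (by positivity)
  refine ⟨ε / 3 * (d / (2 * (tr + 1) * Cst)), by positivity, 1, ?_⟩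
  intro q hq n' wc hn hwc p hnb
  refine ⟨1, ?_⟩
  intro N hN
  refine ⟨n0, ?_⟩
  intro n hn1 Kp θ L lv P hS k b a hb ha
  have hq0 : 0 < q := hq
  have hN0 : 0 < N := hN
  have := X.hnu N
  set es : ℝ := ε / 3 * (d / (2 * (tr + 1) * Cst)) with hes
  set af := amF p (q * s * wc) a with haf
  have hwin : ∀ e, InWin p n' wc (lv e) := fun e => inWin_of_cell (hS.cell e)
  have hlev : ∀ e, Levels p.xs J (tt q J (lv e)) p.L (1 / ((J : ℝ) + 1)) := fun e =>
    levels_tt (hwin e) hS.hp hn hq0 hwc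
  have hb1 : ∑ g, |af g| ≤ B1 := by
    refine (sum_abs_amF_le a (A := |A|) fun i => ?_)
    rw [abs_of_nonneg (ha i).1]
    exact (ha i).2.trans (le_abs_self A)
  have hsq : ∑ g, af g ^ 2 ≤ B1 ^ 2 := by
    have h3 : ∑ g, af g ^ 2 ≤ (∑ g, |af g|) ^ 2 := by
      have := Finset.sum_sq_le_sq_sum_of_nonneg (s := univ) (f := fun g => |af g|)
        (fun g _ => abs_nonneg _)
      simpa using this
    exact h3.trans (pow_le_pow_left₀ (Finset.sum_nonneg fun _ _ => abs_nonneg _) hb1 2)
  have hW1 : W1 n (d / (B1 + 1)) := hn0 n hn1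
  have hls : ∀ e m, m ≤ J + 1 → lsV p J (tt q J (lv e)) af m = GEx.cb J q (bvf n' (q * s) a) m :=
    fun e m hm => lsV_tt (hwin e) hS.hp hn hq0 hwc hs a hm
  have hNN : Nonempty (DD p N) := ⟨fun _ => none⟩
  have e0 : DD p N := hNN.some
  have hclt : ∀ e, Clt (lsP p n) (fun m => (lsF p n).F (tt q J (lv e) (J - m))) J
      (fun l => ∑ g, af g * zl l.1 g) (GEx.cb J q (bvf n' (q * s) a)) d := by
    intro e
    have h3 := clt_ls (n := n) (b := af) (J := J) hW1 (by positivity) (hlev e).mono hb1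
    refine (h3.congr (hls e)).mono ?_
    rw [mul_div_assoc', div_le_iff₀ (by positivity)]
    nlinarith
  have hOK : ∀ᵐ V ∂(X.nu N), ∀ ω : G.Om (LD.B p N n), ∑ i, xn n V ω i ^ 2 ≤ 1 := by
    filter_upwards [(X.hR N).mem] with V hV
    intro ω
    exact (sum_xN_sq (n := n) (p := p) hN0 hV ω).le
  have hPm : ∀ (e : DD p N) (ω : G.Om (LD.B p N n)), Measurable fun V => Pl X n Kp θ L V e ω :=
    fun e ω => LD.meas_PL _ _ _ _ _ _ _ e ω
  have hPp : ∀ (e : DD p N) (V : Mat (Fin N)), IsProb (Pl X n Kp θ L V e) := fun e V =>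
    G.PP_isProb _ _ _
  have hxm : ∀ (ω : G.Om (LD.B p N n)) (i : Fin N), Measurable fun V => xn n V ω i :=
    fun ω i => measurable_xN (n := n) (p := p) ω i
  have hav := hmain (Ω := G.Om (LD.B p N n)) (Λ := LS p n) (κ := Fin N) (Z := Mat (Fin N))
    (X.nu N) (D := DD p N) (dw p N) (fun e V => Pl X n Kp θ L V e) (lsP p n)
    (G.fil (LD.B p N n)) (lsF p n) (stF p N n) p.xs (fun e => tt q J (lv e)) (1 / ((J : ℝ) + 1))
    (Glob.kap L) (fun V ω => xn n V ω) (LLimB.Qc X.w X.val n' q P)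
    (fun l => ∑ g, af g * zl l.1 g) (GEx.cb J q (bvf n' (q * s) a))
    (fun z => psi tr (LLimB.WS X.w X.val b k z)) (dw_nonneg p N) (dw_sum p hN0) hOK hPp hPm hxm
    lsP_isProb (fun l => rfl) (stF_zero n) hlev
    (fun i k _ => LLimB.Qc_nonneg X.hv X.hw hS.step i k)
    (fun i k _ => LLimB.Qc_anti X.hv X.hw hS.step i k)
    (by
      rw [LLimB.sum_Qc_zero X.hv X.hw hS.step]
      nlinarith [sq_nonneg B1])
    (fun m hm => by rw [← hls e0 m hm]; exact labV_nonneg _ _ _ _)
    (fun m hm => by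
      rw [← hls e0 m hm]
      exact (labV_le _ _ _ _).trans (by linarith))
    hclt ((eE_ls_sq_le af).trans (by
      have := pow_le_pow_left₀ (Finset.sum_nonneg fun g _ => abs_nonneg (af g)) hb1 2
      linarith))
    (by
      have := psiW_locLip X.w X.val b k 0 htr
      simpa only [WS_eq_WU] using this)
    (fun z => by rw [WS_eq_WU]; exact psiW_bound X.w X.val b k 0 htr z)
  -- the averaged deviation
  have hDev : ∫ V, ∑ e, dw p N e * Dev (Pl X n Kp θ L V e)
      (fun m => (G.fil (LD.B p N n)).F (tt q J (lv e) (J - m))) J (Glob.kap L) (xn n V)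
      (LLimB.Qc X.w X.val n' q P) ∂(X.nu N) ≤ Cst * es := by
    refine avg_Dev_le (q := dw p N) (P := fun e V => Pl X n Kp θ L V e)
      (r := fun e m => (G.fil (LD.B p N n)).F (tt q J (lv e) (J - m))) (x := fun V ω => xn n V ω)
      hOK hPp hPm hxm ?_ ?_
    · intro m hm k'
      have h1 := hS.ov (n' + 1 - q * m) (by omega) k'
      have e1 : ∀ V e, dvA (Pl X n Kp θ L V e)
          (fun m => (G.fil (LD.B p N n)).F (tt q J (lv e) (J - m))) (Glob.kap L) (xn n V)
          (LLimB.Qc X.w X.val n' q P) m k' =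
          eE (Pl X n Kp θ L V e) (fun ω =>
            |CavG.ip (Glob.kap L) k'
                (CavG.cEv (Pl X n Kp θ L V e)
                  ((G.fil (LD.B p N n)).F (lv e (n' + 1 - q * m))) (xn n V) ω)
                (CavG.cEv (Pl X n Kp θ L V e)
                  ((G.fil (LD.B p N n)).F (lv e (n' + 1 - q * m))) (xn n V) ω) -
              X.w k' * SDAlg.Ghat X.w (SDAlg.gap X.val 1) (n' + 1) (mu n') P k'
                (n' + 1 - q * m)|) := by
        intro V e
        have e2 : ∀ ω, XX (Pl X n Kp θ L V e)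
            (fun m => (G.fil (LD.B p N n)).F (tt q J (lv e) (J - m))) (xn n V) m ω =
            CavG.cEv (Pl X n Kp θ L V e)
              ((G.fil (LD.B p N n)).F (lv e (n' + 1 - q * m))) (xn n V) ω := by
          intro ω
          cases m with
          | zero =>
            rw [Nat.mul_zero, Nat.sub_zero, hS.top e]
            have e3 : (G.fil (LD.B p N n)).F p.L = ⊥ := (G.fil (LD.B p N n)).bot p.L le_rfl
            rw [e3]
            funext i
            exact (cE_bot (hPp e V) (fun a => xn n V a i) ω).symm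
          | succ m =>
            show CavG.cEv (Pl X n Kp θ L V e)
              ((G.fil (LD.B p N n)).F (tt q J (lv e) (J - m))) (xn n V) ω = _
            rw [tt_of_le _ (Nat.sub_le J m)]
            have e3 : q * (J - m) = n' + 1 - q * (m + 1) := by
              rw [hn, ← Nat.mul_sub]
              congr 1
              omega
            rw [e3]
        unfold dvA
        simp only [e2]
        rfl
      have e4 : (fun V => ∑ e, dw p N e * dvA (Pl X n Kp θ L V e)
          (fun m => (G.fil (LD.B p N n)).F (tt q J (lv e) (J - m))) (Glob.kap L) (xn n V)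
          (LLimB.Qc X.w X.val n' q P) m k') = fun V => Ed p N (fun e =>
          eE (Pl X n Kp θ L V e) (fun ω =>
            |CavG.ip (Glob.kap L) k'
                (CavG.cEv (Pl X n Kp θ L V e)
                  ((G.fil (LD.B p N n)).F (lv e (n' + 1 - q * m))) (xn n V) ω)
                (CavG.cEv (Pl X n Kp θ L V e)
                  ((G.fil (LD.B p N n)).F (lv e (n' + 1 - q * m))) (xn n V) ω) -
              X.w k' * SDAlg.Ghat X.w (SDAlg.gap X.val 1) (n' + 1) (mu n') P k'
                (n' + 1 - q * m)|)) := by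
        funext V
        unfold Ed
        exact Finset.sum_congr rfl fun e _ => by rw [e1]
      rw [e4]
      exact h1
    · intro m hm
      have h1 := hS.pu (q * (J - m)) (qj_le hn hq0 (Nat.sub_le J m))
      have e4 : (fun V => ∑ e, dw p N e * CavG.pur (Pl X n Kp θ L V e)
          ((G.fil (LD.B p N n)).F (tt q J (lv e) (J - m))) (xn n V)) = fun V => Ed p N (fun e =>
          CavG.pur (Pl X n Kp θ L V e) ((G.fil (LD.B p N n)).F (lv e (q * (J - m)))) (xn n V)) := by
        funext V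
        unfold Ed
        refine Finset.sum_congr rfl fun e _ => ?_
        rw [tt_of_le _ (Nat.sub_le J m)]
      rw [e4]
      exact h1
  have hcav : cavF X n Kp θ L tr k b af = ∫ V, ∑ e, dw p N e * ∫ ζ,
      ED.aE (pP (Pl X n Kp θ L V e) (lsP p n)) (stF p N n) p.xs (fun u =>
        psi tr (LLimB.WS X.w X.val b k (cmb (∑ g, af g * zl u.2.1 g)
          (zf (Glob.kap L) (xn n V u.1) ζ)))) ∂(gm (Fin N)) ∂(X.nu N) := rfl
  rw [hcav]
  refine hav.trans ?_
  have hJc : c1 * (1 / ((J : ℝ) + 1)) ≤ ε / 3 := by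
    have h1 : c1 / (ε / 3) < (J : ℝ) + 1 := by
      have : (J0 : ℝ) ≤ J := by exact_mod_cast hJ
      linarith
    rw [div_lt_iff₀ (by positivity)] at h1
    rw [mul_one_div, div_le_iff₀ (by positivity)]
    linarith
  have hes2 : 2 * (tr + 1) / d * (Cst * es) = ε / 3 := by
    rw [hes]
    field_simp
  have h9 := mul_le_mul_of_nonneg_left hDev (show 0 ≤ 2 * (tr + 1) / d by positivity)
  rw [hes2] at h9
  linarith

end

end Crest.Agent.R164.LG
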