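import Crest.Agent.R164.EDe
import Crest.Agent.R164.EDf
import Crest.Agent.R164.CavF
import Crest.Agent.R164.EDp
import Crest.Agent.R164.LLimA1
import Crest.Agent.R164.TLaw2

-- ▼ part R164/EDg
section

/-!
# Row 164, L side, module E-DIFF part g (helper562): the lower bound of the increment
-/

set_option autoImplicit false

namespace Crest.Agent.R164.ED

open MeasureTheory ProbabilityTheory Filter
open Finset Crest.Agent.R141 Crest.Agent.R164 Crest.Agent.R164.PF Crest.Agent.R164.Haar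
open Crest.ProbabilityR.InvariantGlass

noncomputable section

/-- comparison of two integrals when the inequality fails on a small set only -/
theorem int_lower {α : Type*} [MeasurableSpace α] {ρ : Measure α} [IsFiniteMeasure ρ]
    {G : Set α} (hG : MeasurableSet G) {a f r : α → ℝ} (ia : Integrable a ρ)
    (jf : Integrable f ρ) (ir : Integrable r ρ) (hr : ∀ q, 0 ≤ r q) {M : ℝ}
    (h : ∀ᵐ q ∂ρ, q ∈ G → f q - r q ≤ a q) (hM : ∀ᵐ q ∂ρ, |a q| + |f q| ≤ M) :
    ∫ q, f q ∂ρ - ∫ q, r q ∂ρ - M * (ρ Gᶜ).toReal ≤ ∫ q, a q ∂ρ := by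
  have i1 : Integrable (fun q => M * (Gᶜ).indicator (fun _ => (1:ℝ)) q) ρ :=
    ((integrable_const (1:ℝ)).indicator hG.compl).const_mul M
  have e1 : ∫ q, M * (Gᶜ).indicator (fun _ => (1:ℝ)) q ∂ρ = M * (ρ Gᶜ).toReal := by
    rw [integral_const_mul, integral_indicator hG.compl, setIntegral_const, smul_eq_mul, mul_one]
    rfl
  have i2 : Integrable (fun q => f q - r q) ρ := jf.sub ir
  rw [← e1, ← integral_sub jf ir, ← integral_sub i2 i1]
  refine integral_mono_ae (i2.sub i1) ia ?_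
  filter_upwards [h, hM] with q h1 h2
  by_cases hq : q ∈ G
  · rw [Set.indicator_of_notMem (show q ∉ Gᶜ from fun hc => hc hq)]
    simpa using h1 hq
  · rw [Set.indicator_of_mem (show q ∈ Gᶜ from hq)]
    have h3 := neg_abs_le (a q)
    have h4 := le_abs_self (f q)
    have h5 := hr q
    simp only [mul_one]
    linarith

theorem int_close {α : Type*} [MeasurableSpace α] {ρ : Measure α} [IsFiniteMeasure ρ]
    {G : Set α} (hG : MeasurableSet G) {a f r : α → ℝ} (ia : Integrable a ρ)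
    (jf : Integrable f ρ) (ir : Integrable r ρ) (hr : ∀ q, 0 ≤ r q) {M : ℝ}
    (h : ∀ᵐ q ∂ρ, q ∈ G → |a q - f q| ≤ r q) (hM : ∀ᵐ q ∂ρ, |a q| + |f q| ≤ M) :
    |∫ q, a q ∂ρ - ∫ q, f q ∂ρ| ≤ ∫ q, r q ∂ρ + M * (ρ Gᶜ).toReal := by
  have h1 := int_lower hG ia jf ir hr (h.mono fun q hq hG => by
    have := (abs_le.1 (hq hG)).1; linarith) hM
  have h2 := int_lower hG jf ia ir hr (M := M) (h.mono fun q hq hG => by
    have := (abs_le.1 (hq hG)).2; linarith) (hM.mono fun q hq => by linarith)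
  rw [abs_le]
  constructor <;> linarith

variable {Ω : Type*} [Fintype Ω] {P : Ω → ℝ} {𝓕 : Filt Ω} {x : ℕ → ℝ}


/-- pointwise lower bound -/
theorem aE_ge_trunc2 (hP : IsProb P) (hx : IsExpo x) {K : ℝ} (hK : 0 < K) (X W : Ω → ℝ) (cs : ℝ)
    {g Q : Ω → ℝ} (hg : ∀ w, |X w - cs - W w| ≤ g w) (hQ : ∀ w, W w ^ 2 ≤ Q w) :
    cs + aE P 𝓕 x (fun w => psi K (W w)) - (Real.exp (2 * (K + 1)) * eE P g +
      Real.exp 1 / K * eE P Q) ≤ aE P 𝓕 x X := by
  have h1 := aE_ge_trunc (𝓕 := 𝓕) hP hx hK.le (fun w => X w - cs) W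
  have h2 : aE P 𝓕 x (fun w => X w - cs) = aE P 𝓕 x X - cs := by
    have := aE_add_const (𝓕 := 𝓕) hP hx.pos X (-cs)
    simpa [sub_eq_add_neg] using this
  rw [h2] at h1
  have h3 : eE P (fun w => |X w - cs - W w|) ≤ eE P g := eE_mono hP hg
  have h4 : eE P (fun w => if W w < -K then |W w| else 0) ≤ (1 / K) * eE P Q := by
    rw [← eE_smul]
    refine eE_mono hP fun w => ?_
    have h5 := hQ w
    split_ifs with h
    · rw [one_div, ← div_eq_inv_mul, le_div_iff₀ hK]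
      have h6 : K ≤ |W w| := by rw [abs_of_neg (by linarith)]; linarith
      have h7 := sq_abs (W w)
      nlinarith [abs_nonneg (W w)]
    · exact mul_nonneg (by positivity) ((sq_nonneg _).trans h5)
  have h5 := mul_le_mul_of_nonneg_left h3 (Real.exp_pos (2 * (K + 1))).le
  have h6 := mul_le_mul_of_nonneg_left h4 (Real.exp_pos 1).le
  have e1 : Real.exp 1 * (1 / K * eE P Q) = Real.exp 1 / K * eE P Q := by ring
  rw [e1] at h6
  linarith

end

end Crest.Agent.R164.ED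
end

-- ▼ part R164/EDq1
section

/-!
# Row 164, L side, module E-DIFF part q1 (helper562): lower bound of the step
-/

set_option autoImplicit false

namespace Crest.Agent.R164.ED

open MeasureTheory ProbabilityTheory Filter
open Finset Crest.Agent.R141 Crest.Agent.R164 Crest.Agent.R164.PF Crest.Agent.R164.Haar
open Crest.ProbabilityR.InvariantGlass

noncomputable section

variable {p : Par} {N n : ℕ}

/-- the good event in the product space -/
def GP (N : ℕ) : Set (Mat (Fin N) × (Fin (N + 1) → ℝ)) := Prod.snd ⁻¹' (Gd N)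

theorem measurableSet_GP : MeasurableSet (GP N) := measurable_snd measurableSet_Gd

theorem rho_GP_compl {μ : Measure (Mat (Fin N))} [IsProbabilityMeasure μ] :
    ((rho μ) (GP N)ᶜ).toReal ≤ 500 / ((N : ℝ) + 1) ^ 2 := by
  have h : (GP N)ᶜ = Set.univ ×ˢ (Gd N)ᶜ := by
    ext q; simp [GP]
  rw [h, Measure.prod_prod, measure_univ, one_mul]
  exact gam_Gd_compl

variable {eig : Fin (N + 1) → ℝ} {W0 : (Fin N → Bool) → ℝ} {W1 : (Fin (N + 1) → Bool) → ℝ}
  {a lam : Fin (N + 1) → Fin p.nc → ℝ} {Λ m1 S : ℝ}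

/-- the coupling error, un-integrated -/
def g1 (eig : Fin (N + 1) → ℝ) (lam : Fin (N + 1) → Fin p.nc → ℝ) (Λ m1 : ℝ)
    (q : Mat (Fin N) × (Fin (N + 1) → ℝ)) (w : OU p N n × LS p n) : ℝ :=
  10 * (1 + Λ) * (kp (e0 eig) m1 q.2 * qf (e0 eig) (SY.xU (Matrix.of q.1) w.1.1.1.1) q.2) +
    eF lam q.1 q.2 w

theorem g1_le_gR (hS : 0 < S) {q : Mat (Fin N) × (Fin (N + 1) → ℝ)} (hq : q ∈ GP N)
    (w : OU p N n × LS p n) : g1 eig lam Λ m1 q w ≤ gR eig lam Λ m1 (Real.sqrt S) q w := by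
  unfold g1 gR
  rw [Set.indicator_of_mem (show q.2 ∈ Gd N from hq)]
  have h := eF_le lam (Real.sqrt_pos.2 hS) q.1 q.2 w
  have h2 : FF lam q.2 w.1.1 = ∑ i, phi lam w.1.1 i * un q.2 i.castSucc := FF_eq lam q.2 w.1.1
  rw [h2] at h
  exact add_le_add le_rfl h

theorem g1_nonneg (hΛ : 0 ≤ Λ) (q : Mat (Fin N) × (Fin (N + 1) → ℝ)) (w : OU p N n × LS p n) :
    0 ≤ g1 eig lam Λ m1 q w := by
  unfold g1 eF
  have h1 := kp_nonneg (e0 eig) m1 q.2
  have h2 := qf_ge_one (e0 eig) (SY.xU (Matrix.of q.1) w.1.1.1.1) q.2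
  have h3 : 0 ≤ kp (e0 eig) m1 q.2 * qf (e0 eig) (SY.xU (Matrix.of q.1) w.1.1.1.1) q.2 :=
    mul_nonneg h1 (by linarith)
  positivity

/-- the difference of the exponents, with the true potential -/
theorem xw_sub_v (hN : 1 ≤ N) (he : ∀ i, |eig i| ≤ Λ) (hm : |m1| ≤ Λ)
    {q : Mat (Fin N) × (Fin (N + 1) → ℝ)} (hq : q ∈ GP N) (w : OU p N n × LS p n) (c : Bool) :
    |xw (HN eig W0 a lam q.1) (HN1 eig W1 a lam (cplS q.1 q.2)) (w, c) -
      WX eig m1 (a (Fin.last N)) 0 (vT W0 W1) q.1 q.2 (w, c)| ≤ g1 eig lam Λ m1 q w :=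
  xw_sub_le eig W0 W1 a lam hN he hm (show q.2 ∈ Gd N from hq) q.1 (w, c)

/-- the difference of the exponents, with the linearised potential -/
theorem xw_sub_c (hN : 1 ≤ N) (he : ∀ i, |eig i| ≤ Λ) (hm : |m1| ≤ Λ) {cs bb : ℝ}
    {Δ : (Fin N → Bool) → ℝ} (hΔ : ∀ σ c, |vT W0 W1 σ c - (cs + bb * sv c)| ≤ Δ σ)
    {q : Mat (Fin N) × (Fin (N + 1) → ℝ)} (hq : q ∈ GP N) (w : OU p N n × LS p n) (c : Bool) :
    |(xw (HN eig W0 a lam q.1) (HN1 eig W1 a lam (cplS q.1 q.2)) (w, c) - cs) -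
      WX eig m1 (a (Fin.last N)) bb (fun _ _ => 0) q.1 q.2 (w, c)| ≤
      g1 eig lam Λ m1 q w + Δ w.1.1.1.1 := by
  have h1 := xw_sub_v (W0 := W0) (W1 := W1) (a := a) (lam := lam) hN he hm hq w c
  have h2 := hΔ w.1.1.1.1 c
  have e1 : (xw (HN eig W0 a lam q.1) (HN1 eig W1 a lam (cplS q.1 q.2)) (w, c) - cs) -
      WX eig m1 (a (Fin.last N)) bb (fun _ _ => 0) q.1 q.2 (w, c) =
      (xw (HN eig W0 a lam q.1) (HN1 eig W1 a lam (cplS q.1 q.2)) (w, c) -
      WX eig m1 (a (Fin.last N)) 0 (vT W0 W1) q.1 q.2 (w, c)) +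
      (vT W0 W1 w.1.1.1.1 c - (cs + bb * sv c)) := by
    unfold WX wx
    ring
  rw [e1]
  exact (abs_add_le _ _).trans (add_le_add h1 h2)

theorem redB_sub_const {Ω : Type*} (U : Ω × Bool → ℝ) (c : ℝ) (w : Ω) :
    redB (fun u => U u - c) w = redB U w - c := by
  have h := redB_add (fun _ : Ω => -c) U w
  have e1 : (fun u : Ω × Bool => U u - c) = fun u => (fun _ : Ω => -c) u.1 + U u := by
    funext u; ring
  rw [e1, h]; ring

/-- measurability of the ideal exponents -/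
theorem measurable_Z0 (σ : Fin N → Bool) :
    Measurable fun q : Mat (Fin N) × (Fin (N + 1) → ℝ) => Z0 q.1 q.2 σ :=
  measurable_zc2 (f := fun V => SY.xU (Matrix.of V) σ) fun i => measurable_xU _ i

theorem measurable_Z1 (eig : Fin (N + 1) → ℝ) (σ : Fin N → Bool) :
    Measurable fun q : Mat (Fin N) × (Fin (N + 1) → ℝ) => Z1 eig q.1 q.2 σ :=
  measurable_zc2 (f := fun V i => eig i.castSucc * SY.xU (Matrix.of V) σ i)
    fun i => (measurable_xU _ i).const_mul _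

end

end Crest.Agent.R164.ED
end

-- ▼ part R164/EDq2

/-!
# Row 164, L side, module E-DIFF part q2 (helper562): lower bound of the step (O1)
-/

set_option autoImplicit false

namespace Crest.Agent.R164.ED

open MeasureTheory ProbabilityTheory Filter
open Finset Crest.Agent.R141 Crest.Agent.R164 Crest.Agent.R164.PF Crest.Agent.R164.Haar
open Crest.ProbabilityR.InvariantGlass

noncomputable section

section gen

variable {Ω : Type*} [Fintype Ω] {P : Ω → ℝ} {𝓕 : Filt Ω} {x : ℕ → ℝ}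

theorem abs_aE_le (hP : IsProb P) (hx : ∀ k, 0 < x k) {X : Ω → ℝ} {c : ℝ}
    (h : ∀ w, |X w| ≤ c) : |aE P 𝓕 x X| ≤ c := by
  have h1 := aE_abs_sub_le (𝓕 := 𝓕) hP hx (X := X) (Y := fun _ => 0) (a := c)
    (fun w => by simpa using h w)
  have h2 : aE P 𝓕 x (fun _ : Ω => (0:ℝ)) = 0 := by
    unfold aE
    have : A P 𝓕 x (fun _ : Ω => (0:ℝ)) 0 = fun _ => 0 := by
      funext w; exact A_const hP hx 0 0 w
    rw [this, eE_const hP]
  rwa [h2, sub_zero] at h1

/-- lower bound with three error functions -/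
theorem int_lower3 {α : Type*} [MeasurableSpace α] {ρ : Measure α} [IsProbabilityMeasure ρ]
    {G : Set α} (hG : MeasurableSet G) {a f F1 F2 F3 : α → ℝ} (ia : Integrable a ρ)
    (jf : Integrable f ρ) (i1 : Integrable F1 ρ) (i2 : Integrable F2 ρ) (i3 : Integrable F3 ρ)
    (n1 : ∀ q, 0 ≤ F1 q) (n2 : ∀ q, 0 ≤ F2 q) (n3 : ∀ q, 0 ≤ F3 q) {c1 c2 B1 B2 B3 M γ : ℝ}
    (hc1 : 0 ≤ c1) (hc2 : 0 ≤ c2) (b1 : ∫ q, F1 q ∂ρ ≤ B1) (b2 : ∫ q, F2 q ∂ρ ≤ B2)
    (b3 : ∫ q, F3 q ∂ρ ≤ B3)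
    (h : ∀ᵐ q ∂ρ, q ∈ G → f q - (c1 * (F1 q + F2 q) + c2 * F3 q) ≤ a q)
    (hM : ∀ᵐ q ∂ρ, |a q| + |f q| ≤ M) (hg : (ρ Gᶜ).toReal ≤ γ) :
    ∫ q, f q ∂ρ - (c1 * (B1 + B2) + c2 * B3) - M * γ ≤ ∫ q, a q ∂ρ := by
  have i12 : Integrable (fun q => c1 * (F1 q + F2 q)) ρ := (i1.add i2).const_mul _
  have i3' : Integrable (fun q => c2 * F3 q) ρ := i3.const_mul _
  have ir : Integrable (fun q => c1 * (F1 q + F2 q) + c2 * F3 q) ρ := i12.add i3'
  have hmain := int_lower hG ia jf ir (fun q => by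
    have := n1 q
    have := n2 q
    have := n3 q
    positivity) h hM
  have hr : ∫ q, (c1 * (F1 q + F2 q) + c2 * F3 q) ∂ρ ≤ c1 * (B1 + B2) + c2 * B3 := by
    rw [integral_add i12 i3', integral_const_mul, integral_const_mul, integral_add i1 i2]
    exact add_le_add (mul_le_mul_of_nonneg_left (add_le_add b1 b2) hc1)
      (mul_le_mul_of_nonneg_left b3 hc2)
  obtain ⟨q, hq⟩ := hM.exists
  have hM0 : 0 ≤ M := (add_nonneg (abs_nonneg _) (abs_nonneg _)).trans hq
  have hg2 := mul_le_mul_of_nonneg_left hg hM0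
  linarith

end gen

variable {p : Par} {N n : ℕ}

theorem abs_Ed_le (hN : 0 < N) {f : DD p N → ℝ} {c : ℝ} (h : ∀ d, |f d| ≤ c) :
    |Ed p N f| ≤ c := by
  rw [abs_le]
  constructor
  · rw [← Ed_const p hN (-c)]
    exact Ed_mono p N fun d => (abs_le.1 (h d)).1
  · rw [← Ed_const p hN c]
    exact Ed_mono p N fun d => (abs_le.1 (h d)).2

theorem Ed_add (f g : DD p N → ℝ) : Ed p N (fun d => f d + g d) = Ed p N f + Ed p N g := by
  unfold Ed
  rw [← Finset.sum_add_distrib]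
  exact Finset.sum_congr rfl fun d _ => by ring

theorem Ed_smul (c : ℝ) (f : DD p N → ℝ) : Ed p N (fun d => c * f d) = c * Ed p N f := by
  unfold Ed
  rw [Finset.mul_sum]
  exact Finset.sum_congr rfl fun d _ => by ring

variable {eig : Fin (N + 1) → ℝ} {W0 : (Fin N → Bool) → ℝ} {W1 : (Fin (N + 1) → Bool) → ℝ}
  {a lam : Fin (N + 1) → Fin p.nc → ℝ} {Λ m1 S Cφ : ℝ}

/-- the averaged increment -/
def stA (n : ℕ) (eig : Fin (N + 1) → ℝ) (W0 : (Fin N → Bool) → ℝ)
    (W1 : (Fin (N + 1) → Bool) → ℝ) (a lam : Fin (N + 1) → Fin p.nc → ℝ)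
    (q : Mat (Fin N) × (Fin (N + 1) → ℝ)) : ℝ :=
  Ed p N (fun d => aE (stP p N n (HN eig W0 a lam q.1) d) (stF p N n) p.xs
    (Xr (HN eig W0 a lam q.1) (HN1 eig W1 a lam (cplS q.1 q.2))))

/-- the integrand of the ideal functional -/
def stC (n : ℕ) (eig : Fin (N + 1) → ℝ) (W0 : (Fin N → Bool) → ℝ)
    (a lam : Fin (N + 1) → Fin p.nc → ℝ) (m1 : ℝ) (b : Fin p.nc → ℝ) (bb K : ℝ)
    (q : Mat (Fin N) × (Fin (N + 1) → ℝ)) : ℝ :=
  Ed p N (fun d => aE (stP p N n (HN eig W0 a lam q.1) d) (stF p N n) p.xs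
    (fun w => psi K (redB (WX eig m1 b bb (fun _ _ => 0) q.1 q.2) w)))

theorem cavF_eq (μ : Measure (Mat (Fin N))) (b : Fin p.nc → ℝ) (bb K : ℝ) :
    cavF μ n (HN eig W0 a lam) eig m1 b bb 0 K =
      ∫ q, stC n eig W0 a lam m1 b bb K q ∂(rho μ) := rfl

/-! ### measurability -/

theorem meas_stP2 (W0 : (Fin N → Bool) → ℝ) (d : DD p N) (w : OU p N n × LS p n) :
    Measurable fun q : Mat (Fin N) × (Fin (N + 1) → ℝ) =>
      stP p N n (HN eig W0 a lam q.1) d w :=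
  (meas_stP (meas_HN eig W0 a lam) d w).comp measurable_fst

theorem measurable_WX (b : Fin p.nc → ℝ) (bb : ℝ) (v : (Fin N → Bool) → Bool → ℝ)
    (u : (OU p N n × LS p n) × Bool) :
    Measurable fun q : Mat (Fin N) × (Fin (N + 1) → ℝ) => WX eig m1 b bb v q.1 q.2 u := by
  have h0 := measurable_Z0 (N := N) u.1.1.1.1.1
  have h1 := measurable_Z1 eig u.1.1.1.1.1
  unfold WX wx
  fun_prop

theorem measurable_redB {Z : Type*} [MeasurableSpace Z] {Ω : Type*} {U : Z → Ω × Bool → ℝ}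
    (hU : ∀ u, Measurable fun z => U z u) (w : Ω) : Measurable fun z => redB (U z) w := by
  unfold redB
  exact Real.measurable_log.comp (((Real.measurable_exp.comp (hU _)).add
    (Real.measurable_exp.comp (hU _))).div_const _)

theorem measurable_redB_WX (b : Fin p.nc → ℝ) (bb : ℝ) (v : (Fin N → Bool) → Bool → ℝ)
    (w : OU p N n × LS p n) :
    Measurable fun q : Mat (Fin N) × (Fin (N + 1) → ℝ) =>
      redB (WX eig m1 b bb v q.1 q.2) w :=
  measurable_redB (fun u => measurable_WX b bb v u) w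

theorem measurable_psi (K : ℝ) : Measurable (psi K) :=
  (continuous_iff_continuousAt.2 fun w => (hasDerivAt_psi w).continuousAt).measurable

theorem measurable_stA : Measurable (stA n eig W0 W1 a lam) := by
  unfold stA
  refine meas_Ed fun d => CavG.measurable_aEp _ _ (fun w => meas_stP2 W0 d w) fun w => ?_
  exact TLaw.measurable_Xr w

theorem measurable_stC (b : Fin p.nc → ℝ) (bb K : ℝ) :
    Measurable (stC n eig W0 a lam m1 b bb K) := by
  unfold stC
  refine meas_Ed fun d => CavG.measurable_aEp _ _ (fun w => meas_stP2 W0 d w) fun w => ?_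
  exact (measurable_psi K).comp (measurable_redB_WX b bb _ w)

theorem abs_stC_le (hN : 0 < N) {K : ℝ} (hK : 0 ≤ K) (b : Fin p.nc → ℝ) (bb : ℝ)
    (q : Mat (Fin N) × (Fin (N + 1) → ℝ)) : |stC n eig W0 a lam m1 b bb K q| ≤ K + 1 :=
  abs_Ed_le hN fun d => abs_aE_le (stP_isProb _ _) p.xs_expo.pos fun w => abs_psi_le hK _

theorem integrable_stC (hN : 0 < N) {μ : Measure (Mat (Fin N))} [IsProbabilityMeasure μ]
    {K : ℝ} (hK : 0 ≤ K) (b : Fin p.nc → ℝ) (bb : ℝ) :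
    Integrable (stC n eig W0 a lam m1 b bb K) (rho μ) := by
  refine Integrable.of_bound (measurable_stC b bb K).aestronglyMeasurable (K + 1) ?_
  exact Eventually.of_forall fun q => by
    rw [Real.norm_eq_abs]; exact abs_stC_le hN hK b bb q

/-- the average of `Δ` in the product space -/
theorem avg_Δ (hN : 0 < N) {μ : Measure (Mat (Fin N))} [IsProbabilityMeasure μ]
    (Δ : (Fin N → Bool) → ℝ) {Dm : ℝ} (hD : ∀ σ, |Δ σ| ≤ Dm) :
    Integrable (fun q => Ed p N (fun d => eE (stP p N n (HN eig W0 a lam q.1) d)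
      (fun w => Δ w.1.1.1.1))) (rho μ) ∧
    ∫ q, Ed p N (fun d => eE (stP p N n (HN eig W0 a lam q.1) d)
      (fun w => Δ w.1.1.1.1)) ∂(rho μ) = ∫ V, Ed p N (fun d =>
        eE (G.PP (BU p N n) (HN eig W0 a lam V) d) (fun w => Δ w.1.1.1)) ∂μ := by
  have e1 : ∀ q : Mat (Fin N) × (Fin (N + 1) → ℝ), Ed p N (fun d =>
      eE (stP p N n (HN eig W0 a lam q.1) d) (fun w => Δ w.1.1.1.1)) =
      Ed p N (fun d => eE (G.PP (BU p N n) (HN eig W0 a lam q.1) d) (fun w => Δ w.1.1.1)) := by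
    intro q
    unfold Ed
    exact Finset.sum_congr rfl fun d _ => congrArg (fun t => dw p N d * t)
      (eE_stP_fst (HN eig W0 a lam q.1) d (fun w => Δ w.1.1.1))
  set F : Mat (Fin N) → ℝ := fun V => Ed p N (fun d =>
    eE (G.PP (BU p N n) (HN eig W0 a lam V) d) (fun w => Δ w.1.1.1)) with hF
  have hm : Measurable F :=
    meas_Ed fun d => G.meas_eE (fun w => G.meas_PP (BU p N n) (meas_HN eig W0 a lam) d w)
      fun _ => measurable_const
  have hb : ∀ V, |F V| ≤ Dm := fun V => abs_Ed_le hN fun d => by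
    have hP := G.PP_isProb (BU p N n) (HN eig W0 a lam V) d
    refine (abs_eE_le_eE_abs hP _).trans ?_
    have := eE_mono hP (f := fun w : OU p N n => |Δ w.1.1.1|) (g := fun _ => Dm)
      fun w => hD w.1.1.1
    rwa [eE_const hP] at this
  have e2 : (fun q => Ed p N (fun d => eE (stP p N n (HN eig W0 a lam q.1) d)
      (fun w => Δ w.1.1.1.1))) = fun q : Mat (Fin N) × (Fin (N + 1) → ℝ) => F q.1 := funext e1
  rw [e2]
  refine ⟨?_, ?_⟩
  · refine Integrable.of_bound (hm.comp measurable_fst).aestronglyMeasurable Dm ?_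
    exact Eventually.of_forall fun q => by rw [Real.norm_eq_abs]; exact hb q.1
  · have h1 : (rho μ).map Prod.fst = μ := by
      show (μ.prod (gam (Fin (N + 1)))).map Prod.fst = μ
      rw [Measure.map_fst_prod, measure_univ, one_smul]
    calc ∫ q, F q.1 ∂(rho μ) = ∫ V, F V ∂((rho μ).map Prod.fst) :=
          (integral_map measurable_fst.aemeasurable hm.aestronglyMeasurable).symm
      _ = _ := by rw [h1]

/-- pointwise lower bound -/
theorem stA_ge (hN : 1 ≤ N) (he : ∀ i, |eig i| ≤ Λ) (hm : |m1| ≤ Λ) (hS : 0 < S) {cs bb K : ℝ}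
    (hK : 0 < K) {Δ : (Fin N → Bool) → ℝ}
    (hΔ : ∀ σ c, |vT W0 W1 σ c - (cs + bb * sv c)| ≤ Δ σ)
    {q : Mat (Fin N) × (Fin (N + 1) → ℝ)} (hq : q ∈ GP N) :
    (cs + stC n eig W0 a lam m1 (a (Fin.last N)) bb K q) -
      (Real.exp (2 * (K + 1)) * (Ed p N (fun d => eE (stP p N n (HN eig W0 a lam q.1) d)
          (gR eig lam Λ m1 (Real.sqrt S) q)) +
        Ed p N (fun d => eE (stP p N n (HN eig W0 a lam q.1) d) (fun w => Δ w.1.1.1.1))) +
        Real.exp 1 / K * Ed p N (fun d => eE (stP p N n (HN eig W0 a lam q.1) d)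
          (gQ eig Λ 0 bb (a (Fin.last N)) q))) ≤ stA n eig W0 W1 a lam q := by
  have h1 : ∀ d : DD p N, cs + aE (stP p N n (HN eig W0 a lam q.1) d) (stF p N n) p.xs
      (fun w => psi K (redB (WX eig m1 (a (Fin.last N)) bb (fun _ _ => 0) q.1 q.2) w)) -
      (Real.exp (2 * (K + 1)) * (eE (stP p N n (HN eig W0 a lam q.1) d)
          (gR eig lam Λ m1 (Real.sqrt S) q) +
        eE (stP p N n (HN eig W0 a lam q.1) d) (fun w => Δ w.1.1.1.1)) +
        Real.exp 1 / K * eE (stP p N n (HN eig W0 a lam q.1) d)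
          (gQ eig Λ 0 bb (a (Fin.last N)) q)) ≤
      aE (stP p N n (HN eig W0 a lam q.1) d) (stF p N n) p.xs
        (Xr (HN eig W0 a lam q.1) (HN1 eig W1 a lam (cplS q.1 q.2))) := by
    intro d
    have h2 := aE_ge_trunc2 (P := stP p N n (HN eig W0 a lam q.1) d) (𝓕 := stF p N n)
      (x := p.xs) (stP_isProb _ d) p.xs_expo hK
      (Xr (HN eig W0 a lam q.1) (HN1 eig W1 a lam (cplS q.1 q.2)))
      (redB (WX eig m1 (a (Fin.last N)) bb (fun _ _ => 0) q.1 q.2)) cs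
      (g := fun w => gR eig lam Λ m1 (Real.sqrt S) q w + Δ w.1.1.1.1)
      (Q := gQ eig Λ 0 bb (a (Fin.last N)) q)
      (fun w => by
        have h3 : |redB (fun u => xw (HN eig W0 a lam q.1) (HN1 eig W1 a lam (cplS q.1 q.2)) u -
            cs) w - redB (WX eig m1 (a (Fin.last N)) bb (fun _ _ => 0) q.1 q.2) w| ≤
            g1 eig lam Λ m1 q w + Δ w.1.1.1.1 :=
          abs_redB_sub_le fun c => xw_sub_c hN he hm hΔ hq w c
        rw [redB_sub_const] at h3
        exact h3.trans (add_le_add (g1_le_gR hS hq w) le_rfl))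
      (fun w => sq_redB_WX_le he hm (a (Fin.last N)) (v := fun _ _ => 0)
        (fun σ c => by simp) q w)
    rw [eE_add] at h2
    exact h2
  have hN' : 0 < N := hN
  have h2 := Ed_mono p N h1
  refine le_trans (le_of_eq ?_) h2
  unfold stC
  have e1 : (fun d : DD p N => cs + aE (stP p N n (HN eig W0 a lam q.1) d) (stF p N n) p.xs
      (fun w => psi K (redB (WX eig m1 (a (Fin.last N)) bb (fun _ _ => 0) q.1 q.2) w)) -
      (Real.exp (2 * (K + 1)) * (eE (stP p N n (HN eig W0 a lam q.1) d)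
          (gR eig lam Λ m1 (Real.sqrt S) q) +
        eE (stP p N n (HN eig W0 a lam q.1) d) (fun w => Δ w.1.1.1.1)) +
        Real.exp 1 / K * eE (stP p N n (HN eig W0 a lam q.1) d)
          (gQ eig Λ 0 bb (a (Fin.last N)) q))) = fun d =>
      cs + (aE (stP p N n (HN eig W0 a lam q.1) d) (stF p N n) p.xs
      (fun w => psi K (redB (WX eig m1 (a (Fin.last N)) bb (fun _ _ => 0) q.1 q.2) w)) +
      ((-Real.exp (2 * (K + 1))) * (eE (stP p N n (HN eig W0 a lam q.1) d)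
          (gR eig lam Λ m1 (Real.sqrt S) q) +
        eE (stP p N n (HN eig W0 a lam q.1) d) (fun w => Δ w.1.1.1.1)) +
        (-(Real.exp 1 / K)) * eE (stP p N n (HN eig W0 a lam q.1) d)
          (gQ eig Λ 0 bb (a (Fin.last N)) q))) := by
    funext d; ring
  rw [e1, Ed_add, Ed_const p hN', Ed_add, Ed_add, Ed_smul, Ed_smul, Ed_add]
  ring

/-- **(O1), core** -/
theorem O1_core {μ : Measure (Mat (Fin N))} [IsProbabilityMeasure μ]
    (D : EDat μ n eig W0 a lam Λ m1 S Cφ) {cs bb K A2 δ MA Dm : ℝ} (hK : 0 < K)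
    {Δ : (Fin N → Bool) → ℝ} (hΔ0 : ∀ σ, 0 ≤ Δ σ) (hDm : ∀ σ, Δ σ ≤ Dm)
    (hΔ : ∀ σ c, |vT W0 W1 σ c - (cs + bb * sv c)| ≤ Δ σ)
    (hδ : ∫ V, Ed p N (fun d => eE (G.PP (BU p N n) (HN eig W0 a lam V) d)
      (fun w => Δ w.1.1.1)) ∂μ ≤ δ)
    (hy : eE (lsP p n) (fun l => yb (a (Fin.last N)) l ^ 2) ≤ A2) (hA2 : 0 ≤ A2)
    (hM : ∀ᵐ q ∂(rho μ), |stA n eig W0 W1 a lam q| ≤ MA) :
    cs + cavF μ n (HN eig W0 a lam) eig m1 (a (Fin.last N)) bb 0 K -
      (Real.exp (2 * (K + 1)) * (680 * (1 + Λ) ^ 3 * kapN eig Λ m1 +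
        (9 + 2 * Cφ) * Real.sqrt S + δ) + Real.exp 1 / K * Cw Λ 0 bb A2) -
      (MA + (|cs| + (K + 1))) * (500 / ((N : ℝ) + 1) ^ 2) ≤
      ∫ q, stA n eig W0 W1 a lam q ∂(rho μ) := by
  have hN' : 0 < N := D.hN
  have E1 := D.avg_gR
  have E2 := D.avg_gQ (B := 0) (bb := bb) hy hA2
  have E3 := avg_Δ (p := p) (n := n) (eig := eig) (W0 := W0) (a := a) (lam := lam) hN' (μ := μ)
    Δ (Dm := Dm) (fun σ => by rw [abs_of_nonneg (hΔ0 σ)]; exact hDm σ)
  rw [← E3.2] at hδ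
  have hΛ0 : 0 ≤ Λ := (abs_nonneg _).trans D.hm
  have ia : Integrable (stA n eig W0 W1 a lam) (rho μ) := by
    refine Integrable.of_bound measurable_stA.aestronglyMeasurable MA ?_
    filter_upwards [hM] with q hq
    rwa [Real.norm_eq_abs]
  have ic := integrable_stC (n := n) (eig := eig) (W0 := W0) (a := a) (lam := lam) (m1 := m1)
    hN' (μ := μ) hK.le (a (Fin.last N)) bb
  have ic2 : Integrable (fun q => cs + stC n eig W0 a lam m1 (a (Fin.last N)) bb K q) (rho μ) :=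
    (integrable_const cs).add ic
  have hc : ∫ q, (cs + stC n eig W0 a lam m1 (a (Fin.last N)) bb K q) ∂(rho μ) =
      cs + cavF μ n (HN eig W0 a lam) eig m1 (a (Fin.last N)) bb 0 K := by
    rw [integral_add (integrable_const cs) ic, integral_const]
    simp only [probReal_univ, smul_eq_mul, one_mul]
    rfl
  have hmain := int_lower3 (ρ := rho μ) (measurableSet_GP (N := N)) ia ic2 E1.1 E3.1 E2.1
    (fun q => Ed_nonneg fun d => eE_nonneg (stP_isProb _ _)
        fun w => gR_nonneg eig lam hΛ0 (Real.sqrt_pos.2 D.hS) m1 q w)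
    (fun q => Ed_nonneg fun d => eE_nonneg (stP_isProb _ _) fun w => hΔ0 _)
    (fun q => Ed_nonneg fun d => eE_nonneg (stP_isProb _ _) fun w => by unfold gQ; positivity)
    (Real.exp_pos (2 * (K + 1))).le (div_nonneg (Real.exp_pos 1).le hK.le) E1.2 hδ E2.2
    (Eventually.of_forall fun q hq => stA_ge D.hN D.he D.hm D.hS hK hΔ hq)
    (M := MA + (|cs| + (K + 1)))
    (hM.mono fun q hq => add_le_add hq ((abs_add_le _ _).trans
      (add_le_add le_rfl (abs_stC_le hN' hK.le _ _ _)))) (rho_GP_compl (N := N) (μ := μ))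
  rw [hc] at hmain
  exact hmain

end

end Crest.Agent.R164.ED
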