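import Crest.Agent.R164.FieldGroup

/-!
Row 164: groups with group-dependent fields (common widths) (helper92, for helper893).
-/

set_option autoImplicit false

namespace Crest.Agent.R164.GC

open MeasureTheory ProbabilityTheory Filter Topology Set
open Crest.ProbabilityR.InvariantGlass

noncomputable section







/-- `1/2 ∫ pathP · stepFn` as a finite sum -/
theorem integral_pathP_stepFn {k : ℕ} {w hv : Fin k → ℝ} (h : IsStepField w hv) (b : ℝ)
    (hv' : Fin k → ℝ) :
    ∫ u in Ioo (0 : ℝ) 1, pathP b w hv u * stepFn w hv' u =
      ∑ i, w i * (pAt b w hv i * hv' i) := by
  unfold pathP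
  rw [integral_stepFn h.2.1 h.2.2.1 _ (integrableOn_stepFn h.2.1 hv')]
  refine Finset.sum_congr rfl fun i _ => ?_
  have hi := h.2.1 i
  have e : ∫ u in (leftEnd w i)..(leftEnd w i + w i), stepFn w hv' u = w i * hv' i := by
    rw [intervalIntegral.integral_of_le (by linarith)]
    have h1 : ∫ u in Ioc (leftEnd w i) (leftEnd w i + w i), stepFn w hv' u =
        ∫ _u in Ioc (leftEnd w i) (leftEnd w i + w i), hv' i := by
      refine setIntegral_congr_fun measurableSet_Ioc fun u hu => ?_
      show stepFn w hv' u = hv' i
      unfold stepFn
      rw [Finset.sum_eq_single i]
      · rw [if_pos ⟨hu.1, hu.2⟩]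
      · intro l _ hl
        refine if_neg fun hc => ?_
        rcases lt_or_gt_of_ne hl with hlt | hgt
        · -- `l < i`
          have h2 : leftEnd w l + w l ≤ leftEnd w i := by
            unfold leftEnd
            rw [← Finset.sum_filter, ← Finset.sum_filter]
            have hnot : l ∉ Finset.univ.filter (fun m : Fin k => m < l) := by simp
            have e2 : ∑ m ∈ Finset.univ.filter (fun m : Fin k => m < l), w m + w l =
                ∑ m ∈ insert l (Finset.univ.filter (fun m : Fin k => m < l)), w m := by
              rw [Finset.sum_insert hnot]; ring
            rw [e2]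
            refine Finset.sum_le_sum_of_subset_of_nonneg ?_ fun m _ _ => (h.2.1 m).le
            intro m hm
            rw [Finset.mem_insert] at hm
            rcases hm with rfl | hm
            · simp [hlt]
            · simp only [Finset.mem_filter, Finset.mem_univ, true_and] at hm ⊢
              exact hm.trans hlt
          linarith [hc.2, hu.1]
        · have h2 : leftEnd w i + w i ≤ leftEnd w l := by
            unfold leftEnd
            rw [← Finset.sum_filter, ← Finset.sum_filter]
            have hnot : i ∉ Finset.univ.filter (fun m : Fin k => m < i) := by simp
            have e2 : ∑ m ∈ Finset.univ.filter (fun m : Fin k => m < i), w m + w i =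
                ∑ m ∈ insert i (Finset.univ.filter (fun m : Fin k => m < i)), w m := by
              rw [Finset.sum_insert hnot]; ring
            rw [e2]
            refine Finset.sum_le_sum_of_subset_of_nonneg ?_ fun m _ _ => (h.2.1 m).le
            intro m hm
            rw [Finset.mem_insert] at hm
            rcases hm with rfl | hm
            · simp [hgt]
            · simp only [Finset.mem_filter, Finset.mem_univ, true_and] at hm ⊢
              exact hm.trans hgt
          linarith [hc.1, hu.2]
      · intro hni
        exact absurd (Finset.mem_univ i) hni
    rw [h1, setIntegral_const, Measure.real, Real.volume_Ioc,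
      ENNReal.toReal_ofReal (by linarith), smul_eq_mul]
    ring
  rw [e]
  ring

end

end Crest.Agent.R164.GC
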