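import Crest.Agent.R164.GSys
import Crest.Agent.R141.SysF4
import Crest.Agent.R164.Sys164
import Crest.Agent.R164.CoinG

-- ▼ part R164/GF4
section

/-!
Row 164: (F2) and (F3) for the enriched system over a general base (port of `R141/SysF4.lean`).
-/

set_option autoImplicit false

namespace Crest.Agent.R164.G

open Finset Crest.Agent.R141 Crest.Agent.R141.SysIC Crest.Agent.R141.SysF

noncomputable section

variable {p : Par} {N : ℕ} (B : Base p N)

/-- the base filtration -/
def SFil : Filt B.S where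
  F := B.SF
  anti := B.anti
  L := p.L
  bot := B.bot

/-- the free energy of the base -/
def Phi0 (H : B.S → ℝ) : ℝ := eE B.q (A B.q (SFil B) p.xs H 0)

/-! ### pointwise bounds -/

theorem gfac_ge (i : Fin N) (b : Fin p.nb) (ω : Om B) :
    - vb p b (ω.2.1 i b) ≤ gfac B i b ω := by
  unfold gfac
  have hs := B.hf i ω.1
  have hg := gval_abs p b (ω.2.1 i b)
  rcases vb_mem p b (ω.2.1 i b) with h | h
  · rw [gval_of_vb_zero p b _ h, h]; simp
  · rw [h]
    have h1 : |gval p b (ω.2.1 i b) * B.f i ω.1| ≤ 1 / 2 := by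
      rw [abs_mul]
      calc |gval p b (ω.2.1 i b)| * |B.f i ω.1| ≤ 1 / 2 * 1 :=
            mul_le_mul hg hs (abs_nonneg _) (by norm_num)
        _ = 1 / 2 := by ring
    have h2 := (abs_le.mp h1).1
    have h3 : (1 / 2 : ℝ) ≤ 1 + gval p b (ω.2.1 i b) * B.f i ω.1 := by linarith
    have h4 : Real.log (1 / 2) ≤ Real.log (1 + gval p b (ω.2.1 i b) * B.f i ω.1) :=
      Real.log_le_log (by norm_num) h3
    have h5 : Real.log (1 / 2) = - Real.log 2 := by rw [one_div, Real.log_inv]
    have h6 := Real.log_two_lt_d9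
    linarith

theorem exp_gfac_le (i : Fin N) (b : Fin p.nb) (ω : Om B) :
    Real.exp (gfac B i b ω) ≤ 1 + 1 / 2 * vb p b (ω.2.1 i b) := by
  unfold gfac
  have hs := B.hf i ω.1
  have hg := gval_abs p b (ω.2.1 i b)
  have h1 : |gval p b (ω.2.1 i b) * B.f i ω.1| ≤ 1 / 2 := by
    rw [abs_mul]
    calc |gval p b (ω.2.1 i b)| * |B.f i ω.1| ≤ 1 / 2 * 1 :=
          mul_le_mul hg hs (abs_nonneg _) (by norm_num)
      _ = 1 / 2 := by ring
  have h2 := (abs_le.mp h1)
  rw [Real.exp_log (by linarith [h2.1])]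
  rcases vb_mem p b (ω.2.1 i b) with h | h
  · rw [gval_of_vb_zero p b _ h, h]; simp
  · rw [h]; linarith [h2.2]

theorem cfac_mem (o : Option (Crd p N)) (k : Stp p) (ω : Om B) :
    0 ≤ cfac B o k ω ∧ cfac B o k ω ≤ p.τ := by
  have hτ := p.hτ0
  unfold cfac
  cases o with
  | none => exact ⟨le_refl _, hτ.le⟩
  | some c =>
    have h1 := cv_nonneg B c ω
    have h2 := cv_le_one B c ω
    show 0 ≤ p.τ * ((if ω.2.2 k.1 k.2 = true then 1 else 0) * cv B c ω) ∧
      p.τ * ((if ω.2.2 k.1 k.2 = true then 1 else 0) * cv B c ω) ≤ p.τ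
    split_ifs
    · constructor
      · positivity
      · nlinarith
    · constructor
      · simp
      · simp only [zero_mul, mul_zero]; exact hτ.le

/-! ### labels as an independent coordinate -/

theorem ic_labs : IC (prior B) (fil B).F (fun ω => ω.2.1)
    (fun ω c => (ω.1, c, ω.2.2)) (unif (Fin N → Fin p.nb → Fin p.nc → Fin p.Q)) (labsF p N) where
  get_upd ω c := rfl
  upd_get ω := rfl
  upd_upd ω c c' := rfl
  prob ω c := rfl
  rel k ω ω' c := by
    constructor
    · intro h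
      have h : frel B k ω ω' := h
      exact ⟨⟨fun _ _ _ _ => rfl, h.2.1, h.2.2⟩, h.1⟩
    · rintro ⟨h, h'⟩
      have h : frel B k (ω.1, c, ω.2.2) (ω'.1, c, ω'.2.2) := h
      exact ⟨h', h.2.1, h.2.2⟩

theorem labsF_zero : labsF p N 0 = ⊤ := by
  ext l l'
  constructor
  · intro _; trivial
  · intro _ i b g hg
    exfalso; unfold Par.mt at hg
    have : 0 < ((g : ℕ) + 1) * (p.T + 1) := by positivity
    omega

/-! ### projection to the base -/

theorem cE_fst (k : ℕ) (f : B.S → ℝ) (ω : Om B) :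
    cE (prior B) ((fil B).F k) (fun w => f w.1) ω = cE B.q (B.SF k) f ω.1 := by
  classical
  have hcard : (0 : ℝ) < (Fintype.card (Lab p N) : ℝ) := by exact_mod_cast Fintype.card_pos
  set g : Lab p N → Prop := fun l =>
    (∀ (i : Fin N) (b : Fin p.nb) (g : Fin p.nc), p.mt g ≤ k → ω.2.1 i b g = l.1 i b g) ∧
    (∀ (g : Fin p.nc) (t : Fin p.T), p.ct g t ≤ k → ω.2.2 g t = l.2 g t) with hg
  have hgω : g ω.2 := ⟨fun _ _ _ _ => rfl, fun _ _ _ => rfl⟩
  have hnum : (0 : ℝ) < ((Finset.univ.filter g).card : ℝ) := by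
    exact_mod_cast Finset.card_pos.2 ⟨ω.2, by simp [hgω]⟩
  refine cE_proj (r' := (fil B).F k) (r := B.SF k) (P' := prior B) (P := B.q)
    (fun w : Om B => w.1) ω (((Finset.univ.filter g).card : ℝ) * (Fintype.card (Lab p N) : ℝ)⁻¹)
    (by positivity) ?_ ?_ f
  · intro ω'' h
    have h : frel B k ω ω'' := h
    exact h.2.2
  · intro s hs
    have e1 : (∑ ω'' ∈ (Finset.univ.filter (fun ω'' : Om B => ω''.1 = s ∧ (fil B).F k ω ω'')),
        prior B ω'') = ∑ l ∈ Finset.univ.filter g, B.q s * (Fintype.card (Lab p N) : ℝ)⁻¹ := by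
      symm
      refine Finset.sum_bij (fun l _ => ((s, l) : Om B)) ?_ ?_ ?_ ?_
      · intro l hl
        simp only [Finset.mem_filter, Finset.mem_univ, true_and] at hl ⊢
        show frel B k ω (s, l)
        exact ⟨hl.1, hl.2, hs⟩
      · intro l _ l' _ h
        exact (Prod.ext_iff.1 h).2
      · intro ω'' hω''
        simp only [Finset.mem_filter, Finset.mem_univ, true_and] at hω''
        obtain ⟨h1, h2⟩ := hω''
        have h2 : frel B k ω ω'' := h2
        refine ⟨ω''.2, ?_, ?_⟩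
        · simp only [Finset.mem_filter, Finset.mem_univ, true_and]
          exact ⟨h2.1, h2.2.1⟩
        · subst h1; rfl
      · intro l _; rfl
    rw [e1, Finset.sum_const, nsmul_eq_mul]
    ring

theorem eE_fst (f : B.S → ℝ) : eE (prior B) (fun w => f w.1) = eE B.q f := by
  have hcard : (0 : ℝ) < (Fintype.card (Lab p N) : ℝ) := by exact_mod_cast Fintype.card_pos
  unfold eE prior
  rw [Fintype.sum_prod_type]
  refine Finset.sum_congr rfl fun s _ => ?_
  simp only [Finset.sum_const, Finset.card_univ, nsmul_eq_mul]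
  field_simp

theorem A_fst (H : B.S → ℝ) (k : ℕ) (ω : Om B) :
    A (prior B) (fil B) p.xs (fun w => H w.1) k ω = A B.q (SFil B) p.xs H k ω.1 :=
  A_proj (𝓕' := fil B) (𝓕 := SFil B) (prior_isProb B) B.hq p.xs_expo.pos (fun w : Om B => w.1)
    (fun k f ω' => cE_fst B k f ω') H k ω

/-! ### (F2) -/

/-- Pointwise bounds for the enrichment under a tilt by the base. -/
theorem A_WW_bounds (H : B.S → ℝ) (d : DD p N) (ω : Om B) :
    -(N * (p.nb * (p.Q : ℝ)⁻¹)) ≤
      A (tl (prior B) (fil B) p.xs (fun ω => H ω.1)) (fil B) p.xs (WW B d) 0 ω ∧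
    A (tl (prior B) (fil B) p.xs (fun ω => H ω.1)) (fil B) p.xs (WW B d) 0 ω ≤
      N * (p.nb * (1 / 2 * (p.Q : ℝ)⁻¹)) + p.τ * Fintype.card (Stp p) := by
  have hP := prior_isProb B
  have hx := p.xs_expo.pos
  have hQ0 : (0 : ℝ) ≤ (p.Q : ℝ)⁻¹ := by positivity
  set Q := tl (prior B) (fil B) p.xs (fun ω => H ω.1) with hQdef
  have hQ : IsProb Q := tl_isProb hP hx _
  have hic : IC Q (fil B).F (fun ω => ω.2.1)
      (fun ω c => (ω.1, c, ω.2.2)) (unif (Fin N → Fin p.nb → Fin p.nc → Fin p.Q)) (labsF p N) :=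
    (ic_labs B).tl_inv hP (by have := nonemptyQ p; exact unif_isProb _) hx (fun _ _ => rfl)
  have hu : IsProb (unif (Fin N → Fin p.nb → Fin p.nc → Fin p.Q)) := by
    have := nonemptyQ p; exact unif_isProb _
  have hcoord : ∀ g : (Fin N → Fin p.nb → Fin p.nc → Fin p.Q) → ℝ,
      cE Q ((fil B).F 0) (fun ω => g ω.2.1) ω = eE (unif _) g := by
    intro g
    rw [hic.cE_coord hQ hu 0 g ω, labsF_zero, eE_top hu]
  constructor
  · refine le_trans ?_ (cE_le_A (𝓕 := fil B) hQ hx (WW B d) 0 ω)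
    have h1 : cE Q ((fil B).F 0) (fun ω => - ∑ i, ∑ b, vb p b (ω.2.1 i b)) ω ≤
        cE Q ((fil B).F 0) (WW B d) ω := by
      apply cE_mono' hQ
      intro ω
      unfold WW
      have h2 : - ∑ i, ∑ b, vb p b (ω.2.1 i b) ≤ ∑ i, ∑ b, gfac B i b ω := by
        rw [← Finset.sum_neg_distrib]
        refine Finset.sum_le_sum fun i _ => ?_
        rw [← Finset.sum_neg_distrib]
        exact Finset.sum_le_sum fun b _ => gfac_ge B i b ω
      have h3 : 0 ≤ ∑ k, cfac B (d k) k ω :=
        Finset.sum_nonneg fun k _ => (cfac_mem B (d k) k ω).1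
      linarith
    have h2 : cE Q ((fil B).F 0) (fun ω => - ∑ i, ∑ b, vb p b (ω.2.1 i b)) ω =
        -(N * (p.nb * (p.Q : ℝ)⁻¹)) := by
      rw [hcoord (fun l => - ∑ i, ∑ b, vb p b (l i b))]
      have e : (fun l : Fin N → Fin p.nb → Fin p.nc → Fin p.Q => - ∑ i, ∑ b, vb p b (l i b)) =
          fun l => (-1) * ∑ i, ∑ b, vb p b (l i b) := by funext l; ring
      rw [e, eE_smul, eE_sum]
      have h4 : ∀ i : Fin N, eE (unif (Fin N → Fin p.nb → Fin p.nc → Fin p.Q))
          (fun l => ∑ b, vb p b (l i b)) = p.nb * (p.Q : ℝ)⁻¹ := by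
        intro i
        have := nonemptyQ p
        rw [unif_coord (ι := Fin N) (Λ := Fin p.nb → Fin p.nc → Fin p.Q) i
          (fun l => ∑ b, vb p b (l b)), eE_sum]
        have h5 : ∀ b : Fin p.nb, eE (unif (Fin p.nb → Fin p.nc → Fin p.Q))
            (fun l => vb p b (l b)) = (p.Q : ℝ)⁻¹ := by
          intro b
          rw [unif_coord (ι := Fin p.nb) (Λ := Fin p.nc → Fin p.Q) b (vb p b), eE_vb]
        rw [Finset.sum_congr rfl fun b _ => h5 b, Finset.sum_const, Finset.card_univ,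
          Fintype.card_fin, nsmul_eq_mul]
      rw [Finset.sum_congr rfl fun i _ => h4 i, Finset.sum_const, Finset.card_univ,
        Fintype.card_fin, nsmul_eq_mul]
      ring
    linarith
  · refine (A_le_log (𝓕 := fil B) hQ p.xs_expo (WW B d) 0 ω).trans ?_
    have hpos : 0 < cE Q ((fil B).F 0) (fun w => Real.exp (WW B d w)) ω :=
      cE_pos hQ (fun _ => Real.exp_pos _) ω
    rw [Real.log_le_iff_le_exp hpos]
    have h1 : cE Q ((fil B).F 0) (fun w => Real.exp (WW B d w)) ω ≤
        cE Q ((fil B).F 0) (fun ω => Real.exp (p.τ * Fintype.card (Stp p)) *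
          ∏ i, ∏ b, (1 + 1 / 2 * vb p b (ω.2.1 i b))) ω := by
      apply cE_mono' hQ
      intro ω
      unfold WW
      rw [Real.exp_add, mul_comm]
      apply mul_le_mul
      · apply Real.exp_le_exp.mpr
        calc ∑ k, cfac B (d k) k ω ≤ ∑ _k : Stp p, p.τ :=
              Finset.sum_le_sum fun k _ => (cfac_mem B (d k) k ω).2
          _ = p.τ * Fintype.card (Stp p) := by
              rw [Finset.sum_const, Finset.card_univ, nsmul_eq_mul, mul_comm]
      · rw [Real.exp_sum]
        refine Finset.prod_le_prod (fun _ _ => (Real.exp_pos _).le) fun i _ => ?_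
        rw [Real.exp_sum]
        exact Finset.prod_le_prod (fun _ _ => (Real.exp_pos _).le) fun b _ => exp_gfac_le B i b ω
      · exact (Real.exp_pos _).le
      · exact (Real.exp_pos _).le
    refine h1.trans ?_
    rw [cE_smul, hcoord (fun l => ∏ i, ∏ b, (1 + 1 / 2 * vb p b (l i b))),
      add_comm (N * (p.nb * (1 / 2 * (p.Q : ℝ)⁻¹)) : ℝ), Real.exp_add]
    exact mul_le_mul_of_nonneg_left (eE_labs_prod p N) (Real.exp_pos _).le

theorem Phi_sub_Phi0 (H : B.S → ℝ) (d : DD p N) :
    Phi B H d - Phi0 B H =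
      eE (prior B) (A (tl (prior B) (fil B) p.xs (fun ω => H ω.1)) (fil B) p.xs (WW B d) 0) := by
  have hP := prior_isProb B
  have hx := p.xs_expo.pos
  unfold Phi Phi0
  have e : A (prior B) (fil B) p.xs (UU B H d) 0 = fun ω =>
      A (prior B) (fil B) p.xs (fun ω => H ω.1) 0 ω +
        A (tl (prior B) (fil B) p.xs (fun ω => H ω.1)) (fil B) p.xs (WW B d) 0 ω := by
    funext ω
    exact A_cocycle (𝓕 := fil B) hP hx (fun ω => H ω.1) (WW B d) 0 ω
  have e2 : eE (prior B) (A (prior B) (fil B) p.xs (fun ω => H ω.1) 0) =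
      eE B.q (A B.q (SFil B) p.xs H 0) := by
    rw [← eE_fst B]
    congr 1
    funext ω
    exact A_fst B H 0 ω
  rw [e, eE_add, e2]
  ring

/-- (F2): the enrichment changes the free energy by at most `N nb/Q + τ #coins`. -/
theorem Phi_F2 (H : B.S → ℝ) (d : DD p N) :
    |Phi B H d - Phi0 B H| ≤ N * (p.nb * (p.Q : ℝ)⁻¹) + p.τ * Fintype.card (Stp p) := by
  have hP := prior_isProb B
  have hQ0 : (0 : ℝ) ≤ (p.Q : ℝ)⁻¹ := by positivity
  have hτ := p.hτ0
  rw [Phi_sub_Phi0, abs_le]
  constructor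
  · have h1 := eE_mono hP fun ω => (A_WW_bounds B H d ω).1
    rw [eE_const hP] at h1
    have h2 : 0 ≤ p.τ * Fintype.card (Stp p) := by positivity
    linarith
  · have h1 := eE_le_of_le hP fun ω => (A_WW_bounds B H d ω).2
    have h2 : (N : ℝ) * (p.nb * (1 / 2 * (p.Q : ℝ)⁻¹)) ≤ N * (p.nb * (p.Q : ℝ)⁻¹) := by
      apply mul_le_mul_of_nonneg_left _ (Nat.cast_nonneg _)
      apply mul_le_mul_of_nonneg_left _ (Nat.cast_nonneg _)
      linarith
    linarith


/-! ### (F3) -/





theorem Phi0_mono {H H' : B.S → ℝ} (h : ∀ s, H s ≤ H' s) : Phi0 B H ≤ Phi0 B H' := by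
  have hx := p.xs_expo.pos
  unfold Phi0
  exact eE_mono B.hq fun ω => A_mono B.hq hx h 0 ω


theorem Phi0_add_const (H : B.S → ℝ) (c : ℝ) :
    Phi0 B (fun s => H s + c) = Phi0 B H + c := by
  have hx := p.xs_expo.pos
  unfold Phi0
  have e : A B.q (SFil B) p.xs (fun s => H s + c) 0 =
      fun ω => A B.q (SFil B) p.xs H 0 ω + c := by
    funext ω
    exact A_add_const B.hq hx H c 0 ω
  rw [e, eE_add, eE_const B.hq]

end

end Crest.Agent.R164.G
end

-- ▼ part R164/ZSys

/-!
Row 164 (helper399): the `t = 0` value of the finite system with coin fields.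

Independent coordinates of the base system and the backward induction over the cells.
-/

set_option autoImplicit false

namespace Crest.Agent.R164.Z

open Finset Crest.Agent.R141 Crest.Agent.R141.SysF Crest.Agent.R141.SysIC Crest.Agent.R164 Crest.Agent.R164.SY Crest.Agent.R164.CoinG

noncomputable section

variable {p : Par} {N n : ℕ} {K : Finset (Fin N → Bool)} (hK : K.Nonempty)

/-! ### the base system with explicit types -/

/-- uniform law -/
def qS (p : Par) {N : ℕ} (n : ℕ) (K : Finset (Fin N → Bool)) : SS p n K → ℝ :=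
  fun _ => (Fintype.card (SS p n K) : ℝ)⁻¹

/-- base filtration -/
def filS (p : Par) {N : ℕ} (n : ℕ) {K : Finset (Fin N → Bool)} (hK : K.Nonempty) :
    Filt (SS p n K) where
  F := sfil p n K
  anti := (base p n K hK).anti
  L := p.L
  bot := (base p n K hK).bot

include hK in
theorem qS_isProb : IsProb (qS p n K) := (base p n K hK).hq

theorem Phi0_eq (H : SS p n K → ℝ) :
    G.Phi0 (base p n K hK) H = eE (qS p n K) (R141.A (qS p n K) (filS p n hK) p.xs H 0) := rfl


/-! ### independent coordinates -/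

/-- trivial before step `m`, discrete from step `m` on -/
def stepF (Λ : Type) (m k : ℕ) : Setoid Λ := if m ≤ k then ⊥ else ⊤

theorem stepF_lt (Λ : Type) {m k : ℕ} (h : k < m) : stepF Λ m k = ⊤ := if_neg (by omega)

theorem stepF_iff {Λ : Type} {m k : ℕ} {c c' : Λ} : stepF Λ m k c c' ↔ (m ≤ k → c = c') := by
  by_cases h : m ≤ k
  · rw [stepF, if_pos h]
    exact ⟨fun h' _ => h', fun h' => h' h⟩
  · rw [stepF, if_neg h]
    exact ⟨fun _ h' => absurd h' h, fun _ => trivial⟩

/-- the main coins of the cell `g` -/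
theorem ic_main (g : Fin p.nc) : IC (qS p n K) (sfil p n K)
    (fun s : SS p n K => s.2.1 g) (fun s c => (s.1, Function.update s.2.1 g c, s.2.2))
    (unif (Fin N → Fin n → Bool)) (stepF _ (p.mt g)) where
  get_upd ω c := by simp
  upd_get ω := by
    show (ω.1, Function.update ω.2.1 g (ω.2.1 g), ω.2.2) = ω
    rw [Function.update_eq_self]
  upd_upd ω c c' := by
    show (ω.1, Function.update (Function.update ω.2.1 g c) g c', ω.2.2) =
      (ω.1, Function.update ω.2.1 g c', ω.2.2)
    rw [Function.update_idem]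
  prob ω c := rfl
  rel k ω ω' c := by
    show srel k ω ω' ↔ srel k _ _ ∧ _
    rw [stepF_iff]
    constructor
    · intro h
      refine ⟨⟨fun g' hg' => ?_, h.2.1, h.2.2⟩, fun hg => h.1 g hg⟩
      by_cases hgg : g' = g
      · subst hgg; simp
      · simp only [Function.update_of_ne hgg]; exact h.1 g' hg'
    · rintro ⟨h, h'⟩
      refine ⟨fun g' hg' => ?_, h.2.1, h.2.2⟩
      by_cases hgg : g' = g
      · subst hgg; exact h' hg'
      · have := h.1 g' hg'
        simpa only [Function.update_of_ne hgg] using this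

/-- all small coins -/
theorem ic_small : IC (qS p n K) (sfil p n K)
    (fun s : SS p n K => s.2.2) (fun s c => (s.1, s.2.1, c))
    (unif (FC p N n)) (fun k => ⟨fun c c' => ∀ g : Fin p.nc, p.mt g ≤ k → c g = c' g,
      ⟨fun _ _ _ => rfl, fun h g hg => (h g hg).symm,
        fun h h' g hg => (h g hg).trans (h' g hg)⟩⟩) where
  get_upd ω c := rfl
  upd_get ω := rfl
  upd_upd ω c c' := rfl
  prob ω c := rfl
  rel k ω ω' c := by
    show srel k ω ω' ↔ srel k _ _ ∧ (∀ g : Fin p.nc, p.mt g ≤ k → ω.2.2 g = ω'.2.2 g)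
    constructor
    · intro h
      exact ⟨⟨h.1, fun _ _ => rfl, h.2.2⟩, h.2.1⟩
    · rintro ⟨h, h'⟩
      exact ⟨h.1, h', h.2.2⟩

/-- the spins -/
theorem ic_spin : IC (qS p n K) (sfil p n K)
    (fun s : SS p n K => s.1) (fun s σ => (σ, s.2))
    (unif {σ : Fin N → Bool // σ ∈ K}) (stepF _ p.L) where
  get_upd ω c := rfl
  upd_get ω := rfl
  upd_upd ω c c' := rfl
  prob ω c := rfl
  rel k ω ω' c := by
    show srel k ω ω' ↔ srel k _ _ ∧ _
    rw [stepF_iff]
    constructor
    · intro h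
      exact ⟨⟨h.1, h.2.1, fun _ => rfl⟩, h.2.2⟩
    · rintro ⟨h, h'⟩
      exact ⟨h.1, h.2.1, h'⟩

/-! ### product averages -/

/-- the average over the coins of one cell of a product over the sites -/
theorem avg_sites (φ : Fin N → ℝ → ℝ) :
    eE (unif (Fin N → Fin n → Bool)) (fun c => ∏ i, φ i ((Real.sqrt n)⁻¹ * ∑ t, sv (c i t))) =
      ∏ i, bavg n (φ i) := by
  rw [unif_prod (fun i (c : Fin n → Bool) => φ i ((Real.sqrt n)⁻¹ * ∑ t, sv (c t)))]
  refine Finset.prod_congr rfl fun i _ => ?_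
  unfold eE unif bavg
  rw [← Finset.mul_sum, Fintype.card_fun, Fintype.card_bool, Fintype.card_fin]
  congr 1
  simp

/-- the average over all coins of a product over cells and sites -/
theorem avg_cells (φ : Fin p.nc → Fin N → ℝ → ℝ) :
    eE (unif (FC p N n)) (fun c => ∏ g, ∏ i, φ g i (zf c g i)) = ∏ g, ∏ i, bavg n (φ g i) := by
  have h := unif_prod (fun g (c : Fin N → Fin n → Bool) =>
    ∏ i, φ g i ((Real.sqrt n)⁻¹ * ∑ t, sv (c i t)))
  refine h.trans (Finset.prod_congr rfl fun g _ => avg_sites (φ g))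

/-! ### backward induction -/

/-- partial main field at site `i` of the cells before `m` -/
def yF (a : Fin p.nc → ℝ) (m : ℕ) (c : FC p N n) (i : Fin N) : ℝ :=
  ∑ g : Fin p.nc, if (g : ℕ) < m then a g * zf c g i else 0

theorem yF_zero (a : Fin p.nc → ℝ) (c : FC p N n) (i : Fin N) : yF a 0 c i = 0 := by
  unfold yF; simp

theorem yF_last (a : Fin p.nc → ℝ) (c : FC p N n) (i : Fin N) :
    yF a p.nc c i = ∑ g, a g * zf c g i := by
  unfold yF
  exact Finset.sum_congr rfl fun g _ => if_pos g.2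

theorem yF_congr {a : Fin p.nc → ℝ} {m : ℕ} {c c' : FC p N n}
    (h : ∀ g : Fin p.nc, (g : ℕ) < m → c g = c' g) (i : Fin N) : yF a m c i = yF a m c' i := by
  unfold yF
  refine Finset.sum_congr rfl fun g _ => ?_
  split_ifs with hg
  · unfold zf; rw [h g hg]
  · rfl

theorem yF_succ (a : Fin p.nc → ℝ) (g : Fin p.nc) (c : FC p N n) (i : Fin N) :
    yF a (g + 1) c i = yF a g c i + a g * zf c g i := by
  unfold yF
  have h : ∀ g' : Fin p.nc, (if (g' : ℕ) < (g : ℕ) + 1 then a g' * zf c g' i else 0) =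
      (if (g' : ℕ) < (g : ℕ) then a g' * zf c g' i else 0) +
        if g' = g then a g' * zf c g' i else 0 := by
    intro g'
    simp only [Fin.ext_iff]
    rcases lt_trichotomy (g' : ℕ) (g : ℕ) with h | h | h
    · rw [if_pos (by omega), if_pos h, if_neg (by omega), add_zero]
    · rw [if_pos (by omega), if_neg (by omega), if_pos h, zero_add]
    · rw [if_neg (by omega), if_neg (by omega), if_neg (by omega), add_zero]
  simp only [h, Finset.sum_add_distrib]
  simp

/-- the main Hamiltonian -/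
def Hm (a : Fin p.nc → ℝ) (s : SS p n K) : ℝ := ∑ g, a g * ∑ i, zf s.2.1 g i * sv (s.1.1 i)

theorem Hm_eq (a : Fin p.nc → ℝ) (s : SS p n K) :
    Hm a s = ∑ i, sv (s.1.1 i) * yF a p.nc s.2.1 i := by
  unfold Hm
  simp only [Finset.mul_sum, yF_last]
  rw [Finset.sum_comm]
  refine Finset.sum_congr rfl fun i _ => Finset.sum_congr rfl fun g _ => by ring

theorem st_L : p.nc * (p.T + 1) < p.L := by unfold Par.L; omega

theorem tail_eq (g : Fin p.nc) : (List.finRange p.nc).drop g = g :: (List.finRange p.nc).drop (g + 1) := by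
  rw [List.drop_eq_getElem_cons (by simp)]
  simp

/-- the coins of the cells before `m` are revealed at step `m * (T + 1)` -/
theorem yF_meas (a : Fin p.nc → ℝ) (m : ℕ) (i : Fin N) {s s' : SS p n K}
    (h : srel (m * (p.T + 1)) s s') : yF a m s.2.1 i = yF a m s'.2.1 i := by
  refine yF_congr (fun g hg => h.1 g ?_) i
  unfold Par.mt
  exact Nat.mul_le_mul_right _ hg

theorem spin_nonempty (hK : K.Nonempty) : Nonempty {σ : Fin N → Bool // σ ∈ K} :=
  ⟨⟨hK.choose, hK.choose_spec⟩⟩

include hK in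
/-- the last step -/
theorem cE_spin (f : SS p n K → ℝ) (s : SS p n K) :
    cE (qS p n K) (sfil p n K (p.nc * (p.T + 1))) f s =
      cE (qS p n K) (sfil p n K (p.nc * (p.T + 1)))
        (fun s' : SS p n K => eE (unif {σ : Fin N → Bool // σ ∈ K}) (fun σ => f (σ, s'.2))) s := by
  have := spin_nonempty hK
  have hq : IsProb (unif {σ : Fin N → Bool // σ ∈ K}) := unif_isProb _
  rw [(ic_spin (n := n) (p := p) (K := K)).cE_eq hq]
  simp only [stepF_lt _ (st_L (p := p)), eE_top hq]

/-- a cell step -/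
theorem cE_cell (g : Fin p.nc) (f : SS p n K → ℝ) (s : SS p n K) :
    cE (qS p n K) (sfil p n K (g * (p.T + 1))) f s =
      cE (qS p n K) (sfil p n K (g * (p.T + 1)))
        (fun s' : SS p n K => eE (unif (Fin N → Fin n → Bool))
          (fun c => f (s'.1, Function.update s'.2.1 g c, s'.2.2))) s := by
  have hq : IsProb (unif (Fin N → Fin n → Bool)) := unif_isProb _
  have hlt : (g : ℕ) * (p.T + 1) < p.mt g := by
    unfold Par.mt
    exact Nat.mul_lt_mul_of_pos_right (Nat.lt_succ_self _) (Nat.succ_pos _)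
  rw [(ic_main (n := n) (K := K) g).cE_eq hq]
  simp only [stepF_lt _ hlt, eE_top hq]

/-- BACKWARD INDUCTION: the `t = 0` upper bound. -/
theorem A_main_le (a : Fin p.nc → ℝ) {ρ : Fin N → ℝ → ℝ} {c0 : ℝ}
    (hlast : ∀ y : Fin N → ℝ, eE (unif {σ : Fin N → Bool // σ ∈ K})
      (fun σ => Real.exp (∑ i, sv (σ.1 i) * y i)) ≤ Real.exp (c0 + ∑ i, ρ i (y i))) :
    ∀ j, j ≤ p.nc → ∀ s : SS p n K,
      A (qS p n K) (filS p n hK) p.xs (Hm a) ((p.nc - j) * (p.T + 1)) s ≤
        c0 + ∑ i, cRec n (fun g : Fin p.nc => p.xi g) a ((List.finRange p.nc).drop (p.nc - j))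
          (ρ i) (yF a (p.nc - j) s.2.1 i) := by
  have hP := qS_isProb (p := p) (n := n) hK
  have hx := p.xs_expo.pos
  intro j
  induction j with
  | zero =>
    intro _ s
    rw [Nat.sub_zero, List.drop_of_length_le (by simp)]
    rw [A_collapse (𝓕 := filS p n hK) hP hx one_pos (Hm a) st_L.le
      (fun j h1 h2 => p.xs_last (by unfold Par.L; omega)) s,
      A_of_ge (𝓕 := filS p n hK) (k := p.L) (Hm a) (le_refl p.L)]
    unfold pm
    rw [div_one, one_mul, Real.log_le_iff_le_exp (cE_pos hP (fun _ => Real.exp_pos _) s)]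
    have h1 := cE_spin hK (fun s' => Real.exp (1 * Hm a s')) s
    refine (le_of_eq h1).trans ?_
    have h2 : ∀ s' : SS p n K, eE (unif {σ : Fin N → Bool // σ ∈ K})
        (fun σ => Real.exp (1 * Hm a ((σ, s'.2) : SS p n K))) ≤
        Real.exp (c0 + ∑ i, ρ i (yF a p.nc s'.2.1 i)) := by
      intro s'
      have h3 := hlast (yF a p.nc s'.2.1)
      simp only [one_mul, Hm_eq]
      exact h3
    refine (cE_mono' hP h2 s).trans (le_of_eq ?_)
    refine cE_of_meas hP ?_ s
    intro s1 s2 h12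
    have h12 : srel _ s1 s2 := h12
    simp only [yF_meas a p.nc _ h12]
  | succ j ih =>
    intro hj s
    obtain ⟨g, hg⟩ : ∃ g : Fin p.nc, (g : ℕ) = p.nc - (j + 1) := ⟨⟨p.nc - (j + 1), by omega⟩, rfl⟩
    have hg1 : p.nc - j = (g : ℕ) + 1 := by omega
    have ih' := ih (by omega)
    rw [hg1] at ih'
    rw [← hg, tail_eq]
    set W : SS p n K → ℝ := fun s => c0 + ∑ i, cRec n (fun g : Fin p.nc => p.xi g) a
      ((List.finRange p.nc).drop (g + 1)) (ρ i) (yF a (g + 1) s.2.1 i) with hW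
    have hxi : 0 < p.xi g := by unfold Par.xi; positivity
    rw [A_collapse (𝓕 := filS p n hK) hP hx hxi (Hm a)
      (Nat.mul_le_mul_right (p.T + 1) (Nat.le_succ (g : ℕ)))
      (fun j h1 h2 => p.xs_cell g.2 h1 h2) s]
    refine (pm_mono hP hxi s (fun s' _ => ih' s')).trans (le_of_eq ?_)
    -- the average over the cell
    have h2 : ∀ s' : SS p n K, eE (unif (Fin N → Fin n → Bool))
        (fun c => Real.exp (p.xi g * W (s'.1, Function.update s'.2.1 g c, s'.2.2))) =
        Real.exp (p.xi g * (c0 + ∑ i, cRec n (fun g : Fin p.nc => p.xi g) a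
          (g :: (List.finRange p.nc).drop (g + 1)) (ρ i) (yF a g s'.2.1 i))) := by
      intro s'
      set R : Fin N → ℝ → ℝ := fun i => cRec n (fun g : Fin p.nc => p.xi g) a
        ((List.finRange p.nc).drop (g + 1)) (ρ i) with hR
      have e1 : ∀ c : Fin N → Fin n → Bool,
          Real.exp (p.xi g * W (s'.1, Function.update s'.2.1 g c, s'.2.2)) =
          Real.exp (p.xi g * c0) * ∏ i, (fun i z => Real.exp (p.xi g * R i
            (yF a g s'.2.1 i + a g * z))) i ((Real.sqrt n)⁻¹ * ∑ t, sv (c i t)) := by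
        intro c
        rw [← Real.exp_sum, ← Real.exp_add, hW]
        congr 1
        simp only
        rw [mul_add, Finset.mul_sum]
        congr 1
        refine Finset.sum_congr rfl fun i _ => ?_
        rw [yF_succ]
        have e2 : yF a g (Function.update s'.2.1 g c) i = yF a g s'.2.1 i := by
          refine yF_congr (fun g' hg' => ?_) i
          rw [Function.update_of_ne]
          intro h; rw [h] at hg'; exact lt_irrefl _ hg'
        have e3 : zf (Function.update s'.2.1 g c) g i = (Real.sqrt n)⁻¹ * ∑ t, sv (c i t) := by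
          unfold zf; simp
        rw [e2, e3]
      simp only [e1]
      rw [eE_smul, avg_sites (fun i z => Real.exp (p.xi g * R i (yF a g s'.2.1 i + a g * z))), mul_add, Real.exp_add, Finset.mul_sum, Real.exp_sum]
      congr 1
      refine Finset.prod_congr rfl fun i _ => ?_
      exact (exp_coinOp n hxi (a g) (R i) (yF a g s'.2.1 i)).symm
    unfold pm
    have h1 := cE_cell g (fun s' => Real.exp (p.xi g * W s')) s
    have h3 : cE (qS p n K) ((filS p n hK).F (g * (p.T + 1)))
        (fun s' => Real.exp (p.xi g * W s')) s =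
        Real.exp (p.xi g * (c0 + ∑ i, cRec n (fun g : Fin p.nc => p.xi g) a
          (g :: (List.finRange p.nc).drop (g + 1)) (ρ i) (yF a g s.2.1 i))) := by
      refine h1.trans ?_
      simp only [h2]
      refine cE_of_meas hP ?_ s
      intro s1 s2 h12
      have h12 : srel _ s1 s2 := h12
      simp only [yF_meas a g _ h12]
    rw [h3, Real.log_exp]
    field_simp

/-- the main part of the base free energy -/
theorem Phi0_main_le (a : Fin p.nc → ℝ) {ρ : Fin N → ℝ → ℝ} {c0 : ℝ}
    (hlast : ∀ y : Fin N → ℝ, eE (unif {σ : Fin N → Bool // σ ∈ K})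
      (fun σ => Real.exp (∑ i, sv (σ.1 i) * y i)) ≤ Real.exp (c0 + ∑ i, ρ i (y i))) :
    G.Phi0 (base p n K hK) (Hm a) ≤
      c0 + ∑ i, cRec n (fun g : Fin p.nc => p.xi g) a (List.finRange p.nc) (ρ i) 0 := by
  have hP := qS_isProb (p := p) (n := n) hK
  rw [Phi0_eq]
  refine eE_le_of_le hP fun s => ?_
  have h := A_main_le hK a hlast p.nc le_rfl s
  simpa [yF_zero] using h

/-- the small part of the Hamiltonian -/
def Vs (lam : Fin N → Fin p.nc → ℝ) (x : (Fin N → Bool) → Fin N → ℝ) (s : SS p n K) : ℝ :=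
  ∑ g, ∑ i, lam i g * (zf s.2.2 g i * x s.1.1 i)

theorem HH_split (h0 : (Fin N → Bool) → ℝ) (a : Fin p.nc → ℝ) (lam : Fin N → Fin p.nc → ℝ)
    (x : (Fin N → Bool) → Fin N → ℝ) (s : SS p n K) :
    HH h0 a lam x s = h0 s.1.1 + (Hm a s + Vs lam x s) := by
  unfold HH Hm Vs; ring

/-- the small fields cost at most `κ / 2` -/
theorem small_le (a : Fin p.nc → ℝ) (lam : Fin N → Fin p.nc → ℝ)
    (x : (Fin N → Bool) → Fin N → ℝ) {κ : ℝ}
    (hκ : ∀ σ ∈ K, ∑ g, ∑ i, (lam i g * x σ i) ^ 2 ≤ κ) :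
    G.Phi0 (base p n K hK) (fun s : SS p n K => Hm a s + Vs lam x s) ≤
      G.Phi0 (base p n K hK) (Hm a) + κ / 2 := by
  have hP := qS_isProb (p := p) (n := n) hK
  have hx := p.xs_expo.pos
  set Q := tl (qS p n K) (filS p n hK) p.xs (Hm a) with hQd
  have hQ : IsProb Q := tl_isProb hP hx _
  have hF0 : (filS p n hK).F 0 = ⊤ := base_SF_zero hK
  rw [Phi0_eq, Phi0_eq]
  have hco : R141.A (qS p n K) (filS p n hK) p.xs (fun s => Hm a s + Vs lam x s) 0 =
      fun s => R141.A (qS p n K) (filS p n hK) p.xs (Hm a) 0 s +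
        R141.A Q (filS p n hK) p.xs (Vs lam x) 0 s := by
    funext s
    exact A_cocycle hP hx (Hm a) (Vs lam x) 0 s
  rw [hco, eE_add]
  refine add_le_add le_rfl (eE_le_of_le hP fun s => ?_)
  refine (A_le_log hQ p.xs_expo (Vs lam x) 0 s).trans ?_
  rw [hF0, eE_top hQ, Real.log_le_iff_le_exp
    (by
      have := cE_pos hQ (r := ⊤) (f := fun w => Real.exp (Vs lam x w)) (fun _ => Real.exp_pos _) s
      rwa [eE_top hQ] at this)]
  -- average over the small coins
  have hic : IC Q (filS p n hK).F (fun s : SS p n K => s.2.2) (fun s c => (s.1, s.2.1, c))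
      (unif (FC p N n)) _ :=
    (ic_small (p := p) (n := n) (K := K)).tl_inv (𝓕 := filS p n hK) hP (unif_isProb _) hx
      (U := Hm a) (fun _ _ => rfl)
  have h1 := hic.top.cE_eq (unif_isProb _) 0 (fun w => Real.exp (Vs lam x w)) s
  simp only [eE_top hQ, eE_top (unif_isProb (FC p N n))] at h1
  rw [h1]
  refine eE_le_of_le hQ fun s' => ?_
  have e1 : ∀ c : FC p N n, Real.exp (Vs lam x ((s'.1, s'.2.1, c) : SS p n K)) =
      ∏ g, ∏ i, (fun g i z => Real.exp (lam i g * x s'.1.1 i * z)) g i (zf c g i) := by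
    intro c
    simp only [← Real.exp_sum]
    congr 1
    unfold Vs
    refine Finset.sum_congr rfl fun g _ => Finset.sum_congr rfl fun i _ => ?_
    ring
  simp only [e1]
  rw [avg_cells (fun g i z => Real.exp (lam i g * x s'.1.1 i * z))]
  calc ∏ g, ∏ i, bavg n (fun z => Real.exp (lam i g * x s'.1.1 i * z))
      ≤ ∏ g, ∏ i, Real.exp ((lam i g * x s'.1.1 i) ^ 2 / 2) := by
        refine Finset.prod_le_prod (fun g _ => Finset.prod_nonneg fun i _ =>
          (bavg_pos n fun _ => Real.exp_pos _).le) fun g _ => ?_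
        exact Finset.prod_le_prod (fun i _ => (bavg_pos n fun _ => Real.exp_pos _).le)
          fun i _ => bavg_exp_le n _
    _ = Real.exp ((∑ g, ∑ i, (lam i g * x s'.1.1 i) ^ 2) / 2) := by
        simp only [← Real.exp_sum, Finset.sum_div]
    _ ≤ Real.exp (κ / 2) := by
        apply Real.exp_le_exp.2
        have := hκ s'.1.1 s'.1.2
        linarith

/-- GENERAL UPPER BOUND at `t = 0` (arbitrary last-step functions `ρ`). -/
theorem Phi_le (h0 : (Fin N → Bool) → ℝ) {C0 : ℝ} (hh0 : ∀ σ ∈ K, h0 σ ≤ C0)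
    (a : Fin p.nc → ℝ) (lam : Fin N → Fin p.nc → ℝ)
    (x : (Fin N → Bool) → Fin N → ℝ) {κ : ℝ}
    (hκ : ∀ σ ∈ K, ∑ g, ∑ i, (lam i g * x σ i) ^ 2 ≤ κ)
    {ρ : Fin N → ℝ → ℝ} {c0 : ℝ}
    (hlast : ∀ y : Fin N → ℝ, eE (unif {σ : Fin N → Bool // σ ∈ K})
      (fun σ => Real.exp (∑ i, sv (σ.1 i) * y i)) ≤ Real.exp (c0 + ∑ i, ρ i (y i)))
    (d : DD p N) :
    G.Phi (base p n K hK) (HH h0 a lam x) d ≤
      C0 + c0 + ∑ i, cRec n (fun g : Fin p.nc => p.xi g) a (List.finRange p.nc) (ρ i) 0 + κ / 2 +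
        (N * (p.nb * (p.Q : ℝ)⁻¹) + p.τ * Fintype.card (Stp p)) := by
  have h1 := (abs_le.1 (G.Phi_F2 (base p n K hK) (HH h0 a lam x) d)).2
  have hs : ∀ s : SS p n K, HH h0 a lam x s ≤ (Hm a s + Vs lam x s) + C0 := by
    intro s
    rw [HH_split]
    have := hh0 s.1.1 s.1.2
    linarith
  have h2 : G.Phi0 (base p n K hK) (HH h0 a lam x) ≤
      G.Phi0 (base p n K hK) (fun s : SS p n K => (Hm a s + Vs lam x s) + C0) :=
    G.Phi0_mono (base p n K hK) hs
  have h3 := G.Phi0_add_const (base p n K hK) (fun s : SS p n K => Hm a s + Vs lam x s) C0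
  have h4 := small_le (n := n) hK a lam x hκ
  have h5 := Phi0_main_le (n := n) hK a hlast
  have h6 : G.Phi0 (base p n K hK) (HH h0 a lam x) ≤
      (c0 + ∑ i, cRec n (fun g : Fin p.nc => p.xi g) a (List.finRange p.nc) (ρ i) 0 + κ / 2) + C0 :=
    h2.trans (h3.le.trans (add_le_add (h4.trans (add_le_add h5 le_rfl)) le_rfl))
  linarith

end

end Crest.Agent.R164.Z
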