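import Crest.Agent.R164.GCalc2

/-!
Row 164: one-sided directional derivatives of the recursion of Gaussian operators (helper92).
-/

set_option autoImplicit false

namespace Crest.Agent.R164.GC

open MeasureTheory ProbabilityTheory Filter Topology Set
open Crest.ProbabilityR.InvariantGlass

noncomputable section

theorem gaussOp_abs_sub_le {a : ℝ} (ha : 0 ≤ a) {φ ψ : ℝ → ℝ} (hφ : Lip1 φ) (hψ : Lip1 ψ)
    (v x : ℝ) {c : ℝ} (h : ∀ y, |φ y - ψ y| ≤ c) :
    |gaussOp a v φ x - gaussOp a v ψ x| ≤ c := by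
  rcases ha.eq_or_lt with rfl | hapos
  · rw [gaussOp_zero, gaussOp_zero, ← H_sub (EG.lip hφ) (EG.lip hψ), abs_le]
    have hE := (EG.lip hφ).sub (EG.lip hψ)
    constructor
    · have := H_mono (EG.const (-c)) hE (fun y => (abs_le.1 (h y)).1) (Real.sqrt v) x
      rwa [H_const] at this
    · have := H_mono hE (EG.const c) (fun y => (abs_le.1 (h y)).2) (Real.sqrt v) x
      rwa [H_const] at this
  · have key : ∀ {φ ψ : ℝ → ℝ}, Lip1 φ → Lip1 ψ → (∀ y, φ y ≤ ψ y + c) →
        gaussOp a v φ x ≤ gaussOp a v ψ x + c := by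
      intro φ ψ hφ hψ h
      rw [gaussOp_ne hapos.ne', gaussOp_ne hapos.ne']
      have h1 := H_mono (EG.exp_lip hφ a) ((EG.exp_lip hψ a).const_mul (Real.exp (a * c)))
        (fun y => by
          show Real.exp (a * φ y) ≤ Real.exp (a * c) * Real.exp (a * ψ y)
          rw [← Real.exp_add]
          refine Real.exp_le_exp.2 ?_
          have := mul_le_mul_of_nonneg_left (h y) ha
          linarith) (Real.sqrt v) x
      rw [H_const_mul] at h1
      have h2 := Real.log_le_log (den_pos hφ a _ x) h1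
      rw [Real.log_mul (Real.exp_pos _).ne' (den_pos hψ a _ x).ne', Real.log_exp] at h2
      have h3 := mul_le_mul_of_nonneg_left h2 (inv_nonneg.2 ha)
      have e : a⁻¹ * (a * c + Real.log (H (Real.sqrt v) (fun y => Real.exp (a * ψ y)) x)) =
          a⁻¹ * Real.log (H (Real.sqrt v) (fun y => Real.exp (a * ψ y)) x) + c := by
        field_simp
        ring
      rw [e] at h3
      exact h3
    rw [abs_le]
    constructor
    · have := key hψ hφ (fun y => by have := (abs_le.1 (h y)).1; linarith)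
      linarith
    · have := key hφ hψ (fun y => by have := (abs_le.1 (h y)).2; linarith)
      linarith

/-- continuous convergence of the difference quotients at `t = 0+` -/
def CC (F : ℝ → ℝ → ℝ) (D : ℝ → ℝ) : Prop :=
  ∀ (t y : ℕ → ℝ) (y0 : ℝ), (∀ n, 0 < t n ∧ t n ≤ 1) → Tendsto t atTop (𝓝 0) →
    Tendsto y atTop (𝓝 y0) →
    Tendsto (fun n => (F (t n) (y n) - F 0 (y n)) / t n) atTop (𝓝 (D y0))

theorem log_sub_bounds {p q : ℝ} (hp : 0 < p) (hq : 0 < q) :
    (q - p) / q ≤ Real.log q - Real.log p ∧ Real.log q - Real.log p ≤ (q - p) / p := by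
  have h1 := Real.log_le_sub_one_of_pos (div_pos hq hp)
  have h2 := Real.log_le_sub_one_of_pos (div_pos hp hq)
  rw [Real.log_div hq.ne' hp.ne'] at h1
  rw [Real.log_div hp.ne' hq.ne'] at h2
  have e1 : q / p - 1 = (q - p) / p := by field_simp
  have e2 : p / q - 1 = -((q - p) / q) := by field_simp; ring
  rw [e1] at h1
  rw [e2] at h2
  exact ⟨by linarith, h1⟩

theorem exp_sub_one_bounds (u : ℝ) : u ≤ Real.exp u - 1 ∧ Real.exp u - 1 ≤ u * Real.exp u := by
  constructor
  · have := Real.add_one_le_exp u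
    linarith
  · have h1 := Real.add_one_le_exp (-u)
    have h2 := mul_le_mul_of_nonneg_right h1 (Real.exp_pos u).le
    rw [← Real.exp_add, neg_add_cancel, Real.exp_zero] at h2
    linarith

theorem abs_exp_sub_one_le (u : ℝ) : |Real.exp u - 1| ≤ |u| * Real.exp |u| := by
  obtain ⟨h1, h2⟩ := exp_sub_one_bounds u
  rw [abs_le]
  constructor
  · have h3 : |u| * 1 ≤ |u| * Real.exp |u| :=
      mul_le_mul_of_nonneg_left (Real.one_le_exp (abs_nonneg u)) (abs_nonneg u)
    have := neg_abs_le u
    linarith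
  · refine h2.trans ?_
    exact mul_le_mul (le_abs_self u) (Real.exp_le_exp.2 (le_abs_self u)) (Real.exp_pos _).le
      (abs_nonneg u)

/-- bounded sequences -/
theorem seq_bdd {x : ℕ → ℝ} {x0 : ℝ} (h : Tendsto x atTop (𝓝 x0)) : ∃ X, ∀ n, |x n| ≤ X := by
  obtain ⟨X, hX⟩ := (Metric.isBounded_range_of_tendsto x h).exists_norm_le
  exact ⟨X, fun n => hX _ (mem_range_self n)⟩

/-- the difference quotients of `F` -/
theorem quot_bdd {F : ℝ → ℝ → ℝ} {K : ℝ}
    (hK : ∀ t, 0 ≤ t → t ≤ 1 → ∀ y, |F t y - F 0 y| ≤ K * t) {t : ℝ} (ht : 0 < t) (ht1 : t ≤ 1)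
    (y : ℝ) : |(F t y - F 0 y) / t| ≤ K := by
  rw [abs_div, abs_of_pos ht, div_le_iff₀ ht]
  exact hK t ht.le ht1 y

theorem path_first {a : ℝ} (ha : 0 ≤ a) {F : ℝ → ℝ → ℝ} {f1 f2 : ℝ → ℝ} {C : ℝ}
    (h : Sm (F 0) f1 f2 C)
    (hlip : ∀ t, 0 ≤ t → t ≤ 1 → Lip1 (F t)) {K : ℝ}
    (hK : ∀ t, 0 ≤ t → t ≤ 1 → ∀ y, |F t y - F 0 y| ≤ K * t) {D : ℝ → ℝ}
    (hD : CC F D) {t x s : ℕ → ℝ} {x0 v : ℝ} (ht : ∀ n, 0 < t n ∧ t n ≤ 1)
    (ht0 : Tendsto t atTop (𝓝 0)) (hx : Tendsto x atTop (𝓝 x0))
    (hs : Tendsto s atTop (𝓝 v)) :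
    Tendsto (fun n => (gaussOp a (s n) (F (t n)) (x n) - gaussOp a (s n) (F 0) (x n)) / t n)
      atTop (𝓝 (tE a v (F 0) D x0)) := by
  have hK0 : 0 ≤ K := by
    have := hK 1 zero_le_one le_rfl 0
    rw [mul_one] at this
    exact (abs_nonneg _).trans this
  set r : ℕ → ℝ := fun n => Real.sqrt (s n) with hr
  have hrt : Tendsto r atTop (𝓝 (Real.sqrt v)) := (Real.continuous_sqrt.tendsto v).comp hs
  have hy : ∀ g : ℝ, Tendsto (fun n => x n + r n * g) atTop (𝓝 (x0 + Real.sqrt v * g)) :=
    fun g => hx.add (hrt.mul_const g)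
  obtain ⟨X, hX⟩ := seq_bdd hx
  obtain ⟨T, hT⟩ := seq_bdd hrt
  have hL0 : Lip1 (F 0) := h.lip
  rcases ha.eq_or_lt with rfl | hapos
  · simp only [gaussOp_zero, tE_zero]
    have e : ∀ n, (H (Real.sqrt (s n)) (F (t n)) (x n) - H (Real.sqrt (s n)) (F 0) (x n)) / t n =
        ∫ g, (F (t n) (x n + r n * g) - F 0 (x n + r n * g)) / t n ∂gaussianReal 0 1 := by
      intro n
      rw [integral_div, integral_sub ((EG.lip (hlip _ (ht n).1.le (ht n).2)).int _ _)
        ((EG.lip hL0).int _ _)]
      rfl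
    simp only [e]
    unfold H
    refine tendsto_integral_of_dominated_convergence (fun _ => K) ?_ (integrable_const _) ?_ ?_
    · intro n
      have h1 := (EG.lip (hlip _ (ht n).1.le (ht n).2)).cont
      have h2 := (EG.lip hL0).cont
      exact (by fun_prop : Continuous fun g : ℝ =>
        (F (t n) (x n + r n * g) - F 0 (x n + r n * g)) / t n).aestronglyMeasurable
    · intro n
      refine Eventually.of_forall fun g => ?_
      rw [Real.norm_eq_abs]
      exact quot_bdd hK (ht n).1 (ht n).2 _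
    · exact Eventually.of_forall fun g => hD t _ _ ht ht0 (hy g)
  · simp only [gaussOp_ne hapos.ne']
    -- numerators
    set Z : ℕ → ℝ := fun n => H (r n) (fun y => Real.exp (a * F (t n) y)) (x n) with hZ
    set z : ℕ → ℝ := fun n => H (r n) (fun y => Real.exp (a * F 0 y)) (x n) with hz
    set Z0 : ℝ := H (Real.sqrt v) (fun y => Real.exp (a * F 0 y)) x0 with hZ0
    have hZpos : ∀ n, 0 < Z n := fun n => den_pos (hlip _ (ht n).1.le (ht n).2) a _ _
    have hzpos : ∀ n, 0 < z n := fun n => den_pos hL0 a _ _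
    have hZ0pos : 0 < Z0 := den_pos hL0 a _ _
    have hzt : Tendsto z atTop (𝓝 Z0) := by
      have hc := H_continuous (EG.exp_lip hL0 a)
      exact (hc.tendsto (Real.sqrt v, x0)).comp (hrt.prodMk_nhds hx)
    obtain ⟨K', A, hK', hA, hb⟩ := (EG.exp_lip hL0 a).bd
    have hquot : Tendsto (fun n => (Z n - z n) / t n) atTop
        (𝓝 (H (Real.sqrt v) (fun y => a * (D y * Real.exp (a * F 0 y))) x0)) := by
      have e : ∀ n, (Z n - z n) / t n = ∫ g, (Real.exp (a * F (t n) (x n + r n * g)) -
          Real.exp (a * F 0 (x n + r n * g))) / t n ∂gaussianReal 0 1 := by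
        intro n
        rw [integral_div, integral_sub ((EG.exp_lip (hlip _ (ht n).1.le (ht n).2) a).int _ _)
          ((EG.exp_lip hL0 a).int _ _)]
        rfl
      simp only [e]
      unfold H
      have hfac : ∀ n g, (Real.exp (a * F (t n) (x n + r n * g)) -
          Real.exp (a * F 0 (x n + r n * g))) / t n =
          Real.exp (a * F 0 (x n + r n * g)) *
            ((Real.exp (a * (F (t n) (x n + r n * g) - F 0 (x n + r n * g))) - 1) / t n) := by
        intro n g
        have : Real.exp (a * F (t n) (x n + r n * g)) = Real.exp (a * F 0 (x n + r n * g)) *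
            Real.exp (a * (F (t n) (x n + r n * g) - F 0 (x n + r n * g))) := by
          rw [← Real.exp_add]; ring_nf
        rw [this]
        ring
      refine tendsto_integral_of_dominated_convergence
        (fun g => K' * Real.exp (A * X) * Real.exp (A * T * |g|) * (a * K * Real.exp (a * K)))
        ?_ ?_ ?_ ?_
      · intro n
        have h1 := (EG.lip (hlip _ (ht n).1.le (ht n).2)).cont
        have h2 := (EG.lip hL0).cont
        exact (by fun_prop : Continuous fun g : ℝ => (Real.exp (a * F (t n) (x n + r n * g)) -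
          Real.exp (a * F 0 (x n + r n * g))) / t n).aestronglyMeasurable
      · exact ((integrable_exp_abs _).const_mul _).mul_const _
      · intro n
        refine Eventually.of_forall fun g => ?_
        rw [Real.norm_eq_abs, hfac, abs_mul]
        refine mul_le_mul (shift_bd hK' hA hb (hX n) (hT n) g) ?_ (abs_nonneg _) (by positivity)
        set q := F (t n) (x n + r n * g) - F 0 (x n + r n * g) with hq
        have hq1 : |q| ≤ K * t n := hK _ (ht n).1.le (ht n).2 _
        have hq2 : |q| ≤ K := hq1.trans (by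
          have := mul_le_mul_of_nonneg_left (ht n).2 hK0
          linarith)
        rw [abs_div, abs_of_pos (ht n).1, div_le_iff₀ (ht n).1]
        refine (abs_exp_sub_one_le _).trans ?_
        rw [abs_mul, abs_of_pos hapos]
        calc a * |q| * Real.exp (a * |q|) ≤ a * (K * t n) * Real.exp (a * K) :=
              mul_le_mul (mul_le_mul_of_nonneg_left hq1 ha)
                (Real.exp_le_exp.2 (mul_le_mul_of_nonneg_left hq2 ha)) (Real.exp_pos _).le
                (mul_nonneg ha (mul_nonneg hK0 (ht n).1.le))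
          _ = a * K * Real.exp (a * K) * t n := by ring
      · refine Eventually.of_forall fun g => ?_
        simp only [hfac]
        have h1 := hD t _ _ ht ht0 (hy g)
        have hF0c : Continuous (F 0) := (EG.lip hL0).cont
        have h2 : Tendsto (fun n => Real.exp (a * F 0 (x n + r n * g))) atTop
            (𝓝 (Real.exp (a * F 0 (x0 + Real.sqrt v * g)))) :=
          ((by fun_prop : Continuous fun y : ℝ => Real.exp (a * F 0 y)).tendsto _).comp (hy g)
        have hu : Tendsto (fun n => a * (F (t n) (x n + r n * g) - F 0 (x n + r n * g))) atTop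
            (𝓝 0) := by
          have h3 := (h1.mul ht0).const_mul a
          rw [mul_zero, mul_zero] at h3
          refine h3.congr fun n => ?_
          rw [div_mul_cancel₀ _ (ht n).1.ne']
        have h4 : Tendsto (fun n => (Real.exp (a * (F (t n) (x n + r n * g) -
            F 0 (x n + r n * g))) - 1) / t n) atTop (𝓝 (a * D (x0 + Real.sqrt v * g))) := by
          have h5 := h1.const_mul a
          have h6 : Tendsto (fun n => a * ((F (t n) (x n + r n * g) - F 0 (x n + r n * g)) / t n) *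
              Real.exp (a * (F (t n) (x n + r n * g) - F 0 (x n + r n * g)))) atTop
              (𝓝 (a * D (x0 + Real.sqrt v * g))) := by
            have := h5.mul ((Real.continuous_exp.tendsto 0).comp hu)
            rw [Real.exp_zero, mul_one] at this
            exact this
          refine tendsto_of_tendsto_of_tendsto_of_le_of_le h5 h6 (fun n => ?_) fun n => ?_
          · show a * ((F (t n) (x n + r n * g) - F 0 (x n + r n * g)) / t n) ≤ _
            rw [← mul_div_assoc]
            exact div_le_div_of_nonneg_right (exp_sub_one_bounds _).1 (ht n).1.le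
          · show _ ≤ a * ((F (t n) (x n + r n * g) - F 0 (x n + r n * g)) / t n) *
              Real.exp (a * (F (t n) (x n + r n * g) - F 0 (x n + r n * g)))
            rw [← mul_div_assoc, div_mul_eq_mul_div]
            exact div_le_div_of_nonneg_right (exp_sub_one_bounds _).2 (ht n).1.le
        have h7 := h2.mul h4
        have e : Real.exp (a * F 0 (x0 + Real.sqrt v * g)) * (a * D (x0 + Real.sqrt v * g)) =
            a * (D (x0 + Real.sqrt v * g) * Real.exp (a * F 0 (x0 + Real.sqrt v * g))) := by ring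
        rw [e] at h7
        exact h7
    have hZt : Tendsto Z atTop (𝓝 Z0) := by
      have h1 := (hquot.mul ht0).add hzt
      rw [mul_zero, zero_add] at h1
      refine h1.congr fun n => ?_
      rw [div_mul_cancel₀ _ (ht n).1.ne']
      ring
    set L : ℝ := H (Real.sqrt v) (fun y => a * (D y * Real.exp (a * F 0 y))) x0 with hL
    have hlog : Tendsto (fun n => (Real.log (Z n) - Real.log (z n)) / t n) atTop
        (𝓝 (L / Z0)) := by
      have h1 : Tendsto (fun n => (Z n - z n) / t n / Z n) atTop (𝓝 (L / Z0)) :=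
        hquot.div hZt hZ0pos.ne'
      have h2 : Tendsto (fun n => (Z n - z n) / t n / z n) atTop (𝓝 (L / Z0)) :=
        hquot.div hzt hZ0pos.ne'
      refine tendsto_of_tendsto_of_tendsto_of_le_of_le h1 h2 (fun n => ?_) fun n => ?_
      · show (Z n - z n) / t n / Z n ≤ (Real.log (Z n) - Real.log (z n)) / t n
        rw [div_right_comm]
        exact div_le_div_of_nonneg_right (log_sub_bounds (hzpos n) (hZpos n)).1 (ht n).1.le
      · show (Real.log (Z n) - Real.log (z n)) / t n ≤ (Z n - z n) / t n / z n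
        rw [div_right_comm]
        exact div_le_div_of_nonneg_right (log_sub_bounds (hzpos n) (hZpos n)).2 (ht n).1.le
    have h9 := hlog.const_mul a⁻¹
    have e : a⁻¹ * (L / Z0) = tE a v (F 0) D x0 := by
      rw [hL, H_const_mul, hZ0]
      unfold tE
      field_simp
    rw [e] at h9
    refine h9.congr fun n => ?_
    rw [← mul_sub, mul_div_assoc]

/-- one step of the recursion -/
theorem path_step {a : ℝ} (ha : 0 ≤ a) {F : ℝ → ℝ → ℝ} {f1 f2 : ℝ → ℝ} {C : ℝ}
    (h : Sm (F 0) f1 f2 C)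
    (hlip : ∀ t, 0 ≤ t → t ≤ 1 → Lip1 (F t)) {K : ℝ}
    (hK : ∀ t, 0 ≤ t → t ≤ 1 → ∀ y, |F t y - F 0 y| ≤ K * t) {D : ℝ → ℝ} {KD : ℝ}
    (hDb : BC D KD)
    (hD : CC F D) {v δ : ℝ} (hv : 0 ≤ v) (hv' : 0 ≤ v + δ) :
    CC (fun t x => gaussOp a (v + t * δ) (F t) x)
      (fun x => tE a v (F 0) (fun y => D y + 1 / 2 * δ * (f2 y + a * f1 y ^ 2)) x) := by
  intro t x x0 ht ht0 hx
  have hvt : ∀ n, 0 ≤ v + t n * δ := by
    intro n
    have h1 := (ht n).1.le
    have h2 := (ht n).2
    nlinarith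
  have hs : Tendsto (fun n => v + t n * δ) atTop (𝓝 v) := by
    have := (ht0.mul_const δ).const_add v
    simpa using this
  have h1 := path_first ha h hlip hK hD ht ht0 hx hs
  have hB : BC (fun y => f2 y + a * f1 y ^ 2) (C + |a| * 1 ^ 2) :=
    h.B2.add ((h.B1.pow 2).const_mul a)
  -- second part
  choose ξ hξ1 hξ2 hξ using fun n => gaussOp_mvt h a hv (hvt n) (x n)
  have hξt : Tendsto ξ atTop (𝓝 v) := by
    have hmin : Tendsto (fun n => min v (v + t n * δ)) atTop (𝓝 v) := by
      have := (tendsto_const_nhds (x := v) (f := (atTop : Filter ℕ))).min hs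
      rwa [min_self] at this
    have hmax : Tendsto (fun n => max v (v + t n * δ)) atTop (𝓝 v) := by
      have := (tendsto_const_nhds (x := v) (f := (atTop : Filter ℕ))).max hs
      rwa [max_self] at this
    exact tendsto_of_tendsto_of_tendsto_of_le_of_le hmin hmax hξ1 hξ2
  have h2 : Tendsto (fun n => (gaussOp a (v + t n * δ) (F 0) (x n) - gaussOp a v (F 0) (x n)) /
      t n) atTop (𝓝 (δ * (1 / 2 * tE a v (F 0) (fun y => f2 y + a * f1 y ^ 2) x0))) := by
    have hc := tE_continuous h.lip a hB.eg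
    have h3 : Tendsto (fun n => tE a (ξ n) (F 0) (fun y => f2 y + a * f1 y ^ 2) (x n)) atTop
        (𝓝 (tE a v (F 0) (fun y => f2 y + a * f1 y ^ 2) x0)) :=
      (hc.tendsto (v, x0)).comp (hξt.prodMk_nhds hx)
    have h4 := (h3.const_mul (1 / 2)).const_mul δ
    refine h4.congr fun n => ?_
    rw [hξ n]
    have := (ht n).1.ne'
    field_simp
    ring
  have h5 := h1.add h2
  have e : tE a v (F 0) D x0 + δ * (1 / 2 * tE a v (F 0) (fun y => f2 y + a * f1 y ^ 2) x0) =
      tE a v (F 0) (fun y => D y + 1 / 2 * δ * (f2 y + a * f1 y ^ 2)) x0 := by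
    rw [tE_add h.lip a v hDb.eg (hB.eg.const_mul _), tE_const_mul]
    ring
  rw [e] at h5
  refine h5.congr fun n => ?_
  show _ = (gaussOp a (v + t n * δ) (F (t n)) (x n) - gaussOp a (v + 0 * δ) (F 0) (x n)) / t n
  rw [zero_mul, add_zero]
  ring

/-! ### the recursion -/

/-- the recursion along a list of `(v, w)`: exponents `a, a + w_0, a + w_0 + w_1, ...` -/
def chain : ℝ → List (ℝ × ℝ) → ℝ → ℝ
  | _, [] => fun z => Real.log (Real.cosh z)
  | a, (v, w) :: L => gaussOp a v (chain (a + w) L)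

/-- first derivative -/
def chain1 : ℝ → List (ℝ × ℝ) → ℝ → ℝ
  | _, [] => fun z => Real.sinh z / Real.cosh z
  | a, (v, w) :: L => tE a v (chain (a + w) L) (chain1 (a + w) L)

/-- second derivative -/
def chain2 : ℝ → List (ℝ × ℝ) → ℝ → ℝ
  | _, [] => fun z => 1 - (Real.sinh z / Real.cosh z) ^ 2
  | a, (v, w) :: L => g2 a v (chain (a + w) L) (chain1 (a + w) L) (chain2 (a + w) L)

/-- admissible lists: exponents start at `a ≥ 0` and end at `1` -/
def Adm : ℝ → List (ℝ × ℝ) → Prop
  | a, [] => a = 1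
  | a, (v, w) :: L => 0 ≤ a ∧ 0 ≤ v ∧ 0 ≤ w ∧ Adm (a + w) L

theorem Adm.le_one : ∀ {L : List (ℝ × ℝ)} {a : ℝ}, Adm a L → a ≤ 1
  | [], _, h => le_of_eq h
  | (v, w) :: L, a, h => by
      have := Adm.le_one (L := L) h.2.2.2
      have := h.2.2.1
      linarith

theorem Adm.nonneg : ∀ {L : List (ℝ × ℝ)} {a : ℝ}, Adm a L → 0 ≤ a
  | [], _, h => by
      have h : _ = (1 : ℝ) := h
      rw [h]; exact zero_le_one
  | (v, w) :: L, a, h => h.1

theorem sm_logcosh : Sm (fun z => Real.log (Real.cosh z)) (fun z => Real.sinh z / Real.cosh z)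
    (fun z => 1 - (Real.sinh z / Real.cosh z) ^ 2) 1 := by
  have hlt : ∀ z : ℝ, (Real.sinh z / Real.cosh z) ^ 2 ≤ 1 := by
    intro z
    rw [div_pow, div_le_one (pow_pos (Real.cosh_pos z) 2), Real.cosh_sq]
    linarith
  refine ⟨fun z => ?_, fun z => ?_, ?_, fun z => ?_, fun z => ?_⟩
  · exact (Real.hasDerivAt_cosh z).log (Real.cosh_pos z).ne'
  · have := (Real.hasDerivAt_sinh z).fun_div (Real.hasDerivAt_cosh z) (Real.cosh_pos z).ne'
    refine this.congr_deriv ?_
    have := (Real.cosh_pos z).ne'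
    field_simp
  · have h1 : ∀ z : ℝ, Real.cosh z ≠ 0 := fun z => (Real.cosh_pos z).ne'
    exact continuous_const.sub ((Real.continuous_sinh.div Real.continuous_cosh h1).pow 2)
  · rw [← sq_le_one_iff_abs_le_one]
    exact hlt z
  · rw [abs_le]
    have := hlt z
    have := sq_nonneg (Real.sinh z / Real.cosh z)
    constructor <;> linarith

theorem chain_sm : ∀ (L : List (ℝ × ℝ)) (a : ℝ), Adm a L →
    Sm (chain a L) (chain1 a L) (chain2 a L) (L.length + 1)
  | [], _, _ => by
      simp only [List.length_nil, Nat.cast_zero, zero_add]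
      exact sm_logcosh
  | (v, w) :: L, a, h => by
      have ih := chain_sm L (a + w) h.2.2.2
      have hle : a ≤ 1 := h.le_one
      have := gaussOp_sm ih h.1 hle v
      have e : (((v, w) :: L).length : ℝ) + 1 = (L.length : ℝ) + 1 + 1 := by
        rw [List.length_cons]; push_cast; ring
      rw [e]
      exact this

/-- `f'' + a f'^2` is a martingale along the recursion -/
theorem chain_heat {v w : ℝ} {L : List (ℝ × ℝ)} {a : ℝ} (h : Adm a ((v, w) :: L)) (x : ℝ) :
    chain2 a ((v, w) :: L) x + a * chain1 a ((v, w) :: L) x ^ 2 =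
      tE a v (chain (a + w) L) (fun y => chain2 (a + w) L y + a * chain1 (a + w) L y ^ 2) x :=
  g2_add (chain_sm L (a + w) h.2.2.2) a v x

/-- forget the direction -/
def pr (q : ℝ × ℝ × ℝ) : ℝ × ℝ := (q.1, q.2.1)

/-- move in the direction -/
def sh (t : ℝ) (q : ℝ × ℝ × ℝ) : ℝ × ℝ := (q.1 + t * q.2.2, q.2.1)

theorem sh_zero : sh 0 = pr := by
  funext q
  simp [sh, pr]

/-- the weighted sum `Σ_j w_j (s + Σ_{l ≤ j} δ_l) p_j` -/
def WQ : ℝ → List (ℝ × ℝ × ℝ) → ℝ → ℝ → ℝ
  | _, [], _ => fun _ => 0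
  | a, (v, w, δ) :: L, s => tE a v (chain (a + w) (L.map pr))
      (fun y => w * (s + δ) * chain1 (a + w) (L.map pr) y ^ 2 + WQ (a + w) L (s + δ) y)

theorem WQ_BC : ∀ (L : List (ℝ × ℝ × ℝ)) (a s : ℝ), Adm a (L.map pr) →
    ∃ K, BC (WQ a L s) K
  | [], _, _, _ => ⟨_, BC.const 0⟩
  | (v, w, δ) :: L, a, s, h => by
      obtain ⟨K, hK⟩ := WQ_BC L (a + w) (s + δ) h.2.2.2
      have hS := chain_sm (L.map pr) (a + w) h.2.2.2
      exact ⟨_, tE_BC hS.lip a v (((hS.B1.pow 2).const_mul _).add hK)⟩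

theorem WQ_lin : ∀ (L : List (ℝ × ℝ × ℝ)) (a s : ℝ), Adm a (L.map pr) → ∀ x,
    WQ a L s x = WQ a L 0 x +
      s * (1 - (chain2 a (L.map pr) x + a * chain1 a (L.map pr) x ^ 2))
  | [], a, s, h, x => by
      have h : a = 1 := h
      subst h
      simp [WQ, chain1, chain2]
  | (v, w, δ) :: L, a, s, h, x => by
      have hS := chain_sm (L.map pr) (a + w) h.2.2.2
      have ih := WQ_lin L (a + w)
      obtain ⟨K, hK⟩ := WQ_BC L (a + w) 0 h.2.2.2
      set Y : ℝ → ℝ := fun y => chain2 (a + w) (L.map pr) y + (a + w) *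
        chain1 (a + w) (L.map pr) y ^ 2 with hY
      have e1 : (fun y => w * (s + δ) * chain1 (a + w) (L.map pr) y ^ 2 +
          WQ (a + w) L (s + δ) y) =
          fun y => (w * (0 + δ) * chain1 (a + w) (L.map pr) y ^ 2 + WQ (a + w) L (0 + δ) y) +
            s * (1 - (chain2 (a + w) (L.map pr) y + a * chain1 (a + w) (L.map pr) y ^ 2)) := by
        funext y
        rw [ih (s + δ) h.2.2.2 y, ih (0 + δ) h.2.2.2 y]
        ring
      have hB2 : EG (fun y => chain2 (a + w) (L.map pr) y + a * chain1 (a + w) (L.map pr) y ^ 2) :=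
        hS.B2.eg.add ((hS.B1.eg.pow 2).const_mul a)
      obtain ⟨K', hK'⟩ := WQ_BC L (a + w) (0 + δ) h.2.2.2
      have hheat := chain_heat (v := v) (w := w) (L := L.map pr) (a := a) h x
      show tE a v (chain (a + w) (L.map pr)) (fun y => w * (s + δ) *
        chain1 (a + w) (L.map pr) y ^ 2 + WQ (a + w) L (s + δ) y) x = tE a v (chain (a + w)
        (L.map pr)) (fun y => w * (0 + δ) * chain1 (a + w) (L.map pr) y ^ 2 +
          WQ (a + w) L (0 + δ) y) x + s * (1 - (chain2 a ((v, w) :: L.map pr) x +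
            a * chain1 a ((v, w) :: L.map pr) x ^ 2))
      rw [e1, tE_add hS.lip a v (((hS.B1.eg.pow 2).const_mul _).add hK'.eg)
        (((EG.const 1).sub hB2).const_mul s), tE_const_mul, tE_sub hS.lip a v (EG.const 1) hB2,
        tE_const hS.lip, hheat]

/-- sum of the directions -/
def dsum (L : List (ℝ × ℝ × ℝ)) : ℝ := (L.map fun q => q.2.2).sum

/-- the moved lists stay admissible -/
theorem adm_sh : ∀ (L : List (ℝ × ℝ × ℝ)) (a : ℝ), Adm a (L.map pr) →
    (∀ q ∈ L, 0 ≤ q.1 + q.2.2) → ∀ t, 0 ≤ t → t ≤ 1 → Adm a (L.map (sh t))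
  | [], _, h, _, _, _, _ => h
  | (v, w, δ) :: L, a, h, h1, t, ht, ht1 => by
      refine ⟨h.1, ?_, h.2.2.1, adm_sh L (a + w) h.2.2.2
        (fun q hq => h1 q (List.mem_cons_of_mem _ hq)) t ht ht1⟩
      have h2 : 0 ≤ v + δ := h1 (v, w, δ) List.mem_cons_self
      have h3 : 0 ≤ v := h.2.1
      show 0 ≤ v + t * δ
      nlinarith

/-- **directional derivative of the recursion at `t = 0+`** -/
theorem chain_path : ∀ (L : List (ℝ × ℝ × ℝ)) (a : ℝ), Adm a (L.map pr) →
    (∀ q ∈ L, 0 ≤ q.1 + q.2.2) →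
    (∃ K, ∀ t, 0 ≤ t → t ≤ 1 → ∀ y, |chain a (L.map (sh t)) y - chain a (L.map (sh 0)) y| ≤
      K * t) ∧
    CC (fun t => chain a (L.map (sh t))) (fun x => 1 / 2 * dsum L - 1 / 2 * WQ a L 0 x)
  | [], a, _, _ => by
      refine ⟨⟨0, fun t _ _ y => by simp⟩, ?_⟩
      intro t y y0 _ _ _
      simp [dsum, WQ]
  | (v, w, δ) :: L, a, h, h1 => by
      have h1' : ∀ q ∈ L, 0 ≤ q.1 + q.2.2 := fun q hq => h1 q (List.mem_cons_of_mem _ hq)
      obtain ⟨⟨K, hK⟩, hcc⟩ := chain_path L (a + w) h.2.2.2 h1'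
      have hadm := adm_sh L (a + w) h.2.2.2 h1'
      have hlip : ∀ t, 0 ≤ t → t ≤ 1 → Lip1 (chain (a + w) (L.map (sh t))) :=
        fun t ht ht1 => (chain_sm _ _ (hadm t ht ht1)).lip
      have hS0 := chain_sm (L.map pr) (a + w) h.2.2.2
      have hv : 0 ≤ v := h.2.1
      have hv' : 0 ≤ v + δ := h1 (v, w, δ) List.mem_cons_self
      have hS : Sm (chain (a + w) (L.map (sh 0))) (chain1 (a + w) (L.map pr))
          (chain2 (a + w) (L.map pr)) (((L.map pr).length : ℝ) + 1) := by
        rw [sh_zero]; exact hS0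
      obtain ⟨KW, hKW⟩ := WQ_BC L (a + w) 0 h.2.2.2
      have hDb : BC (fun x => 1 / 2 * dsum L - 1 / 2 * WQ (a + w) L 0 x)
          (|1 / 2 * dsum L| + |1 / 2| * KW) := (BC.const _).sub (hKW.const_mul (1 / 2))
      constructor
      · refine ⟨K + |δ| * (1 / 2 * (((L.map pr).length : ℝ) + 1 + |a| * 1 ^ 2)),
          fun t ht ht1 y => ?_⟩
        show |gaussOp a (v + t * δ) (chain (a + w) (L.map (sh t))) y -
          gaussOp a (v + 0 * δ) (chain (a + w) (L.map (sh 0))) y| ≤ _
        rw [zero_mul, add_zero]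
        have b1 := gaussOp_abs_sub_le h.1 (hlip t ht ht1) (hlip 0 le_rfl zero_le_one)
          (v + t * δ) y (hK t ht ht1)
        have hvt : 0 ≤ v + t * δ := by nlinarith
        obtain ⟨ξ, _, _, hξ⟩ := gaussOp_mvt hS a hv hvt y
        have hB : BC (fun y => chain2 (a + w) (L.map pr) y + a * chain1 (a + w) (L.map pr) y ^ 2)
            (((L.map pr).length : ℝ) + 1 + |a| * 1 ^ 2) :=
          hS.B2.add ((hS.B1.pow 2).const_mul a)
        have b2 : |gaussOp a (v + t * δ) (chain (a + w) (L.map (sh 0))) y -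
            gaussOp a v (chain (a + w) (L.map (sh 0))) y| ≤
            |δ| * (1 / 2 * (((L.map pr).length : ℝ) + 1 + |a| * 1 ^ 2)) * t := by
          rw [hξ, abs_mul, abs_mul, add_sub_cancel_left, abs_mul, abs_of_nonneg ht,
            abs_of_pos (by norm_num : (0 : ℝ) < 1 / 2)]
          have b3 := tE_abs_le hS.lip a ξ hB y
          have b4 : 0 ≤ t * |δ| := by positivity
          calc t * |δ| * (1 / 2 * |tE a ξ (chain (a + w) (L.map (sh 0))) (fun y =>
                chain2 (a + w) (L.map pr) y + a * chain1 (a + w) (L.map pr) y ^ 2) y|)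
              ≤ t * |δ| * (1 / 2 * (((L.map pr).length : ℝ) + 1 + |a| * 1 ^ 2)) := by
                refine mul_le_mul_of_nonneg_left ?_ b4
                linarith
            _ = _ := by ring
        have := abs_sub_le (gaussOp a (v + t * δ) (chain (a + w) (L.map (sh t))) y)
          (gaussOp a (v + t * δ) (chain (a + w) (L.map (sh 0))) y)
          (gaussOp a v (chain (a + w) (L.map (sh 0))) y)
        linarith
      · have hstep := path_step (F := fun t => chain (a + w) (L.map (sh t))) h.1 hS hlip hK hDb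
          hcc hv hv'
        have e : (fun x => tE a v (chain (a + w) (L.map (sh 0))) (fun y =>
            (1 / 2 * dsum L - 1 / 2 * WQ (a + w) L 0 y) + 1 / 2 * δ *
              (chain2 (a + w) (L.map pr) y + a * chain1 (a + w) (L.map pr) y ^ 2)) x) =
            fun x => 1 / 2 * dsum ((v, w, δ) :: L) - 1 / 2 * WQ a ((v, w, δ) :: L) 0 x := by
          funext x
          obtain ⟨K', hK'⟩ := WQ_BC L (a + w) (0 + δ) h.2.2.2
          have e2 : (fun y => (1 / 2 * dsum L - 1 / 2 * WQ (a + w) L 0 y) + 1 / 2 * δ *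
              (chain2 (a + w) (L.map pr) y + a * chain1 (a + w) (L.map pr) y ^ 2)) =
              fun y => 1 / 2 * dsum ((v, w, δ) :: L) - 1 / 2 *
                (w * (0 + δ) * chain1 (a + w) (L.map pr) y ^ 2 + WQ (a + w) L (0 + δ) y) := by
            funext y
            rw [WQ_lin L (a + w) (0 + δ) h.2.2.2 y]
            have : dsum ((v, w, δ) :: L) = δ + dsum L := by simp [dsum]
            rw [this]
            ring
          rw [e2, tE_sub hS.lip a v (EG.const _)
            ((((hS.B1.eg.pow 2).const_mul _).add hK'.eg).const_mul _), tE_const hS.lip,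
            tE_const_mul]
          rw [sh_zero]
          rfl
        rw [e] at hstep
        exact hstep

end

end Crest.Agent.R164.GC
private theorem rz_2918046e5b : type_of% @_root_.Crest.Agent.R164.GC.WQ.eq_def := @_root_.Crest.Agent.R164.GC.WQ.eq_def -- L410
private theorem rz_f4fa67b94f : type_of% @_root_.Crest.Agent.R164.GC.WQ.eq_1 := @_root_.Crest.Agent.R164.GC.WQ.eq_1 -- L410
private theorem rz_cbe0e0dcfd : type_of% @_root_.Crest.Agent.R164.GC.chain.eq_def := @_root_.Crest.Agent.R164.GC.chain.eq_def -- L326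
private theorem rz_05e507bdf9 : type_of% @_root_.Crest.Agent.R164.GC.chain.eq_1 := @_root_.Crest.Agent.R164.GC.chain.eq_1 -- L326
private theorem rz_8bc9be0911 : type_of% @_root_.Crest.Agent.R164.GC.chain1.eq_def := @_root_.Crest.Agent.R164.GC.chain1.eq_def -- L331
private theorem rz_a4044792ad : type_of% @_root_.Crest.Agent.R164.GC.chain1.eq_1 := @_root_.Crest.Agent.R164.GC.chain1.eq_1 -- L331
private theorem rz_0b11ceb297 : type_of% @_root_.Crest.Agent.R164.GC.chain2.eq_def := @_root_.Crest.Agent.R164.GC.chain2.eq_def -- L336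
private theorem rz_299562ad3d : type_of% @_root_.Crest.Agent.R164.GC.chain2.eq_1 := @_root_.Crest.Agent.R164.GC.chain2.eq_1 -- L336
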