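import Crest.Agent.R164.SDPath
import Crest.Agent.R164.FieldGroup2

/-!
Row 164, U side, (M3): the step field of the main-field strengths, Abel summation of `∫ p h`,
truncation of a trial path.
-/

set_option autoImplicit false

namespace Crest.Agent.R164.US

open Finset Set MeasureTheory Crest.ProbabilityR.InvariantGlass Crest.Agent.R164.GC

noncomputable section

/-- uniform widths. -/
def wU (nc : ℕ) : Fin (nc + 1) → ℝ := fun _ => 1 / ((nc : ℝ) + 1)

/-- accumulated squares of the strengths. -/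
def hvA {nc : ℕ} (a : Fin nc → ℝ) : Fin (nc + 1) → ℝ :=
  fun i => ∑ g : Fin nc, if g.val < i.val then a g ^ 2 else 0

theorem wU_pos (nc : ℕ) (i : Fin (nc + 1)) : 0 < wU nc i := by
  unfold wU
  positivity

theorem wU_sum (nc : ℕ) : ∑ i, wU nc i = 1 := by
  unfold wU
  rw [Finset.sum_const, Finset.card_univ, Fintype.card_fin, nsmul_eq_mul]
  push_cast
  field_simp

theorem hvA_mono {nc : ℕ} (a : Fin nc → ℝ) : Monotone (hvA a) := by
  intro i j hij
  unfold hvA
  apply Finset.sum_le_sum
  intro g _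
  have hij' : i.val ≤ j.val := hij
  by_cases h : g.val < i.val
  · rw [if_pos h, if_pos (h.trans_le hij')]
  · rw [if_neg h]
    split_ifs
    · positivity
    · exact le_rfl

theorem hvA_nonneg {nc : ℕ} (a : Fin nc → ℝ) (i : Fin (nc + 1)) : 0 ≤ hvA a i := by
  unfold hvA
  apply Finset.sum_nonneg
  intro g _
  split_ifs
  · positivity
  · exact le_rfl

/-- the field of the strengths is a step field. -/
theorem isStepField_hvA {nc : ℕ} (a : Fin nc → ℝ) : IsStepField (wU nc) (hvA a) :=
  ⟨Nat.succ_pos nc, wU_pos nc, wU_sum nc, hvA_mono a, hvA_nonneg a⟩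


theorem leftEnd_wU (nc : ℕ) (i : Fin (nc + 1)) :
    leftEnd (wU nc) i = (i.val : ℝ) / ((nc : ℝ) + 1) := by
  unfold leftEnd wU
  rw [← Finset.sum_filter, Finset.sum_const, nsmul_eq_mul]
  have h : (Finset.univ.filter (fun l : Fin (nc + 1) => l < i)).card = i.val := by
    rw [show (Finset.univ.filter (fun l : Fin (nc + 1) => l < i)) = Finset.Iio i by ext; simp]
    exact Fin.card_Iio i
  rw [h]
  ring

/-- pointwise form of the step function of the strengths. -/
theorem stepFn_hvA {nc : ℕ} (a : Fin nc → ℝ) {s : ℝ} (hs : s ∈ Set.Ioo (0:ℝ) 1) :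
    stepFn (wU nc) (hvA a) s =
      ∑ g : Fin nc, if ((g.val : ℝ) + 1) / ((nc : ℝ) + 1) < s then a g ^ 2 else 0 := by
  have hn : (0:ℝ) < (nc : ℝ) + 1 := by positivity
  -- the cell of `s`
  set x := s * ((nc : ℝ) + 1) with hx
  have hx0 : 0 < x := mul_pos hs.1 hn
  have hx1 : x < (nc : ℝ) + 1 := by rw [hx]; nlinarith [hs.2]
  set m := ⌈x⌉₊ with hm
  have hm1 : x ≤ m := Nat.le_ceil x
  have hm0 : 0 < m := Nat.ceil_pos.2 hx0
  have hm2 : ((m : ℝ) - 1) < x := by
    have := Nat.ceil_lt_add_one hx0.le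
    rw [← hm] at this
    linarith
  have hmn : m ≤ nc + 1 := by
    rw [hm]
    apply Nat.ceil_le.2
    push_cast
    exact hx1.le
  set i0 : Fin (nc + 1) := ⟨m - 1, by omega⟩ with hi0
  have hi0v : ((i0.val : ℕ) : ℝ) = (m : ℝ) - 1 := by
    rw [hi0]
    push_cast [Nat.cast_sub (Nat.one_le_iff_ne_zero.2 hm0.ne')]
    ring
  have hcell : ∀ i : Fin (nc + 1), (leftEnd (wU nc) i < s ∧ s ≤ leftEnd (wU nc) i + wU nc i) ↔
      i = i0 := by
    intro i
    rw [leftEnd_wU]
    unfold wU
    rw [div_lt_iff₀ hn, ← add_div, le_div_iff₀ hn, ← hx]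
    constructor
    · rintro ⟨h1, h2⟩
      apply Fin.ext
      rw [hi0]
      show i.val = m - 1
      have h3 : (i.val : ℝ) < m := h1.trans_le hm1
      have h4 : ((m : ℝ)) < i.val + 1 + 1 := by linarith
      have h3' : i.val < m := by exact_mod_cast h3
      have h4' : m < i.val + 1 + 1 := by exact_mod_cast h4
      omega
    · rintro rfl
      rw [hi0v]
      constructor
      · exact hm2
      · linarith
  unfold stepFn
  rw [Finset.sum_eq_single i0]
  · rw [if_pos ((hcell i0).2 rfl)]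
    unfold hvA
    apply Finset.sum_congr rfl
    intro g _
    have : (g.val < i0.val) ↔ ((g.val : ℝ) + 1) / ((nc : ℝ) + 1) < s := by
      rw [div_lt_iff₀ hn, ← hx]
      constructor
      · intro h
        have h' : (g.val : ℝ) + 1 ≤ i0.val := by exact_mod_cast h
        rw [hi0v] at h'
        linarith
      · intro h
        have h' : ((g.val : ℝ)) + 1 < m := h.trans_le hm1
        have h'' : g.val + 1 < m := by exact_mod_cast h'
        rw [hi0]
        show g.val < m - 1
        omega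
    simp only [this]
  · intro i _ hi
    rw [if_neg]
    intro h
    exact hi ((hcell i).1 h)
  · intro h
    exact absurd (Finset.mem_univ _) h

theorem trial_integrable {p : ℝ → ℝ} (hp : IsTrialPath p) {x : ℝ} (hx : 0 ≤ x) :
    IntegrableOn p (Set.Ioo x 1) := by
  refine Measure.integrableOn_of_bounded (M := 1) (by simp) hp.1.aestronglyMeasurable ?_
  filter_upwards [ae_restrict_mem measurableSet_Ioo] with s hs
  have h := hp.2.2 s ⟨lt_of_le_of_lt hx hs.1, hs.2⟩
  rw [Real.norm_eq_abs, abs_le]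
  constructor <;> linarith [h.1, h.2]

/-- Abel summation. -/
theorem integral_stepFn_hvA {nc : ℕ} (a : Fin nc → ℝ) {p : ℝ → ℝ} (hp : IsTrialPath p) :
    ∫ s in Set.Ioo (0:ℝ) 1, p s * stepFn (wU nc) (hvA a) s =
      ∑ g : Fin nc, a g ^ 2 * ∫ s in Set.Ioo (((g.val : ℝ) + 1) / ((nc : ℝ) + 1)) 1, p s := by
  have h1 : ∫ s in Set.Ioo (0:ℝ) 1, p s * stepFn (wU nc) (hvA a) s =
      ∫ s in Set.Ioo (0:ℝ) 1, ∑ g : Fin nc,
        a g ^ 2 * (Set.Ioo (((g.val : ℝ) + 1) / ((nc : ℝ) + 1)) 1).indicator p s := by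
    refine setIntegral_congr_fun measurableSet_Ioo ?_
    intro s hs
    simp only
    rw [stepFn_hvA a hs, Finset.mul_sum]
    apply Finset.sum_congr rfl
    intro g _
    by_cases h : ((g.val : ℝ) + 1) / ((nc : ℝ) + 1) < s
    · rw [if_pos h, Set.indicator_of_mem (show s ∈ Set.Ioo _ 1 from ⟨h, hs.2⟩)]
      ring
    · rw [if_neg h, Set.indicator_of_notMem (fun hh => h hh.1)]
      ring
  have hx : ∀ g : Fin nc, (0:ℝ) ≤ ((g.val : ℝ) + 1) / ((nc : ℝ) + 1) := fun g => by positivity
  rw [h1, integral_finsetSum]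
  · apply Finset.sum_congr rfl
    intro g _
    rw [integral_const_mul, setIntegral_indicator measurableSet_Ioo]
    congr 3
    ext s
    simp only [Set.mem_inter_iff, Set.mem_Ioo]
    constructor
    · rintro ⟨_, h⟩; exact h
    · intro h; exact ⟨⟨lt_of_le_of_lt (hx g) h.1, h.2⟩, h⟩
  · intro g _
    apply Integrable.const_mul
    have := (trial_integrable hp (hx g)).integrable_indicator measurableSet_Ioo
    exact this.integrableOn

/-! ### truncation of a trial path -/

/-- the truncated path. -/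
def trc (κ : ℝ) (p : ℝ → ℝ) : ℝ → ℝ := fun s => min (p s) (1 - κ)

theorem isTrialPath_trc {p : ℝ → ℝ} (hp : IsTrialPath p) {κ : ℝ} (h1 : κ < 1) :
    IsTrialPath (trc κ p) := by
  refine ⟨hp.1.min measurable_const, ?_, ?_⟩
  · intro s hs t ht hst
    exact min_le_min (hp.2.1 hs ht hst) le_rfl
  · intro s hs
    have h := hp.2.2 s hs
    refine ⟨le_min h.1 (by linarith), (min_le_left _ _).trans h.2⟩

theorem trc_le (κ : ℝ) (p : ℝ → ℝ) (s : ℝ) : trc κ p s ≤ p s := min_le_left _ _

theorem trc_le' (κ : ℝ) (p : ℝ → ℝ) (s : ℝ) : trc κ p s ≤ 1 - κ := min_le_right _ _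

/-- tail integrals of the truncated path. -/
theorem integral_trc_le {p : ℝ → ℝ} (hp : IsTrialPath p) {κ : ℝ} (h1 : κ < 1) {x : ℝ}
    (hx0 : 0 ≤ x) (hx1 : x ≤ 1) :
    ∫ s in Set.Ioo x 1, trc κ p s ≤ (1 - κ) * (1 - x) := by
  have h2 : ∫ s in Set.Ioo x 1, trc κ p s ≤ ∫ _ in Set.Ioo x 1, (1 - κ) :=
    setIntegral_mono_on (trial_integrable (isTrialPath_trc hp h1) hx0)
      (integrableOn_const (by simp)) measurableSet_Ioo (fun s _ => trc_le' κ p s)
  rw [setIntegral_const, Measure.real, Real.volume_Ioo, ENNReal.toReal_ofReal (by linarith),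
    smul_eq_mul] at h2
  linarith

/-- the entropy part decreases under truncation. -/
theorem constrainedEntropyPart_mono {J : ℕ} (γ m : Fin J → ℚ) {p q : ℝ → ℝ}
    (hp : IsTrialPath p) (hq : IsTrialPath q) (hpq : ∀ s ∈ Set.Ioo (0:ℝ) 1, p s ≤ q s) :
    constrainedEntropyPart γ m p ≤ constrainedEntropyPart γ m q := by
  unfold constrainedEntropyPart
  refine iSup_mono fun k => iSup_mono fun w => iSup_mono fun hv => iSup_mono fun h => ?_
  refine add_le_add le_rfl ?_
  rw [EReal.coe_le_coe_iff]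
  refine mul_le_mul_of_nonneg_left ?_ (by norm_num)
  have hint : ∀ r : ℝ → ℝ, IsTrialPath r →
      IntegrableOn (fun s => r s * stepFn w hv s) (Set.Ioo (0:ℝ) 1) := by
    intro r hr
    have hs := integrableOn_stepFn (w := w) h.2.1 hv
    refine Integrable.mono' hs.norm ?_ ?_
    · exact (hr.1.aestronglyMeasurable).mul hs.aestronglyMeasurable
    · filter_upwards [ae_restrict_mem measurableSet_Ioo] with s hs'
      have h0 := hr.2.2 s hs'
      rw [norm_mul]
      have : ‖r s‖ ≤ 1 := by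
        rw [Real.norm_eq_abs, abs_le]
        constructor <;> linarith [h0.1, h0.2]
      calc ‖r s‖ * ‖stepFn w hv s‖ ≤ 1 * ‖stepFn w hv s‖ :=
            mul_le_mul_of_nonneg_right this (norm_nonneg _)
        _ = _ := one_mul _
  refine setIntegral_mono_on (hint p hp) (hint q hq) measurableSet_Ioo ?_
  intro s hs
  refine mul_le_mul_of_nonneg_right (hpq s hs) ?_
  unfold stepFn
  apply Finset.sum_nonneg
  intro i _
  split_ifs
  · exact h.2.2.2.2 i
  · exact le_rfl

theorem constrainedEntropyPart_trc {J : ℕ} (γ m : Fin J → ℚ) {p : ℝ → ℝ} (hp : IsTrialPath p)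
    {κ : ℝ} (h1 : κ < 1) :
    constrainedEntropyPart γ m (trc κ p) ≤ constrainedEntropyPart γ m p :=
  constrainedEntropyPart_mono γ m (isTrialPath_trc hp h1) hp (fun s _ => trc_le κ p s)

/-- the deficit of the truncated path. -/
theorem deficit_trc_le {p : ℝ → ℝ} (hp : IsTrialPath p) {κ : ℝ} (h0 : 0 ≤ κ) (h1 : κ < 1)
    {r : ℝ} (hr : 0 ≤ r) : deficit (trc κ p) r ≤ deficit p r + κ := by
  unfold deficit
  have i1 := RTrans.pos_part_integrable hp r hr
  have i2 := RTrans.pos_part_integrable (isTrialPath_trc hp h1) r hr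
  have h2 : ∫ s in Set.Ioo (0:ℝ) 1, max (p s - r) 0 ≤
      ∫ s in Set.Ioo (0:ℝ) 1, (max (trc κ p s - r) 0 + κ) := by
    refine setIntegral_mono_on i1 (i2.add (integrable_const _)) measurableSet_Ioo ?_
    intro s hs
    have h := hp.2.2 s hs
    have h3 : p s - κ ≤ trc κ p s := by
      unfold trc
      exact le_min (by linarith) (by linarith [h.2])
    rcases le_or_gt (p s - r) 0 with h4 | h4
    · rw [max_eq_right h4]
      have := le_max_right (trc κ p s - r) 0
      linarith
    · rw [max_eq_left h4.le]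
      have := le_max_left (trc κ p s - r) 0
      linarith
  have h3 : ∫ s in Set.Ioo (0:ℝ) 1, (max (trc κ p s - r) 0 + κ) =
      (∫ s in Set.Ioo (0:ℝ) 1, max (trc κ p s - r) 0) + κ := by
    rw [integral_add i2 (integrable_const _)]
    simp
  rw [h3] at h2
  linarith

open Crest.Agent.R164.Atomic Crest.Agent.R164.RScale Crest.Agent.R164.SDPath in
/-- the spectral part under a small increase of the deficit. -/
theorem spectralPart_le_of_deficit {K : ℕ} {w val : Fin (K + 1) → ℝ} (hv : StrictMono val)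
    (hw : ∀ k, 0 < w k) (hs : ∑ k, w k = 1) {C : ℝ} (hC0 : 0 ≤ C)
    (hC : ∀ x y : ℝ, 0 ≤ x → x ≤ 1 → 0 ≤ y → y ≤ 1 →
      |SDPath.th w val x - SDPath.th w val y| ≤ C * |x - y|)
    {p q : ℝ → ℝ} (hp : IsTrialPath p) (hq : IsTrialPath q) {δ : ℝ} (hδ : 0 ≤ δ)
    (hd : ∀ r ∈ Set.Ioo (0:ℝ) 1, deficit q r ≤ deficit p r + δ) :
    spectralPart (atomic w val) (val (Fin.last K)) q ≤
      spectralPart (atomic w val) (val (Fin.last K)) p + C * δ := by
  set f := fun t => specT (atomic w val) (val (Fin.last K)) t q -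
    specT (atomic w val) (val (Fin.last K)) t p with hf
  have hcont : ContinuousOn f (Set.Icc 0 1) :=
    (specT_continuousOn hv hw hs hq).sub (specT_continuousOn hv hw hs hp)
  have hder : ∀ t ∈ interior (Set.Icc (0:ℝ) 1), HasDerivAt f
      ((1 / 2) * (∫ r in Set.Ioo (0:ℝ) 1, SDPath.th w val (t * deficit q r)) -
        (1 / 2) * ∫ r in Set.Ioo (0:ℝ) 1, SDPath.th w val (t * deficit p r)) t := by
    intro t ht
    rw [interior_Icc] at ht
    exact (specT_hasDerivAt hv hw hs ht.1 ht.2.le hq).sub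
      (specT_hasDerivAt hv hw hs ht.1 ht.2.le hp)
  have h := Convex.image_sub_le_mul_sub_of_deriv_le (convex_Icc (0:ℝ) 1) hcont
    (fun t ht => (hder t ht).differentiableAt.differentiableWithinAt) (C := C * δ) (by
      intro t ht
      rw [(hder t ht).deriv]
      rw [interior_Icc] at ht
      have := th_int_mono hv hw hs hC0 hC ht.1.le ht.2.le hp hq hδ hd
      rw [integral_add (th_deficit_integrable hv hw hs ht.1.le ht.2.le hp)
        (integrable_const _)] at this
      have hc : ∫ _ in Set.Ioo (0:ℝ) 1, C * δ = C * δ := by simp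
      rw [hc] at this
      have : 0 ≤ C * δ := mul_nonneg hC0 hδ
      linarith) 0 (by simp) 1 (by simp) zero_le_one
  simp only [hf] at h
  rw [specT_one, specT_one, specT_zero, specT_zero] at h
  linarith

open Crest.Agent.R164.Atomic in
/-- **truncation of the path costs at most `C κ` in the spectral part.** -/
theorem spectralPart_trc {K : ℕ} {w val : Fin (K + 1) → ℝ} (hv : StrictMono val)
    (hw : ∀ k, 0 < w k) (hs : ∑ k, w k = 1) :
    ∃ C : ℝ, 0 ≤ C ∧ ∀ p : ℝ → ℝ, IsTrialPath p → ∀ κ : ℝ, 0 ≤ κ → κ < 1 →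
      spectralPart (atomic w val) (val (Fin.last K)) (trc κ p) ≤
        spectralPart (atomic w val) (val (Fin.last K)) p + C * κ := by
  obtain ⟨C, hC0, hC⟩ := SDPath.th_lip hv hw hs
  refine ⟨C, hC0, fun p hp κ h0 h1 => ?_⟩
  exact spectralPart_le_of_deficit hv hw hs hC0 hC hp (isTrialPath_trc hp h1) h0
    (fun r hr => deficit_trc_le hp h0 h1 hr.1.le)

end

end Crest.Agent.R164.US
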