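import Crest.Agent.R164.SDAlg5

-- ▼ part R164/SDAlg6
section

/-!
Row 164: deterministic consequences of the approximate left-rotation relations, part 6: final
statements (`specT_quad`, `ET_step`, `energy_close`).
-/

set_option autoImplicit false

namespace Crest.Agent.R164.SDAlg

open Finset

noncomputable section

open MeasureTheory Set Crest.ProbabilityR.InvariantGlass Crest.Agent.R164.PAlg
open Crest.Agent.R164.RTrans Crest.Agent.R164.Atomic Crest.Agent.R164.RScale

variable {K : ℕ} {w val : Fin (K + 1) → ℝ}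

section one

variable (hv : StrictMono val) (hw : ∀ k, 0 < w k) (hs : ∑ k, w k = 1)

include hv hw hs

theorem phiT_continuousOn {t : ℝ} (ht : 0 ≤ t) (ht1 : t ≤ 1) :
    ContinuousOn (phiT w val t) (Ici 0) := by
  unfold phiT
  apply continuousOn_finset_sum
  intro k _
  exact continuousOn_const.mul (continuousOn_const.mul
    (ww_diag_continuousOn hw hs (gap_nonneg hv ht) (gap_last t) (gap_le hv ht ht1) k))

theorem phiT_abs_le {V : ℝ} (hV : ∀ k, |val k| ≤ V) {t : ℝ} (ht : 0 ≤ t) (x : ℝ) :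
    |phiT w val t x| ≤ V := by
  unfold phiT
  have hτ := tau_nonneg w (gap val t) x
  have h1 := sum_ww hw ⟨0⟩ (gap_nonneg hv ht) hτ hτ
  calc |∑ k, w k * (val k * ww w (gap val t) (tau w (gap val t) x) (tau w (gap val t) x) k)|
      ≤ ∑ k, V * (w k * ww w (gap val t) (tau w (gap val t) x) (tau w (gap val t) x) k) := by
        refine (Finset.abs_sum_le_sum_abs _ _).trans (Finset.sum_le_sum fun k _ => ?_)
        have h2 := ww_pos hw (gap_nonneg hv ht) hτ hτ k
        rw [abs_mul, abs_mul, abs_of_pos (hw k), abs_of_pos h2]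
        have := mul_le_mul_of_nonneg_right (hV k) (mul_pos (hw k) h2).le
        linarith
    _ = V := by rw [← Finset.mul_sum, h1, mul_one]

theorem phiT_deficit_integrable {t : ℝ} (ht : 0 ≤ t) (ht1 : t ≤ 1) {q : ℝ → ℝ}
    (hq : IsTrialPath q) : IntegrableOn (fun r => phiT w val t (deficit q r)) (Ioo (0:ℝ) 1) := by
  obtain ⟨V, hV⟩ : ∃ V : ℝ, ∀ k, |val k| ≤ V :=
    ⟨∑ k, |val k|, fun k => Finset.single_le_sum (f := fun k => |val k|)
      (fun _ _ => abs_nonneg _) (Finset.mem_univ k)⟩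
  refine Integrable.mono' (integrable_const V) ?_ ?_
  · have hc : Continuous (fun x => phiT w val t (max x 0)) := by
      have h1 := phiT_continuousOn hv hw hs ht ht1
      exact h1.comp_continuous (by fun_prop) (fun x => mem_Ici.2 (le_max_right x 0))
    have hm : AEMeasurable (deficit q) (volume.restrict (Ioo (0:ℝ) 1)) := by
      refine aemeasurable_restrict_of_antitoneOn measurableSet_Ioo ?_
      intro r hr r' hr' hrr
      exact deficit_antitone hq hr hr' hrr
    have h2 := (hc.measurable.comp_aemeasurable hm).aestronglyMeasurable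
    refine h2.congr ?_
    filter_upwards [ae_restrict_mem measurableSet_Ioo] with r hr
    simp only [Function.comp]
    rw [max_eq_left (deficit_mem hq hr).1]
  · filter_upwards with r
    rw [Real.norm_eq_abs]
    exact phiT_abs_le hv hw hs hV ht _

/-- **Time increments of `G_t(q)`.** -/
theorem specT_quad {V : ℝ} (hV : ∀ k, |val k| ≤ V) {t t' : ℝ} (ht : 0 ≤ t) (ht1 : t ≤ 1)
    (ht' : 0 ≤ t') {q : ℝ → ℝ} (hq : IsTrialPath q) :
    |(specT (atomic w val) (val (Fin.last K)) t' q - specT (atomic w val) (val (Fin.last K)) t q) -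
      (t' - t) * ET w val t q| ≤
      4 * V * (val (Fin.last K) - val 0) / w (Fin.last K) * (t' - t) ^ 2 := by
  have := atomic_prob (w := w) val (fun k => (hw k).le) hs
  have hsupp := supp hv hw hs
  have i1 := specT_integrable hsupp ht hq
  have i2 := specT_integrable hsupp ht' hq
  have i3 := phiT_deficit_integrable hv hw hs ht ht1 hq
  unfold specT ET
  set C := 8 * V * (val (Fin.last K) - val 0) / w (Fin.last K) * (t' - t) ^ 2 with hC
  have e1 : ((1 / 2) * ∫ r in Ioo (0:ℝ) 1, t' * rTransform (atomic w val) (val (Fin.last K))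
        (t' * deficit q r)) - ((1 / 2) * ∫ r in Ioo (0:ℝ) 1,
          t * rTransform (atomic w val) (val (Fin.last K)) (t * deficit q r)) -
      (t' - t) * ((1 / 2) * ∫ r in Ioo (0:ℝ) 1, phiT w val t (deficit q r)) =
      (1 / 2) * ∫ r in Ioo (0:ℝ) 1, ((t' * RR w val (t' * deficit q r) -
        t * RR w val (t * deficit q r)) - (t' - t) * phiT w val t (deficit q r)) := by
    have e2 : ∫ r in Ioo (0:ℝ) 1, ((t' * RR w val (t' * deficit q r) -
        t * RR w val (t * deficit q r)) - (t' - t) * phiT w val t (deficit q r)) =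
        (∫ r in Ioo (0:ℝ) 1, (t' * RR w val (t' * deficit q r) -
        t * RR w val (t * deficit q r))) - ∫ r in Ioo (0:ℝ) 1,
          (t' - t) * phiT w val t (deficit q r) :=
      integral_sub (i2.sub i1) (i3.const_mul _)
    have e3 : ∫ r in Ioo (0:ℝ) 1, (t' * RR w val (t' * deficit q r) -
        t * RR w val (t * deficit q r)) = (∫ r in Ioo (0:ℝ) 1, t' * RR w val (t' * deficit q r)) -
        ∫ r in Ioo (0:ℝ) 1, t * RR w val (t * deficit q r) := integral_sub i2 i1
    rw [e2, e3, integral_const_mul (t' - t) (fun r => phiT w val t (deficit q r))]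
    unfold RR
    ring
  rw [e1, abs_mul, abs_of_pos (by norm_num : (0:ℝ) < 1 / 2)]
  have h2 : ‖∫ r in Ioo (0:ℝ) 1, ((t' * RR w val (t' * deficit q r) -
        t * RR w val (t * deficit q r)) - (t' - t) * phiT w val t (deficit q r))‖ ≤
      C * (volume (Ioo (0:ℝ) 1)).toReal := by
    apply norm_setIntegral_le_of_norm_le_const_ae' (by simp)
    filter_upwards with r hr
    rw [Real.norm_eq_abs]
    have hd := deficit_mem hq hr
    exact tR_quad hv hw hs hV ht ht' hd.1 (hd.2.trans (by linarith [hr.1]))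
  rw [Real.norm_eq_abs, Real.volume_Ioo] at h2
  simp only [sub_zero, ENNReal.toReal_ofReal zero_le_one, mul_one] at h2
  rw [hC] at h2
  calc 1 / 2 * _ ≤ 1 / 2 * (8 * V * (val (Fin.last K) - val 0) / w (Fin.last K) *
        (t' - t) ^ 2) := mul_le_mul_of_nonneg_left h2 (by norm_num)
    _ = _ := by ring

/-- `E_t` of a step path in terms of `Γhat`. -/
theorem ET_step {t : ℝ} (ht : 0 ≤ t) (ht1 : t ≤ 1) {M : ℕ} {m p : ℕ → ℝ}
    (h : StepD (M + 1) m p) :
    ET w val t (pathOf M m p) =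
      (1 / 2) * ∑ k, w k * (val k * Ghat w (gap val t) (M + 1) m p k (M + 1)) := by
  unfold ET phiT
  congr 1
  have hint : ∀ k, IntegrableOn (fun r => ww w (gap val t)
      (tau w (gap val t) (deficit (pathOf M m p) r))
      (tau w (gap val t) (deficit (pathOf M m p) r)) k) (Ioo (0:ℝ) 1) := by
    intro k
    have hc : ContinuousOn (fun r => ww w (gap val t)
      (tau w (gap val t) (deficit (pathOf M m p) r))
      (tau w (gap val t) (deficit (pathOf M m p) r)) k) (Iic 1) := by
      refine (ww_diag_continuousOn hw hs (gap_nonneg hv ht) (gap_last t)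
        (gap_le hv ht ht1) k).comp
        (deficit_cont_step (wdOf_pos h) (wdOf_sum h)).continuousOn fun r hr => ?_
      exact deficit_nonneg_step (wdOf_pos h) (wdOf_sum h) (pOf_le_one h) hr
    have h1 : IntegrableOn (fun r => ww w (gap val t)
      (tau w (gap val t) (deficit (pathOf M m p) r))
      (tau w (gap val t) (deficit (pathOf M m p) r)) k) (Icc (0:ℝ) 1) :=
      (hc.mono (fun z hz => hz.2)).integrableOn_compact isCompact_Icc
    exact h1.mono_set Ioo_subset_Icc_self
  rw [integral_finset_sum]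
  · apply Finset.sum_congr rfl
    intro k _
    rw [integral_const_mul, integral_const_mul]
    congr 2
    exact (ghat_integral (k0 := Fin.last K) h hw hs (gap_nonneg hv ht) (gap_last t)
      (gap_le hv ht ht1) k).symm
  · intro k _
    exact ((hint k).const_mul _).const_mul _

end one

/-- **Energy identity** from the approximate relations: `½ ∑ w_k λ_k Γ^k_n ≈ ∂_t G_t(p)`. -/
theorem energy_close (hv : StrictMono val) (hw : ∀ k, 0 < w k) (hs : ∑ k, w k = 1)
    {V : ℝ} (hV : ∀ k, |val k| ≤ V) {A : ℝ} (hA : ∀ k, 2 / w k ≤ A)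
    {t : ℝ} (ht : 0 ≤ t) (ht1 : t ≤ 1) {M : ℕ} {m p : ℕ → ℝ} (h : StepD (M + 1) m p)
    {G : Fin (K + 1) → ℕ → ℝ} {ε : ℝ} (hε0 : 0 < ε) (hε : ε ≤ 1)
    (hR : Rel w (fun k => t * val k) (M + 1) m G p ε) :
    |(1 / 2) * ∑ k, w k * (val k * G k (M + 1)) - ET w val t (pathOf M m p)| ≤
      V * Rel.CC A (val (Fin.last K) - val 0) * Real.sqrt ε := by
  have hΔ0 : 0 ≤ val (Fin.last K) - val 0 := sub_nonneg.2 (hv.monotone (Fin.zero_le _))
  have hA' : Rel.Atoms w (fun k => t * val k) (Fin.last K) A (val (Fin.last K) - val 0) := by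
    refine ⟨hw, hs, fun k => mul_le_mul_of_nonneg_left (hv.monotone (Fin.le_last k)) ht, ?_, hA,
      hΔ0⟩
    intro k
    have := gap_le hv ht ht1 k
    unfold gap at this
    linarith
  have hgap : (fun k => (fun k => t * val k) (Fin.last K) - (fun k => t * val k) k) =
      gap val t := by
    funext k
    unfold gap
    ring
  have hclose := fun k => Rel.gamma_close hA' hR hε0 hε (le_refl (M + 1)) k
  simp only [hgap] at hclose
  rw [ET_step hv hw hs ht ht1 h, ← mul_sub, ← Finset.sum_sub_distrib, abs_mul,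
    abs_of_pos (by norm_num : (0:ℝ) < 1 / 2)]
  have hV0 : 0 ≤ V := (abs_nonneg _).trans (hV 0)
  set C := Rel.CC A (val (Fin.last K) - val 0) * Real.sqrt ε with hC
  have hC0 : 0 ≤ C := mul_nonneg (Rel.CC_nonneg hA'.A_nonneg hΔ0) (Real.sqrt_nonneg _)
  have h1 : |∑ k, (w k * (val k * G k (M + 1)) -
      w k * (val k * Ghat w (gap val t) (M + 1) m p k (M + 1)))| ≤ V * C := by
    refine (Finset.abs_sum_le_sum_abs _ _).trans ?_
    calc ∑ k, |w k * (val k * G k (M + 1)) -
          w k * (val k * Ghat w (gap val t) (M + 1) m p k (M + 1))|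
        ≤ ∑ k, w k * (V * C) := by
          apply Finset.sum_le_sum
          intro k _
          rw [← mul_sub, ← mul_sub, abs_mul, abs_mul, abs_of_pos (hw k)]
          apply mul_le_mul_of_nonneg_left _ (hw k).le
          exact mul_le_mul (hV k) (hclose k) (abs_nonneg _) hV0
      _ = V * C := by rw [← Finset.sum_mul, hs, one_mul]
  rw [mul_assoc]
  have h2 : 0 ≤ V * C := mul_nonneg hV0 hC0
  linarith

end

end Crest.Agent.R164.SDAlg
end

-- ▼ part R164/SDPath

/-!
Row 164: the spectral side in the form used by the U assembly (helper466's (S1)-(S4)):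
`th(y) = d/dy (y R(y))`, the derivative of `G_t(p)`, the energy identity and the monotonicity.
-/

set_option autoImplicit false

namespace Crest.Agent.R164.SDPath

open Finset Crest.Agent.R164.SDAlg

noncomputable section

open MeasureTheory Set Crest.ProbabilityR.InvariantGlass Crest.Agent.R164.PAlg
open Crest.Agent.R164.RTrans Crest.Agent.R164.Atomic Crest.Agent.R164.RScale

variable {K : ℕ} (w val : Fin (K + 1) → ℝ)

/-- `th(y) = d/dy (y R(y))`. -/
def th (y : ℝ) : ℝ := phiT w val 1 y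

variable {w val}
variable (hv : StrictMono val) (hw : ∀ k, 0 < w k) (hs : ∑ k, w k = 1)

include hv hw in
/-- scaling of `τ`. -/
theorem tau_scale {t : ℝ} (ht : 0 ≤ t) {x : ℝ} (hx : 0 ≤ x) :
    tau w (gap val 1) (t * x) = t * tau w (gap val t) x := by
  have hτ := tau_nonneg w (gap val t) x
  apply tau_unique hw (gap_nonneg hv zero_le_one) (gap_last 1) (mul_nonneg ht hτ)
  have h1 := ss_tau hw (gap_nonneg hv ht) (gap_last t) hx
  have h2 : ∀ τ : ℝ, ss w (gap val 1) (t * τ) = t * ss w (gap val t) τ := by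
    intro τ
    unfold ss FF ee gap
    rw [Finset.mul_sum]
    apply Finset.sum_congr rfl
    intro k _
    have e : 1 + t * τ * (1 * (val (Fin.last K) - val k)) =
        1 + τ * (t * (val (Fin.last K) - val k)) := by ring
    rw [e]
    ring
  rw [h2, h1]

include hv hw in
/-- `φ_t(x) = th(t x)`. -/
theorem phiT_eq {t : ℝ} (ht : 0 ≤ t) {x : ℝ} (hx : 0 ≤ x) :
    phiT w val t x = th w val (t * x) := by
  unfold th phiT
  rw [tau_scale hv hw ht hx]
  apply Finset.sum_congr rfl
  intro k _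
  congr 2
  have he : ∀ l, ee (gap val t) (tau w (gap val t) x) l =
      ee (gap val 1) (t * tau w (gap val t) x) l := by
    intro l
    unfold ee gap
    congr 1
    ring
  unfold ww qq
  simp only [he]

include hv hw hs

/-- (S1) monotone. -/
theorem th_mono {x y : ℝ} (hx : 0 ≤ x) (hxy : x ≤ y) (hy : y ≤ 1) :
    th w val x ≤ th w val y := by
  have := atomic_prob (w := w) val (fun k => (hw k).le) hs
  obtain ⟨V, hV⟩ : ∃ V : ℝ, ∀ k, |val k| ≤ V :=
    ⟨∑ k, |val k|, fun k => Finset.single_le_sum (f := fun k => |val k|)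
      (fun _ _ => abs_nonneg _) (Finset.mem_univ k)⟩
  set C := 8 * V * (val (Fin.last K) - val 0) / w (Fin.last K) with hC
  apply le_of_forall_pos_le_add
  intro ε hε
  have hV0 : 0 ≤ V := (abs_nonneg _).trans (hV 0)
  have hΔ0 : 0 ≤ val (Fin.last K) - val 0 := sub_nonneg.2 (hv.monotone (Fin.zero_le _))
  have hC0 : 0 ≤ C := by
    rw [hC]
    have := (hw (Fin.last K)).le
    positivity
  obtain ⟨s, hs0, hs1⟩ : ∃ s : ℝ, 0 < s ∧ 2 * C * s ≤ ε := by
    refine ⟨ε / (2 * C + 1), by positivity, ?_⟩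
    rw [mul_div_assoc', div_le_iff₀ (by positivity)]
    nlinarith
  have q1 := tR_quad hv hw hs hV (t := 1) (t' := 1 + s) zero_le_one (by linarith) hx
    (hxy.trans hy)
  have q2 := tR_quad hv hw hs hV (t := 1) (t' := 1 + s) zero_le_one (by linarith)
    (hx.trans hxy) hy
  have hmono := rT_incr_mono (supp hv hw hs) (s := 1) (t := 1 + s) zero_le_one
    (by linarith) hx hxy
  unfold th
  have e1 : (1 + s - 1 : ℝ) = s := by ring
  rw [e1, ← hC] at q1 q2
  have a1 := (abs_le.1 q1).1
  have a2 := (abs_le.1 q2).2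
  have hm : (1 + s) * RR w val ((1 + s) * x) - 1 * RR w val (1 * x) ≤
      (1 + s) * RR w val ((1 + s) * y) - 1 * RR w val (1 * y) := hmono
  have h3 : s * phiT w val 1 x ≤ s * (phiT w val 1 y + 2 * C * s) := by nlinarith
  have h4 := le_of_mul_le_mul_left h3 hs0
  linarith

/-- the Lipschitz constant of `th`. -/
theorem th_lip : ∃ C : ℝ, 0 ≤ C ∧ ∀ x y : ℝ, 0 ≤ x → x ≤ 1 → 0 ≤ y → y ≤ 1 →
    |th w val x - th w val y| ≤ C * |x - y| := by
  obtain ⟨V, hV⟩ : ∃ V : ℝ, ∀ k, |val k| ≤ V :=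
    ⟨∑ k, |val k|, fun k => Finset.single_le_sum (f := fun k => |val k|)
      (fun _ _ => abs_nonneg _) (Finset.mem_univ k)⟩
  have hV0 : 0 ≤ V := (abs_nonneg _).trans (hV 0)
  set Δ := val (Fin.last K) - val 0 with hΔ
  have hΔ0 : 0 ≤ Δ := sub_nonneg.2 (hv.monotone (Fin.zero_le _))
  set T := 1 / w (Fin.last K) with hT
  have hT0 : 0 ≤ T := by rw [hT]; have := (hw (Fin.last K)).le; positivity
  have hc := c0_pos hT0 hΔ0
  have hg0 := gap_nonneg hv (zero_le_one : (0:ℝ) ≤ 1)
  have hgΔ : ∀ k, gap val 1 k ≤ Δ := gap_le hv zero_le_one le_rfl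
  refine ⟨V * (2 * Δ / (c0 T Δ) ^ 2 * 2 / c0 T Δ), by positivity, ?_⟩
  intro x y hx hx1 hy hy1
  have hτT : ∀ z, 0 ≤ z → z ≤ 1 → tau w (gap val 1) z ≤ T := fun z hz hz1 =>
    (tau_le hw hg0 (gap_last 1) hz).trans
      (div_le_div_of_nonneg_right hz1 (hw (Fin.last K)).le)
  have hτ := tau_lip hw hs hg0 (gap_last 1) hgΔ (X := 1) hy hx hy1 hx1
  rw [← hT] at hτ
  unfold th phiT
  rw [← Finset.sum_sub_distrib]
  refine (Finset.abs_sum_le_sum_abs _ _).trans ?_
  calc ∑ k, |w k * (val k * ww w (gap val 1) (tau w (gap val 1) x) (tau w (gap val 1) x) k) -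
        w k * (val k * ww w (gap val 1) (tau w (gap val 1) y) (tau w (gap val 1) y) k)|
      ≤ ∑ k, w k * (V * (2 * Δ / (c0 T Δ) ^ 2 * 2 / c0 T Δ) * |x - y|) := by
        apply Finset.sum_le_sum
        intro k _
        rw [← mul_sub, ← mul_sub, abs_mul, abs_mul, abs_of_pos (hw k)]
        apply mul_le_mul_of_nonneg_left _ (hw k).le
        have h1 := ww_lip hw hs hg0 hgΔ hΔ0 (tau_nonneg w (gap val 1) x)
          (tau_nonneg w (gap val 1) x) (tau_nonneg w (gap val 1) y)
          (tau_nonneg w (gap val 1) y) (hτT x hx hx1) (hτT x hx hx1) (hτT y hy hy1)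
          (hτT y hy hy1) k
        have h2 : 2 * Δ / (c0 T Δ) ^ 2 *
            (|tau w (gap val 1) x - tau w (gap val 1) y| +
              |tau w (gap val 1) x - tau w (gap val 1) y|) ≤
            2 * Δ / (c0 T Δ) ^ 2 * (|x - y| / c0 T Δ + |x - y| / c0 T Δ) :=
          mul_le_mul_of_nonneg_left (add_le_add hτ hτ) (by positivity)
        calc |val k| * _ ≤ V * (2 * Δ / (c0 T Δ) ^ 2 * (|x - y| / c0 T Δ + |x - y| / c0 T Δ)) :=
              mul_le_mul (hV k) (h1.trans h2) (abs_nonneg _) hV0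
          _ = _ := by ring
    _ = _ := by rw [← Finset.sum_mul, hs, one_mul]

/-- (S2) derivative of `G_t(p)` in `t`. -/
theorem specT_hasDerivAt {t : ℝ} (ht : 0 < t) (ht1 : t ≤ 1) {q : ℝ → ℝ} (hq : IsTrialPath q) :
    HasDerivAt (fun t => specT (atomic w val) (val (Fin.last K)) t q)
      ((1 / 2) * ∫ r in Ioo (0:ℝ) 1, th w val (t * deficit q r)) t := by
  obtain ⟨V, hV⟩ : ∃ V : ℝ, ∀ k, |val k| ≤ V :=
    ⟨∑ k, |val k|, fun k => Finset.single_le_sum (f := fun k => |val k|)
      (fun _ _ => abs_nonneg _) (Finset.mem_univ k)⟩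
  have hE : (1 / 2) * ∫ r in Ioo (0:ℝ) 1, th w val (t * deficit q r) = ET w val t q := by
    unfold ET
    congr 1
    refine setIntegral_congr_fun measurableSet_Ioo ?_
    intro r hr
    exact (phiT_eq hv hw ht.le (deficit_mem hq hr).1).symm
  rw [hE]
  set f := fun t => specT (atomic w val) (val (Fin.last K)) t q with hf
  set C := 4 * V * (val (Fin.last K) - val 0) / w (Fin.last K) with hC
  rw [hasDerivAt_iff_isLittleO, Asymptotics.isLittleO_iff]
  intro ε hε
  have h1 : ∀ᶠ t' in nhds t, 0 < t' := Ioi_mem_nhds ht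
  have h2 : ∀ᶠ t' in nhds t, |t' - t| < ε / (|C| + 1) := by
    have : Metric.ball t (ε / (|C| + 1)) ∈ nhds t := Metric.ball_mem_nhds t (by positivity)
    filter_upwards [this] with t' ht'
    rwa [Metric.mem_ball, Real.dist_eq] at ht'
  filter_upwards [h1, h2] with t' ht' ht2
  have hq' := specT_quad hv hw hs hV ht.le ht1 ht'.le hq
  rw [← hC] at hq'
  rw [Real.norm_eq_abs, Real.norm_eq_abs]
  have e1 : f t' - f t - (t' - t) • ET w val t q = (f t' - f t) - (t' - t) * ET w val t q := by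
    rw [smul_eq_mul]
  rw [e1]
  refine hq'.trans ?_
  have h3 : C * (t' - t) ^ 2 ≤ |C| * |t' - t| * |t' - t| := by
    have := le_abs_self C
    have h4 : (t' - t) ^ 2 = |t' - t| * |t' - t| := by rw [← sq_abs, sq]
    rw [h4]
    have h5 : 0 ≤ |t' - t| * |t' - t| := by positivity
    nlinarith
  refine h3.trans ?_
  apply mul_le_mul_of_nonneg_right _ (abs_nonneg _)
  have h6 : |C| * |t' - t| ≤ (|C| + 1) * (ε / (|C| + 1)) :=
    mul_le_mul (by linarith) ht2.le (abs_nonneg _) (by positivity)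
  rwa [mul_div_cancel₀ _ (by positivity)] at h6

/-- (S2) continuity of `t ↦ G_t(p)` on `[0,1]`. -/
theorem specT_continuousOn {q : ℝ → ℝ} (hq : IsTrialPath q) :
    ContinuousOn (fun t => specT (atomic w val) (val (Fin.last K)) t q) (Icc 0 1) := by
  obtain ⟨V, hV⟩ : ∃ V : ℝ, ∀ k, |val k| ≤ V :=
    ⟨∑ k, |val k|, fun k => Finset.single_le_sum (f := fun k => |val k|)
      (fun _ _ => abs_nonneg _) (Finset.mem_univ k)⟩
  set C := 4 * V * (val (Fin.last K) - val 0) / w (Fin.last K) with hC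
  intro t ht
  rw [Metric.continuousWithinAt_iff]
  intro ε hε
  set B := |C| + |ET w val t q| + 1 with hB
  have hB0 : 0 < B := by positivity
  refine ⟨min 1 (ε / B), by positivity, fun t' ht' hd => ?_⟩
  rw [Real.dist_eq] at hd ⊢
  have hd1 : |t' - t| < 1 := lt_of_lt_of_le hd (min_le_left _ _)
  have hd2 : |t' - t| < ε / B := lt_of_lt_of_le hd (min_le_right _ _)
  have hq' := specT_quad hv hw hs hV ht.1 ht.2 ht'.1 hq
  rw [← hC] at hq'
  have h1 : C * (t' - t) ^ 2 ≤ |C| * |t' - t| := by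
    have h4 : (t' - t) ^ 2 = |t' - t| * |t' - t| := by rw [← sq_abs, sq]
    have h5 : |t' - t| * |t' - t| ≤ |t' - t| := by nlinarith [abs_nonneg (t' - t)]
    rw [h4]
    calc C * (|t' - t| * |t' - t|) ≤ |C| * (|t' - t| * |t' - t|) :=
          mul_le_mul_of_nonneg_right (le_abs_self C) (by positivity)
      _ ≤ |C| * |t' - t| := mul_le_mul_of_nonneg_left h5 (abs_nonneg _)
  have h2 := abs_sub_abs_le_abs_sub
    (specT (atomic w val) (val (Fin.last K)) t' q - specT (atomic w val) (val (Fin.last K)) t q)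
    ((t' - t) * ET w val t q)
  rw [abs_mul] at h2
  have h3 : |specT (atomic w val) (val (Fin.last K)) t' q -
      specT (atomic w val) (val (Fin.last K)) t q| ≤ B * |t' - t| := by
    rw [hB]
    nlinarith [abs_nonneg (t' - t)]
  refine lt_of_le_of_lt h3 ?_
  rwa [lt_div_iff₀ hB0, mul_comm] at hd2

/-- (S3) the energy identity. -/
theorem energy_path {V : ℝ} (hV : ∀ k, |val k| ≤ V) {A : ℝ} (hA : ∀ k, 2 / w k ≤ A)
    {t : ℝ} (ht : 0 ≤ t) (ht1 : t ≤ 1) {M : ℕ} {m p : ℕ → ℝ} (h : StepD (M + 1) m p)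
    {G : Fin (K + 1) → ℕ → ℝ} {ε : ℝ} (hε0 : 0 < ε) (hε : ε ≤ 1)
    (hR : SDAlg.Rel w (fun k => t * val k) (M + 1) m G p ε) :
    |(1 / 2) * ∑ k, w k * (val k * G k (M + 1)) -
      (1 / 2) * ∫ r in Ioo (0:ℝ) 1, th w val (t * deficit (pathOf M m p) r)| ≤
      V * SDAlg.Rel.CC A (val (Fin.last K) - val 0) * Real.sqrt ε := by
  have h1 := energy_close hv hw hs hV hA ht ht1 h hε0 hε hR
  have hE : (1 / 2) * ∫ r in Ioo (0:ℝ) 1, th w val (t * deficit (pathOf M m p) r) =
      ET w val t (pathOf M m p) := by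
    unfold ET
    congr 1
    refine setIntegral_congr_fun measurableSet_Ioo ?_
    intro r hr
    exact (phiT_eq hv hw ht
      (deficit_nonneg_step (wdOf_pos h) (wdOf_sum h) (pOf_le_one h) hr.2.le)).symm
  rw [hE]
  exact h1

/-- integrability. -/
theorem th_deficit_integrable {t : ℝ} (ht : 0 ≤ t) (ht1 : t ≤ 1) {q : ℝ → ℝ}
    (hq : IsTrialPath q) :
    IntegrableOn (fun r => th w val (t * deficit q r)) (Ioo (0:ℝ) 1) := by
  refine (phiT_deficit_integrable hv hw hs ht ht1 hq).congr_fun ?_ measurableSet_Ioo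
  intro r hr
  exact phiT_eq hv hw ht (deficit_mem hq hr).1

/-- (S4) monotonicity in the deficit. -/
theorem th_int_mono {C : ℝ} (hC0 : 0 ≤ C)
    (hC : ∀ x y : ℝ, 0 ≤ x → x ≤ 1 → 0 ≤ y → y ≤ 1 → |th w val x - th w val y| ≤ C * |x - y|)
    {t : ℝ} (ht : 0 ≤ t) (ht1 : t ≤ 1) {p q : ℝ → ℝ} (hp : IsTrialPath p) (hq : IsTrialPath q)
    {δ : ℝ} (hδ : 0 ≤ δ) (hd : ∀ r ∈ Ioo (0:ℝ) 1, deficit q r ≤ deficit p r + δ) :
    (1 / 2) * ∫ r in Ioo (0:ℝ) 1, th w val (t * deficit q r) ≤
      (1 / 2) * ∫ r in Ioo (0:ℝ) 1, th w val (t * deficit p r) + C * δ := by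
  have i1 := th_deficit_integrable hv hw hs ht ht1 hq
  have i2 := th_deficit_integrable hv hw hs ht ht1 hp
  have h1 : ∀ r ∈ Ioo (0:ℝ) 1, th w val (t * deficit q r) ≤
      th w val (t * deficit p r) + C * δ := by
    intro r hr
    have hq1 := deficit_mem hq hr
    have hp1 := deficit_mem hp hr
    have hq2 : deficit q r ≤ 1 := hq1.2.trans (by linarith [hr.1])
    have hp2 : deficit p r ≤ 1 := hp1.2.trans (by linarith [hr.1])
    set y := min (t * (deficit p r + δ)) 1 with hy
    have htp0 : 0 ≤ t * deficit p r := mul_nonneg ht hp1.1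
    have htp1 : t * deficit p r ≤ 1 := by nlinarith
    have htq0 : 0 ≤ t * deficit q r := mul_nonneg ht hq1.1
    have htq1 : t * deficit q r ≤ 1 := by nlinarith
    have hy0 : 0 ≤ y := le_min (mul_nonneg ht (by linarith [hp1.1])) zero_le_one
    have hy1 : y ≤ 1 := min_le_right _ _
    have hqy : t * deficit q r ≤ y := le_min (mul_le_mul_of_nonneg_left (hd r hr) ht) htq1
    have hpy : t * deficit p r ≤ y :=
      le_min (mul_le_mul_of_nonneg_left (by linarith) ht) htp1
    have hyd : y - t * deficit p r ≤ δ := by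
      have : y ≤ t * (deficit p r + δ) := min_le_left _ _
      nlinarith
    have e1 := th_mono hv hw hs htq0 hqy hy1
    have e2 := hC y (t * deficit p r) hy0 hy1 htp0 htp1
    rw [abs_of_nonneg (sub_nonneg.2 hpy)] at e2
    have e3 := (abs_le.1 e2).2
    have e4 := mul_le_mul_of_nonneg_left hyd hC0
    linarith
  have h2 : ∫ r in Ioo (0:ℝ) 1, th w val (t * deficit q r) ≤
      ∫ r in Ioo (0:ℝ) 1, (th w val (t * deficit p r) + C * δ) :=
    setIntegral_mono_on i1 (i2.add (integrable_const _)) measurableSet_Ioo h1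
  have h3 : ∫ r in Ioo (0:ℝ) 1, (th w val (t * deficit p r) + C * δ) =
      (∫ r in Ioo (0:ℝ) 1, th w val (t * deficit p r)) + C * δ := by
    rw [integral_add i2 (integrable_const _)]
    simp
  rw [h3] at h2
  have h4 : 0 ≤ C * δ := mul_nonneg hC0 hδ
  linarith

end

end Crest.Agent.R164.SDPath
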