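import Crest.Agent.R141.Psd

-- ▼ part R164/Resp
section

/-!
Row 164: response calculus for the hierarchical functional `A` of `R141.HierA`.

For a differentiable family `U ε` of log-weights with derivative `V`:
* `∂ A_k[U] = E^{P^U}_k V`;
* `∂ log P^U = ∑_{l>0} x_l D_l V`;
* `∂ E^{P^U}[f] = E^{P^U}[∂f] + E^{P^U}[f ∑_l x_l D_l V] = E[∂f] + E[Y_0(f,V)]`;
* `∂ E^{P^U}_k[f] = E^{P^U}_k[∂f] + Y_k(f,V)`.
-/

set_option autoImplicit false

namespace Crest.Agent.R164.Resp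

open Finset Crest.Agent.R141

noncomputable section

variable {Ω : Type*} [Fintype Ω] {P : Ω → ℝ} {𝓕 : Filt Ω} {x : ℕ → ℝ}

/-- conditional expectations are differentiable in the integrand -/
theorem hasDerivAt_cE {f : ℝ → Ω → ℝ} {f' : Ω → ℝ} {e : ℝ} (P : Ω → ℝ) (r : Setoid Ω) (ω : Ω)
    (h : ∀ a, r ω a → HasDerivAt (fun t => f t a) (f' a) e) :
    HasDerivAt (fun t => cE P r (f t) ω) (cE P r f' ω) e := by
  classical
  unfold cE
  refine HasDerivAt.div_const ?_ _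
  refine HasDerivAt.fun_sum fun i hi => ?_
  exact (h i (by simpa using hi)).const_mul _

/-- finite expectations are differentiable in weights and integrand -/
theorem hasDerivAt_eE {p : ℝ → Ω → ℝ} {p' : Ω → ℝ} {f : ℝ → Ω → ℝ} {f' : Ω → ℝ} {e : ℝ}
    (hp : ∀ a, HasDerivAt (fun t => p t a) (p' a) e)
    (h : ∀ a, HasDerivAt (fun t => f t a) (f' a) e) :
    HasDerivAt (fun t => eE (p t) (f t)) (eE p' (f e) + eE (p e) f') e := by
  unfold eE
  rw [← Finset.sum_add_distrib]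
  exact HasDerivAt.fun_sum fun i _ => (hp i).mul (h i)

/-- derivative of the log power mean -/
theorem hasDerivAt_pm (hP : IsProb P) {r : Setoid Ω} {y : ℝ} (hy : 0 < y) {f : ℝ → Ω → ℝ}
    {f' : Ω → ℝ} {e : ℝ} (ω : Ω) (h : ∀ a, r ω a → HasDerivAt (fun t => f t a) (f' a) e) :
    HasDerivAt (fun t => pm P r y (f t) ω)
      (cE P r (fun a => Real.exp (y * (f e a - pm P r y (f e) ω)) * f' a) ω) e := by
  have hpos : 0 < cE P r (fun a => Real.exp (y * f e a)) ω := cE_pos hP (fun _ => Real.exp_pos _) ω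
  have h1 : HasDerivAt (fun t => cE P r (fun a => Real.exp (y * f t a)) ω)
      (cE P r (fun a => Real.exp (y * f e a) * (y * f' a)) ω) e :=
    hasDerivAt_cE P r ω fun a ha => (((h a ha).const_mul y).exp)
  have h2 := (h1.log hpos.ne').const_mul (1 / y)
  unfold pm at h2 ⊢
  refine h2.congr_deriv ?_
  have e1 : (fun a => Real.exp (y * f e a) * (y * f' a)) =
      fun a => y * (Real.exp (y * f e a) * f' a) := by funext a; ring
  rw [e1, cE_smul]
  have e2 : (fun a => Real.exp (y * (f e a - 1 / y *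
      Real.log (cE P r (fun a => Real.exp (y * f e a)) ω))) * f' a) = fun a =>
      (cE P r (fun a => Real.exp (y * f e a)) ω)⁻¹ * (Real.exp (y * f e a) * f' a) := by
    funext a
    have : y * (f e a - 1 / y * Real.log (cE P r (fun a => Real.exp (y * f e a)) ω)) =
        y * f e a - Real.log (cE P r (fun a => Real.exp (y * f e a)) ω) := by
      field_simp
    rw [this, Real.exp_sub, Real.exp_log hpos]
    field_simp
  rw [e2, cE_smul]
  field_simp

/-- **Derivative of `A_k`**: `∂ A_k[U] = E^{P^U}_k V`. -/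
theorem hasDerivAt_A (hP : IsProb P) (hx : ∀ k, 0 < x k) {U : ℝ → Ω → ℝ} {V : Ω → ℝ} {e : ℝ}
    (h : ∀ a, HasDerivAt (fun t => U t a) (V a) e) (k : ℕ) :
    ∀ ω, HasDerivAt (fun t => A P 𝓕 x (U t) k ω) (cE (tl P 𝓕 x (U e)) (𝓕.F k) V ω) e := by
  have hQ := tl_isProb (𝓕 := 𝓕) hP hx (U e)
  refine back_induction 𝓕 (Q := fun k => ∀ ω, HasDerivAt (fun t => A P 𝓕 x (U t) k ω)
    (cE (tl P 𝓕 x (U e)) (𝓕.F k) V ω) e) ?_ ?_ k
  · intro k hk ω
    simp only [A_of_ge _ hk]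
    rw [cE_of_meas hQ (rmeas_of_ge hk V)]
    exact h ω
  · intro k ih ω
    have hf : (fun t => A P 𝓕 x (U t) k ω) = fun t => pm P (𝓕.F k) (x (k + 1))
        (A P 𝓕 x (U t) (k + 1)) ω := by
      funext t; rw [A_step hP hx (U t) k]
    rw [hf]
    refine (hasDerivAt_pm hP (hx (k + 1)) ω (fun a _ => ih a)).congr_deriv ?_
    rw [← A_step hP hx (U e) k]
    have hmeas : RMeas (𝓕.F (k + 1)) (cE (tl P 𝓕 x (U e)) (𝓕.F (k + 1)) V) := cE_meas _ _ _
    have h2 := cE_tl_meas hP hx (U e) (Nat.le_succ k) hmeas ω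
    rw [cE_tower hQ (𝓕.anti k)] at h2
    rw [h2]
    refine cE_congr ω fun a ha => ?_
    rw [S_succ (U e) le_rfl, S_self, A_meas hP hx (U e) k _ _ ha]
    simp

/-- derivative of the path sum. -/
theorem hasDerivAt_S (hP : IsProb P) (hx : ∀ k, 0 < x k) {U : ℝ → Ω → ℝ} {V : Ω → ℝ} {e : ℝ}
    (h : ∀ a, HasDerivAt (fun t => U t a) (V a) e) (k m : ℕ) (ω : Ω) :
    HasDerivAt (fun t => S P 𝓕 x (U t) k m ω)
      (∑ l ∈ Ioc k m, x l * Dl (tl P 𝓕 x (U e)) 𝓕.F l V ω) e := by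
  unfold S
  have e1 : ∑ l ∈ Ioc k m, x l * Dl (tl P 𝓕 x (U e)) 𝓕.F l V ω =
      ∑ l ∈ Ico k m, x (l + 1) * (cE (tl P 𝓕 x (U e)) (𝓕.F (l + 1)) V ω -
        cE (tl P 𝓕 x (U e)) (𝓕.F l) V ω) := by
    rw [← Finset.Ico_add_one_add_one_eq_Ioc, ← Finset.sum_Ico_add' (fun l => x l *
      Dl (tl P 𝓕 x (U e)) 𝓕.F l V ω) k m 1]
    rfl
  rw [e1]
  exact HasDerivAt.fun_sum fun l _ =>
    ((hasDerivAt_A hP hx h (l + 1) ω).sub (hasDerivAt_A hP hx h l ω)).const_mul _

/-- the score `∑_{k<l≤L} x_l D_l V` under the law `Q`. -/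
def score (Q : Ω → ℝ) (𝓕 : Filt Ω) (x : ℕ → ℝ) (k : ℕ) (V : Ω → ℝ) (ω : Ω) : ℝ :=
  ∑ l ∈ Ioc k 𝓕.L, x l * Dl Q 𝓕.F l V ω

/-- derivative of the tilted weights. -/
theorem hasDerivAt_tl (hP : IsProb P) (hx : ∀ k, 0 < x k) {U : ℝ → Ω → ℝ} {V : Ω → ℝ} {e : ℝ}
    (h : ∀ a, HasDerivAt (fun t => U t a) (V a) e) (ω : Ω) :
    HasDerivAt (fun t => tl P 𝓕 x (U t) ω)
      (tl P 𝓕 x (U e) ω * score (tl P 𝓕 x (U e)) 𝓕 x 0 V ω) e := by
  unfold tl
  refine ((hasDerivAt_S (𝓕 := 𝓕) hP hx h 0 𝓕.L ω).exp.const_mul (P ω)).congr_deriv ?_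
  unfold score tl
  ring

/-- **Response formula** for expectations under the tilted law. -/
theorem hasDerivAt_eE_tl (hP : IsProb P) (hx : ∀ k, 0 < x k) {U : ℝ → Ω → ℝ} {V : Ω → ℝ} {e : ℝ}
    (h : ∀ a, HasDerivAt (fun t => U t a) (V a) e) {f : ℝ → Ω → ℝ} {f' : Ω → ℝ}
    (hf : ∀ a, HasDerivAt (fun t => f t a) (f' a) e) :
    HasDerivAt (fun t => eE (tl P 𝓕 x (U t)) (f t))
      (eE (tl P 𝓕 x (U e)) f' +
        eE (tl P 𝓕 x (U e)) (fun w => f e w * score (tl P 𝓕 x (U e)) 𝓕 x 0 V w)) e := by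
  refine (hasDerivAt_eE (fun a => hasDerivAt_tl (𝓕 := 𝓕) hP hx h a) hf).congr_deriv ?_
  unfold eE
  rw [add_comm]
  congr 1
  exact Finset.sum_congr rfl fun i _ => by ring

/-- **Response formula** for conditional expectations under the tilted law:
`∂ E^{P^U}_k[f] = E^{P^U}_k[∂f] + E^{P^U}_k[f ∑_{l>k} x_l D_l V]`. -/
theorem hasDerivAt_cE_tl (hP : IsProb P) (hx : ∀ k, 0 < x k) {U : ℝ → Ω → ℝ} {V : Ω → ℝ} {e : ℝ}
    (h : ∀ a, HasDerivAt (fun t => U t a) (V a) e) {f : ℝ → Ω → ℝ} {f' : Ω → ℝ}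
    (hf : ∀ a, HasDerivAt (fun t => f t a) (f' a) e) (k : ℕ) (ω : Ω) :
    HasDerivAt (fun t => cE (tl P 𝓕 x (U t)) (𝓕.F k) (f t) ω)
      (cE (tl P 𝓕 x (U e)) (𝓕.F k) f' ω +
        cE (tl P 𝓕 x (U e)) (𝓕.F k) (fun w => f e w * score (tl P 𝓕 x (U e)) 𝓕 x k V w) ω) e := by
  have e0 : (fun t => cE (tl P 𝓕 x (U t)) (𝓕.F k) (f t) ω) = fun t =>
      cE P (𝓕.F k) (fun w => Real.exp (S P 𝓕 x (U t) k 𝓕.L w) * f t w) ω := by
    funext t; exact cE_tl hP hx (U t) (f t) k ω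
  rw [e0]
  refine (hasDerivAt_cE P (𝓕.F k) ω fun a _ =>
    ((hasDerivAt_S (𝓕 := 𝓕) hP hx h k 𝓕.L a).exp.mul (hf a))).congr_deriv ?_
  rw [cE_tl hP hx, cE_tl hP hx, ← cE_add]
  refine cE_congr ω fun a _ => ?_
  unfold score
  ring

theorem cE_score_mul (hQ : IsProb P) (k : ℕ) (f V : Ω → ℝ) (ω : Ω) :
    cE P (𝓕.F k) (fun w => f w * score P 𝓕 x k V w) ω = Yf P 𝓕.F x 𝓕.L k f V ω :=
  (Yf_eq hQ 𝓕.antitone x 𝓕.L k f V ω).symm

/-- response formula in terms of the form `Y_k` -/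
theorem hasDerivAt_cE_tl' (hP : IsProb P) (hx : ∀ k, 0 < x k) {U : ℝ → Ω → ℝ} {V : Ω → ℝ}
    {e : ℝ} (h : ∀ a, HasDerivAt (fun t => U t a) (V a) e) {f : ℝ → Ω → ℝ} {f' : Ω → ℝ}
    (hf : ∀ a, HasDerivAt (fun t => f t a) (f' a) e) (k : ℕ) (ω : Ω) :
    HasDerivAt (fun t => cE (tl P 𝓕 x (U t)) (𝓕.F k) (f t) ω)
      (cE (tl P 𝓕 x (U e)) (𝓕.F k) f' ω +
        Yf (tl P 𝓕 x (U e)) 𝓕.F x 𝓕.L k (f e) V ω) e := by
  rw [← cE_score_mul (tl_isProb hP hx (U e))]
  exact hasDerivAt_cE_tl hP hx h hf k ω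

theorem eE_score_mul (hQ : IsProb P) (f V : Ω → ℝ) :
    eE P (fun w => f w * score P 𝓕 x 0 V w) = eE P (Yf P 𝓕.F x 𝓕.L 0 f V) := by
  rw [← eE_cE hQ (𝓕.F 0)]
  congr 1
  funext ω
  exact cE_score_mul hQ 0 f V ω


/-- derivative of `A` along a line `U + t V` -/
theorem hasDerivAt_A_line (hP : IsProb P) (hx : ∀ k, 0 < x k) (U V : Ω → ℝ) (e : ℝ) (k : ℕ)
    (ω : Ω) : HasDerivAt (fun t => A P 𝓕 x (fun w => U w + t * V w) k ω)
      (cE (tl P 𝓕 x (fun w => U w + e * V w)) (𝓕.F k) V ω) e := by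
  refine hasDerivAt_A hP hx (U := fun t w => U w + t * V w) (fun a => ?_) k ω
  simpa using ((hasDerivAt_id e).mul_const (V a)).const_add (U a)

/-- second derivative of `A` along a line: `Y_k(V,V)` under the tilted law -/
theorem hasDerivAt_A_line_two (hP : IsProb P) (hx : ∀ k, 0 < x k) (U V : Ω → ℝ) (e : ℝ) (k : ℕ)
    (ω : Ω) : HasDerivAt (fun t => cE (tl P 𝓕 x (fun w => U w + t * V w)) (𝓕.F k) V ω)
      (Yf (tl P 𝓕 x (fun w => U w + e * V w)) 𝓕.F x 𝓕.L k V V ω) e := by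
  have h0 : ∀ a, HasDerivAt (fun t => U a + t * V a) (V a) e := fun a => by
    simpa using ((hasDerivAt_id e).mul_const (V a)).const_add (U a)
  have := hasDerivAt_cE_tl' (𝓕 := 𝓕) hP hx (U := fun t w => U w + t * V w) h0
    (f := fun _ => V) (f' := fun _ => 0) (fun a => hasDerivAt_const e (V a)) k ω
  rwa [cE_const (tl_isProb hP hx _), zero_add] at this

end

end Crest.Agent.R164.Resp
end

-- ▼ part R164/Rot

/-!
Row 164: left-rotation Schwinger–Dyson identity.

`flow_zero`: for a measure invariant under a flow, the mean of the derivative of a bounded function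
along the flow vanishes. `sd_flow`: the same for `U ↦ E^{P_U}[F(U, ·)]`, `P_U` the law tilted by the
hierarchical functional with log-weights `H(U, ·)`. `rot k l φ`: rotation of the rows `k, l`.
-/

set_option autoImplicit false

namespace Crest.Agent.R164.Rot

open Finset MeasureTheory Crest.Agent.R141 Crest.Agent.R164.Resp

noncomputable section

/-! ### Mean of a derivative along a measure-preserving flow -/

theorem flow_zero {X : Type*} [MeasurableSpace X] (ν : Measure X) [IsProbabilityMeasure ν]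
    (T : ℝ → X → X) (hT : Measurable (Function.uncurry T)) (hT0 : ∀ u, T 0 u = u)
    (hinv : ∀ φ, ν.map (T φ) = ν) (K : Set X) (hK : ∀ᵐ u ∂ν, u ∈ K) (hTK : ∀ φ, ∀ u ∈ K, T φ u ∈ K)
    (f g : X → ℝ) (hf : Measurable f) (hg : Measurable g) (C : ℝ) (hfC : ∀ u ∈ K, |f u| ≤ C)
    (hgC : ∀ u ∈ K, |g u| ≤ C)
    (hder : ∀ u ∈ K, ∀ φ, HasDerivAt (fun φ => f (T φ u)) (g (T φ u)) φ) :
    ∫ u, g u ∂ν = 0 := by
  have hTm : ∀ φ, Measurable (T φ) := fun φ => hT.comp (measurable_const.prodMk measurable_id)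
  have hi : ∀ (h : X → ℝ), Measurable h → ∀ φ, ∫ u, h (T φ u) ∂ν = ∫ u, h u ∂ν := by
    intro h hh φ
    rw [← integral_map (hTm φ).aemeasurable hh.aestronglyMeasurable, hinv]
  -- fundamental theorem of calculus
  have hftc : ∀ u ∈ K, ∫ φ in (0:ℝ)..1, g (T φ u) = f (T 1 u) - f u := by
    intro u hu
    have h1 := intervalIntegral.integral_eq_sub_of_hasDerivAt (a := (0:ℝ)) (b := 1)
      (f := fun φ => f (T φ u)) (f' := fun φ => g (T φ u)) (fun φ _ => hder u hu φ) ?_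
    · rw [h1, hT0]
    · rw [intervalIntegrable_iff]
      refine Measure.integrableOn_of_bounded (M := C) (by simp) ?_ ?_
      · exact (hg.comp (hT.comp (measurable_id.prodMk measurable_const))).aestronglyMeasurable
      · exact Filter.Eventually.of_forall fun φ => by
          rw [Real.norm_eq_abs]; exact hgC _ (hTK φ u hu)
  -- Fubini
  have : IsFiniteMeasure (volume.restrict (Set.uIoc (0:ℝ) 1)) := ⟨by
    rw [Measure.restrict_apply_univ]; simp⟩
  have hprod : Integrable (Function.uncurry fun (φ : ℝ) (u : X) => g (T φ u))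
      ((volume.restrict (Set.uIoc (0:ℝ) 1)).prod ν) := by
    have hm : AEStronglyMeasurable (Function.uncurry fun (φ : ℝ) (u : X) => g (T φ u))
        ((volume.restrict (Set.uIoc (0:ℝ) 1)).prod ν) := (hg.comp hT).aestronglyMeasurable
    refine Integrable.mono' (integrable_const C) hm ?_
    have hKae : ∀ᵐ z ∂((volume.restrict (Set.uIoc (0:ℝ) 1)).prod ν), z.2 ∈ K := by
      exact Measure.quasiMeasurePreserving_snd.ae hK
    filter_upwards [hKae] with z hz
    rw [Real.norm_eq_abs]; exact hgC _ (hTK _ _ hz)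
  have hswap : ∫ u, (∫ φ in (0:ℝ)..1, g (T φ u)) ∂ν = ∫ φ in (0:ℝ)..1, (∫ u, g (T φ u) ∂ν) := by
    exact (intervalIntegral_integral_swap (f := fun φ u => g (T φ u)) hprod).symm
  have h1 : ∫ φ in (0:ℝ)..1, (∫ u, g (T φ u) ∂ν) = ∫ u, g u ∂ν := by
    have : ∀ φ, ∫ u, g (T φ u) ∂ν = ∫ u, g u ∂ν := fun φ => hi g hg φ
    simp only [this]
    simp
  have h2 : ∫ u, (∫ φ in (0:ℝ)..1, g (T φ u)) ∂ν = ∫ u, (f (T 1 u) - f u) ∂ν := by
    refine integral_congr_ae ?_
    filter_upwards [hK] with u hu using hftc u hu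
  have hfi : ∀ φ, Integrable (fun u => f (T φ u)) ν := by
    intro φ
    refine Integrable.mono' (integrable_const C) (hf.comp (hTm φ)).aestronglyMeasurable ?_
    filter_upwards [hK] with u hu
    rw [Real.norm_eq_abs]; exact hfC _ (hTK φ u hu)
  have hfi0 : Integrable f ν := by
    have := hfi 0
    simpa only [hT0] using this
  rw [h2, integral_sub (hfi 1) hfi0, hi f hf 1, sub_self] at hswap
  rw [← h1, ← hswap]

/-! ### Continuity of the hierarchical functional in parameters -/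

section cont

variable {X : Type*} [TopologicalSpace X] {Ω : Type*} [Fintype Ω] {P : Ω → ℝ} {𝓕 : Filt Ω}
  {x : ℕ → ℝ}

theorem continuous_cE {f : X → Ω → ℝ} (P : Ω → ℝ) (r : Setoid Ω) (ω : Ω)
    (h : ∀ a, Continuous fun u => f u a) : Continuous fun u => cE P r (f u) ω := by
  classical
  unfold cE
  refine Continuous.div_const ?_ _
  exact continuous_finsetSum _ fun i _ => continuous_const.mul (h i)

theorem continuous_pm (hP : IsProb P) {r : Setoid Ω} {y : ℝ} {f : X → Ω → ℝ} (ω : Ω)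
    (h : ∀ a, Continuous fun u => f u a) : Continuous fun u => pm P r y (f u) ω := by
  unfold pm
  refine continuous_const.mul (Continuous.log ?_ fun u => ?_)
  · exact continuous_cE P r ω fun a => Real.continuous_exp.comp (continuous_const.mul (h a))
  · exact (cE_pos hP (fun _ => Real.exp_pos _) ω).ne'

theorem continuous_A (hP : IsProb P) (hx : ∀ k, 0 < x k) {U : X → Ω → ℝ}
    (h : ∀ a, Continuous fun u => U u a) (k : ℕ) :
    ∀ ω, Continuous fun u => A P 𝓕 x (U u) k ω := by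
  refine back_induction 𝓕 (Q := fun k => ∀ ω, Continuous fun u => A P 𝓕 x (U u) k ω) ?_ ?_ k
  · intro k hk ω
    simp only [A_of_ge _ hk]; exact h ω
  · intro k ih ω
    have hf : (fun u => A P 𝓕 x (U u) k ω) = fun u => pm P (𝓕.F k) (x (k + 1))
        (A P 𝓕 x (U u) (k + 1)) ω := by
      funext u; rw [A_step hP hx (U u) k]
    rw [hf]; exact continuous_pm hP ω ih

theorem continuous_S (hP : IsProb P) (hx : ∀ k, 0 < x k) {U : X → Ω → ℝ}
    (h : ∀ a, Continuous fun u => U u a) (k m : ℕ) (ω : Ω) :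
    Continuous fun u => S P 𝓕 x (U u) k m ω := by
  unfold S
  exact continuous_finsetSum _ fun l _ => continuous_const.mul
    ((continuous_A hP hx h (l + 1) ω).sub (continuous_A hP hx h l ω))

theorem continuous_tl (hP : IsProb P) (hx : ∀ k, 0 < x k) {U : X → Ω → ℝ}
    (h : ∀ a, Continuous fun u => U u a) (ω : Ω) : Continuous fun u => tl P 𝓕 x (U u) ω := by
  unfold tl
  exact continuous_const.mul (Real.continuous_exp.comp (continuous_S hP hx h 0 𝓕.L ω))

theorem continuous_cE_tl (hP : IsProb P) (hx : ∀ k, 0 < x k) {U f : X → Ω → ℝ}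
    (h : ∀ a, Continuous fun u => U u a) (hf : ∀ a, Continuous fun u => f u a) (k : ℕ) (ω : Ω) :
    Continuous fun u => cE (tl P 𝓕 x (U u)) (𝓕.F k) (f u) ω := by
  have e0 : (fun u => cE (tl P 𝓕 x (U u)) (𝓕.F k) (f u) ω) = fun u =>
      cE P (𝓕.F k) (fun w => Real.exp (S P 𝓕 x (U u) k 𝓕.L w) * f u w) ω := by
    funext u; exact cE_tl hP hx (U u) (f u) k ω
  rw [e0]
  exact continuous_cE P _ ω fun a => (Real.continuous_exp.comp
    (continuous_S hP hx h k 𝓕.L a)).mul (hf a)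

theorem continuous_eE_tl (hP : IsProb P) (hx : ∀ k, 0 < x k) {U f : X → Ω → ℝ}
    (h : ∀ a, Continuous fun u => U u a) (hf : ∀ a, Continuous fun u => f u a) :
    Continuous fun u => eE (tl P 𝓕 x (U u)) (f u) := by
  unfold eE
  exact continuous_finsetSum _ fun i _ => (continuous_tl hP hx h i).mul (hf i)

theorem continuous_score (hP : IsProb P) (hx : ∀ k, 0 < x k) {U V : X → Ω → ℝ}
    (h : ∀ a, Continuous fun u => U u a) (hV : ∀ a, Continuous fun u => V u a) (k : ℕ) (ω : Ω) :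
    Continuous fun u => score (tl P 𝓕 x (U u)) 𝓕 x k (V u) ω := by
  unfold score Dl
  exact continuous_finsetSum _ fun l _ => continuous_const.mul
    ((continuous_cE_tl hP hx h hV l ω).sub (continuous_cE_tl hP hx h hV (l - 1) ω))

end cont

section bounds

variable {Ω : Type*} [Fintype Ω] {P : Ω → ℝ} {𝓕 : Filt Ω} {x : ℕ → ℝ}

theorem cE_abs_le (hP : IsProb P) (r : Setoid Ω) {f : Ω → ℝ} {C : ℝ} (h : ∀ a, |f a| ≤ C) (ω : Ω) :
    |cE P r f ω| ≤ C := by
  have h1 : cE P r f ω ≤ cE P r (fun _ => C) ω := cE_mono' hP (fun a => (abs_le.mp (h a)).2) ω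
  have h2 : cE P r (fun _ => -C) ω ≤ cE P r f ω := cE_mono' hP (fun a => (abs_le.mp (h a)).1) ω
  rw [cE_const hP] at h1 h2
  exact abs_le.mpr ⟨h2, h1⟩

theorem eE_abs_le (hP : IsProb P) {f : Ω → ℝ} {C : ℝ} (h : ∀ a, |f a| ≤ C) : |eE P f| ≤ C := by
  have h1 : eE P f ≤ C := eE_le_of_le hP fun a => (abs_le.mp (h a)).2
  have h2 : eE P (fun a => - f a) ≤ C := eE_le_of_le hP fun a => by
    have := (abs_le.mp (h a)).1; linarith
  have h3 : eE P (fun a => - f a) = - eE P f := by unfold eE; simp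
  rw [h3] at h2
  exact abs_le.mpr ⟨by linarith, h1⟩

theorem score_abs_le (hQ : IsProb P) (hx : IsExpo x) {V : Ω → ℝ} {C : ℝ} (hV : ∀ a, |V a| ≤ C)
    (k : ℕ) (ω : Ω) : |score P 𝓕 x k V ω| ≤ 2 * C * 𝓕.L := by
  have hC : 0 ≤ C := (abs_nonneg _).trans (hV ω)
  unfold score
  refine (Finset.abs_sum_le_sum_abs _ _).trans ?_
  have : ∀ l ∈ Ioc k 𝓕.L, |x l * Dl P 𝓕.F l V ω| ≤ 2 * C := by
    intro l _
    rw [abs_mul, abs_of_pos (hx.pos l)]
    have h1 : |Dl P 𝓕.F l V ω| ≤ 2 * C := by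
      unfold Dl
      have a := cE_abs_le hQ (𝓕.F l) hV ω
      have b := cE_abs_le hQ (𝓕.F (l - 1)) hV ω
      rw [abs_le] at a b ⊢
      constructor <;> linarith [a.1, a.2, b.1, b.2]
    calc x l * |Dl P 𝓕.F l V ω| ≤ 1 * (2 * C) :=
          mul_le_mul (hx.le_one l) h1 (abs_nonneg _) zero_le_one
      _ = 2 * C := one_mul _
  refine (Finset.sum_le_sum this).trans ?_
  rw [Finset.sum_const, nsmul_eq_mul]
  have : ((Ioc k 𝓕.L).card : ℝ) ≤ 𝓕.L := by
    rw [Nat.card_Ioc]; exact_mod_cast Nat.sub_le _ _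
  nlinarith

end bounds

/-! ### The Schwinger–Dyson identity for a flow -/

/-- **Schwinger–Dyson identity**: if `ν` is invariant under the flow `T`, and along the flow the
log-weights `H` and the observable `F` have derivatives `V` and `F'`, then
`∫ E^{P_U}[F' + F ∑_l x_l D_l V] dν(U) = 0`. -/
theorem sd_flow {X : Type*} [MeasurableSpace X] [TopologicalSpace X] [OpensMeasurableSpace X]
    (ν : Measure X) [IsProbabilityMeasure ν]
    (T : ℝ → X → X) (hT : Measurable (Function.uncurry T)) (hT0 : ∀ u, T 0 u = u)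
    (hinv : ∀ φ, ν.map (T φ) = ν) (K : Set X) (hK : ∀ᵐ u ∂ν, u ∈ K) (hTK : ∀ φ, ∀ u ∈ K, T φ u ∈ K)
    {Ω : Type*} [Fintype Ω] {P : Ω → ℝ} {𝓕 : Filt Ω} {x : ℕ → ℝ} (hP : IsProb P) (hx : IsExpo x)
    (H V F F' : X → Ω → ℝ) (hH : ∀ a, Continuous fun u => H u a)
    (hV : ∀ a, Continuous fun u => V u a) (hF : ∀ a, Continuous fun u => F u a)
    (hF' : ∀ a, Continuous fun u => F' u a) (C : ℝ)
    (hVC : ∀ u ∈ K, ∀ a, |V u a| ≤ C) (hFC : ∀ u ∈ K, ∀ a, |F u a| ≤ C)
    (hFC' : ∀ u ∈ K, ∀ a, |F' u a| ≤ C)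
    (hHV : ∀ u ∈ K, ∀ a φ, HasDerivAt (fun φ => H (T φ u) a) (V (T φ u) a) φ)
    (hFF : ∀ u ∈ K, ∀ a φ, HasDerivAt (fun φ => F (T φ u) a) (F' (T φ u) a) φ) :
    ∫ u, (eE (tl P 𝓕 x (H u)) (F' u) +
      eE (tl P 𝓕 x (H u)) (fun w => F u w * score (tl P 𝓕 x (H u)) 𝓕 x 0 (V u) w)) ∂ν = 0 := by
  rcases isEmpty_or_nonempty Ω with hΩ | hΩ
  · exfalso
    have := hP.sum
    simp at this
  obtain ⟨w0⟩ := hΩ
  have hne : ∃ u, u ∈ K := by
    by_contra hc
    push Not at hc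
    have : ∀ᵐ u ∂ν, False := by filter_upwards [hK] with u hu using hc u hu
    rw [Filter.eventually_false_iff_eq_bot, ae_eq_bot] at this
    exact IsProbabilityMeasure.ne_zero ν this
  obtain ⟨u0, hu0⟩ := hne
  have hC : 0 ≤ C := (abs_nonneg _).trans (hVC u0 hu0 w0)
  have hL : (0:ℝ) ≤ 𝓕.L := Nat.cast_nonneg _
  refine flow_zero ν T hT hT0 hinv K hK hTK (fun u => eE (tl P 𝓕 x (H u)) (F u)) _
    (continuous_eE_tl hP hx.pos hH hF).measurable ?_ (C + C * (2 * C * 𝓕.L)) ?_ ?_ ?_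
  · refine Continuous.measurable ?_
    refine (continuous_eE_tl hP hx.pos hH hF').add (continuous_eE_tl hP hx.pos hH fun a => ?_)
    exact (hF a).mul (continuous_score hP hx.pos hH hV 0 a)
  · intro u hu
    refine (eE_abs_le (tl_isProb hP hx.pos (H u)) (hFC u hu)).trans ?_
    have : 0 ≤ C * (2 * C * 𝓕.L) := by positivity
    linarith
  · intro u hu
    refine (abs_add_le _ _).trans (add_le_add ?_ ?_)
    · exact eE_abs_le (tl_isProb hP hx.pos (H u)) (hFC' u hu)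
    · refine eE_abs_le (tl_isProb hP hx.pos (H u)) fun a => ?_
      rw [abs_mul]
      exact mul_le_mul (hFC u hu a) (score_abs_le (tl_isProb hP hx.pos (H u)) hx (hVC u hu) 0 a)
        (abs_nonneg _) hC
  · intro u hu φ
    exact hasDerivAt_eE_tl hP hx.pos (U := fun φ => H (T φ u)) (f := fun φ => F (T φ u))
      (fun a => hHV u hu a φ) (fun a => hFF u hu a φ)

/-! ### Rotation of two rows -/

section rot

variable {N : ℕ}

/-- rotation of the rows `k, l` by the angle `φ`. -/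
def rot (k l : Fin N) (φ : ℝ) (U : Fin N → Fin N → ℝ) : Fin N → Fin N → ℝ := fun i j =>
  if i = k then Real.cos φ * U k j - Real.sin φ * U l j
  else if i = l then Real.sin φ * U k j + Real.cos φ * U l j else U i j

/-- the Givens matrix of the rotation. -/
def givens (k l : Fin N) (φ : ℝ) : Matrix (Fin N) (Fin N) ℝ :=
  Matrix.of (rot k l φ (fun i j => (1 : Matrix (Fin N) (Fin N) ℝ) i j))

theorem rot_zero (k l : Fin N) (U : Fin N → Fin N → ℝ) : rot k l 0 U = U := by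
  funext i j
  simp only [rot, Real.cos_zero, Real.sin_zero]
  split_ifs with h1 h2
  · rw [h1]; ring
  · rw [h2]; ring
  · rfl

theorem continuous_rot (k l : Fin N) : Continuous (Function.uncurry (rot k l)) := by
  refine continuous_pi fun i => continuous_pi fun j => ?_
  simp only [Function.uncurry, rot]
  split_ifs
  · fun_prop
  · fun_prop
  · fun_prop

theorem measurable_rot (k l : Fin N) : Measurable (Function.uncurry (rot k l)) :=
  (continuous_rot k l).measurable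

/-- the rotation is left multiplication by the Givens matrix -/
theorem rot_eq_mul (k l : Fin N) (φ : ℝ) (U : Fin N → Fin N → ℝ) :
    Matrix.of (rot k l φ U) = givens k l φ * Matrix.of U := by
  ext i j
  simp only [givens, Matrix.mul_apply, Matrix.of_apply, rot]
  split_ifs with h1 h2
  · have : ∀ a, (Real.cos φ * (1 : Matrix (Fin N) (Fin N) ℝ) k a -
        Real.sin φ * (1 : Matrix (Fin N) (Fin N) ℝ) l a) * U a j =
        Real.cos φ * ((1 : Matrix (Fin N) (Fin N) ℝ) k a * U a j) -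
        Real.sin φ * ((1 : Matrix (Fin N) (Fin N) ℝ) l a * U a j) := fun a => by ring
    simp only [this, Finset.sum_sub_distrib, ← Finset.mul_sum]
    simp [Matrix.one_apply]
  · have : ∀ a, (Real.sin φ * (1 : Matrix (Fin N) (Fin N) ℝ) k a +
        Real.cos φ * (1 : Matrix (Fin N) (Fin N) ℝ) l a) * U a j =
        Real.sin φ * ((1 : Matrix (Fin N) (Fin N) ℝ) k a * U a j) +
        Real.cos φ * ((1 : Matrix (Fin N) (Fin N) ℝ) l a * U a j) := fun a => by ring
    simp only [this, Finset.sum_add_distrib, ← Finset.mul_sum]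
    simp [Matrix.one_apply]
  · simp [Matrix.one_apply]

/-- `x = U s` for the rotated matrix -/
theorem rot_mulVec (k l : Fin N) (φ : ℝ) (U : Fin N → Fin N → ℝ) (s : Fin N → ℝ)
    (i : Fin N) : (Matrix.of (rot k l φ U)).mulVec s i =
      if i = k then Real.cos φ * (Matrix.of U).mulVec s k - Real.sin φ * (Matrix.of U).mulVec s l
      else if i = l then
        Real.sin φ * (Matrix.of U).mulVec s k + Real.cos φ * (Matrix.of U).mulVec s l
      else (Matrix.of U).mulVec s i := by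
  simp only [Matrix.mulVec, dotProduct, Matrix.of_apply, rot]
  split_ifs
  · rw [Finset.mul_sum, Finset.mul_sum, ← Finset.sum_sub_distrib]
    exact Finset.sum_congr rfl fun a _ => by ring
  · rw [Finset.mul_sum, Finset.mul_sum, ← Finset.sum_add_distrib]
    exact Finset.sum_congr rfl fun a _ => by ring
  · rfl

/-- coordinate `i` of `U s` -/
def xc (s : Fin N → ℝ) (i : Fin N) (U : Fin N → Fin N → ℝ) : ℝ := (Matrix.of U).mulVec s i

theorem continuous_xc (s : Fin N → ℝ) (i : Fin N) : Continuous (xc s i) := by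
  unfold xc Matrix.mulVec dotProduct
  simp only [Matrix.of_apply]
  fun_prop

theorem xc_rot_left (k l : Fin N) (s : Fin N → ℝ) (φ : ℝ)
    (U : Fin N → Fin N → ℝ) :
    xc s k (rot k l φ U) = Real.cos φ * xc s k U - Real.sin φ * xc s l U := by
  unfold xc; rw [rot_mulVec, if_pos rfl]

theorem xc_rot_right {k l : Fin N} (hkl : k ≠ l) (s : Fin N → ℝ) (φ : ℝ)
    (U : Fin N → Fin N → ℝ) :
    xc s l (rot k l φ U) = Real.sin φ * xc s k U + Real.cos φ * xc s l U := by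
  unfold xc; rw [rot_mulVec, if_neg hkl.symm, if_pos rfl]

theorem xc_rot_other {k l i : Fin N} (hk : i ≠ k) (hl : i ≠ l) (s : Fin N → ℝ)
    (φ : ℝ) (U : Fin N → Fin N → ℝ) : xc s i (rot k l φ U) = xc s i U := by
  unfold xc; rw [rot_mulVec, if_neg hk, if_neg hl]

/-- infinitesimal rotation of the coordinates -/
def dxc (k l : Fin N) (s : Fin N → ℝ) (i : Fin N) (U : Fin N → Fin N → ℝ) : ℝ :=
  if i = k then - xc s l U else if i = l then xc s k U else 0


theorem hasDerivAt_xc {k l : Fin N} (hkl : k ≠ l) (s : Fin N → ℝ) (i : Fin N)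
    (U : Fin N → Fin N → ℝ) (φ : ℝ) :
    HasDerivAt (fun φ => xc s i (rot k l φ U)) (dxc k l s i (rot k l φ U)) φ := by
  unfold dxc
  split_ifs with h1 h2
  · subst h1
    simp only [xc_rot_left, xc_rot_right hkl]
    have := ((Real.hasDerivAt_cos φ).mul_const (xc s i U)).sub
      ((Real.hasDerivAt_sin φ).mul_const (xc s l U))
    refine this.congr_deriv ?_
    ring
  · subst h2
    simp only [xc_rot_left, xc_rot_right hkl]
    have := ((Real.hasDerivAt_sin φ).mul_const (xc s k U)).add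
      ((Real.hasDerivAt_cos φ).mul_const (xc s i U))
    refine this.congr_deriv ?_
    ring
  · simp only [xc_rot_other h1 h2]
    exact hasDerivAt_const _ _

/-- the quadratic energy `½ ∑ λ_i x_i²`. -/
def quad (lam : Fin N → ℝ) (s : Fin N → ℝ) (U : Fin N → Fin N → ℝ) : ℝ :=
  (1 / 2) * ∑ i, lam i * (xc s i U) ^ 2

theorem continuous_quad (lam s : Fin N → ℝ) : Continuous (quad lam s) := by
  unfold quad
  exact continuous_const.mul (continuous_finsetSum _ fun i _ =>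
    continuous_const.mul ((continuous_xc s i).pow 2))

theorem hasDerivAt_quad {k l : Fin N} (hkl : k ≠ l) (lam s : Fin N → ℝ)
    (U : Fin N → Fin N → ℝ) (φ : ℝ) :
    HasDerivAt (fun φ => quad lam s (rot k l φ U))
      ((lam l - lam k) * (xc s k (rot k l φ U) * xc s l (rot k l φ U))) φ := by
  unfold quad
  have h1 : HasDerivAt (fun φ => ∑ i, lam i * (xc s i (rot k l φ U)) ^ 2)
      (∑ i, lam i * (2 * xc s i (rot k l φ U) * dxc k l s i (rot k l φ U))) φ := by
    refine HasDerivAt.fun_sum fun i _ => ?_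
    have := ((hasDerivAt_xc hkl s i U φ).pow 2).const_mul (lam i)
    refine this.congr_deriv ?_
    simp
  refine (h1.const_mul (1 / 2)).congr_deriv ?_
  have h2 : ∑ i, lam i * (2 * xc s i (rot k l φ U) * dxc k l s i (rot k l φ U)) =
      ∑ i ∈ ({k, l} : Finset (Fin N)),
        lam i * (2 * xc s i (rot k l φ U) * dxc k l s i (rot k l φ U)) := by
    symm
    refine Finset.sum_subset (Finset.subset_univ _) fun i _ hi => ?_
    simp only [Finset.mem_insert, Finset.mem_singleton, not_or] at hi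
    unfold dxc
    rw [if_neg hi.1, if_neg hi.2]; ring
  rw [h2, Finset.sum_pair hkl]
  unfold dxc
  rw [if_pos rfl, if_neg hkl.symm, if_pos rfl]
  ring

/-- the Givens matrix is orthogonal -/
theorem givens_mem {k l : Fin N} (hkl : k ≠ l) (φ : ℝ) :
    givens k l φ ∈ Matrix.orthogonalGroup (Fin N) ℝ := by
  have key : ∀ a b, (givens k l a * givens k l b) = givens k l (a + b) := by
    intro a b
    have h1 : givens k l a * givens k l b = Matrix.of (rot k l a
        (rot k l b fun i j => (1 : Matrix (Fin N) (Fin N) ℝ) i j)) := by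
      rw [rot_eq_mul]; rfl
    rw [h1]
    ext i j
    simp only [givens, Matrix.of_apply, rot, if_pos, if_neg hkl.symm, Real.cos_add, Real.sin_add]
    split_ifs <;> ring
  rw [Matrix.mem_orthogonalGroup_iff']
  have hstar : (givens k l φ).transpose = givens k l (-φ) := by
    ext i j
    simp only [Matrix.transpose_apply, givens, Matrix.of_apply, rot,
      Matrix.one_apply, Real.cos_neg, Real.sin_neg]
    by_cases h1 : i = k <;> by_cases h2 : i = l <;> by_cases h3 : j = k <;> by_cases h4 : j = l <;>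
      simp_all [eq_comm]
  rw [hstar, key, neg_add_cancel]
  ext i j
  simp [givens, rot_zero]

/-- sum of squares is preserved -/
theorem sum_sq_rot {k l : Fin N} (hkl : k ≠ l) (φ : ℝ) (U : Fin N → Fin N → ℝ)
    (hU : Matrix.of U ∈ Matrix.orthogonalGroup (Fin N) ℝ) :
    Matrix.of (rot k l φ U) ∈ Matrix.orthogonalGroup (Fin N) ℝ := by
  rw [rot_eq_mul]
  exact mul_mem (givens_mem hkl φ) hU

/-! ### The orthogonal group as a compact set of matrices -/

/-- orthogonal matrices, as functions. -/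
def OK (N : ℕ) : Set (Fin N → Fin N → ℝ) := {U | Matrix.of U ∈ Matrix.orthogonalGroup (Fin N) ℝ}

theorem mem_OK_iff {U : Fin N → Fin N → ℝ} :
    U ∈ OK N ↔ ∀ i j, ∑ a, U i a * U j a = if i = j then 1 else 0 := by
  unfold OK
  rw [Set.mem_ofPred_eq, Matrix.mem_orthogonalGroup_iff]
  constructor
  · intro h i j
    have := congrFun (congrFun h i) j
    rw [Matrix.mul_apply, Matrix.one_apply] at this
    simpa using this
  · intro h
    ext i j
    rw [Matrix.mul_apply, Matrix.one_apply]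
    simpa using h i j

theorem abs_le_one_of_OK {U : Fin N → Fin N → ℝ} (hU : U ∈ OK N) (i j : Fin N) : |U i j| ≤ 1 := by
  have h := mem_OK_iff.mp hU i i
  rw [if_pos rfl] at h
  have h1 : U i j * U i j ≤ 1 := by
    rw [← h]
    exact Finset.single_le_sum (f := fun a => U i a * U i a) (fun a _ => mul_self_nonneg _)
      (Finset.mem_univ j)
  rw [abs_le]
  constructor <;> nlinarith

theorem isClosed_OK : IsClosed (OK N) := by
  have : OK N = ⋂ i, ⋂ j, {U : Fin N → Fin N → ℝ | ∑ a, U i a * U j a = if i = j then 1 else 0} := by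
    ext U
    rw [mem_OK_iff]
    simp
  rw [this]
  refine isClosed_iInter fun i => isClosed_iInter fun j => isClosed_eq ?_ continuous_const
  fun_prop

theorem isCompact_OK : IsCompact (OK N) := by
  have hc : IsCompact (Set.pi Set.univ fun _ : Fin N => Set.pi Set.univ fun _ : Fin N =>
      Set.Icc (-1:ℝ) 1) := isCompact_univ_pi fun _ => isCompact_univ_pi fun _ => isCompact_Icc
  refine hc.of_isClosed_subset isClosed_OK fun U hU => ?_
  simp only [Set.mem_pi, Set.mem_univ, true_implies, Set.mem_Icc]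
  intro i j
  exact abs_le.mp (abs_le_one_of_OK hU i j)

theorem rot_mem_OK {k l : Fin N} (hkl : k ≠ l) (φ : ℝ) {U : Fin N → Fin N → ℝ} (hU : U ∈ OK N) :
    rot k l φ U ∈ OK N := sum_sq_rot hkl φ U hU

/-- continuous functions of `(U, ω)` are bounded on the orthogonal group -/
theorem exists_bound {Ω : Type*} [Fintype Ω] (F : (Fin N → Fin N → ℝ) → Ω → ℝ)
    (hF : ∀ a, Continuous fun u => F u a) : ∃ C, 0 ≤ C ∧ ∀ u ∈ OK N, ∀ a, |F u a| ≤ C := by
  have h : ∀ a, ∃ C, ∀ u ∈ OK N, |F u a| ≤ C := by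
    intro a
    obtain ⟨C, hC⟩ := isCompact_OK.exists_bound_of_continuousOn (hF a).continuousOn
    exact ⟨C, fun u hu => by simpa using hC u hu⟩
  choose C hC using h
  refine ⟨∑ a, |C a|, Finset.sum_nonneg fun a _ => abs_nonneg _, fun u hu a => ?_⟩
  refine (hC a u hu).trans ((le_abs_self _).trans ?_)
  exact Finset.single_le_sum (f := fun a => |C a|) (fun a _ => abs_nonneg _) (Finset.mem_univ a)

/-- left invariance of a law on matrices -/
def LeftInv (ν : Measure (Fin N → Fin N → ℝ)) : Prop :=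
  ∀ O ∈ Matrix.orthogonalGroup (Fin N) ℝ, ν.map (fun U => fun i j => (O * Matrix.of U) i j) = ν

theorem LeftInv.rot {ν : Measure (Fin N → Fin N → ℝ)} (h : LeftInv ν) {k l : Fin N} (hkl : k ≠ l)
    (φ : ℝ) : ν.map (rot k l φ) = ν := by
  have := h (givens k l φ) (givens_mem hkl φ)
  convert this using 2
  funext U i j
  rw [← rot_eq_mul]; rfl

/-! ### The Schwinger–Dyson identity for left rotations -/

variable {Ω : Type*} [Fintype Ω] {P : Ω → ℝ} {𝓕 : Filt Ω} {x : ℕ → ℝ}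

/-- log-weight `½ ∑ λ_i (U s)_i² + H0`. -/
def HU (lam : Fin N → ℝ) (s : Ω → Fin N → ℝ) (H0 : Ω → ℝ) (U : Fin N → Fin N → ℝ) (w : Ω) : ℝ :=
  quad lam (s w) U + H0 w

/-- derivative of the log-weight along the rotation: `(λ_l - λ_k) x_k x_l`. -/
def VU (lam : Fin N → ℝ) (s : Ω → Fin N → ℝ) (k l : Fin N) (U : Fin N → Fin N → ℝ) (w : Ω) : ℝ :=
  (lam l - lam k) * (xc (s w) k U * xc (s w) l U)

omit [Fintype Ω] in
theorem continuous_HU (lam : Fin N → ℝ) (s : Ω → Fin N → ℝ) (H0 : Ω → ℝ) (a : Ω) :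
    Continuous fun U => HU lam s H0 U a := (continuous_quad lam (s a)).add continuous_const

omit [Fintype Ω] in
theorem continuous_VU (lam : Fin N → ℝ) (s : Ω → Fin N → ℝ) (k l : Fin N) (a : Ω) :
    Continuous fun U => VU lam s k l U a :=
  continuous_const.mul ((continuous_xc (s a) k).mul (continuous_xc (s a) l))

omit [Fintype Ω] in
theorem hasDerivAt_HU {k l : Fin N} (hkl : k ≠ l) (lam : Fin N → ℝ) (s : Ω → Fin N → ℝ)
    (H0 : Ω → ℝ) (U : Fin N → Fin N → ℝ) (φ : ℝ) (a : Ω) :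
    HasDerivAt (fun φ => HU lam s H0 (rot k l φ U) a) (VU lam s k l (rot k l φ U) a) φ := by
  unfold HU VU
  exact (hasDerivAt_quad hkl lam (s a) U φ).add_const _

/-- **Left-rotation Schwinger–Dyson identity** (general observable). -/
theorem sd_rot (ν : Measure (Fin N → Fin N → ℝ)) [IsProbabilityMeasure ν]
    (hν : ∀ᵐ U ∂ν, U ∈ OK N) (hleft : LeftInv ν) {k l : Fin N} (hkl : k ≠ l)
    (hP : IsProb P) (hx : IsExpo x) (lam : Fin N → ℝ) (s : Ω → Fin N → ℝ) (H0 : Ω → ℝ)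
    (F F' : (Fin N → Fin N → ℝ) → Ω → ℝ) (hF : ∀ a, Continuous fun u => F u a)
    (hF' : ∀ a, Continuous fun u => F' u a)
    (hFF : ∀ u, ∀ a φ, HasDerivAt (fun φ => F (rot k l φ u) a) (F' (rot k l φ u) a) φ) :
    ∫ U, (eE (tl P 𝓕 x (HU lam s H0 U)) (F' U) +
      eE (tl P 𝓕 x (HU lam s H0 U)) (fun w => F U w *
        score (tl P 𝓕 x (HU lam s H0 U)) 𝓕 x 0 (VU lam s k l U) w)) ∂ν = 0 := by
  obtain ⟨C1, h1, hC1⟩ := exists_bound (VU lam s k l) (continuous_VU lam s k l)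
  obtain ⟨C2, h2, hC2⟩ := exists_bound F hF
  obtain ⟨C3, h3, hC3⟩ := exists_bound F' hF'
  exact sd_flow ν (rot k l) (measurable_rot k l) (rot_zero k l) (hleft.rot hkl) (OK N) hν
    (fun φ u hu => rot_mem_OK hkl φ hu) hP hx (HU lam s H0) (VU lam s k l) F F'
    (continuous_HU lam s H0) (continuous_VU lam s k l) hF hF' (C1 + C2 + C3)
    (fun u hu a => (hC1 u hu a).trans (by linarith))
    (fun u hu a => (hC2 u hu a).trans (by linarith))
    (fun u hu a => (hC3 u hu a).trans (by linarith))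
    (fun u _ a φ => hasDerivAt_HU hkl lam s H0 u φ a) (fun u _ a φ => hFF u a φ)

/-- derivative of a conditional expectation along the rotation -/
theorem hasDerivAt_cE_rot {k l : Fin N} (hkl : k ≠ l) (hP : IsProb P) (hx : ∀ k, 0 < x k)
    (lam : Fin N → ℝ) (s : Ω → Fin N → ℝ) (H0 : Ω → ℝ) (f f' : (Fin N → Fin N → ℝ) → Ω → ℝ)
    (hf : ∀ u, ∀ a φ, HasDerivAt (fun φ => f (rot k l φ u) a) (f' (rot k l φ u) a) φ)
    (j : ℕ) (U : Fin N → Fin N → ℝ) (w : Ω) (φ : ℝ) :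
    HasDerivAt (fun φ => cE (tl P 𝓕 x (HU lam s H0 (rot k l φ U))) (𝓕.F j) (f (rot k l φ U)) w)
      (cE (tl P 𝓕 x (HU lam s H0 (rot k l φ U))) (𝓕.F j) (f' (rot k l φ U)) w +
        Yf (tl P 𝓕 x (HU lam s H0 (rot k l φ U))) 𝓕.F x 𝓕.L j (f (rot k l φ U))
          (VU lam s k l (rot k l φ U)) w) φ :=
  hasDerivAt_cE_tl' hP hx (U := fun φ => HU lam s H0 (rot k l φ U))
    (f := fun φ => f (rot k l φ U)) (fun a => hasDerivAt_HU hkl lam s H0 U φ a)
    (fun a => hf U a φ) j w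

theorem continuous_Yf_tl {X : Type*} [TopologicalSpace X] (hP : IsProb P) (hx : ∀ k, 0 < x k)
    {U f V : X → Ω → ℝ} (h : ∀ a, Continuous fun u => U u a)
    (hf : ∀ a, Continuous fun u => f u a) (hV : ∀ a, Continuous fun u => V u a) (k : ℕ) (ω : Ω) :
    Continuous fun u => Yf (tl P 𝓕 x (U u)) 𝓕.F x 𝓕.L k (f u) (V u) ω := by
  have e : (fun u => Yf (tl P 𝓕 x (U u)) 𝓕.F x 𝓕.L k (f u) (V u) ω) = fun u =>
      cE (tl P 𝓕 x (U u)) (𝓕.F k)
        (fun w => f u w * score (tl P 𝓕 x (U u)) 𝓕 x k (V u) w) ω := by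
    funext u
    exact (cE_score_mul (tl_isProb hP hx (U u)) k (f u) (V u) ω).symm
  rw [e]
  exact continuous_cE_tl hP hx h (fun a => (hf a).mul (continuous_score hP hx h hV k a)) k ω

/-- **Schwinger–Dyson identity for a pair of replicas branching at level `j`**:
test function `E_j x_k · E_j x_l`. -/
theorem sd_pair (ν : Measure (Fin N → Fin N → ℝ)) [IsProbabilityMeasure ν]
    (hν : ∀ᵐ U ∂ν, U ∈ OK N) (hleft : LeftInv ν) {k l : Fin N} (hkl : k ≠ l)
    (hP : IsProb P) (hx : IsExpo x) (lam : Fin N → ℝ) (s : Ω → Fin N → ℝ) (H0 : Ω → ℝ) (j : ℕ) :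
    ∫ U, (eE (tl P 𝓕 x (HU lam s H0 U)) (fun w =>
        (cE (tl P 𝓕 x (HU lam s H0 U)) (𝓕.F j) (fun a => xc (s a) k U) w) ^ 2 -
        (cE (tl P 𝓕 x (HU lam s H0 U)) (𝓕.F j) (fun a => xc (s a) l U) w) ^ 2 +
        Yf (tl P 𝓕 x (HU lam s H0 U)) 𝓕.F x 𝓕.L j (fun a => xc (s a) k U) (VU lam s k l U) w *
          cE (tl P 𝓕 x (HU lam s H0 U)) (𝓕.F j) (fun a => xc (s a) l U) w +
        Yf (tl P 𝓕 x (HU lam s H0 U)) 𝓕.F x 𝓕.L j (fun a => xc (s a) l U) (VU lam s k l U) w *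
          cE (tl P 𝓕 x (HU lam s H0 U)) (𝓕.F j) (fun a => xc (s a) k U) w) +
      eE (tl P 𝓕 x (HU lam s H0 U)) (fun w =>
        (cE (tl P 𝓕 x (HU lam s H0 U)) (𝓕.F j) (fun a => xc (s a) k U) w *
          cE (tl P 𝓕 x (HU lam s H0 U)) (𝓕.F j) (fun a => xc (s a) l U) w) *
        score (tl P 𝓕 x (HU lam s H0 U)) 𝓕 x 0 (VU lam s k l U) w)) ∂ν = 0 := by
  have cx : ∀ i : Fin N, ∀ a : Ω, Continuous fun u => (fun a => xc (s a) i u) a :=
    fun i a => continuous_xc (s a) i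
  have cE1 : ∀ i : Fin N, ∀ a : Ω, Continuous fun u =>
      cE (tl P 𝓕 x (HU lam s H0 u)) (𝓕.F j) (fun a => xc (s a) i u) a := fun i a =>
    continuous_cE_tl hP hx.pos (continuous_HU lam s H0) (f := fun u a => xc (s a) i u)
      (fun a => continuous_xc (s a) i) j a
  have cY : ∀ i : Fin N, ∀ a : Ω, Continuous fun u =>
      Yf (tl P 𝓕 x (HU lam s H0 u)) 𝓕.F x 𝓕.L j (fun a => xc (s a) i u) (VU lam s k l u) a :=
    fun i a => continuous_Yf_tl hP hx.pos (continuous_HU lam s H0) (f := fun u a => xc (s a) i u)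
      (fun a => continuous_xc (s a) i) (continuous_VU lam s k l) j a
  refine sd_rot ν hν hleft hkl hP hx lam s H0
    (fun U w => cE (tl P 𝓕 x (HU lam s H0 U)) (𝓕.F j) (fun a => xc (s a) k U) w *
      cE (tl P 𝓕 x (HU lam s H0 U)) (𝓕.F j) (fun a => xc (s a) l U) w)
    (fun U w => (cE (tl P 𝓕 x (HU lam s H0 U)) (𝓕.F j) (fun a => xc (s a) k U) w) ^ 2 -
        (cE (tl P 𝓕 x (HU lam s H0 U)) (𝓕.F j) (fun a => xc (s a) l U) w) ^ 2 +
        Yf (tl P 𝓕 x (HU lam s H0 U)) 𝓕.F x 𝓕.L j (fun a => xc (s a) k U) (VU lam s k l U) w *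
          cE (tl P 𝓕 x (HU lam s H0 U)) (𝓕.F j) (fun a => xc (s a) l U) w +
        Yf (tl P 𝓕 x (HU lam s H0 U)) 𝓕.F x 𝓕.L j (fun a => xc (s a) l U) (VU lam s k l U) w *
          cE (tl P 𝓕 x (HU lam s H0 U)) (𝓕.F j) (fun a => xc (s a) k U) w)
    (fun a => (cE1 k a).mul (cE1 l a))
    (fun a => ((((cE1 k a).pow 2).sub ((cE1 l a).pow 2)).add ((cY k a).mul (cE1 l a))).add
      ((cY l a).mul (cE1 k a))) ?_
  intro u a φ
  have hk := hasDerivAt_cE_rot (𝓕 := 𝓕) hkl hP hx.pos lam s H0 (fun u a => xc (s a) k u)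
    (fun u a => dxc k l (s a) k u) (fun u a φ => hasDerivAt_xc hkl (s a) k u φ) j u a φ
  have hl := hasDerivAt_cE_rot (𝓕 := 𝓕) hkl hP hx.pos lam s H0 (fun u a => xc (s a) l u)
    (fun u a => dxc k l (s a) l u) (fun u a φ => hasDerivAt_xc hkl (s a) l u φ) j u a φ
  refine (hk.mul hl).congr_deriv ?_
  have e1 : (fun a => dxc k l (s a) k (rot k l φ u)) =
      fun a => (-1) * xc (s a) l (rot k l φ u) := by
    funext a; unfold dxc; rw [if_pos rfl]; ring
  have e2 : (fun a => dxc k l (s a) l (rot k l φ u)) = fun a => xc (s a) k (rot k l φ u) := by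
    funext a; unfold dxc; rw [if_neg hkl.symm, if_pos rfl]
  rw [e1, e2, cE_smul]
  ring

end rot

end

end Crest.Agent.R164.Rot
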