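import Crest.Agent.R164.Sys164
import Crest.Agent.R164.GSpin
import Crest.Agent.R164.ObsConc
import Crest.Agent.R164.Haar

-- ▼ part R164/USys
section

/-!
Row 164, upper bound assembly (helper466): the averaged enriched free energy as a function of the
parameters, its derivatives and continuity.
-/

set_option autoImplicit false

namespace Crest.Agent.R164.US

open Finset MeasureTheory Crest.Agent.R141 Crest.Agent.R164

noncomputable section

/-! ### General base system -/

section gen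

variable {p : Par} {N : ℕ} (B : G.Base p N)

/-- Lipschitz continuity of the free energy in the Hamiltonian. -/
theorem Phi_le_add {H H' : B.S → ℝ} {c : ℝ} (h : ∀ s, H s ≤ H' s + c) (d : DD p N) :
    G.Phi B H d ≤ G.Phi B H' d + c := by
  have hP := G.prior_isProb B
  have h1 : ∀ ω, A (G.prior B) (G.fil B) p.xs (G.UU B H d) 0 ω ≤
      A (G.prior B) (G.fil B) p.xs (G.UU B H' d) 0 ω + c := by
    intro ω
    rw [← A_add_const hP p.xs_expo.pos]
    refine A_mono hP p.xs_expo.pos (fun w => ?_) 0 ω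
    unfold G.UU
    have := h w.1
    linarith
  unfold G.Phi
  calc eE (G.prior B) (A (G.prior B) (G.fil B) p.xs (G.UU B H d) 0)
      ≤ eE (G.prior B) (fun ω => A (G.prior B) (G.fil B) p.xs (G.UU B H' d) 0 ω + c) :=
        eE_mono hP h1
    _ = _ := by rw [eE_add, eE_const hP]

theorem abs_Phi_sub_le {H H' : B.S → ℝ} {c : ℝ} (h : ∀ s, |H s - H' s| ≤ c) (d : DD p N) :
    |G.Phi B H d - G.Phi B H' d| ≤ c := by
  rw [abs_le]
  constructor
  · have := Phi_le_add B (H := H') (H' := H) (c := c)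
      (fun s => by have := (abs_le.1 (h s)).1; linarith) d
    linarith
  · have := Phi_le_add B (H := H) (H' := H') (c := c)
      (fun s => by have := (abs_le.1 (h s)).2; linarith) d
    linarith

theorem abs_Phi_le {H : B.S → ℝ} {c : ℝ} (h : ∀ s, |H s| ≤ c) (d : DD p N) :
    |G.Phi B H d| ≤ c + |G.Phi B (fun _ => 0) d| := by
  have h1 := abs_Phi_sub_le B (H := H) (H' := fun _ => 0) (c := c)
    (fun s => by simpa using h s) d
  have h2 := abs_sub_abs_le_abs_sub (G.Phi B H d) (G.Phi B (fun _ => 0) d)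
  linarith

/-- derivative of the free energy along a line. -/
theorem hasDerivAt_Phi (h0 : B.SF 0 = ⊤) (H V : B.S → ℝ) (d : DD p N) (e : ℝ) :
    HasDerivAt (fun y : ℝ => G.Phi B (fun s => H s + y * V s) d)
      (eE (G.PP B (fun s => H s + e * V s) d) (fun ω => V ω.1)) e := by
  have h := ObsConc.hasDerivAt_gA (𝓕 := G.fil B) (G.prior_isProb B) p.xs_expo.pos
    (G.fil_zero B h0) (G.UU B H d) (fun ω => V ω.1) e
  have e1 : ∀ y : ℝ, (fun w : G.Om B => G.UU B H d w + y * V w.1) =
      G.UU B (fun s => H s + y * V s) d := by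
    intro y
    funext w
    unfold G.UU
    ring
  have e2 : (fun y : ℝ => G.Phi B (fun s => H s + y * V s) d) =
      ObsConc.gA (G.prior B) (G.fil B) p.xs (G.UU B H d) (fun ω => V ω.1) := by
    funext y
    unfold ObsConc.gA G.Phi
    rw [e1]
  have e3 : G.PP B (fun s => H s + e * V s) d =
      ObsConc.tQ (G.prior B) (G.fil B) p.xs (G.UU B H d) (fun ω => V ω.1) e := by
    unfold ObsConc.tQ G.PP
    rw [e1]
  rw [e2, e3]
  exact h

/-- supporting line inequality: `Phi(H) + E^{P_H} V ≤ Phi(H + V)`. -/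
theorem Phi_add_ge (h0 : B.SF 0 = ⊤) (H V : B.S → ℝ) (d : DD p N) :
    G.Phi B H d + eE (G.PP B H d) (fun ω => V ω.1) ≤ G.Phi B (fun s => H s + V s) d := by
  have hP := G.prior_isProb B
  have hQ := G.PP_isProb B H d
  have h := G.Phi_add B H V d
  have h1 : eE (G.PP B H d) (fun ω => V ω.1) ≤
      eE (G.prior B) (A (G.PP B H d) (G.fil B) p.xs (fun ω => V ω.1) 0) := by
    have h2 : ∀ ω, eE (G.PP B H d) (fun ω => V ω.1) ≤
        A (G.PP B H d) (G.fil B) p.xs (fun ω => V ω.1) 0 ω := by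
      intro ω
      rw [← ObsConc.cE_top (G.fil_zero B h0) hQ (fun ω => V ω.1) ω]
      exact cE_le_A (𝓕 := G.fil B) hQ p.xs_expo.pos (fun ω => V ω.1) 0 ω
    calc eE (G.PP B H d) (fun ω => V ω.1)
        = eE (G.prior B) (fun _ => eE (G.PP B H d) (fun ω => V ω.1)) := (eE_const hP _).symm
      _ ≤ _ := eE_mono hP h2
  linarith

variable {Θ : Type} [MeasurableSpace Θ] (ν : Measure Θ) [IsProbabilityMeasure ν]

theorem meas_Phi {H : Θ → B.S → ℝ} (hH : ∀ s, Measurable fun θ => H θ s) (d : DD p N) :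
    Measurable fun θ => G.Phi B (H θ) d := by
  unfold G.Phi
  exact G.meas_eE (fun _ => measurable_const)
    (fun ω => G.meas_A (G.prior_isProb B) p.xs_expo.pos (fun ω => G.meas_UU B hH d ω) 0 ω)

theorem integrable_Phi {H : Θ → B.S → ℝ} (hH : ∀ s, Measurable fun θ => H θ s) {c : ℝ}
    (hc : ∀ᵐ θ ∂ν, ∀ s, |H θ s| ≤ c) (d : DD p N) :
    Integrable (fun θ => G.Phi B (H θ) d) ν := by
  refine Integrable.of_bound (meas_Phi B hH d).aestronglyMeasurable
    (c + |G.Phi B (fun _ => 0) d|) ?_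
  filter_upwards [hc] with θ hθ
  exact abs_Phi_le B hθ d

theorem integrable_eE_PP {H V : Θ → B.S → ℝ} (hH : ∀ s, Measurable fun θ => H θ s)
    (hV : ∀ s, Measurable fun θ => V θ s) {c : ℝ}
    (hc : ∀ᵐ θ ∂ν, ∀ s, |V θ s| ≤ c) (d : DD p N) :
    Integrable (fun θ => eE (G.PP B (H θ) d) (fun ω => V θ ω.1)) ν := by
  refine Integrable.of_bound (G.meas_eE (fun ω => G.meas_PP B hH d ω)
    (fun ω => hV ω.1)).aestronglyMeasurable c ?_
  filter_upwards [hc] with θ hθ
  rw [Real.norm_eq_abs]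
  refine (Crest.Agent.R141.eE_abs_le (G.PP_isProb B _ d) _).trans ?_
  exact eE_le_of_le (G.PP_isProb B _ d) fun a => hθ a.1

/-- averaged free energy -/
def EP (H : Θ → B.S → ℝ) : ℝ := Ed p N (fun d => ∫ θ, G.Phi B (H θ) d ∂ν)

/-- derivative of the averaged free energy along a line. -/
theorem hasDerivAt_EP (h0 : B.SF 0 = ⊤) {H V : Θ → B.S → ℝ}
    (hH : ∀ s, Measurable fun θ => H θ s) (hV : ∀ s, Measurable fun θ => V θ s) {cH cV : ℝ}
    (hcH : ∀ᵐ θ ∂ν, ∀ s, |H θ s| ≤ cH) (hcV : ∀ᵐ θ ∂ν, ∀ s, |V θ s| ≤ cV) (e : ℝ) :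
    HasDerivAt (fun y : ℝ => EP B ν (fun θ s => H θ s + y * V θ s))
      (Ed p N (fun d => ∫ θ, eE (G.PP B (fun s => H θ s + e * V θ s) d)
        (fun ω => V θ ω.1) ∂ν)) e := by
  unfold EP Ed
  refine HasDerivAt.fun_sum fun d _ => HasDerivAt.const_mul _ ?_
  have hHy : ∀ y : ℝ, ∀ s, Measurable fun θ => H θ s + y * V θ s := fun y s =>
    (hH s).add ((hV s).const_mul y)
  refine (hasDerivAt_integral_of_dominated_loc_of_deriv_le (bound := fun _ => cV)
    (F := fun y θ => G.Phi B (fun s => H θ s + y * V θ s) d)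
    (F' := fun y θ => eE (G.PP B (fun s => H θ s + y * V θ s) d) (fun ω => V θ ω.1))
    (s := Set.univ) Filter.univ_mem ?_ ?_ ?_ ?_ ?_ ?_).2
  · exact Filter.Eventually.of_forall fun y =>
      (meas_Phi B (hHy y) d).aestronglyMeasurable
  · refine integrable_Phi B ν (hHy e) (c := cH + |e| * cV) ?_ d
    filter_upwards [hcH, hcV] with θ h1 h2 s
    refine (abs_add_le _ _).trans ?_
    rw [abs_mul]
    exact add_le_add (h1 s) (mul_le_mul_of_nonneg_left (h2 s) (abs_nonneg _))
  · exact (integrable_eE_PP B ν (hHy e) hV hcV d).aestronglyMeasurable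
  · filter_upwards [hcV] with θ h2 y _
    rw [Real.norm_eq_abs]
    refine (Crest.Agent.R141.eE_abs_le (G.PP_isProb B _ d) _).trans ?_
    exact eE_le_of_le (G.PP_isProb B _ d) fun a => h2 a.1
  · exact integrable_const _
  · filter_upwards with θ y _
    exact hasDerivAt_Phi B h0 (H θ) (V θ) d y

theorem EP_le_add (hN : 0 < N) {H H' : Θ → B.S → ℝ} (hH : ∀ s, Measurable fun θ => H θ s)
    (hH' : ∀ s, Measurable fun θ => H' θ s) {c cH cH' : ℝ}
    (hcH : ∀ᵐ θ ∂ν, ∀ s, |H θ s| ≤ cH) (hcH' : ∀ᵐ θ ∂ν, ∀ s, |H' θ s| ≤ cH')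
    (h : ∀ᵐ θ ∂ν, ∀ s, H θ s ≤ H' θ s + c) : EP B ν H ≤ EP B ν H' + c := by
  unfold EP Ed
  have h1 : ∑ d, dw p N d * ∫ θ, G.Phi B (H θ) d ∂ν ≤
      ∑ d, dw p N d * (∫ θ, G.Phi B (H' θ) d ∂ν + c) := by
    refine Finset.sum_le_sum fun d _ => mul_le_mul_of_nonneg_left ?_ (dw_nonneg p N d)
    calc ∫ θ, G.Phi B (H θ) d ∂ν ≤ ∫ θ, (G.Phi B (H' θ) d + c) ∂ν := by
          refine integral_mono_ae (integrable_Phi B ν hH hcH d)
            ((integrable_Phi B ν hH' hcH' d).add (integrable_const _)) ?_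
          filter_upwards [h] with θ hθ
          exact Phi_le_add B hθ d
      _ = _ := by
          rw [integral_add (integrable_Phi B ν hH' hcH' d) (integrable_const _)]
          simp
  refine h1.trans (le_of_eq ?_)
  simp only [mul_add, Finset.sum_add_distrib, ← Finset.sum_mul]
  rw [dw_sum p hN, one_mul]

theorem abs_EP_sub_le (hN : 0 < N) {H H' : Θ → B.S → ℝ} (hH : ∀ s, Measurable fun θ => H θ s)
    (hH' : ∀ s, Measurable fun θ => H' θ s) {c cH cH' : ℝ}
    (hcH : ∀ᵐ θ ∂ν, ∀ s, |H θ s| ≤ cH) (hcH' : ∀ᵐ θ ∂ν, ∀ s, |H' θ s| ≤ cH')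
    (h : ∀ᵐ θ ∂ν, ∀ s, |H θ s - H' θ s| ≤ c) : |EP B ν H - EP B ν H'| ≤ c := by
  rw [abs_le]
  constructor
  · have := EP_le_add B ν hN hH' hH hcH' hcH (c := c) (by
      filter_upwards [h] with θ hθ s
      have := (abs_le.1 (hθ s)).1; linarith)
    linarith
  · have := EP_le_add B ν hN hH hH' hcH hcH' (c := c) (by
      filter_upwards [h] with θ hθ s
      have := (abs_le.1 (hθ s)).2; linarith)
    linarith

end gen

end

end Crest.Agent.R164.US
end

-- ▼ part R164/USys2

/-!
Row 164, upper bound assembly (helper466): the function `FN` of the contact argument on the finite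
system of `Sys164`, its continuity and its partial derivatives.
-/

set_option autoImplicit false
set_option linter.unusedSectionVars false

namespace Crest.Agent.R164.US

open Finset MeasureTheory Crest.Agent.R141 Crest.Agent.R164
open Crest.ProbabilityR.InvariantGlass

noncomputable section

variable {p : Par} {N n : ℕ} {A : Finset (Fin N → Bool)}
variable {κ : Type} [Fintype κ] [DecidableEq κ]

/-- strengths of the small fields -/
def lamF (lab : Fin N → κ) (η : ℝ) (l : κ × Fin p.nc → ℝ) (i : Fin N) (g : Fin p.nc) : ℝ :=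
  Real.sqrt η * l (lab i, g)

/-- the Hamiltonian -/
def HF (A : Finset (Fin N → Bool)) (n : ℕ) (lab : Fin N → κ) (th : κ → ℝ) (η : ℝ) (t : ℝ)
    (a : Fin p.nc → ℝ) (l : κ × Fin p.nc → ℝ) (U : Fin N → Fin N → ℝ) (s : SY.SS p n A) : ℝ :=
  SY.HS (SY.h0q (fun i => th (lab i)) (Matrix.of U) t (fun _ => 0)) (fun _ => a) (lamF lab η l)
    (SY.xU (Matrix.of U)) s

/-- direction of `t` -/
def Vt (A : Finset (Fin N → Bool)) (n : ℕ) (p : Par) (lab : Fin N → κ) (th : κ → ℝ)
    (U : Fin N → Fin N → ℝ) (s : SY.SS p n A) : ℝ :=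
  Mag.qd (fun i => th (lab i)) (Matrix.of U) s.1.1

/-- direction of `a g` -/
def Va (A : Finset (Fin N → Bool)) (n : ℕ) (g : Fin p.nc) (s : SY.SS p n A) : ℝ :=
  ∑ i, SY.zf s.2.1 g i * sv (s.1.1 i)

/-- direction of `l (k, g)` -/
def Vl (A : Finset (Fin N → Bool)) (n : ℕ) (lab : Fin N → κ) (η : ℝ) (j : κ × Fin p.nc)
    (U : Fin N → Fin N → ℝ) (s : SY.SS p n A) : ℝ :=
  Real.sqrt η * ∑ i, if lab i = j.1 then SY.zf s.2.2 j.2 i * SY.xU (Matrix.of U) s.1.1 i else 0

theorem HF_eq (lab : Fin N → κ) (th : κ → ℝ) (η t : ℝ) (a : Fin p.nc → ℝ)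
    (l : κ × Fin p.nc → ℝ) (U : Fin N → Fin N → ℝ) (s : SY.SS p n A) :
    HF A n lab th η t a l U s = t * Vt A n p lab th U s + ∑ g, a g * Va A n g s +
      ∑ j, l j * Vl A n lab η j U s := by
  unfold HF SY.HS SY.h0q Vt Va Vl lamF
  rw [add_zero]
  congr 1
  · congr 1
    simp only [Finset.mul_sum]
  rw [Fintype.sum_prod_type_right]
  refine Finset.sum_congr rfl fun g _ => ?_
  have e : ∀ k : κ, l (k, g) * (Real.sqrt η * ∑ i, if lab i = k then
      SY.zf s.2.2 g i * SY.xU (Matrix.of U) s.1.1 i else 0) =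
      ∑ i, if lab i = k then Real.sqrt η * l (k, g) * (SY.zf s.2.2 g i *
        SY.xU (Matrix.of U) s.1.1 i) else 0 := by
    intro k
    rw [← mul_assoc, mul_comm (l (k, g)), Finset.mul_sum]
    refine Finset.sum_congr rfl fun i _ => ?_
    split_ifs <;> simp
  simp only [e]
  rw [Finset.sum_comm]
  refine Finset.sum_congr rfl fun i _ => ?_
  rw [Finset.sum_ite_eq]
  simp

theorem continuous_xU (σ : Fin N → Bool) (i : Fin N) :
    Continuous fun U : Fin N → Fin N → ℝ => SY.xU (Matrix.of U) σ i := by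
  unfold SY.xU Matrix.mulVec dotProduct
  simp only [Matrix.of_apply]
  fun_prop

theorem continuous_Vt (lab : Fin N → κ) (th : κ → ℝ) (s : SY.SS p n A) :
    Continuous fun U => Vt A n p lab th U s := by
  unfold Vt Mag.qd
  refine Continuous.mul continuous_const (continuous_finsetSum _ fun i _ => ?_)
  exact continuous_const.mul ((continuous_xU s.1.1 i).pow 2)

theorem continuous_Vl (lab : Fin N → κ) (η : ℝ) (j : κ × Fin p.nc) (s : SY.SS p n A) :
    Continuous fun U => Vl A n lab η j U s := by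
  unfold Vl
  refine Continuous.mul continuous_const (continuous_finsetSum _ fun i _ => ?_)
  split_ifs
  · exact continuous_const.mul (continuous_xU s.1.1 i)
  · exact continuous_const

theorem continuous_HF (lab : Fin N → κ) (th : κ → ℝ) (η t : ℝ) (a : Fin p.nc → ℝ)
    (l : κ × Fin p.nc → ℝ) (s : SY.SS p n A) : Continuous fun U => HF A n lab th η t a l U s := by
  simp only [HF_eq]
  exact ((continuous_const.mul (continuous_Vt lab th s)).add continuous_const).add
    (continuous_finsetSum _ fun j _ => continuous_const.mul (continuous_Vl lab η j s))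

section measure

variable (hA : A.Nonempty) {ν : Measure (Fin N → Fin N → ℝ)} [IsProbabilityMeasure ν]
variable (hν : ∀ᵐ U ∂ν, U ∈ Rot.OK N)

include hν in
theorem ae_bound {f : (Fin N → Fin N → ℝ) → SY.SS p n A → ℝ}
    (hf : ∀ s, Continuous fun U => f U s) : ∃ c, 0 ≤ c ∧ ∀ᵐ U ∂ν, ∀ s, |f U s| ≤ c := by
  obtain ⟨c, hc0, hc⟩ := Rot.exists_bound f hf
  refine ⟨c, hc0, ?_⟩
  filter_upwards [hν] with U hU s
  exact hc U hU s

theorem comp_shift {f : ℝ → ℝ} {f' x : ℝ} (h : HasDerivAt f f' 0) :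
    HasDerivAt (fun y => f (y - x)) f' x := by
  have h2 : HasDerivAt f f' (x - x) := by rwa [sub_self]
  exact h2.comp_sub_const x x

/-- the averaged free energy of the contact argument, without normalisation -/
def FP (n : ℕ) (hA : A.Nonempty) (ν : Measure (Fin N → Fin N → ℝ)) (lab : Fin N → κ)
    (th : κ → ℝ) (η : ℝ) (t : ℝ) (a : Fin p.nc → ℝ) (l : κ × Fin p.nc → ℝ) : ℝ :=
  EP (SY.base p n A hA) ν (HF A n lab th η t a l)

/-- the averaged observable -/
def Eo (n : ℕ) (hA : A.Nonempty) (ν : Measure (Fin N → Fin N → ℝ)) (lab : Fin N → κ)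
    (th : κ → ℝ) (η : ℝ) (t : ℝ) (a : Fin p.nc → ℝ) (l : κ × Fin p.nc → ℝ)
    (V : (Fin N → Fin N → ℝ) → SY.SS p n A → ℝ) : ℝ :=
  Ed p N (fun d => ∫ U, eE (G.PP (SY.base p n A hA) (HF A n lab th η t a l U) d)
    (fun ω => V U ω.1) ∂ν)

include hν in
theorem hasDerivAt_line (lab : Fin N → κ) (th : κ → ℝ) (η t : ℝ) (a : Fin p.nc → ℝ)
    (l : κ × Fin p.nc → ℝ) {V : (Fin N → Fin N → ℝ) → SY.SS p n A → ℝ}
    (hV : ∀ s, Continuous fun U => V U s) :
    HasDerivAt (fun y : ℝ => EP (SY.base p n A hA) ν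
      (fun U s => HF A n lab th η t a l U s + y * V U s))
      (Eo n hA ν lab th η t a l V) 0 := by
  obtain ⟨c1, _, h1⟩ := ae_bound hν (continuous_HF (A := A) (n := n) lab th η t a l)
  obtain ⟨c2, _, h2⟩ := ae_bound hν hV
  have h := hasDerivAt_EP (SY.base p n A hA) ν (SY.base_SF_zero hA)
    (H := HF A n lab th η t a l) (V := V)
    (fun s => (continuous_HF lab th η t a l s).measurable) (fun s => (hV s).measurable)
    h1 h2 0
  refine h.congr_deriv ?_
  unfold Eo
  simp only [zero_mul, add_zero]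

include hν in
/-- derivative in `t` -/
theorem hasDerivAt_FP_t (lab : Fin N → κ) (th : κ → ℝ) (η t : ℝ) (a : Fin p.nc → ℝ)
    (l : κ × Fin p.nc → ℝ) :
    HasDerivAt (fun t => FP n hA ν lab th η t a l)
      (Eo n hA ν lab th η t a l (Vt A n p lab th)) t := by
  have h := hasDerivAt_line hA hν lab th η t a l (continuous_Vt (A := A) (n := n) (p := p) lab th)
  have e : (fun t' => FP n hA ν lab th η t' a l) = fun t' => EP (SY.base p n A hA) ν
      (fun U s => HF A n lab th η t a l U s + (t' - t) * Vt A n p lab th U s) := by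
    funext t'
    unfold FP
    congr 1
    funext U s
    rw [HF_eq, HF_eq]
    ring
  rw [e]
  exact comp_shift h

include hν in
/-- derivative in `a g` -/
theorem hasDerivAt_FP_a (lab : Fin N → κ) (th : κ → ℝ) (η t : ℝ) (a : Fin p.nc → ℝ)
    (l : κ × Fin p.nc → ℝ) (g : Fin p.nc) :
    HasDerivAt (fun y => FP n hA ν lab th η t (Function.update a g y) l)
      (Eo n hA ν lab th η t a l (fun _ => Va A n g)) (a g) := by
  have h := hasDerivAt_line hA hν lab th η t a l (V := fun _ => Va A n g)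
    (fun s => continuous_const)
  have e : (fun y => FP n hA ν lab th η t (Function.update a g y) l) =
      fun y => EP (SY.base p n A hA) ν
      (fun U s => HF A n lab th η t a l U s + (y - a g) * Va A n g s) := by
    funext y
    unfold FP
    congr 1
    funext U s
    rw [HF_eq, HF_eq]
    have : ∑ g', Function.update a g y g' * Va A n g' s =
        ∑ g', a g' * Va A n g' s + (y - a g) * Va A n g s := by
      rw [← Finset.add_sum_erase univ (fun g' => Function.update a g y g' * Va A n g' s)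
        (mem_univ g), ← Finset.add_sum_erase univ (fun g' => a g' * Va A n g' s) (mem_univ g)]
      have h1 : ∑ j ∈ univ.erase g, Function.update a g y j * Va A n j s =
          ∑ j ∈ univ.erase g, a j * Va A n j s :=
        Finset.sum_congr rfl fun j hj => by rw [Function.update_of_ne (Finset.ne_of_mem_erase hj)]
      rw [h1, Function.update_self]
      ring
    rw [this]
    ring
  rw [e]
  exact comp_shift h

include hν in
/-- derivative in `l j` -/
theorem hasDerivAt_FP_l (lab : Fin N → κ) (th : κ → ℝ) (η t : ℝ) (a : Fin p.nc → ℝ)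
    (l : κ × Fin p.nc → ℝ) (j : κ × Fin p.nc) :
    HasDerivAt (fun y => FP n hA ν lab th η t a (Function.update l j y))
      (Eo n hA ν lab th η t a l (Vl A n lab η j)) (l j) := by
  have h := hasDerivAt_line hA hν lab th η t a l (V := Vl A n lab η j)
    (continuous_Vl lab η j)
  have e : (fun y => FP n hA ν lab th η t a (Function.update l j y)) =
      fun y => EP (SY.base p n A hA) ν
      (fun U s => HF A n lab th η t a l U s + (y - l j) * Vl A n lab η j U s) := by
    funext y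
    unfold FP
    congr 1
    funext U s
    rw [HF_eq, HF_eq]
    have : ∑ j', Function.update l j y j' * Vl A n lab η j' U s =
        ∑ j', l j' * Vl A n lab η j' U s + (y - l j) * Vl A n lab η j U s := by
      rw [← Finset.add_sum_erase univ (fun j' => Function.update l j y j' * Vl A n lab η j' U s)
        (mem_univ j), ← Finset.add_sum_erase univ (fun j' => l j' * Vl A n lab η j' U s)
        (mem_univ j)]
      have h1 : ∑ j' ∈ univ.erase j, Function.update l j y j' * Vl A n lab η j' U s =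
          ∑ j' ∈ univ.erase j, l j' * Vl A n lab η j' U s :=
        Finset.sum_congr rfl fun j' hj => by rw [Function.update_of_ne (Finset.ne_of_mem_erase hj)]
      rw [h1, Function.update_self]
      ring
    rw [this]
    ring
  rw [e]
  exact comp_shift h

include hν in
/-- joint continuity -/
theorem continuous_FP (hN : 0 < N) (lab : Fin N → κ) (th : κ → ℝ) (η : ℝ) :
    Continuous fun q : ℝ × (Fin p.nc → ℝ) × (κ × Fin p.nc → ℝ) =>
      FP n hA ν lab th η q.1 q.2.1 q.2.2 := by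
  obtain ⟨ct, _, ht⟩ := ae_bound hν (continuous_Vt (A := A) (n := n) (p := p) lab th)
  have ha : ∀ g, ∃ c, 0 ≤ c ∧ ∀ᵐ U ∂ν, ∀ s : SY.SS p n A, |Va A n g s| ≤ c := fun g =>
    ae_bound hν (f := fun _ => Va A n g) (fun s => continuous_const)
  have hl : ∀ j, ∃ c, 0 ≤ c ∧ ∀ᵐ U ∂ν, ∀ s : SY.SS p n A, |Vl A n lab η j U s| ≤ c := fun j =>
    ae_bound hν (continuous_Vl lab η j)
  choose ca _ ha using ha
  choose cl _ hl using hl
  rw [continuous_iff_continuousAt]
  intro q0
  unfold ContinuousAt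
  rw [tendsto_iff_norm_sub_tendsto_zero]
  let b : ℝ × (Fin p.nc → ℝ) × (κ × Fin p.nc → ℝ) → ℝ := fun q =>
    |q.1 - q0.1| * ct + ∑ g, |q.2.1 g - q0.2.1 g| * ca g + ∑ j, |q.2.2 j - q0.2.2 j| * cl j
  have hb : Filter.Tendsto b (nhds q0) (nhds 0) := by
    have h1 : Continuous b := by fun_prop
    have h2 := h1.tendsto q0
    have h3 : b q0 = 0 := by simp [b]
    rwa [h3] at h2
  refine squeeze_zero (fun _ => norm_nonneg _) (fun q => ?_) hb
  rw [Real.norm_eq_abs]
  obtain ⟨c1, _, h1⟩ := ae_bound hν (continuous_HF (A := A) (n := n) lab th η q.1 q.2.1 q.2.2)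
  obtain ⟨c2, _, h2⟩ := ae_bound hν (continuous_HF (A := A) (n := n) lab th η q0.1 q0.2.1 q0.2.2)
  refine abs_EP_sub_le (SY.base p n A hA) ν hN
    (fun s => (continuous_HF lab th η _ _ _ s).measurable)
    (fun s => (continuous_HF lab th η _ _ _ s).measurable) h1 h2 ?_
  filter_upwards [ht, ae_all_iff.2 ha, ae_all_iff.2 hl] with U h3 h4 h5 s
  change SY.SS p n A at s
  rw [HF_eq, HF_eq]
  have e : q.1 * Vt A n p lab th U s + ∑ g, q.2.1 g * Va A n g s +
      ∑ j, q.2.2 j * Vl A n lab η j U s - (q0.1 * Vt A n p lab th U s +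
      ∑ g, q0.2.1 g * Va A n g s + ∑ j, q0.2.2 j * Vl A n lab η j U s) =
      (q.1 - q0.1) * Vt A n p lab th U s + ∑ g, (q.2.1 g - q0.2.1 g) * Va A n g s +
      ∑ j, (q.2.2 j - q0.2.2 j) * Vl A n lab η j U s := by
    simp only [sub_mul, Finset.sum_sub_distrib]
    ring
  rw [e]
  refine (abs_add_le _ _).trans (add_le_add ((abs_add_le _ _).trans (add_le_add ?_ ?_)) ?_)
  · rw [abs_mul]; exact mul_le_mul_of_nonneg_left (h3 s) (abs_nonneg _)
  · refine (Finset.abs_sum_le_sum_abs _ _).trans (Finset.sum_le_sum fun g _ => ?_)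
    rw [abs_mul]; exact mul_le_mul_of_nonneg_left (h4 g s) (abs_nonneg _)
  · refine (Finset.abs_sum_le_sum_abs _ _).trans (Finset.sum_le_sum fun j _ => ?_)
    rw [abs_mul]; exact mul_le_mul_of_nonneg_left (h5 j s) (abs_nonneg _)

/-- the normalised function of the contact argument -/
def FN (n : ℕ) (hA : A.Nonempty) (ν : Measure (Fin N → Fin N → ℝ)) (lab : Fin N → κ)
    (th : κ → ℝ) (η : ℝ) (t : ℝ) (a : Fin p.nc → ℝ) (l : κ × Fin p.nc → ℝ) : ℝ :=
  (N : ℝ)⁻¹ * FP n hA ν lab th η t a l + (N : ℝ)⁻¹ * Real.log ((1 / 2) ^ N * (A.card : ℝ)) -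
    1 / 2 * ∑ g, a g ^ 2

include hν in
theorem continuous_FN (hN : 0 < N) (lab : Fin N → κ) (th : κ → ℝ) (η : ℝ) :
    Continuous fun q : ℝ × (Fin p.nc → ℝ) × (κ × Fin p.nc → ℝ) =>
      FN n hA ν lab th η q.1 q.2.1 q.2.2 := by
  unfold FN
  exact ((continuous_const.mul (continuous_FP hA hν hN lab th η)).add continuous_const).sub
    (by fun_prop)

include hν in
theorem hasDerivAt_FN_t (lab : Fin N → κ) (th : κ → ℝ) (η t : ℝ) (a : Fin p.nc → ℝ)
    (l : κ × Fin p.nc → ℝ) :
    HasDerivAt (fun t => FN n hA ν lab th η t a l)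
      ((N : ℝ)⁻¹ * Eo n hA ν lab th η t a l (Vt A n p lab th)) t := by
  unfold FN
  exact (((hasDerivAt_FP_t hA hν lab th η t a l).const_mul _).add_const _).sub_const _

include hν in
theorem hasDerivAt_FN_a (lab : Fin N → κ) (th : κ → ℝ) (η t : ℝ) (a : Fin p.nc → ℝ)
    (l : κ × Fin p.nc → ℝ) (g : Fin p.nc) :
    HasDerivAt (fun y => FN n hA ν lab th η t (Function.update a g y) l)
      ((N : ℝ)⁻¹ * Eo n hA ν lab th η t a l (fun _ => Va A n g) - a g) (a g) := by
  unfold FN
  refine (((hasDerivAt_FP_a hA hν lab th η t a l g).const_mul _).add_const _).sub ?_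
  have e : (fun y : ℝ => 1 / 2 * ∑ g', Function.update a g y g' ^ 2) =
      fun y => 1 / 2 * (y ^ 2 + ∑ j ∈ univ.erase g, a j ^ 2) := by
    funext y
    rw [← Finset.add_sum_erase univ (fun g' => Function.update a g y g' ^ 2) (mem_univ g)]
    congr 2
    · simp
    · exact Finset.sum_congr rfl fun j hj => by rw [Function.update_of_ne (Finset.ne_of_mem_erase hj)]
  rw [e]
  have h := (((hasDerivAt_pow 2 (a g)).add_const (∑ j ∈ univ.erase g, a j ^ 2)).const_mul
    (1 / 2 : ℝ))
  refine h.congr_deriv ?_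
  push_cast
  ring

include hν in
theorem hasDerivAt_FN_l (lab : Fin N → κ) (th : κ → ℝ) (η t : ℝ) (a : Fin p.nc → ℝ)
    (l : κ × Fin p.nc → ℝ) (j : κ × Fin p.nc) :
    HasDerivAt (fun y => FN n hA ν lab th η t a (Function.update l j y))
      ((N : ℝ)⁻¹ * Eo n hA ν lab th η t a l (Vl A n lab η j)) (l j) := by
  unfold FN
  exact (((hasDerivAt_FP_l hA hν lab th η t a l j).const_mul _).add_const _).sub_const _

end measure

end

end Crest.Agent.R164.US
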