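import Crest.Agent.R164.UDef
import Mathlib
import Crest.Agent.R164.UPath
import Crest.Agent.R164.UField
import Crest.Agent.R164.UPress
import Crest.Agent.R164.ConcSys4
import Crest.Agent.R141.SysA3
import Crest.Agent.R164.USys2
import Crest.Agent.R164.CoinG
import Crest.Agent.R164.GCalc3
import Crest.Agent.R164.ZSys
import Crest.Agent.R164.Mag1
import Crest.Agent.R164.FieldCrit
import Crest.Agent.R164.PAlg2
import Crest.Agent.R164.LPen2
import Crest.Agent.R164.LStr7

-- ▼ part R164/UShift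
section

/-!
Row 164, upper bound assembly (helper466): removal of the small fields.
-/

set_option autoImplicit false
set_option linter.unusedSectionVars false

namespace Crest.Agent.R164.US

open Finset MeasureTheory Crest.Agent.R141 Crest.Agent.R164
open Crest.ProbabilityR.InvariantGlass

noncomputable section

variable {p : Par} {N n : ℕ} {A : Finset (Fin N → Bool)} (hA : A.Nonempty)
variable {κ : Type} [Fintype κ] [DecidableEq κ] (lab : Fin N → κ) (th : κ → ℝ)
    (η t : ℝ) (a : Fin p.nc → ℝ) (l : κ × Fin p.nc → ℝ)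
variable {ν : Measure (Fin N → Fin N → ℝ)} [IsProbabilityMeasure ν]
variable (hν : ∀ᵐ U ∂ν, U ∈ Rot.OK N)

include hν in
/-- the small fields can be removed at the cost of the derivatives at `l`. -/
theorem FN_shift (hN : 0 < N) :
    FN n hA ν lab th η t a l ≤ FN n hA ν lab th η t a (fun _ => 0) +
      ∑ j, l j * ((N : ℝ)⁻¹ * Eo n hA ν lab th η t a l (Vl A n lab η j)) := by
  have hN' : (0:ℝ) < N := by exact_mod_cast hN
  obtain ⟨c1, _, h1⟩ := ae_bound hν (continuous_HF (A := A) (n := n) lab th η t a l)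
  obtain ⟨c2, _, h2⟩ := ae_bound hν (continuous_HF (A := A) (n := n) (p := p) lab th η t a
    (fun _ => 0))
  have hl : ∀ j : κ × Fin p.nc, ∃ c, 0 ≤ c ∧ ∀ᵐ U ∂ν, ∀ s : SY.SS p n A,
      |Vl A n lab η j U s| ≤ c := fun j => ae_bound hν (continuous_Vl lab η j)
  choose cl _ hcl using hl
  have hHm : ∀ l : κ × Fin p.nc → ℝ, ∀ s : SY.SS p n A,
      Measurable fun U => HF A n lab th η t a l U s := fun l s =>
    (continuous_HF lab th η t a l s).measurable
  have hVm : ∀ j : κ × Fin p.nc, ∀ s : SY.SS p n A, Measurable fun U => Vl A n lab η j U s :=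
    fun j s => (continuous_Vl lab η j s).measurable
  have hIV : ∀ (j : κ × Fin p.nc) (d : DD p N), Integrable (fun U =>
      eE (PU (n := n) hA lab th η t a l U d) (fun ω => Vl A n lab η j U ω.1)) ν := fun j d =>
    integrable_eE_PP (SY.base p n A hA) ν (H := HF A n lab th η t a l) (V := Vl A n lab η j)
      (hHm l) (hVm j) (hcl j) d
  have key : ∀ d : DD p N, ∫ U, G.Phi (SY.base p n A hA) (HF A n lab th η t a l U) d ∂ν ≤
      ∫ U, G.Phi (SY.base p n A hA) (HF A n lab th η t a (fun _ => 0) U) d ∂ν +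
      ∑ j, l j * ∫ U, eE (PU (n := n) hA lab th η t a l U d)
        (fun ω => Vl A n lab η j U ω.1) ∂ν := by
    intro d
    have e1 : ∑ j, l j * ∫ U, eE (PU (n := n) hA lab th η t a l U d)
        (fun ω => Vl A n lab η j U ω.1) ∂ν = ∫ U, ∑ j, l j * eE (PU (n := n) hA lab th η t a l U d)
        (fun ω => Vl A n lab η j U ω.1) ∂ν := by
      rw [integral_finsetSum _ fun j _ => (hIV j d).const_mul _]
      exact Finset.sum_congr rfl fun j _ => (integral_const_mul _ _).symm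
    rw [e1, ← integral_add (integrable_Phi (SY.base p n A hA) ν (hHm _) h2 d)
      (integrable_finsetSum _ fun j _ => (hIV j d).const_mul _)]
    refine integral_mono (integrable_Phi (SY.base p n A hA) ν (hHm _) h1 d)
      ((integrable_Phi (SY.base p n A hA) ν (hHm _) h2 d).add
      (integrable_finsetSum _ fun j _ => (hIV j d).const_mul _)) fun U => ?_
    have h3 := Phi_add_ge (SY.base p n A hA) (SY.base_SF_zero hA) (HF A n lab th η t a l U)
      (fun s => - ∑ j, l j * Vl A n lab η j U s) d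
    have e2 : (fun s : SY.SS p n A => HF A n lab th η t a l U s + - ∑ j, l j * Vl A n lab η j U s) =
        HF A n lab th η t a (fun _ => 0) U := by
      funext s
      rw [HF_eq, HF_eq]
      simp
    have e3 : eE (G.PP (SY.base p n A hA) (HF A n lab th η t a l U) d)
        (fun ω => - ∑ j, l j * Vl A n lab η j U ω.1) =
        - ∑ j, l j * eE (PU (n := n) hA lab th η t a l U d) (fun ω => Vl A n lab η j U ω.1) := by
      have : (fun ω : G.Om (SY.base p n A hA) => - ∑ j, l j * Vl A n lab η j U ω.1) =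
          fun ω => (-1) * ∑ j, l j * Vl A n lab η j U ω.1 := by funext ω; ring
      rw [this, eE_smul, eE_sum]
      simp only [eE_smul]
      ring
    have h4 : G.Phi (SY.base p n A hA) (fun s : SY.SS p n A => HF A n lab th η t a l U s +
        - ∑ j, l j * Vl A n lab η j U s) d =
        G.Phi (SY.base p n A hA) (HF A n lab th η t a (fun _ => 0) U) d := by rw [e2]
    rw [e3] at h3
    have h5 := h3.trans (le_of_eq h4)
    show G.Phi (SY.base p n A hA) (HF A n lab th η t a l U) d ≤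
      G.Phi (SY.base p n A hA) (HF A n lab th η t a (fun _ => 0) U) d +
      ∑ j, l j * eE (PU (n := n) hA lab th η t a l U d) (fun ω => Vl A n lab η j U ω.1)
    linarith
  have h6 : FP n hA ν lab th η t a l ≤ FP n hA ν lab th η t a (fun _ => 0) +
      ∑ j, l j * Eo n hA ν lab th η t a l (Vl A n lab η j) := by
    have h7 := Ed_le (p := p) (N := N) key
    refine h7.trans (le_of_eq ?_)
    unfold FP EP Eo Ed
    simp only [mul_add, Finset.sum_add_distrib, Finset.mul_sum]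
    congr 1
    rw [Finset.sum_comm]
    refine Finset.sum_congr rfl fun j _ => Finset.sum_congr rfl fun d _ => ?_
    ring
  have h8 := mul_le_mul_of_nonneg_left h6 (inv_nonneg.2 hN'.le)
  unfold FN
  rw [mul_add, Finset.mul_sum] at h8
  have e9 : ∑ j, (N : ℝ)⁻¹ * (l j * Eo n hA ν lab th η t a l (Vl A n lab η j)) =
      ∑ j, l j * ((N : ℝ)⁻¹ * Eo n hA ν lab th η t a l (Vl A n lab η j)) :=
    Finset.sum_congr rfl fun j _ => by ring
  rw [e9] at h8
  linarith

end

end Crest.Agent.R164.US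
end

-- ▼ part R164/Contact
section

/-!
Row 164, upper bound: the abstract contact (comparison) argument.

`F t a l` is a free energy depending on the temperature parameter `t ∈ [0,1]`, on the field
strengths `a g ∈ [a0, A]` (so that the covariance increments are `a g ^ 2`) and on auxiliary
strengths `l i ∈ [1,2]`. At a maximum of `F` minus the affine (in `a g ^ 2`) comparison function
minus `ε t` minus `c ∑ (l i - 3/2)^2` with `t > 0`, the structure hypothesis gives a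
contradiction; so the maximum is at `t = 0`.
-/

set_option autoImplicit false

namespace Crest.Agent.R164.Contact

open Finset Set

/-- one-sided derivative at a maximum over `[x - r, x]`. -/
theorem deriv_nonneg_of_left_max {f : ℝ → ℝ} {f' x y : ℝ} (hy : y < x)
    (hf : HasDerivAt f f' x) (hmax : ∀ z ∈ Icc y x, f z ≤ f x) : 0 ≤ f' := by
  by_contra hneg
  push Not at hneg
  have h := hf.hasDerivWithinAt (s := Iio x)
  rw [hasDerivWithinAt_iff_tendsto_slope' (by simp)] at h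
  have h1 : ∀ᶠ z in nhdsWithin x (Iio x), slope f x z < 0 := h.eventually (gt_mem_nhds hneg)
  have h2 : ∀ᶠ z in nhdsWithin x (Iio x), z ∈ Ioo y x := Ioo_mem_nhdsLT hy
  obtain ⟨z, hz1, hz2⟩ := (h1.and h2).exists
  have h3 : f z ≤ f x := hmax z ⟨hz2.1.le, hz2.2.le⟩
  rw [slope_def_field] at hz1
  have h4 : 0 ≤ (f z - f x) / (z - x) :=
    div_nonneg_of_nonpos (by linarith) (by linarith [hz2.2])
  linarith

/-- one-sided derivative at a maximum over `[x, y]`. -/
theorem deriv_nonpos_of_right_max {f : ℝ → ℝ} {f' x y : ℝ} (hy : x < y)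
    (hf : HasDerivAt f f' x) (hmax : ∀ z ∈ Icc x y, f z ≤ f x) : f' ≤ 0 := by
  have h1 : HasDerivAt (fun z => f (-z)) (-f') (-x) := by
    have h2 : HasDerivAt f f' (-(-x)) := by simpa using hf
    have h3 : HasDerivAt (fun z => f (-z)) (f' * (-1)) (-x) := h2.comp (-x) (hasDerivAt_neg (-x))
    exact h3.congr_deriv (by ring)
  have h3 := deriv_nonneg_of_left_max (f := fun z => f (-z)) (x := -x) (y := -y) (by linarith) h1
    (fun z hz => by
      have := hmax (-z) ⟨by linarith [hz.2], by linarith [hz.1]⟩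
      simpa using this)
  linarith

variable {α β : Type*} [Fintype α] [DecidableEq α] [Fintype β] [DecidableEq β]

/-- **Contact argument.** -/
theorem contact (F : ℝ → (α → ℝ) → (β → ℝ) → ℝ)
    (Ft : ℝ → (α → ℝ) → (β → ℝ) → ℝ)
    (Fa : α → ℝ → (α → ℝ) → (β → ℝ) → ℝ)
    (Fl : β → ℝ → (α → ℝ) → (β → ℝ) → ℝ)
    (hc : Continuous fun q : ℝ × (α → ℝ) × (β → ℝ) => F q.1 q.2.1 q.2.2)
    (hFt : ∀ t a l, HasDerivAt (fun t => F t a l) (Ft t a l) t)
    (hFa : ∀ t a l g, HasDerivAt (fun y => F t (Function.update a g y) l) (Fa g t a l) (a g))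
    (hFl : ∀ t a l i, HasDerivAt (fun y => F t a (Function.update l i y)) (Fl i t a l) (l i))
    {S a0 A c ε ε0 : ℝ} (haA : a0 < A) (hcpos : 0 < c) (hε : 0 < ε) (hε0 : 0 ≤ ε0)
    (P : α → ℝ) (G D : ℝ → ℝ)
    (hG0 : G 0 = 0)
    (hG : ∀ t ∈ Ioc (0:ℝ) 1, HasDerivAt G (D t) t)
    (hGc : ContinuousOn G (Icc 0 1))
    -- initial values
    (hinit : ∀ a l, (∀ g, a g ∈ Icc a0 A) → (∀ i, l i ∈ Icc (1:ℝ) 2) →
      F 0 a l ≤ S - 1 / 2 * ∑ g, a g ^ 2 * P g + ε0)
    -- coercivity on the faces `a g = A`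
    (hface : ∀ t a l, t ∈ Icc (0:ℝ) 1 → (∀ g, a g ∈ Icc a0 A) → (∀ i, l i ∈ Icc (1:ℝ) 2) →
      (∃ g, a g = A) → F t a l ≤ S - 1 / 2 * ∑ g, a g ^ 2 * P g + G t)
    -- small dependence on the auxiliary strengths
    (hsmall : ∀ i t a l, t ∈ Icc (0:ℝ) 1 → (∀ g, a g ∈ Icc a0 A) → (∀ i, l i ∈ Icc (1:ℝ) 2) →
      |Fl i t a l| < c)
    -- structure at contact points
    (hstr : ∀ t a l, t ∈ Ioc (0:ℝ) 1 → (∀ g, a g ∈ Ico a0 A) → (∀ i, l i ∈ Ioo (1:ℝ) 2) →
      (∀ i, Fl i t a l = 2 * c * (l i - 3 / 2)) →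
      (∀ i, ∀ y ∈ Icc (1:ℝ) 2, F t a (Function.update l i y) ≤
        F t a l + Fl i t a l * (y - l i) + c * (y - l i) ^ 2) →
      (∀ g, Fa g t a l ≤ - (a g * P g)) → Ft t a l < D t + ε) :
    ∀ t a l, t ∈ Icc (0:ℝ) 1 → (∀ g, a g ∈ Icc a0 A) → (∀ i, l i ∈ Icc (1:ℝ) 2) →
      F t a l ≤ S - 1 / 2 * ∑ g, a g ^ 2 * P g + G t + ε * t + ε0 + c * (Fintype.card β / 4) := by
  -- the comparison function
  let Ξ : ℝ × (α → ℝ) × (β → ℝ) → ℝ := fun q =>
    F q.1 q.2.1 q.2.2 - (S - 1 / 2 * ∑ g, q.2.1 g ^ 2 * P g + G q.1) - ε * q.1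
      - c * ∑ i, (q.2.2 i - 3 / 2) ^ 2
  let K : Set (ℝ × (α → ℝ) × (β → ℝ)) :=
    Icc (0:ℝ) 1 ×ˢ (Set.pi univ fun _ => Icc a0 A) ×ˢ (Set.pi univ fun _ => Icc (1:ℝ) 2)
  have hKc : IsCompact K :=
    isCompact_Icc.prod ((isCompact_univ_pi fun _ => isCompact_Icc).prod
      (isCompact_univ_pi fun _ => isCompact_Icc))
  have hKn : K.Nonempty :=
    ⟨(0, (fun _ => a0), fun _ => 1), ⟨⟨le_rfl, zero_le_one⟩,
      ⟨fun _ _ => ⟨le_rfl, haA.le⟩, fun _ _ => ⟨le_rfl, by norm_num⟩⟩⟩⟩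
  have hΞc : ContinuousOn Ξ K := by
    have h1 : ContinuousOn (fun q : ℝ × (α → ℝ) × (β → ℝ) => G q.1) K :=
      hGc.comp continuous_fst.continuousOn fun q hq => hq.1
    have h2 : Continuous fun q : ℝ × (α → ℝ) × (β → ℝ) =>
        S - 1 / 2 * ∑ g, q.2.1 g ^ 2 * P g := by fun_prop
    have h3 : Continuous fun q : ℝ × (α → ℝ) × (β → ℝ) =>
        c * ∑ i, (q.2.2 i - 3 / 2) ^ 2 := by fun_prop
    exact ((hc.continuousOn.sub (h2.continuousOn.add h1)).sub
      (Continuous.continuousOn (by fun_prop))).sub h3.continuousOn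
  obtain ⟨⟨t, a, l⟩, hq, hmax⟩ := hKc.exists_isMaxOn hKn hΞc
  have ht : t ∈ Icc (0:ℝ) 1 := hq.1
  have ha : ∀ g, a g ∈ Icc a0 A := fun g => hq.2.1 g (mem_univ g)
  have hl : ∀ i, l i ∈ Icc (1:ℝ) 2 := fun i => hq.2.2 i (mem_univ i)
  have hmax' : ∀ t' a' l', t' ∈ Icc (0:ℝ) 1 → (∀ g, a' g ∈ Icc a0 A) → (∀ i, l' i ∈ Icc (1:ℝ) 2) →
      Ξ (t', a', l') ≤ Ξ (t, a, l) := by
    intro t' a' l' h1 h2 h3
    exact hmax (show (t', a', l') ∈ K from ⟨h1, ⟨fun g _ => h2 g, fun i _ => h3 i⟩⟩)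
  have hsq : ∀ l' : β → ℝ, 0 ≤ c * ∑ i, (l' i - 3 / 2) ^ 2 := fun l' => by positivity
  -- the value at the maximum is at most `ε0`
  have key : Ξ (t, a, l) ≤ ε0 := by
    by_contra hcon
    push Not at hcon
    -- `t > 0`
    have ht0 : 0 < t := by
      rcases ht.1.eq_or_lt with h | h
      · exfalso
        have h1 := hinit a l ha hl
        have h2 : Ξ (t, a, l) = F t a l - (S - 1 / 2 * ∑ g, a g ^ 2 * P g + G t) - ε * t
          - c * ∑ i, (l i - 3 / 2) ^ 2 := rfl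
        rw [← h] at h2 hcon
        rw [hG0] at h2
        have h3 := hsq l
        rw [← h] at *
        linarith
      · exact h
    -- `a g < A`
    have haA' : ∀ g, a g ∈ Ico a0 A := by
      intro g
      refine ⟨(ha g).1, lt_of_le_of_ne (ha g).2 ?_⟩
      intro hg
      have h1 := hface t a l ht ha hl ⟨g, hg⟩
      have h2 : Ξ (t, a, l) = F t a l - (S - 1 / 2 * ∑ g, a g ^ 2 * P g + G t) - ε * t
          - c * ∑ i, (l i - 3 / 2) ^ 2 := rfl
      have h3 := hsq l
      have h4 : 0 < ε * t := mul_pos hε ht0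
      linarith
    -- the derivative of `Ξ` in `l i`
    have hdl : ∀ i, HasDerivAt (fun y => Ξ (t, a, Function.update l i y))
        (Fl i t a l - c * (2 * (l i - 3 / 2))) (l i) := by
      intro i
      have h1 : (fun y => Ξ (t, a, Function.update l i y)) = fun y =>
          F t a (Function.update l i y) - (S - 1 / 2 * ∑ g, a g ^ 2 * P g + G t) - ε * t
            - c * ((y - 3 / 2) ^ 2 + ∑ j ∈ univ.erase i, (l j - 3 / 2) ^ 2) := by
        funext y
        show F t a (Function.update l i y) - (S - 1 / 2 * ∑ g, a g ^ 2 * P g + G t) - ε * t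
            - c * ∑ j, (Function.update l i y j - 3 / 2) ^ 2 = _
        congr 2
        rw [← Finset.add_sum_erase _ _ (mem_univ i)]
        congr 1
        · simp
        · refine Finset.sum_congr rfl fun j hj => ?_
          rw [Function.update_of_ne (Finset.ne_of_mem_erase hj)]
      rw [h1]
      have h2 : HasDerivAt (fun y : ℝ => (y - 3 / 2) ^ 2 + ∑ j ∈ univ.erase i, (l j - 3 / 2) ^ 2)
          (2 * (l i - 3 / 2)) (l i) := by
        have h3 := (((hasDerivAt_id (l i)).sub_const (3 / 2)).pow 2).add_const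
          (∑ j ∈ univ.erase i, (l j - 3 / 2) ^ 2)
        refine h3.congr_deriv ?_
        simp
      exact ((((hFl t a l i).sub_const _).sub_const _).sub (h2.const_mul c))
    have hupd : ∀ i y, y ∈ Icc (1:ℝ) 2 → ∀ j, Function.update l i y j ∈ Icc (1:ℝ) 2 := by
      intro i y hy j
      rcases eq_or_ne j i with rfl | h
      · simpa using hy
      · rw [Function.update_of_ne h]; exact hl j
    have hself : ∀ i, Ξ (t, a, Function.update l i (l i)) = Ξ (t, a, l) := by
      intro i; rw [Function.update_eq_self]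
    -- `l i` is interior
    have hli : ∀ i, l i ∈ Ioo (1:ℝ) 2 := by
      intro i
      have hs := hsmall i t a l ht ha hl
      rw [abs_lt] at hs
      constructor
      · refine lt_of_le_of_ne (hl i).1 ?_
        intro h
        have h1 := deriv_nonpos_of_right_max (f := fun y => Ξ (t, a, Function.update l i y))
          (x := l i) (y := 2) (by rw [← h]; norm_num) (hdl i) (fun z hz => by
            show Ξ (t, a, Function.update l i z) ≤ Ξ (t, a, Function.update l i (l i))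
            rw [hself]
            exact hmax' t a _ ht ha (hupd i z ⟨(hl i).1.trans hz.1, hz.2⟩))
        rw [← h] at h1
        linarith
      · refine lt_of_le_of_ne (hl i).2 ?_
        intro h
        have h1 := deriv_nonneg_of_left_max (f := fun y => Ξ (t, a, Function.update l i y))
          (x := l i) (y := 1) (by rw [h]; norm_num) (hdl i) (fun z hz => by
            show Ξ (t, a, Function.update l i z) ≤ Ξ (t, a, Function.update l i (l i))
            rw [hself]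
            exact hmax' t a _ ht ha (hupd i z ⟨hz.1, hz.2.trans (hl i).2⟩))
        rw [h] at h1
        linarith
    -- first order condition
    have hfl : ∀ i, Fl i t a l = c * (2 * (l i - 3 / 2)) := by
      intro i
      have h1 := deriv_nonpos_of_right_max (f := fun y => Ξ (t, a, Function.update l i y))
        (x := l i) (y := 2) (hli i).2 (hdl i) (fun z hz => by
          show Ξ (t, a, Function.update l i z) ≤ Ξ (t, a, Function.update l i (l i))
          rw [hself]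
          exact hmax' t a _ ht ha (hupd i z ⟨(hl i).1.trans hz.1, hz.2⟩))
      have h2 := deriv_nonneg_of_left_max (f := fun y => Ξ (t, a, Function.update l i y))
        (x := l i) (y := 1) (hli i).1 (hdl i) (fun z hz => by
          show Ξ (t, a, Function.update l i z) ≤ Ξ (t, a, Function.update l i (l i))
          rw [hself]
          exact hmax' t a _ ht ha (hupd i z ⟨hz.1, hz.2.trans (hl i).2⟩))
      linarith
    -- contact from above
    have hcontact : ∀ i, ∀ y ∈ Icc (1:ℝ) 2, F t a (Function.update l i y) ≤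
        F t a l + Fl i t a l * (y - l i) + c * (y - l i) ^ 2 := by
      intro i y hy
      have h1 := hmax' t a (Function.update l i y) ht ha (hupd i y hy)
      have h2 : Ξ (t, a, Function.update l i y) =
          F t a (Function.update l i y) - (S - 1 / 2 * ∑ g, a g ^ 2 * P g + G t) - ε * t
            - c * ((y - 3 / 2) ^ 2 + ∑ j ∈ univ.erase i, (l j - 3 / 2) ^ 2) := by
        show F t a (Function.update l i y) - (S - 1 / 2 * ∑ g, a g ^ 2 * P g + G t) - ε * t
            - c * ∑ j, (Function.update l i y j - 3 / 2) ^ 2 = _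
        congr 2
        rw [← Finset.add_sum_erase _ _ (mem_univ i)]
        congr 1
        · simp
        · refine Finset.sum_congr rfl fun j hj => ?_
          rw [Function.update_of_ne (Finset.ne_of_mem_erase hj)]
      have h3 : Ξ (t, a, l) =
          F t a l - (S - 1 / 2 * ∑ g, a g ^ 2 * P g + G t) - ε * t
            - c * ((l i - 3 / 2) ^ 2 + ∑ j ∈ univ.erase i, (l j - 3 / 2) ^ 2) := by
        show F t a l - (S - 1 / 2 * ∑ g, a g ^ 2 * P g + G t) - ε * t
            - c * ∑ j, (l j - 3 / 2) ^ 2 = _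
        congr 2
        rw [← Finset.add_sum_erase _ _ (mem_univ i)]
      rw [h2, h3] at h1
      rw [hfl i]
      nlinarith [h1]
    -- first order conditions in `a g`
    have hda : ∀ g, Fa g t a l ≤ - (a g * P g) := by
      intro g
      have h0 : (fun y => Ξ (t, Function.update a g y, l)) = fun y =>
          F t (Function.update a g y) l - (S - 1 / 2 * (y ^ 2 * P g +
            ∑ j ∈ univ.erase g, a j ^ 2 * P j) + G t) - ε * t
            - c * ∑ i, (l i - 3 / 2) ^ 2 := by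
        funext y
        show F t (Function.update a g y) l - (S - 1 / 2 * ∑ j, (Function.update a g y j) ^ 2 * P j
          + G t) - ε * t - c * ∑ j, (l j - 3 / 2) ^ 2 = _
        have h00 : ∑ j, (Function.update a g y j) ^ 2 * P j =
            y ^ 2 * P g + ∑ j ∈ univ.erase g, a j ^ 2 * P j := by
          rw [← Finset.add_sum_erase univ (fun j => (Function.update a g y j) ^ 2 * P j)
            (mem_univ g)]
          congr 1
          · simp
          · refine Finset.sum_congr rfl fun j hj => ?_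
            rw [Function.update_of_ne (Finset.ne_of_mem_erase hj)]
        rw [h00]
      have h1 : HasDerivAt (fun y => Ξ (t, Function.update a g y, l))
          (Fa g t a l + a g * P g) (a g) := by
        rw [h0]
        have h2 : HasDerivAt (fun y : ℝ => S - 1 / 2 * (y ^ 2 * P g +
            ∑ j ∈ univ.erase g, a j ^ 2 * P j) + G t) (-(a g * P g)) (a g) := by
          have h3 := ((((hasDerivAt_pow 2 (a g)).mul_const (P g)).add_const
            (∑ j ∈ univ.erase g, a j ^ 2 * P j)).const_mul (1 / 2 : ℝ)).const_sub S |>.add_const (G t)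
          refine h3.congr_deriv ?_
          push_cast
          ring
        have h4 := (((hFa t a l g).sub h2).sub_const (ε * t)).sub_const
          (c * ∑ i, (l i - 3 / 2) ^ 2)
        refine h4.congr_deriv ?_
        ring
      have h5 := deriv_nonpos_of_right_max (f := fun y => Ξ (t, Function.update a g y, l))
        (x := a g) (y := A) (haA' g).2 h1 (fun z hz => by
          show Ξ (t, Function.update a g z, l) ≤ Ξ (t, Function.update a g (a g), l)
          rw [Function.update_eq_self]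
          refine hmax' t _ l ht ?_ hl
          intro j
          rcases eq_or_ne j g with rfl | h
          · simpa using ⟨(ha j).1.trans hz.1, hz.2⟩
          · rw [Function.update_of_ne h]; exact ha j)
      linarith
    -- derivative in `t`
    have hdt : 0 ≤ Ft t a l - D t - ε := by
      have h1 : HasDerivAt (fun s => Ξ (s, a, l)) (Ft t a l - D t - ε) t := by
        have h2 : HasDerivAt (fun s : ℝ => S - 1 / 2 * ∑ g, a g ^ 2 * P g + G s) (D t) t :=
          (hG t ⟨ht0, ht.2⟩).const_add _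
        have h3 : HasDerivAt (fun s : ℝ => ε * s) ε t := by
          simpa using (hasDerivAt_id t).const_mul ε
        have h4 : HasDerivAt (fun s : ℝ => F s a l - (S - 1 / 2 * ∑ g, a g ^ 2 * P g + G s)
            - ε * s - c * ∑ i, (l i - 3 / 2) ^ 2) (Ft t a l - D t - ε) t :=
          (((hFt t a l).sub h2).sub h3).sub_const _
        exact h4
      refine deriv_nonneg_of_left_max (f := fun s => Ξ (s, a, l)) (y := 0) ht0 h1 (fun z hz => ?_)
      exact hmax' z a l ⟨hz.1, hz.2.trans ht.2⟩ ha hl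
    have := hstr t a l ⟨ht0, ht.2⟩ haA' hli (fun i => by rw [hfl i]; ring) hcontact hda
    linarith
  intro t' a' l' ht' ha' hl'
  have h1 := (hmax' t' a' l' ht' ha' hl').trans key
  have h2 : Ξ (t', a', l') = F t' a' l' - (S - 1 / 2 * ∑ g, a' g ^ 2 * P g + G t') - ε * t'
      - c * ∑ i, (l' i - 3 / 2) ^ 2 := rfl
  have h3 : ∑ i, (l' i - 3 / 2) ^ 2 ≤ (Fintype.card β : ℝ) / 4 := by
    calc ∑ i, (l' i - 3 / 2) ^ 2 ≤ ∑ _i : β, (1 / 4 : ℝ) := by
          refine Finset.sum_le_sum fun i _ => ?_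
          have := hl' i
          nlinarith [this.1, this.2]
      _ = (Fintype.card β : ℝ) / 4 := by simp; ring
  have h4 : c * ∑ i, (l' i - 3 / 2) ^ 2 ≤ c * ((Fintype.card β : ℝ) / 4) := by gcongr
  linarith

end Crest.Agent.R164.Contact
end

-- ▼ part R164/UAsm1
section

/-!
Row 164, upper bound assembly (helper466), part 1: comparison of the energy at a contact point.
-/

set_option autoImplicit false
set_option linter.unusedSectionVars false

namespace Crest.Agent.R164.US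

open Finset MeasureTheory Crest.Agent.R141 Crest.Agent.R164
open Crest.ProbabilityR.InvariantGlass

noncomputable section

/-- derivative in `t` of the spectral part of the path `q` -/
def Dp {K : ℕ} (w val : Fin (K + 1) → ℝ) (q : ℝ → ℝ) (t : ℝ) : ℝ :=
  (1 / 2) * ∫ r in Set.Ioo (0:ℝ) 1, SDPath.th w val (t * deficit q r)

theorem stepD_of_rel {K : ℕ} {w θ : Fin (K + 1) → ℝ} {M : ℕ} {G : Fin (K + 1) → ℕ → ℝ}
    {Pb : ℕ → ℝ} {ε : ℝ}
    (h : SDAlg.Rel w θ (M + 1) (fun b => (b : ℝ) / ((M : ℝ) + 1)) G Pb ε) :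
    SDAlg.StepD (M + 1) (fun b => (b : ℝ) / ((M : ℝ) + 1)) Pb where
  m0 := h.m0
  mlt b _ := by
    have : (0:ℝ) < (M : ℝ) + 1 := by positivity
    exact div_lt_div_of_pos_right (by push_cast; linarith) this
  mn := h.mn
  p0 := h.p0
  pmono := h.pmono
  pn := h.pn

theorem rel_p_le_one {K : ℕ} {w θ : Fin (K + 1) → ℝ} {M : ℕ} {G : Fin (K + 1) → ℕ → ℝ}
    {Pb : ℕ → ℝ} {ε : ℝ} {m : ℕ → ℝ} (h : SDAlg.Rel w θ (M + 1) m G Pb ε) :
    ∀ b ≤ M, 0 ≤ Pb b ∧ Pb b ≤ 1 := by
  intro b hb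
  have h1 : Pb 0 ≤ Pb b := SDAlg.mono_of_succ h.pmono (Nat.zero_le b) (by omega)
  have h2 : Pb b ≤ Pb (M + 1) := SDAlg.mono_of_succ h.pmono (by omega) le_rfl
  rw [h.pn] at h2
  exact ⟨h.p0.trans h1, h2⟩

variable {K : ℕ} {w val : Fin (K + 1) → ℝ} (hv : StrictMono val) (hw : ∀ k, 0 < w k)
  (hs : ∑ k, w k = 1)

include hv hw hs

/-- comparison of the energy of the system with `∂_t G_t(q)` when the overlaps dominate `q` in the
dual-cone order. -/
theorem energy_compare {Cth : ℝ} (hC0 : 0 ≤ Cth)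
    (hC : ∀ x y : ℝ, 0 ≤ x → x ≤ 1 → 0 ≤ y → y ≤ 1 →
      |SDPath.th w val x - SDPath.th w val y| ≤ Cth * |x - y|)
    {V : ℝ} (hV : ∀ k, |val k| ≤ V) {A' : ℝ} (hA' : ∀ k, 2 / w k ≤ A')
    {q : ℝ → ℝ} (hq : IsTrialPath q) {M wc : ℕ} (hwc : 0 < wc) {C : ℝ} (hCp : 0 < C)
    (hCM : C / ((M : ℝ) + 1) ≤ 1) {t : ℝ} (ht : t ∈ Set.Icc (0:ℝ) 1)
    {cell : ℕ → ℕ} {Γ : Fin (K + 1) → ℕ → ℝ} {Pb : ℕ → ℝ}
    (hcell : ∀ b ≤ M, b * wc ≤ cell b ∧ cell b < (b + 1) * wc)
    (hRel : SDAlg.Rel w (fun k => t * val k) (M + 1) (fun b => (b : ℝ) / ((M : ℝ) + 1)) Γ Pb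
          (C / ((M : ℝ) + 1)))
    {R : ℕ → ℝ} (hR : ∀ g, 0 ≤ R g ∧ R g ≤ 1) (hcR : ∀ b ≤ M, ∀ g < cell b, R g ≤ Pb b)
    {δ1 : ℝ} (hδ1 : 0 ≤ δ1)
    (hcone : ∀ g < (M + 1) * wc, ∫ s in Set.Ioo (((g:ℝ) + 1) / (((M:ℝ) + 1) * wc + 1)) 1, q s ≤
      (((M:ℝ) + 1) * wc + 1)⁻¹ * ∑ g' ∈ Ico g ((M + 1) * wc), R g' + δ1)
    {E : ℝ} (hE : |E - 1 / 2 * ∑ k, w k * (val k * Γ k (M + 1))| ≤ C / ((M : ℝ) + 1)) :
    E ≤ Dp w val q t + (C / ((M : ℝ) + 1) +
      V * SDAlg.Rel.CC A' (val (Fin.last K) - val 0) * Real.sqrt (C / ((M : ℝ) + 1)) +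
      Cth * (δ1 + 1 / ((M:ℝ) + 1) + 1 / (((M:ℝ) + 1) * wc + 1))) := by
  have hM : (0:ℝ) < (M : ℝ) + 1 := by positivity
  have hst := stepD_of_rel hRel
  have hpath := UPath.isTrialPath_pathOf (fun b hb => hRel.pmono b (by omega))
    (rel_p_le_one hRel)
  have h1 := SDPath.energy_path hv hw hs hV hA' ht.1 ht.2 hst (by positivity) hCM hRel
  have htail := UPath.coarse_tail hwc R Pb hR (fun b hb => hRel.pmono b (by omega))
    (rel_p_le_one hRel) cell hcell hcR hq hδ1 hcone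
  have hδ' : 0 ≤ δ1 + 1 / ((M:ℝ) + 1) + 1 / (((M:ℝ) + 1) * wc + 1) := by positivity
  have hdef : ∀ r ∈ Set.Ioo (0:ℝ) 1,
      deficit (SDAlg.pathOf M (fun b => (b:ℝ) / ((M:ℝ) + 1)) Pb) r ≤
        deficit q r + (δ1 + 1 / ((M:ℝ) + 1) + 1 / (((M:ℝ) + 1) * wc + 1)) := fun r hr =>
    UPath.deficit_le_of_tail hq hpath hδ' htail hr
  have h2 := SDPath.th_int_mono hv hw hs hC0 hC ht.1 ht.2 hq hpath hδ' hdef
  have h5 : ∫ r in Set.Ioo (0:ℝ) 1, (SDPath.th w val (t * deficit q r) +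
      Cth * (δ1 + 1 / ((M:ℝ) + 1) + 1 / (((M:ℝ) + 1) * wc + 1))) =
      (∫ r in Set.Ioo (0:ℝ) 1, SDPath.th w val (t * deficit q r)) +
      Cth * (δ1 + 1 / ((M:ℝ) + 1) + 1 / (((M:ℝ) + 1) * wc + 1)) := by
    rw [integral_add (SDPath.th_deficit_integrable hv hw hs ht.1 ht.2 hq)
      (integrable_const _)]
    simp
  rw [h5] at h2
  have h6 : 0 ≤ Cth * (δ1 + 1 / ((M:ℝ) + 1) + 1 / (((M:ℝ) + 1) * wc + 1)) :=
    mul_nonneg hC0 hδ'
  unfold Dp
  have h3 := (abs_le.1 h1).2
  have h4 := (abs_le.1 hE).2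
  linarith

end

end Crest.Agent.R164.US
end

-- ▼ part R164/UAsm2
section

/-!
Row 164, upper bound assembly (helper466), part 2: the contact point.
-/

set_option autoImplicit false
set_option linter.unusedSectionVars false

namespace Crest.Agent.R164.US

open Finset MeasureTheory Crest.Agent.R141 Crest.Agent.R164
open Crest.ProbabilityR.InvariantGlass

noncomputable section

section cone

variable {p : Par} {N n : ℕ} {A : Finset (Fin N → Bool)} (hA : A.Nonempty)
variable {κ : Type} [Fintype κ] [DecidableEq κ] (lab : Fin N → κ) (th : κ → ℝ)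
    (η t : ℝ) (a : Fin p.nc → ℝ) (l : κ × Fin p.nc → ℝ)
variable {ν : Measure (Fin N → Fin N → ℝ)} [IsProbabilityMeasure ν]
variable (hν : ∀ᵐ U ∂ν, U ∈ Rot.OK N)

include hν in
/-- the cone inequality from the contact in the main strengths -/
theorem cone_of_contact (hN : 0 < N) (hn : 0 < n) {q : ℝ → ℝ} {Amax : ℝ}
    (ha : ∀ g, 0 < a g ∧ a g ≤ Amax) (hc : Amax ≤ Real.sqrt n / 8)
    (hFa : ∀ g : Fin p.nc, (N : ℝ)⁻¹ * Eo n hA ν lab th η t a l (fun _ => Va A n g) - a g ≤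
      - (a g * ∫ s in Set.Ioo (((g:ℝ) + 1) / ((p.nc:ℝ) + 1)) 1, q s)) (g : Fin p.nc) :
    ∫ s in Set.Ioo (((g:ℝ) + 1) / ((p.nc:ℝ) + 1)) 1, q s ≤
      ((p.nc : ℝ) + 1)⁻¹ * ∑ g' ∈ Ico (g : ℕ) p.nc, Rb hA lab th η t a l ν n (p.mt g') +
        52 * Amax / Real.sqrt n := by
  have hsn : 0 < Real.sqrt n := Real.sqrt_pos.2 (by exact_mod_cast hn)
  have hg := ha g
  have h1 := Fa_close hA lab th η t a l hν hN hn g (by
    rw [abs_of_pos hg.1]; exact hg.2.trans hc)
  have h2 := hFa g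
  have h3 := (abs_le.1 h1).1
  set W := ((p.nc : ℝ) + 1)⁻¹ * ∑ g' ∈ Ico (g : ℕ) p.nc, Rb hA lab th η t a l ν n (p.mt g')
    with hW
  set P := ∫ s in Set.Ioo (((g:ℝ) + 1) / ((p.nc:ℝ) + 1)) 1, q s with hP
  have h4 : a g * P ≤ a g * (W + 52 * a g / Real.sqrt n) := by
    have : a g * (W + 52 * a g / Real.sqrt n) = a g * W + 52 * (a g) ^ 2 / Real.sqrt n := by
      ring
    rw [this]
    linarith
  have h5 := le_of_mul_le_mul_left h4 hg.1
  refine h5.trans ?_
  have h6 : 52 * a g / Real.sqrt n ≤ 52 * Amax / Real.sqrt n :=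
    div_le_div_of_nonneg_right (by linarith [hg.2]) hsn.le
  linarith

include hν in
/-- bound of the derivatives in the auxiliary strengths -/
theorem Fl_le (hN : 0 < N) (hn : 0 < n) (hη : 0 ≤ η) (j : κ × Fin p.nc)
    (hl : ∀ j, 0 ≤ l j ∧ l j ≤ 2)
    (hc : 2 * Real.sqrt η * Real.sqrt N ≤ Real.sqrt n / 8)
    (hc2 : 208 * Real.sqrt η * Real.sqrt N ^ 3 ≤ Real.sqrt n) :
    |(N : ℝ)⁻¹ * Eo n hA ν lab th η t a l (Vl A n lab η j)| ≤ 3 * η := by
  have hsn : 0 < Real.sqrt n := Real.sqrt_pos.2 (by exact_mod_cast hn)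
  refine (Fl_bound hA lab th η t a l hν hN hn hη j hl hc).trans ?_
  have hs := Real.mul_self_sqrt hη
  have h1 : Real.sqrt η * (52 * (2 * Real.sqrt η) ^ 2 * Real.sqrt N ^ 3 / Real.sqrt n) ≤ η := by
    have e : Real.sqrt η * (52 * (2 * Real.sqrt η) ^ 2 * Real.sqrt N ^ 3 / Real.sqrt n) =
        (Real.sqrt η * Real.sqrt η) * ((208 * Real.sqrt η * Real.sqrt N ^ 3) / Real.sqrt n) := by
      ring
    rw [e, hs]
    have h2 : (208 * Real.sqrt η * Real.sqrt N ^ 3) / Real.sqrt n ≤ 1 := by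
      rw [div_le_one hsn]; exact hc2
    calc η * ((208 * Real.sqrt η * Real.sqrt N ^ 3) / Real.sqrt n) ≤ η * 1 :=
          mul_le_mul_of_nonneg_left h2 hη
      _ = η := mul_one η
  linarith

include hν in
/-- removal of the small fields -/
theorem FN_le_zero (hN : 0 < N) (hn : 0 < n) (hη : 0 ≤ η)
    (hl : ∀ j, 0 ≤ l j ∧ l j ≤ 2)
    (hc : 2 * Real.sqrt η * Real.sqrt N ≤ Real.sqrt n / 8)
    (hc2 : 208 * Real.sqrt η * Real.sqrt N ^ 3 ≤ Real.sqrt n) :
    FN n hA ν lab th η t a l ≤ FN n hA ν lab th η t a (fun _ => 0) +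
      6 * η * (Fintype.card (κ × Fin p.nc) : ℝ) := by
  refine (FN_shift hA lab th η t a l hν hN).trans (add_le_add le_rfl ?_)
  calc ∑ j, l j * ((N : ℝ)⁻¹ * Eo n hA ν lab th η t a l (Vl A n lab η j))
      ≤ ∑ _j : κ × Fin p.nc, 6 * η := by
        refine Finset.sum_le_sum fun j _ => ?_
        have h1 := Fl_le hA lab th η t a l hν hN hn hη j hl hc hc2
        have h2 := (hl j)
        have h3 := (abs_le.1 h1).2
        calc l j * ((N : ℝ)⁻¹ * Eo n hA ν lab th η t a l (Vl A n lab η j))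
            ≤ l j * (3 * η) := mul_le_mul_of_nonneg_left h3 h2.1
          _ ≤ 2 * (3 * η) := mul_le_mul_of_nonneg_right h2.2 (by linarith)
          _ = 6 * η := by ring
    _ = _ := by
        rw [Finset.sum_const, Finset.card_univ, nsmul_eq_mul]
        ring

end cone

end

end Crest.Agent.R164.US
end

-- ▼ part R164/UAsm3
section

/-!
Row 164, upper bound assembly (helper466), part 3: the contact argument for one system.
-/

set_option autoImplicit false
set_option linter.unusedSectionVars false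

namespace Crest.Agent.R164.US

open Finset MeasureTheory Crest.Agent.R141 Crest.Agent.R164
open Crest.ProbabilityR.InvariantGlass

noncomputable section

variable {K : ℕ} {w val : Fin (K + 1) → ℝ} (hv : StrictMono val) (hw : ∀ k, 0 < w k)
  (hs : ∑ k, w k = 1)

/-- grid point of the cell `g` -/
def xg (p : Par) (g : Fin p.nc) : ℝ := ((g:ℝ) + 1) / ((p.nc:ℝ) + 1)

theorem one_sub_xg (p : Par) (g : Fin p.nc) : 1 / ((p.nc:ℝ) + 1) ≤ 1 - xg p g := by
  unfold xg
  have h1 : ((g : ℕ) : ℝ) + 1 ≤ p.nc := by exact_mod_cast g.2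
  have h2 : (0:ℝ) < (p.nc : ℝ) + 1 := by positivity
  rw [div_le_iff₀ h2, sub_mul, div_mul_cancel₀ _ h2.ne']
  linarith

include hv hw hs in
/-- the contact argument for one system. -/
theorem finite_bound {q : ℝ → ℝ} (hq : IsTrialPath q) (hq0 : ∀ x ∈ Set.Icc (0:ℝ) 1,
      0 ≤ ∫ s in Set.Ioo x 1, q s)
    {κ : ℝ} (hκ : 0 < κ)
    (hqκ : ∀ x ∈ Set.Icc (0:ℝ) 1, ∫ s in Set.Ioo x 1, q s ≤ (1 - κ) * (1 - x))
    {Cth : ℝ} (hC0 : 0 ≤ Cth)
    (hCth : ∀ x y : ℝ, 0 ≤ x → x ≤ 1 → 0 ≤ y → y ≤ 1 →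
      |SDPath.th w val x - SDPath.th w val y| ≤ Cth * |x - y|)
    {V : ℝ} (hV : ∀ k, |val k| ≤ V) {A' : ℝ} (hA' : ∀ k, 2 / w k ≤ A')
    {M wc : ℕ} {C : ℝ} (hCp : 0 < C) (hCM : C / ((M : ℝ) + 1) ≤ 1) {ε1 : ℝ} (hε1 : 0 < ε1)
    (hM : C / ((M : ℝ) + 1) +
      V * SDAlg.Rel.CC A' (val (Fin.last K) - val 0) * Real.sqrt (C / ((M : ℝ) + 1)) +
      Cth * (1 / ((M:ℝ) + 1) + 1 / ((M:ℝ) + 1) + 1 / ((M:ℝ) + 1)) < ε1)
    {p : Par} (hwc : 0 < wc) (hnc : p.nc = (M + 1) * wc)
    {η Amax δ a0 S C1 : ℝ} (hη : 0 < η) (ha0 : 0 < a0) (ha0A : a0 < Amax)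
    (hη1 : 6 * η * (Fintype.card (Fin (K + 1) × Fin p.nc) : ℝ) ≤ ε1)
    {N n : ℕ} (hN : 0 < N) (hn : 0 < n) {A : Finset (Fin N → Bool)} (hA : A.Nonempty)
    {ν : Measure (Fin N → Fin N → ℝ)} [IsProbabilityMeasure ν] (hν : ∀ᵐ U ∂ν, U ∈ Rot.OK N)
    (lab : Fin N → Fin (K + 1))
    (hn1 : 2 * Real.sqrt η * Real.sqrt N ≤ Real.sqrt n / 8)
    (hn2 : 208 * Real.sqrt η * Real.sqrt N ^ 3 ≤ Real.sqrt n)
    (hn3 : Amax ≤ Real.sqrt n / 8) (hn4 : 52 * Amax / Real.sqrt n ≤ 1 / ((M:ℝ) + 1))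
    (hinit : ∀ a : Fin p.nc → ℝ, (∀ g, 0 ≤ a g ∧ a g ≤ Amax) →
      FN n hA ν lab val η 0 a (fun _ => 0) ≤
        S - 1 / 2 * ∑ g, a g ^ 2 * (∫ s in Set.Ioo (xg p g) 1, q s) + ε1)
    (hcoer : ∀ t ∈ Set.Icc (0:ℝ) 1, ∀ a : Fin p.nc → ℝ, FN n hA ν lab val η t a (fun _ => 0) ≤
        C1 - 1 / 2 * ∑ g : Fin p.nc, a g ^ 2 * (1 - xg p g))
    (hface : ∀ t ∈ Set.Icc (0:ℝ) 1, C1 + ε1 ≤ S + RScale.specT (Atomic.atomic w val)
      (val (Fin.last K)) t q + 1 / 2 * (κ * (Amax ^ 2 * (1 / ((p.nc:ℝ) + 1)))))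
    (hconc : ∀ t ∈ Set.Icc (0:ℝ) 1, ∀ a : Fin p.nc → ℝ,
      (∀ g, 0 ≤ a g ∧ a g ≤ Amax) → ∀ l : Fin (K + 1) × Fin p.nc → ℝ,
      (∀ j, l j ∈ Set.Icc (5 / 4 : ℝ) (7 / 4)) → ∀ (j : Fin (K + 1) × Fin p.nc) (F' : ℝ),
      (∀ y ∈ Set.Icc (1:ℝ) 2, FN n hA ν lab val η t a (Function.update l j y) ≤
        FN n hA ν lab val η t a l + F' * (y - l j) + 8 * η * (y - l j) ^ 2) →
      Dconc n hA ν lab val η t a l j δ)
    (hstr : ∀ t ∈ Set.Icc (0:ℝ) 1, ∀ a : Fin p.nc → ℝ,
      (∀ g, 0 ≤ a g ∧ a g ≤ Amax) → ∀ l : Fin (K + 1) × Fin p.nc → ℝ,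
      (∀ j, l j ∈ Set.Icc (1 : ℝ) 2) → (∀ j, Dconc n hA ν lab val η t a l j δ) →
      ∃ (cell : ℕ → ℕ) (Γ : Fin (K + 1) → ℕ → ℝ) (Pb : ℕ → ℝ),
        (∀ b ≤ M, b * wc ≤ cell b ∧ cell b < (b + 1) * wc) ∧
        SDAlg.Rel w (fun k => t * val k) (M + 1) (fun b => (b : ℝ) / ((M : ℝ) + 1)) Γ Pb
          (C / ((M : ℝ) + 1)) ∧
        (∀ b ≤ M, ∀ g < cell b, Rb hA lab val η t a l ν n (p.mt g) ≤ Pb b) ∧
        |(N : ℝ)⁻¹ * Eo n hA ν lab val η t a l (Vt A n p lab val) -
          1 / 2 * ∑ k, w k * (val k * Γ k (M + 1))| ≤ C / ((M : ℝ) + 1)) :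
    FN (p := p) n hA ν lab val η 1 (fun _ => a0) (fun _ => 3 / 2) ≤
      S + RScale.specT (Atomic.atomic w val) (val (Fin.last K)) 1 q + 4 * ε1 := by
  have hM1 : (0:ℝ) < (M : ℝ) + 1 := by positivity
  have hxg : ∀ g : Fin p.nc, xg p g ∈ Set.Icc (0:ℝ) 1 := by
    intro g
    have h1 := one_sub_xg p g
    have h2 : (0:ℝ) ≤ 1 / ((p.nc:ℝ) + 1) := by positivity
    refine ⟨?_, by linarith⟩
    unfold xg; positivity
  have hη0 := hη.le
  have key := Contact.contact (α := Fin p.nc) (β := Fin (K + 1) × Fin p.nc)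
    (fun t a l => FN n hA ν lab val η t a l)
    (fun t a l => (N : ℝ)⁻¹ * Eo n hA ν lab val η t a l (Vt A n p lab val))
    (fun g t a l => (N : ℝ)⁻¹ * Eo n hA ν lab val η t a l (fun _ => Va A n g) - a g)
    (fun j t a l => (N : ℝ)⁻¹ * Eo n hA ν lab val η t a l (Vl A n lab η j))
    (continuous_FN hA hν hN lab val η)
    (fun t a l => hasDerivAt_FN_t hA hν lab val η t a l)
    (fun t a l g => hasDerivAt_FN_a hA hν lab val η t a l g)
    (fun t a l j => hasDerivAt_FN_l hA hν lab val η t a l j)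
    (S := S) (a0 := a0) (A := Amax) (c := 8 * η) (ε := ε1) (ε0 := 2 * ε1) ha0A (by positivity)
    hε1 (by positivity) (fun g => ∫ s in Set.Ioo (xg p g) 1, q s)
    (fun t => RScale.specT (Atomic.atomic w val) (val (Fin.last K)) t q) (Dp w val q)
    (RScale.specT_zero q)
    (fun t ht => SDPath.specT_hasDerivAt hv hw hs ht.1 ht.2 hq)
    (SDPath.specT_continuousOn hv hw hs hq)
    ?_ ?_ ?_ ?_ 1 (fun _ => a0) (fun _ => 3 / 2) ⟨zero_le_one, le_rfl⟩
    (fun _ => ⟨le_rfl, ha0A.le⟩) (fun _ => ⟨by norm_num, by norm_num⟩)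
  · -- conclusion
    have h1 : 0 ≤ ∑ g : Fin p.nc, (fun _ : Fin p.nc => a0) g ^ 2 *
        (∫ s in Set.Ioo (xg p g) 1, q s) :=
      Finset.sum_nonneg fun g _ => mul_nonneg (sq_nonneg _) (hq0 _ (hxg g))
    have h2 : 8 * η * ((Fintype.card (Fin (K + 1) × Fin p.nc) : ℝ) / 4) ≤ ε1 := by
      have h3 : 0 ≤ η * (Fintype.card (Fin (K + 1) × Fin p.nc) : ℝ) := by positivity
      linarith
    linarith
  · -- initial values
    intro a l ha hl
    have h1 := FN_le_zero hA lab val η 0 a l hν hN hn hη0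
      (fun j => ⟨zero_le_one.trans (hl j).1, (hl j).2⟩) hn1 hn2
    have h2 := hinit a fun g => ⟨ha0.le.trans (ha g).1, (ha g).2⟩
    show FN n hA ν lab val η 0 a l ≤ _
    linarith
  · -- faces
    intro t a l ht ha hl hex
    obtain ⟨g0, hg0⟩ := hex
    have h1 := FN_le_zero hA lab val η t a l hν hN hn hη0
      (fun j => ⟨zero_le_one.trans (hl j).1, (hl j).2⟩) hn1 hn2
    have h2 := hcoer t ht a
    have h3 := hface t ht
    have h4 : ∑ g : Fin p.nc, a g ^ 2 * (∫ s in Set.Ioo (xg p g) 1, q s) +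
        κ * (Amax ^ 2 * (1 / ((p.nc:ℝ) + 1))) ≤ ∑ g : Fin p.nc, a g ^ 2 * (1 - xg p g) := by
      have h5 : ∑ g : Fin p.nc, a g ^ 2 * (∫ s in Set.Ioo (xg p g) 1, q s) ≤
          ∑ g : Fin p.nc, a g ^ 2 * ((1 - κ) * (1 - xg p g)) :=
        Finset.sum_le_sum fun g _ => mul_le_mul_of_nonneg_left (hqκ _ (hxg g)) (sq_nonneg _)
      have h6 : Amax ^ 2 * (1 / ((p.nc:ℝ) + 1)) ≤ ∑ g : Fin p.nc, a g ^ 2 * (1 - xg p g) := by
        have h7 : a g0 ^ 2 * (1 - xg p g0) ≤ ∑ g : Fin p.nc, a g ^ 2 * (1 - xg p g) :=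
          Finset.single_le_sum (f := fun g : Fin p.nc => a g ^ 2 * (1 - xg p g))
            (fun g _ => mul_nonneg (sq_nonneg _) (by have := (hxg g).2; linarith))
            (Finset.mem_univ g0)
        have h8 : Amax ^ 2 * (1 / ((p.nc:ℝ) + 1)) ≤ a g0 ^ 2 * (1 - xg p g0) := by
          rw [hg0]
          exact mul_le_mul_of_nonneg_left (one_sub_xg p g0) (sq_nonneg _)
        exact h8.trans h7
      have h9 : ∑ g : Fin p.nc, a g ^ 2 * ((1 - κ) * (1 - xg p g)) =
          ∑ g : Fin p.nc, a g ^ 2 * (1 - xg p g) - κ * ∑ g : Fin p.nc, a g ^ 2 * (1 - xg p g) := by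
        rw [Finset.mul_sum, ← Finset.sum_sub_distrib]
        exact Finset.sum_congr rfl fun g _ => by ring
      have h10 := mul_le_mul_of_nonneg_left h6 hκ.le
      linarith
    show FN n hA ν lab val η t a l ≤ _
    linarith
  · -- small dependence
    intro j t a l ht ha hl
    have h1 := Fl_le hA lab val η t a l hν hN hn hη0 j
      (fun j => ⟨zero_le_one.trans (hl j).1, (hl j).2⟩) hn1 hn2
    exact lt_of_le_of_lt h1 (by linarith)
  · -- structure
    intro t a l ht ha hl hfl hcon hFa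
    have ht' : t ∈ Set.Icc (0:ℝ) 1 := ⟨ht.1.le, ht.2⟩
    have ha' : ∀ g, 0 ≤ a g ∧ a g ≤ Amax := fun g => ⟨ha0.le.trans (ha g).1, (ha g).2.le⟩
    have hl' : ∀ j, l j ∈ Set.Icc (1:ℝ) 2 := fun j => ⟨(hl j).1.le, (hl j).2.le⟩
    have hl54 : ∀ j, l j ∈ Set.Icc (5 / 4 : ℝ) (7 / 4) := by
      intro j
      have h1 := Fl_le hA lab val η t a l hν hN hn hη0 j
        (fun j => ⟨zero_le_one.trans (hl' j).1, (hl' j).2⟩) hn1 hn2
      have h2 : (N : ℝ)⁻¹ * Eo n hA ν lab val η t a l (Vl A n lab η j) =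
        2 * (8 * η) * (l j - 3 / 2) := hfl j
      rw [h2, abs_le] at h1
      constructor
      · have h3 : η * (-3) ≤ η * (16 * (l j - 3 / 2)) := by linarith [h1.1]
        have h4 := le_of_mul_le_mul_left h3 hη
        linarith
      · have h3 : η * (16 * (l j - 3 / 2)) ≤ η * 3 := by linarith [h1.2]
        have h4 := le_of_mul_le_mul_left h3 hη
        linarith
    have hD : ∀ j, Dconc n hA ν lab val η t a l j δ := fun j =>
      hconc t ht' a ha' l hl54 j _ (hcon j)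
    obtain ⟨cell, Γ, Pb, h1, h2, h3, h4⟩ := hstr t ht' a ha' l hl' hD
    have hcone := cone_of_contact hA lab val η t a l hν hN hn (q := q) (Amax := Amax)
      (fun g => ⟨lt_of_lt_of_le ha0 (ha g).1, (ha g).2.le⟩) hn3 hFa
    have hncR : (p.nc : ℝ) = ((M:ℝ) + 1) * wc := by rw [hnc]; push_cast; ring
    have h5 := energy_compare hv hw hs hC0 hCth hV hA' hq hwc hCp hCM ht' h1 h2
      (R := fun g => Rb hA lab val η t a l ν n (p.mt g))
      (fun g => ⟨Rb_nonneg hA lab val η t a l ν _, Rb_le_one hA lab val η t a l ν hN _⟩) h3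
      (δ1 := 1 / ((M:ℝ) + 1)) (by positivity) (by
        intro g hg
        have h6 := hcone ⟨g, by rw [hnc]; exact hg⟩
        have e6 : Ico g p.nc = Ico g ((M + 1) * wc) := by rw [hnc]
        have h6' : ∫ s in Set.Ioo (((g:ℝ) + 1) / ((p.nc:ℝ) + 1)) 1, q s ≤
            ((p.nc : ℝ) + 1)⁻¹ * ∑ g' ∈ Ico g p.nc, Rb hA lab val η t a l ν n (p.mt g') +
              52 * Amax / Real.sqrt n := h6
        rw [e6, hncR] at h6'
        linarith) h4
    have h7 : 1 / (((M:ℝ) + 1) * wc + 1) ≤ 1 / ((M:ℝ) + 1) := by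
      apply one_div_le_one_div_of_le hM1
      have : (1:ℝ) ≤ wc := by exact_mod_cast hwc
      nlinarith
    have h8 := mul_le_mul_of_nonneg_left h7 hC0
    show (N : ℝ)⁻¹ * Eo n hA ν lab val η t a l (Vt A n p lab val) < Dp w val q t + ε1
    have h9 : Cth * (1 / ((M:ℝ) + 1) + 1 / ((M:ℝ) + 1) + 1 / (((M:ℝ) + 1) * wc + 1)) ≤
        Cth * (1 / ((M:ℝ) + 1) + 1 / ((M:ℝ) + 1) + 1 / ((M:ℝ) + 1)) :=
      mul_le_mul_of_nonneg_left (by linarith) hC0
    linarith

end

end Crest.Agent.R164.US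
end

-- ▼ part R164/UAsm4
section

/-!
Row 164, upper bound assembly (helper466), part 4: the upper bound from the four inputs.
-/

set_option autoImplicit false
set_option linter.unusedSectionVars false

namespace Crest.Agent.R164.US

open Finset MeasureTheory Crest.Agent.R141 Crest.Agent.R164
open Crest.ProbabilityR.InvariantGlass

noncomputable section

/-- choice of the number of levels -/
theorem exists_M {C C2 Cth ε1 : ℝ} (hC : 0 < C) (hε1 : 0 < ε1) :
    ∃ M : ℕ, C / ((M : ℝ) + 1) ≤ 1 ∧ C / ((M : ℝ) + 1) + C2 * Real.sqrt (C / ((M : ℝ) + 1)) +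
      Cth * (1 / ((M:ℝ) + 1) + 1 / ((M:ℝ) + 1) + 1 / ((M:ℝ) + 1)) < ε1 := by
  have h1 : Filter.Tendsto (fun M : ℕ => 1 / ((M : ℝ) + 1)) Filter.atTop (nhds 0) :=
    tendsto_one_div_add_atTop_nhds_zero_nat
  have h2 : Filter.Tendsto (fun x : ℝ => C * x + C2 * Real.sqrt (C * x) + Cth * (x + x + x))
      (nhds 0) (nhds (C * 0 + C2 * Real.sqrt (C * 0) + Cth * (0 + 0 + 0))) := by
    have : Continuous fun x : ℝ => C * x + C2 * Real.sqrt (C * x) + Cth * (x + x + x) := by
      fun_prop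
    exact this.tendsto 0
  have h3 := h2.comp h1
  simp only [mul_zero, Real.sqrt_zero, add_zero] at h3
  have h4 : Filter.Tendsto (fun M : ℕ => C * (1 / ((M : ℝ) + 1))) Filter.atTop (nhds 0) := by
    simpa using h1.const_mul C
  have e1 := (tendsto_order.1 h3).2 ε1 hε1
  have e2 := (tendsto_order.1 h4).2 1 zero_lt_one
  obtain ⟨M, hM1, hM2⟩ := (e1.and e2).exists
  refine ⟨M, ?_, ?_⟩
  · rw [div_eq_mul_one_div]; exact hM2.le
  · rw [div_eq_mul_one_div C]
    exact hM1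

/-- choice of the number of coins -/
theorem exists_n (n0 : ℕ) (X : ℝ) : ∃ n : ℕ, n0 ≤ n ∧ 0 < n ∧ X ≤ Real.sqrt n := by
  refine ⟨max (max n0 1) ⌈X ^ 2⌉₊, (le_max_left _ _).trans (le_max_left _ _),
    lt_of_lt_of_le Nat.one_pos ((le_max_right n0 1).trans (le_max_left _ _)), ?_⟩
  apply Real.le_sqrt_of_sq_le
  calc X ^ 2 ≤ (⌈X ^ 2⌉₊ : ℝ) := Nat.le_ceil _
    _ ≤ ((max (max n0 1) ⌈X ^ 2⌉₊ : ℕ) : ℝ) := by exact_mod_cast le_max_right _ _

variable {K : ℕ} {w val : Fin (K + 1) → ℝ}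

/-- **The upper bound** from the four inputs. -/
theorem upper_bound (hv : StrictMono val) (hw : ∀ k, 0 < w k) (hs : ∑ k, w k = 1)
    (hStr : HStr K w val) (hConc : HConc K val) (hInit : HInit K val) (hCoer : HCoer K val)
    (labE : (N : ℕ) → Fin N → Fin (K + 1))
    (hlabE : ∀ k, Filter.Tendsto (fun N : ℕ =>
      ((Finset.univ.filter fun i : Fin N => labE N i = k).card : ℝ) / (N : ℝ)) Filter.atTop
        (nhds (w k)))
    (ν : (N : ℕ) → Measure (Fin N → Fin N → ℝ)) (hνp : ∀ N, IsProbabilityMeasure (ν N))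
    (hνR : ∀ N, Haar.RHaar (ν N))
    {J : ℕ} {γ : Fin J → ℚ} (hγ : ∀ j, 0 < γ j) (hγs : ∑ j, γ j = 1)
    (lab : (N : ℕ) → Fin N → Fin J)
    (hlab : ∀ j : Fin J, Filter.Tendsto
      (fun N : ℕ => ((Finset.univ.filter fun r : Fin N => lab N r = j).card : ℝ) / (N : ℝ))
      Filter.atTop (nhds ((γ j : ℚ) : ℝ)))
    {l u : Fin J → ℝ} (hlu : ∀ j, l j < u j) (hlu1 : ∀ j, -1 ≤ l j ∧ u j ≤ 1)
    {m : Fin J → ℚ} (hm : ∀ j, (-1 : ℚ) < m j ∧ m j < 1)
    (hbox : ∀ j, ∀ x ∈ Set.Icc (l j) (u j), |((m j : ℚ) : ℝ)| ≤ |x| ∧ 0 ≤ ((m j : ℚ) : ℝ) * x)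
    {q0 : ℝ → ℝ} (hq0 : IsTrialPath q0) {r : ℝ}
    (hr : constrainedEntropyPart γ m q0 +
      ((spectralPart (Atomic.atomic w val) (val (Fin.last K)) q0 : ℝ) : EReal) ≤ (r : EReal))
    {ε : ℝ} (hε : 0 < ε) :
    ∀ᶠ N : ℕ in Filter.atTop,
      ∫ U, Mag.pressG (fun i => val (labE N i)) (Matrix.of U) (Mag.boxSet (lab N) l u)
        (fun _ => 0) ∂(ν N) ≤ r + ε := by
  obtain ⟨ε1, hε1def⟩ : ∃ ε1 : ℝ, ε1 = ε / 16 := ⟨_, rfl⟩
  have hε1 : 0 < ε1 := by rw [hε1def]; positivity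
  obtain ⟨Cth, hC0, hCth⟩ := SDPath.th_lip hv hw hs
  obtain ⟨V, hV⟩ : ∃ V : ℝ, ∀ k, |val k| ≤ V :=
    ⟨∑ k, |val k|, fun k => Finset.single_le_sum (f := fun k => |val k|)
      (fun _ _ => abs_nonneg _) (Finset.mem_univ k)⟩
  obtain ⟨A', hA'⟩ : ∃ A' : ℝ, ∀ k, 2 / w k ≤ A' :=
    ⟨∑ k, 2 / w k, fun k => Finset.single_le_sum (f := fun k => 2 / w k)
      (fun k _ => (div_pos two_pos (hw k)).le) (Finset.mem_univ k)⟩
  obtain ⟨C, hCp, hStr⟩ := hStr
  obtain ⟨Ctr, hCtr0, hCtr⟩ := spectralPart_trc hv hw hs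
  -- truncation
  obtain ⟨κ, hκdef⟩ : ∃ κ : ℝ, κ = min (1 / 2) (ε1 / (Ctr + 1)) := ⟨_, rfl⟩
  have hκ : 0 < κ := by rw [hκdef]; positivity
  have hκ1 : κ < 1 := by rw [hκdef]; exact lt_of_le_of_lt (min_le_left _ _) (by norm_num)
  have hκC : Ctr * κ ≤ ε1 := by
    have h1 : κ ≤ ε1 / (Ctr + 1) := by rw [hκdef]; exact min_le_right _ _
    rw [le_div_iff₀ (by positivity)] at h1
    nlinarith
  obtain ⟨q, hqdef⟩ : ∃ q : ℝ → ℝ, q = trc κ q0 := ⟨_, rfl⟩
  have hq : IsTrialPath q := by rw [hqdef]; exact isTrialPath_trc hq0 hκ1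
  have hqnn : ∀ x ∈ Set.Icc (0:ℝ) 1, 0 ≤ ∫ s in Set.Ioo x 1, q s := fun x hx =>
    setIntegral_nonneg measurableSet_Ioo fun s hs' =>
      (hq.2.2 s ⟨lt_of_le_of_lt hx.1 hs'.1, hs'.2⟩).1
  have hqκ : ∀ x ∈ Set.Icc (0:ℝ) 1, ∫ s in Set.Ioo x 1, q s ≤ (1 - κ) * (1 - x) := fun x hx => by
    rw [hqdef]; exact integral_trc_le hq0 hκ1 hx.1 hx.2
  -- levels
  obtain ⟨M, hM1, hM2⟩ := exists_M (C := C)
    (C2 := V * SDAlg.Rel.CC A' (val (Fin.last K) - val 0)) (Cth := Cth) hCp hε1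
  obtain ⟨wc, p, hwc, hnc, hnb, hS⟩ := hStr M
  obtain ⟨C1, hC1⟩ := hCoer p hnb
  -- the entropy bound
  obtain ⟨S, hSdef⟩ : ∃ S : ℝ, S = r - spectralPart (Atomic.atomic w val) (val (Fin.last K)) q0 :=
    ⟨_, rfl⟩
  have hSE : constrainedEntropyPart γ m q ≤ (S : EReal) := by
    have h1 : constrainedEntropyPart γ m q0 ≤ (S : EReal) := by
      have h2 := add_le_add hr (le_refl
        (((-spectralPart (Atomic.atomic w val) (val (Fin.last K)) q0 : ℝ)) : EReal))
      rw [add_assoc, ← EReal.coe_add, ← EReal.coe_add, add_neg_cancel, EReal.coe_zero,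
        add_zero] at h2
      rw [hSdef, sub_eq_add_neg]
      exact h2
    rw [hqdef]
    exact (constrainedEntropyPart_trc γ m hq0 hκ1).trans h1
  obtain ⟨Gm, hGm⟩ := isCompact_Icc.exists_bound_of_continuousOn
    (SDPath.specT_continuousOn hv hw hs hq)
  -- the box of the strengths
  obtain ⟨Bd, hBd⟩ : ∃ Bd : ℝ, Bd = |C1| + |S| + |Gm| + ε1 := ⟨_, rfl⟩
  have hBd0 : 0 < Bd := by rw [hBd]; positivity
  have hnc1 : (0:ℝ) < (p.nc : ℝ) + 1 := by positivity
  obtain ⟨Amax, hAmax⟩ : ∃ Amax : ℝ, Amax = 2 * ((p.nc : ℝ) + 1) * Bd / κ + 1 := ⟨_, rfl⟩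
  have hAx : 0 < 2 * ((p.nc : ℝ) + 1) * Bd / κ := by positivity
  have hA1 : 1 ≤ Amax := by rw [hAmax]; linarith
  have hface : ∀ t ∈ Set.Icc (0:ℝ) 1, C1 + ε1 ≤ S + RScale.specT (Atomic.atomic w val)
      (val (Fin.last K)) t q + 1 / 2 * (κ * (Amax ^ 2 * (1 / ((p.nc:ℝ) + 1)))) := by
    intro t ht
    have h1 := hGm t ht
    rw [Real.norm_eq_abs] at h1
    have h2 : 2 * ((p.nc : ℝ) + 1) * Bd / κ ≤ Amax ^ 2 := by
      have h3 : 2 * ((p.nc : ℝ) + 1) * Bd / κ ≤ Amax := by rw [hAmax]; linarith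
      nlinarith
    have h4 : Bd ≤ 1 / 2 * (κ * (Amax ^ 2 * (1 / ((p.nc:ℝ) + 1)))) := by
      have h5 : 1 / 2 * (κ * ((2 * ((p.nc : ℝ) + 1) * Bd / κ) * (1 / ((p.nc:ℝ) + 1)))) = Bd := by
        field_simp
      rw [← h5]
      gcongr
    have h6 := (abs_le.1 h1).1
    have h7 := le_abs_self C1
    have h8 := neg_abs_le S
    have h9 := le_abs_self Gm
    linarith
  obtain ⟨a0, ha0def⟩ : ∃ a0 : ℝ, a0 = min (1 / 2) (ε1 / ((p.nc : ℝ) + 1)) := ⟨_, rfl⟩
  have ha0 : 0 < a0 := by rw [ha0def]; positivity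
  have ha0h : a0 ≤ 1 / 2 := by rw [ha0def]; exact min_le_left _ _
  have ha0A : a0 < Amax := by linarith
  have ha0s : 1 / 2 * ∑ _g : Fin p.nc, a0 ^ 2 ≤ ε1 := by
    rw [Finset.sum_const, Finset.card_univ, Fintype.card_fin, nsmul_eq_mul]
    have h1 : a0 ≤ ε1 / ((p.nc : ℝ) + 1) := by rw [ha0def]; exact min_le_right _ _
    rw [le_div_iff₀ hnc1] at h1
    have h2 : a0 ^ 2 ≤ a0 := by nlinarith
    have h3 : (p.nc : ℝ) * a0 ^ 2 ≤ (p.nc : ℝ) * a0 :=
      mul_le_mul_of_nonneg_left h2 (Nat.cast_nonneg _)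
    nlinarith
  -- auxiliary strength
  obtain ⟨ηmax, hηmax, hS2⟩ := hS Amax
  obtain ⟨cd, hcd⟩ : ∃ cd : ℝ, cd = (Fintype.card (Fin (K + 1) × Fin p.nc) : ℝ) := ⟨_, rfl⟩
  have hcd0 : 0 ≤ cd := by rw [hcd]; positivity
  obtain ⟨η, hηdef⟩ : ∃ η : ℝ, η = min ηmax (ε1 / (6 * cd + 1)) := ⟨_, rfl⟩
  have hη : 0 < η := by rw [hηdef]; positivity
  have hηm : η ≤ ηmax := by rw [hηdef]; exact min_le_left _ _
  have hη1 : 6 * η * (Fintype.card (Fin (K + 1) × Fin p.nc) : ℝ) ≤ ε1 := by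
    rw [← hcd]
    have h1 : η ≤ ε1 / (6 * cd + 1) := by rw [hηdef]; exact min_le_right _ _
    rw [le_div_iff₀ (by positivity)] at h1
    nlinarith
  obtain ⟨δ, hδ, N1, n1, hS3⟩ := hS2 η hη hηm
  obtain ⟨N2, n2, hCo⟩ := hConc p hnb η hη Amax δ hδ
  obtain ⟨N3, n3, hIn⟩ := hInit J γ hγ hγs lab hlab l u hlu hlu1 m hm hbox p hnb Amax ε1 hε1
  -- large N
  have hprop : ∀ᶠ N : ℕ in Filter.atTop, ∀ k, |prop (labE N) k - w k| ≤ δ := by
    rw [Filter.eventually_all]
    intro k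
    have h1 := (hlabE k).sub_const (w k)
    rw [sub_self] at h1
    have h2 := h1.abs
    rw [abs_zero] at h2
    filter_upwards [(tendsto_order.1 h2).2 δ hδ] with N hN
    exact hN.le
  filter_upwards [hprop, boxSet_nonempty hγ hlab hlu hlu1, Filter.eventually_ge_atTop N1,
    Filter.eventually_ge_atTop N2, Filter.eventually_ge_atTop N3,
    Filter.eventually_ge_atTop 1] with N hNp hA hN1 hN2 hN3 hN0
  haveI := hνp N
  have hν : ∀ᵐ U ∂(ν N), U ∈ Rot.OK N := (hνR N).mem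
  obtain ⟨n, hn123, hn0, hnX⟩ := exists_n (max (n1 N) (max (n2 N) (n3 N)))
    (max (16 * Real.sqrt η * Real.sqrt N) (max (208 * Real.sqrt η * Real.sqrt N ^ 3)
      (max (8 * Amax) (52 * Amax * ((M:ℝ) + 1)))))
  have hn1 : n1 N ≤ n := (le_max_left _ _).trans hn123
  have hn2 : n2 N ≤ n := ((le_max_left _ _).trans (le_max_right _ _)).trans hn123
  have hn3 : n3 N ≤ n := ((le_max_right _ _).trans (le_max_right _ _)).trans hn123
  have hX1 : 16 * Real.sqrt η * Real.sqrt N ≤ Real.sqrt n := (le_max_left _ _).trans hnX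
  have hX2 : 208 * Real.sqrt η * Real.sqrt N ^ 3 ≤ Real.sqrt n :=
    ((le_max_left _ _).trans (le_max_right _ _)).trans hnX
  have hX3 : 8 * Amax ≤ Real.sqrt n :=
    ((le_max_left _ _).trans ((le_max_right _ _).trans (le_max_right _ _))).trans hnX
  have hX4 : 52 * Amax * ((M:ℝ) + 1) ≤ Real.sqrt n :=
    ((le_max_right _ _).trans ((le_max_right _ _).trans (le_max_right _ _))).trans hnX
  have hsn : 0 < Real.sqrt n := Real.sqrt_pos.2 (by exact_mod_cast hn0)
  have hfin := finite_bound (p := p) (M := M) (wc := wc) (n := n) (N := N) (δ := δ)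
    (a0 := a0) (S := S) (C1 := C1) hv hw hs hq hqnn hκ hqκ hC0 hCth hV hA' hCp hM1 hε1 hM2
    hwc hnc hη ha0 ha0A hη1 hN0 hn0 hA hν (labE N) (by linarith) hX2 (by linarith)
    (by
      rw [div_le_div_iff₀ hsn (by positivity)]
      linarith)
    (by
      intro a ha
      have h1 := hIn N hN3 n hn3 hA (ν N) inferInstance hν (labE N) η a ha
      have h2 : groupFieldValue γ m (wU p.nc) (hvA a) +
          (((1 / 2) * ∫ s in Set.Ioo (0 : ℝ) 1, q s * stepFn (wU p.nc) (hvA a) s : ℝ) : EReal) ≤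
          (S : EReal) := by
        refine le_trans ?_ hSE
        unfold constrainedEntropyPart
        exact le_iSup_of_le (p.nc + 1) (le_iSup_of_le (wU p.nc) (le_iSup_of_le (hvA a)
          (le_iSup_of_le (isStepField_hvA a) le_rfl)))
      have h3 : ((FN n hA (ν N) (labE N) val η 0 a (fun _ => 0) : ℝ) : EReal) +
          (((1 / 2) * ∫ s in Set.Ioo (0 : ℝ) 1, q s * stepFn (wU p.nc) (hvA a) s : ℝ) : EReal) ≤
          ((S + ε1 : ℝ) : EReal) := by
        refine (add_le_add h1 le_rfl).trans ?_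
        rw [add_right_comm, EReal.coe_add]
        exact add_le_add h2 le_rfl
      rw [← EReal.coe_add, EReal.coe_le_coe_iff, integral_stepFn_hvA a hq] at h3
      have h4 : ∑ g : Fin p.nc, a g ^ 2 * (∫ s in Set.Ioo (xg p g) 1, q s) =
          ∑ g : Fin p.nc, a g ^ 2 *
            ∫ s in Set.Ioo (((g.val : ℝ) + 1) / ((p.nc : ℝ) + 1)) 1, q s := rfl
      rw [h4]
      linarith)
    (fun t ht a => hC1 N hN0 n hn0 _ hA (ν N) inferInstance hν (labE N) η t ht a)
    hface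
    (fun t ht a ha l hl j F' hF' => hCo N hN2 n hn2 _ hA (ν N) inferInstance (hνR N) (labE N) t ht
      a ha l hl j F' hF')
    (fun t ht a ha l hl hD => hS3 N hN1 n hn1 _ hA (ν N) inferInstance (hνR N) (labE N) hNp t ht
      a ha l hl hD)
  have hpr := press_le_FN (p := p) (n := n) hA hν hN0 hnb (labE N) val η (fun _ => a0)
    (fun _ => 3 / 2)
  have hsp : RScale.specT (Atomic.atomic w val) (val (Fin.last K)) 1 q ≤
      spectralPart (Atomic.atomic w val) (val (Fin.last K)) q0 + ε1 := by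
    rw [RScale.specT_one, hqdef]
    exact (hCtr q0 hq0 κ hκ.le hκ1).trans (by linarith)
  linarith

end

end Crest.Agent.R164.US
end

-- ▼ part R164/UConc
section

set_option autoImplicit false

/-!
Row 164, module (Conc): concentration of observables under the `(U, d, P)`-averaged law of
`Sys164` from one-sided increments of the mean free energy.
-/

namespace Crest.Agent.R164.CSys

open Finset MeasureTheory
open Crest.Agent.R141
open Crest.Agent.R164 SY
open Crest.Agent.Lib.OrthPoinc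

noncomputable section

/-! ### pointwise inequality -/

section Pt

variable {Ω : Type*} [Fintype Ω] {P : Ω → ℝ} {𝓕 : Filt Ω} {x : ℕ → ℝ}

theorem pos_part_le (hP : IsProb P) (hx : ∀ k, 0 < x k) (hF0 : 𝓕.F 0 = ⊤) {xm : ℝ}
    (hxm0 : 0 < xm) (hxm : ∀ l, xm ≤ x l) (V : Ω → ℝ) (c : ℝ) :
    eE P (fun w => |V w - c|) ≤
      2 * Real.log 2 / xm + 2 * max (eE P (R141.A P 𝓕 x V 0) - c) 0 - (eE P V - c) := by
  set a := eE P (R141.A P 𝓕 x V 0) with ha
  have h1 := ObsConc.eE_exp_le (𝓕 := 𝓕) hP hx hF0 hxm0 hxm V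
  rw [← ha] at h1
  have hne : Nonempty Ω := by
    by_contra h
    rw [not_nonempty_iff] at h
    have := hP.sum
    simp at this
  obtain ⟨ω⟩ := hne
  have h2 : Real.exp (xm * eE P (fun w => max (V w - c) 0)) ≤
      2 * Real.exp (xm * max (a - c) 0) := by
    have h3 := exp_cE_le hP (⊤ : Setoid Ω) (fun w => xm * max (V w - c) 0) ω
    rw [eE_top hP, eE_top hP, eE_smul] at h3
    refine h3.trans ?_
    have e : ∀ w, Real.exp (xm * max (V w - c) 0) ≤
        1 + Real.exp (-(xm * c)) * Real.exp (xm * V w) := by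
      intro w
      rw [← Real.exp_add]
      rcases max_cases (V w - c) 0 with h | h
      · rw [h.1]
        have : xm * (V w - c) = -(xm * c) + xm * V w := by ring
        rw [this]; linarith
      · rw [h.1, mul_zero, Real.exp_zero]
        linarith [Real.exp_pos (-(xm * c) + xm * V w)]
    refine (eE_mono hP e).trans ?_
    rw [eE_add, eE_const hP, eE_smul]
    have h4 : Real.exp (-(xm * c)) * eE P (fun w => Real.exp (xm * V w)) ≤
        Real.exp (xm * max (a - c) 0) := by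
      refine (mul_le_mul_of_nonneg_left h1 (Real.exp_pos _).le).trans ?_
      rw [← Real.exp_add]
      apply Real.exp_le_exp.mpr
      have : xm * (a - c) ≤ xm * max (a - c) 0 :=
        mul_le_mul_of_nonneg_left (le_max_left _ _) hxm0.le
      linarith
    have h5 : (1 : ℝ) ≤ Real.exp (xm * max (a - c) 0) :=
      Real.one_le_exp (mul_nonneg hxm0.le (le_max_right _ _))
    linarith
  have h6 : xm * eE P (fun w => max (V w - c) 0) ≤ Real.log 2 + xm * max (a - c) 0 := by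
    have := Real.log_le_log (Real.exp_pos _) h2
    rwa [Real.log_exp, Real.log_mul (by norm_num) (Real.exp_pos _).ne', Real.log_exp] at this
  have h7 : eE P (fun w => max (V w - c) 0) ≤ Real.log 2 / xm + max (a - c) 0 := by
    have h8 : eE P (fun w => max (V w - c) 0) ≤ (Real.log 2 + xm * max (a - c) 0) / xm := by
      rw [le_div_iff₀ hxm0]; linarith
    refine h8.trans (le_of_eq ?_)
    field_simp
  have h9 : (fun w => |V w - c|) = fun w => 2 * max (V w - c) 0 - (V w - c) := by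
    funext w
    rcases max_cases (V w - c) 0 with h | h
    · rw [h.1, abs_of_nonneg h.2]; ring
    · rw [h.1, abs_of_neg h.2]; ring
  rw [h9, eE_sub, eE_smul, eE_sub, eE_const hP]
  have e3 : 2 * Real.log 2 / xm = 2 * (Real.log 2 / xm) := by ring
  rw [e3]
  linarith

/-- pointwise inequality in the tilted law; `s` of any sign. -/
theorem obs_one (hP : IsProb P) (hx : ∀ k, 0 < x k) (hF0 : 𝓕.F 0 = ⊤) {xm : ℝ}
    (hxm0 : 0 < xm) (hxm : ∀ l, xm ≤ x l) (H O : Ω → ℝ) {s : ℝ} (f0 fs c : ℝ) :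
    |s| * eE (tl P 𝓕 x H) (fun w => |O w - c|) ≤
      2 * Real.log 2 / xm + 2 * (|eE P (R141.A P 𝓕 x (fun w => H w + s * O w) 0) - fs| +
        |eE P (R141.A P 𝓕 x H 0) - f0|) + 2 * max (fs - f0 - s * c) 0 -
        s * (eE (tl P 𝓕 x H) O - c) := by
  have hQ := tl_isProb (𝓕 := 𝓕) hP hx H
  have h := pos_part_le (𝓕 := 𝓕) hQ hx hF0 hxm0 hxm (fun w => s * O w) (s * c)
  have e1 : eE (tl P 𝓕 x H) (fun w => |s * O w - s * c|) =
      |s| * eE (tl P 𝓕 x H) (fun w => |O w - c|) := by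
    rw [← eE_smul]
    congr 1; funext w
    rw [← mul_sub, abs_mul]
  rw [e1, ObsConc.gA_diff hP hx hF0, eE_smul] at h
  have e2 : ObsConc.gA P 𝓕 x H O s = eE P (R141.A P 𝓕 x (fun w => H w + s * O w) 0) := rfl
  rw [e2] at h
  set as := eE P (R141.A P 𝓕 x (fun w => H w + s * O w) 0)
  set a0 := eE P (R141.A P 𝓕 x H 0)
  have h1 : max (as - a0 - s * c) 0 ≤ |as - fs| + |a0 - f0| + max (fs - f0 - s * c) 0 := by
    apply max_le
    · have := le_max_left (fs - f0 - s * c) 0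
      have h2 := le_abs_self (as - fs)
      have h3 := neg_abs_le (a0 - f0)
      linarith
    · have := le_max_right (fs - f0 - s * c) 0
      have h2 := abs_nonneg (as - fs)
      have h3 := abs_nonneg (a0 - f0)
      linarith
  have e3 : s * eE (tl P 𝓕 x H) O - s * c = s * (eE (tl P 𝓕 x H) O - c) := by ring
  linarith

end Pt

/-! ### the system -/

variable {p : Par} {N n : ℕ} {A : Finset (Fin N → Bool)} (hA : A.Nonempty)
  (eig : Fin N → ℝ) (t : ℝ) (ν : Measure (Mat N))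

/-- mean free energy -/
def Fm (n : ℕ) (V : (Fin N → Bool) → ℝ) (a lam : Fin N → Fin p.nc → ℝ) : ℝ :=
  Ed p N (fun d => ∫ U, PhU hA eig t V a lam d n U ∂ν)

/-- mean of an observable -/
def mO (V : (Fin N → Bool) → ℝ) (a lam : Fin N → Fin p.nc → ℝ)
    (O : Mat N → SS p n A → ℝ) : ℝ :=
  Ed p N (fun d => ∫ U, eE (G.PP (base p n A hA) (HU eig t V a lam U) d)
    (fun ω => O U ω.1) ∂ν)

theorem abs_PhU_sub_le (hnb : p.nb = 0) (V : (Fin N → Bool) → ℝ) (a lam : Fin N → Fin p.nc → ℝ)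
    (d d' : DD p N) (U : Mat N) :
    |PhU hA eig t V a lam d n U - PhU hA eig t V a lam d' n U| ≤ p.nc * p.T * p.τ := by
  unfold PhU G.Phi
  rw [← eE_sub]
  have hP := G.prior_isProb (base p n A hA)
  have h1 : ∀ ω, |R141.A (G.prior (base p n A hA)) (G.fil (base p n A hA)) p.xs
      (G.UU (base p n A hA) (HU eig t V a lam U) d) 0 ω -
      R141.A (G.prior (base p n A hA)) (G.fil (base p n A hA)) p.xs
      (G.UU (base p n A hA) (HU eig t V a lam U) d') 0 ω| ≤ p.nc * p.T * p.τ := by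
    refine A_sub_abs_le hP p.xs_expo.pos (fun ω => ?_) 0
    have h2 := WW_bounds hA hnb d ω
    have h3 := WW_bounds hA hnb d' ω
    unfold G.UU
    rw [abs_le]
    constructor <;> linarith [h2.1, h2.2, h3.1, h3.2]
  refine (eE_abs_le hP _).trans ?_
  exact eE_le_of_le hP h1

theorem xs_ge (p : Par) (l : ℕ) : ((p.nc : ℝ) + 1)⁻¹ ≤ p.xs l := by
  unfold Par.xs
  apply le_min
  · apply inv_le_one_of_one_le₀
    have : (0 : ℝ) ≤ p.nc := Nat.cast_nonneg _
    linarith
  · rw [← one_div]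
    apply div_le_div_of_nonneg_right _ (by positivity)
    have : (0 : ℝ) ≤ (((l - 1) / (p.T + 1) : ℕ) : ℝ) := Nat.cast_nonneg _
    linarith

variable [IsProbabilityMeasure ν]

/-- `|x_d - Ed x| ≤ w` if all differences are at most `w` -/
theorem abs_sub_Ed_le (hN : 0 < N) {x : DD p N → ℝ} {w : ℝ} (h : ∀ d d', |x d - x d'| ≤ w)
    (d : DD p N) : |x d - Ed p N x| ≤ w := by
  have h1 : x d - Ed p N x = Ed p N (fun d' => x d - x d') := by
    have h2 := Ed_sub p N (fun _ => x d) x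
    rw [Ed_const p hN] at h2
    exact h2.symm
  rw [h1]
  exact abs_Ed_le p hN (fun d' => h d d')

theorem mean_dev (hnb : p.nb = 0) (hN : 2 < N) (V : (Fin N → Bool) → ℝ)
    (a lam : Fin N → Fin p.nc → ℝ) {Λ0 Λ Λa BV : ℝ} (hΛ0 : ∀ i, |eig i| ≤ Λ0)
    (ht : |t| ≤ 1) (hΛ : ∀ i g, |lam i g| ≤ Λ) (ha : ∀ i g, |a i g| ≤ Λa)
    (hV : ∀ σ, |V σ| ≤ BV * N) (hν : OInv ν) (d : DD p N) :
    ∫ U, |PhU hA eig t V a lam d n U - Fm hA eig t ν n V a lam| ∂ν ≤
      Real.sqrt (CV p Λ0 Λ Λa BV * N) + p.nc * p.T * p.τ := by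
  have h1 := dev_O (n := n) hA eig t V a lam d hnb hN hΛ0 ht hΛ ha hV hν
  set m := ∫ V', PhU hA eig t V a lam d n V' ∂ν with hm
  have hint := integrable_PhU (n := n) hA eig t V a lam d hν.mem
  have h2 : |m - Fm hA eig t ν n V a lam| ≤ p.nc * p.T * p.τ := by
    refine abs_sub_Ed_le (x := fun d => ∫ U, PhU hA eig t V a lam d n U ∂ν) (by omega)
      (fun d d' => ?_) d
    have hint1 := integrable_PhU (n := n) hA eig t V a lam d hν.mem
    have hint2 := integrable_PhU (n := n) hA eig t V a lam d' hν.mem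
    show |(∫ U, PhU hA eig t V a lam d n U ∂ν) - ∫ U, PhU hA eig t V a lam d' n U ∂ν| ≤ _
    rw [← integral_sub hint1 hint2]
    refine (abs_integral_le_integral_abs).trans ?_
    calc ∫ U, |PhU hA eig t V a lam d n U - PhU hA eig t V a lam d' n U| ∂ν ≤
        ∫ _U, (p.nc * p.T * p.τ : ℝ) ∂ν :=
          integral_mono (hint1.sub hint2).abs (integrable_const _)
            (fun U => abs_PhU_sub_le hA eig t hnb V a lam d d' U)
      _ = _ := by rw [integral_const]; simp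
  calc ∫ U, |PhU hA eig t V a lam d n U - Fm hA eig t ν n V a lam| ∂ν ≤
      ∫ U, (|PhU hA eig t V a lam d n U - m| + |m - Fm hA eig t ν n V a lam|) ∂ν :=
        integral_mono (hint.sub (integrable_const _)).abs
          ((hint.sub (integrable_const _)).abs.add (integrable_const _))
          (fun U => abs_sub_le _ _ _)
    _ = ∫ U, |PhU hA eig t V a lam d n U - m| ∂ν + |m - Fm hA eig t ν n V a lam| := by
        have j1 : Integrable (fun U => |PhU hA eig t V a lam d n U - m|) ν :=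
          (hint.sub (integrable_const _)).abs
        rw [integral_add j1 (integrable_const _), integral_const]
        simp
    _ ≤ _ := add_le_add h1 h2

variable {ν}

/-- integrability of means of bounded observables -/
theorem integrable_eE_PP (hν : ∀ᵐ U ∂ν, Matrix.of U ∈ Matrix.orthogonalGroup (Fin N) ℝ)
    (V : (Fin N → Bool) → ℝ) (a lam : Fin N → Fin p.nc → ℝ) (d : DD p N)
    {O : Mat N → SS p n A → ℝ} (hOm : ∀ s, Measurable fun U => O U s) {K : ℝ}
    (hOb : ∀ U, Matrix.of U ∈ Matrix.orthogonalGroup (Fin N) ℝ → ∀ s, |O U s| ≤ K) :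
    Integrable (fun U => eE (G.PP (base p n A hA) (HU eig t V a lam U) d)
      (fun ω => O U ω.1)) ν := by
  refine Integrable.mono' (integrable_const K) ?_ ?_
  · exact (G.meas_eE (fun ω => G.meas_PP (base p n A hA) (H := fun U => HU eig t V a lam U)
      (fun s => measurable_HU eig t V a lam s) d ω) (fun ω => hOm ω.1)).aestronglyMeasurable
  · filter_upwards [hν] with U hU
    rw [Real.norm_eq_abs]
    have hQ := G.PP_isProb (base p n A hA) (HU eig t V a lam U) d
    exact (eE_abs_le hQ _).trans (eE_le_of_le hQ (fun ω => hOb U hU ω.1))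

/-- **Concentration of a general observable.** If `HU' = HU + s O`, then the `(U,d,P)`-averaged
deviation of `O` from its mean is controlled by the one-sided increment of the mean free energy. -/
theorem conc_gen (hnb : p.nb = 0) (hN : 2 < N) (V V' : (Fin N → Bool) → ℝ)
    (a lam a' lam' : Fin N → Fin p.nc → ℝ) {Λ0 Λ Λa BV : ℝ} (hΛ0 : ∀ i, |eig i| ≤ Λ0)
    (ht : |t| ≤ 1) (hΛ : ∀ i g, |lam i g| ≤ Λ) (ha : ∀ i g, |a i g| ≤ Λa)
    (hV : ∀ σ, |V σ| ≤ BV * N) (hΛ' : ∀ i g, |lam' i g| ≤ Λ) (ha' : ∀ i g, |a' i g| ≤ Λa)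
    (hV' : ∀ σ, |V' σ| ≤ BV * N) (hν : OInv ν) {O : Mat N → SS p n A → ℝ}
    (hOm : ∀ s, Measurable fun U => O U s) {s : ℝ} (hs : s ≠ 0)
    (hO : ∀ U σ, HU eig t V' a' lam' U σ = HU eig t V a lam U σ + s * O U σ) :
    |s| * Ed p N (fun d => ∫ U, eE (G.PP (base p n A hA) (HU eig t V a lam U) d)
        (fun ω => |O U ω.1 - mO hA eig t ν V a lam O|) ∂ν) ≤
      2 * Real.log 2 * (p.nc + 1) + 4 * (Real.sqrt (CV p Λ0 Λ Λa BV * N) + p.nc * p.T * p.τ) +
      2 * max (Fm hA eig t ν n V' a' lam' - Fm hA eig t ν n V a lam -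
        s * mO hA eig t ν V a lam O) 0 := by
  set c := mO hA eig t ν V a lam O with hc
  set fs := Fm hA eig t ν n V' a' lam' with hfs
  set f0 := Fm hA eig t ν n V a lam with hf0
  have hF0 : (G.fil (base p n A hA)).F 0 = ⊤ := SY.fil_zero hA
  have hN0 : 0 < N := by omega
  -- boundedness of the observable
  obtain ⟨KT, hKT⟩ : ∃ KT : ℝ, ∀ σ : SS p n A, Ts σ ≤ KT := by
    obtain ⟨KT, hKT⟩ := (Set.finite_range (fun σ : SS p n A => Ts σ)).bddAbove
    exact ⟨KT, fun σ => hKT ⟨σ, rfl⟩⟩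
  set B := (Λ0 / 2 + BV + 2 * p.nc * Λa ^ 2 + 2 * p.nc * Λ ^ 2) * N with hB
  have hOb : ∀ U, Matrix.of U ∈ Matrix.orthogonalGroup (Fin N) ℝ → ∀ σ,
      |O U σ| ≤ (2 * B + 1 / 4 * KT) / |s| := by
    intro U hU σ
    have h1 := abs_HU_le eig t V a lam hΛ0 ht hΛ ha hV hU σ
    have h2 := abs_HU_le eig t V' a' lam' hΛ0 ht hΛ' ha' hV' hU σ
    have h3 := hO U σ
    have h4 := hKT σ
    rw [le_div_iff₀ (abs_pos.mpr hs), ← abs_mul, mul_comm]
    have h5 : s * O U σ = HU eig t V' a' lam' U σ - HU eig t V a lam U σ := by rw [h3]; ring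
    rw [h5]
    refine (abs_sub _ _).trans ?_
    linarith
  have hOb' : ∀ U, Matrix.of U ∈ Matrix.orthogonalGroup (Fin N) ℝ → ∀ σ,
      |(|O U σ - c|)| ≤ (2 * B + 1 / 4 * KT) / |s| + |c| := by
    intro U hU σ
    rw [abs_abs]
    exact (abs_sub _ _).trans (by linarith [hOb U hU σ])
  have hint1 : ∀ d, Integrable (fun U => eE (G.PP (base p n A hA) (HU eig t V a lam U) d)
      (fun ω => O U ω.1)) ν := fun d =>
    integrable_eE_PP hA eig t hν.mem V a lam d hOm hOb
  have hint2 : ∀ d, Integrable (fun U => eE (G.PP (base p n A hA) (HU eig t V a lam U) d)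
      (fun ω => |O U ω.1 - c|)) ν := fun d =>
    integrable_eE_PP hA eig t hν.mem V a lam d (O := fun U σ => |O U σ - c|)
      (fun σ => ((hOm σ).sub_const c).abs) hOb'
  have hintP := fun d => integrable_PhU (n := n) hA eig t V a lam d hν.mem
  have hintP' := fun d => integrable_PhU (n := n) hA eig t V' a' lam' d hν.mem
  -- pointwise
  have hpt : ∀ d U, |s| * eE (G.PP (base p n A hA) (HU eig t V a lam U) d)
        (fun ω => |O U ω.1 - c|) ≤
      (2 * Real.log 2 * (p.nc + 1) + 2 * max (fs - f0 - s * c) 0) +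
        2 * (|PhU hA eig t V' a' lam' d n U - fs| + |PhU hA eig t V a lam d n U - f0|) -
        s * (eE (G.PP (base p n A hA) (HU eig t V a lam U) d) (fun ω => O U ω.1) - c) := by
    intro d U
    have h1 := obs_one (𝓕 := G.fil (base p n A hA)) (G.prior_isProb (base p n A hA))
      p.xs_expo.pos hF0 (xm := ((p.nc : ℝ) + 1)⁻¹) (by positivity) (xs_ge p)
      (G.UU (base p n A hA) (HU eig t V a lam U) d) (fun ω => O U ω.1) (s := s) f0 fs c
    have e1 : (fun w => G.UU (base p n A hA) (HU eig t V a lam U) d w + s * O U w.1) =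
        G.UU (base p n A hA) (HU eig t V' a' lam' U) d := by
      funext w
      show HU eig t V a lam U w.1 + G.WW (base p n A hA) d w + s * O U w.1 =
        HU eig t V' a' lam' U w.1 + G.WW (base p n A hA) d w
      have := hO U w.1
      linarith
    rw [e1] at h1
    have e2 : tl (G.prior (base p n A hA)) (G.fil (base p n A hA)) p.xs
      (G.UU (base p n A hA) (HU eig t V a lam U) d) =
      G.PP (base p n A hA) (HU eig t V a lam U) d := rfl
    rw [e2] at h1
    have e3 : 2 * Real.log 2 / ((p.nc : ℝ) + 1)⁻¹ = 2 * Real.log 2 * (p.nc + 1) := by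
      rw [div_inv_eq_mul]
    rw [e3] at h1
    unfold PhU G.Phi
    linarith
  -- integrate over `U`
  have hU : ∀ d, |s| * ∫ U, eE (G.PP (base p n A hA) (HU eig t V a lam U) d)
        (fun ω => |O U ω.1 - c|) ∂ν ≤
      (2 * Real.log 2 * (p.nc + 1) + 2 * max (fs - f0 - s * c) 0) +
        4 * (Real.sqrt (CV p Λ0 Λ Λa BV * N) + p.nc * p.T * p.τ) -
        s * (∫ U, eE (G.PP (base p n A hA) (HU eig t V a lam U) d) (fun ω => O U ω.1) ∂ν - c) := by
    intro d
    have j4 : Integrable (fun U => |PhU hA eig t V' a' lam' d n U - fs|) ν :=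
      ((hintP' d).sub (integrable_const fs)).abs
    have j5 : Integrable (fun U => |PhU hA eig t V a lam d n U - f0|) ν :=
      ((hintP d).sub (integrable_const f0)).abs
    have j1 : Integrable (fun U => 2 * (|PhU hA eig t V' a' lam' d n U - fs| +
        |PhU hA eig t V a lam d n U - f0|)) ν := (j4.add j5).const_mul 2
    have j2 : Integrable (fun U => s * (eE (G.PP (base p n A hA) (HU eig t V a lam U) d)
        (fun ω => O U ω.1) - c)) ν := ((hint1 d).sub (integrable_const c)).const_mul s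
    have j3 : Integrable (fun U => (2 * Real.log 2 * (p.nc + 1) + 2 * max (fs - f0 - s * c) 0) +
      2 * (|PhU hA eig t V' a' lam' d n U - fs| + |PhU hA eig t V a lam d n U - f0|)) ν :=
      (integrable_const _).add j1
    have j6 : Integrable (fun U => |s| * eE (G.PP (base p n A hA) (HU eig t V a lam U) d)
        (fun ω => |O U ω.1 - c|)) ν := (hint2 d).const_mul |s|
    have h1 : ∫ U, |s| * eE (G.PP (base p n A hA) (HU eig t V a lam U) d)
        (fun ω => |O U ω.1 - c|) ∂ν ≤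
        ∫ U, ((2 * Real.log 2 * (p.nc + 1) + 2 * max (fs - f0 - s * c) 0) +
        2 * (|PhU hA eig t V' a' lam' d n U - fs| + |PhU hA eig t V a lam d n U - f0|) -
        s * (eE (G.PP (base p n A hA) (HU eig t V a lam U) d) (fun ω => O U ω.1) - c)) ∂ν :=
      integral_mono j6 (j3.sub j2) (hpt d)
    have e : ∫ U, ((2 * Real.log 2 * (p.nc + 1) + 2 * max (fs - f0 - s * c) 0) +
        2 * (|PhU hA eig t V' a' lam' d n U - fs| + |PhU hA eig t V a lam d n U - f0|) -
        s * (eE (G.PP (base p n A hA) (HU eig t V a lam U) d) (fun ω => O U ω.1) - c)) ∂ν =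
        (2 * Real.log 2 * (p.nc + 1) + 2 * max (fs - f0 - s * c) 0) +
        2 * (∫ U, |PhU hA eig t V' a' lam' d n U - fs| ∂ν +
          ∫ U, |PhU hA eig t V a lam d n U - f0| ∂ν) -
        s * (∫ U, eE (G.PP (base p n A hA) (HU eig t V a lam U) d) (fun ω => O U ω.1) ∂ν - c) := by
      rw [integral_sub j3 j2, integral_add (integrable_const _) j1, integral_const_mul,
        integral_const_mul, integral_sub (hint1 d) (integrable_const c),
        integral_add j4 j5, integral_const, integral_const]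
      simp
    rw [integral_const_mul, e] at h1
    have h2 := mean_dev (n := n) hA eig t ν hnb hN V a lam hΛ0 ht hΛ ha hV hν d
    have h3 := mean_dev (n := n) hA eig t ν hnb hN V' a' lam' hΛ0 ht hΛ' ha' hV' hν d
    rw [← hf0] at h2
    rw [← hfs] at h3
    linarith
  -- average over `d`
  have hd := Ed_mono p N hU
  rw [Ed_smul] at hd
  refine hd.trans (le_of_eq ?_)
  have e1 : Ed p N (fun d => (2 * Real.log 2 * (p.nc + 1) + 2 * max (fs - f0 - s * c) 0) +
        4 * (Real.sqrt (CV p Λ0 Λ Λa BV * N) + p.nc * p.T * p.τ) -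
        s * (∫ U, eE (G.PP (base p n A hA) (HU eig t V a lam U) d) (fun ω => O U ω.1) ∂ν - c)) =
      ((2 * Real.log 2 * (p.nc + 1) + 2 * max (fs - f0 - s * c) 0) +
        4 * (Real.sqrt (CV p Λ0 Λ Λa BV * N) + p.nc * p.T * p.τ)) - s * (c - c) := by
    rw [Ed_sub p N, Ed_const p hN0, Ed_smul, Ed_sub p N, Ed_const p hN0]
    rfl
  rw [e1]
  ring

end

end Crest.Agent.R164.CSys
end

-- ▼ part R164/UConc2
section

set_option autoImplicit false

/-!
Row 164, module (Conc): slope inequality, second-difference form and the final form for the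
upper-bound assembly (`US.FN`).
-/

namespace Crest.Agent.R164.CSys

open Finset MeasureTheory
open Crest.Agent.R141
open Crest.Agent.R164 SY
open Crest.Agent.Lib.OrthPoinc

noncomputable section

variable {p : Par} {N n : ℕ} {A : Finset (Fin N → Bool)} (hA : A.Nonempty)
  (eig : Fin N → ℝ) (t : ℝ) {ν : Measure (Mat N)} [IsProbabilityMeasure ν]

/-- an observable which is a difference of Hamiltonians is bounded on orthogonal matrices -/
theorem obs_bounded (V V' : (Fin N → Bool) → ℝ)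
    (a lam a' lam' : Fin N → Fin p.nc → ℝ) {Λ0 Λ Λa BV : ℝ} (hΛ0 : ∀ i, |eig i| ≤ Λ0)
    (ht : |t| ≤ 1) (hΛ : ∀ i g, |lam i g| ≤ Λ) (ha : ∀ i g, |a i g| ≤ Λa)
    (hV : ∀ σ, |V σ| ≤ BV * N) (hΛ' : ∀ i g, |lam' i g| ≤ Λ) (ha' : ∀ i g, |a' i g| ≤ Λa)
    (hV' : ∀ σ, |V' σ| ≤ BV * N) {O : Mat N → SS p n A → ℝ} {s : ℝ} (hs : s ≠ 0)
    (hO : ∀ U σ, HU eig t V' a' lam' U σ = HU eig t V a lam U σ + s * O U σ) :
    ∃ K, ∀ U, Matrix.of U ∈ Matrix.orthogonalGroup (Fin N) ℝ → ∀ σ, |O U σ| ≤ K := by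
  obtain ⟨KT, hKT⟩ : ∃ KT : ℝ, ∀ σ : SS p n A, Ts σ ≤ KT := by
    obtain ⟨KT, hKT⟩ := (Set.finite_range (fun σ : SS p n A => Ts σ)).bddAbove
    exact ⟨KT, fun σ => hKT ⟨σ, rfl⟩⟩
  set B := (Λ0 / 2 + BV + 2 * p.nc * Λa ^ 2 + 2 * p.nc * Λ ^ 2) * N with hB
  refine ⟨(2 * B + 1 / 4 * KT) / |s|, fun U hU σ => ?_⟩
  have h1 := abs_HU_le eig t V a lam hΛ0 ht hΛ ha hV hU σ
  have h2 := abs_HU_le eig t V' a' lam' hΛ0 ht hΛ' ha' hV' hU σ
  have h3 := hO U σ
  have h4 := hKT σ
  rw [le_div_iff₀ (abs_pos.mpr hs), ← abs_mul, mul_comm]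
  have h5 : s * O U σ = HU eig t V' a' lam' U σ - HU eig t V a lam U σ := by rw [h3]; ring
  rw [h5]
  refine (abs_sub _ _).trans ?_
  linarith

/-- **slope inequality**: `s E O ≤ F(H + s O) - F(H)`. -/
theorem slope_le (hN : 0 < N) (V V' : (Fin N → Bool) → ℝ)
    (a lam a' lam' : Fin N → Fin p.nc → ℝ) {Λ0 Λ Λa BV : ℝ} (hΛ0 : ∀ i, |eig i| ≤ Λ0)
    (ht : |t| ≤ 1) (hΛ : ∀ i g, |lam i g| ≤ Λ) (ha : ∀ i g, |a i g| ≤ Λa)
    (hV : ∀ σ, |V σ| ≤ BV * N) (hΛ' : ∀ i g, |lam' i g| ≤ Λ) (ha' : ∀ i g, |a' i g| ≤ Λa)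
    (hV' : ∀ σ, |V' σ| ≤ BV * N) (hν : OInv ν) {O : Mat N → SS p n A → ℝ}
    (hOm : ∀ s, Measurable fun U => O U s) {s : ℝ} (hs : s ≠ 0)
    (hO : ∀ U σ, HU eig t V' a' lam' U σ = HU eig t V a lam U σ + s * O U σ) :
    s * mO hA eig t ν V a lam O ≤ Fm hA eig t ν n V' a' lam' - Fm hA eig t ν n V a lam := by
  obtain ⟨K, hK⟩ := obs_bounded (n := n) (A := A) eig t V V' a lam a' lam' hΛ0 ht hΛ ha hV hΛ' ha'
    hV' hs hO
  have hF0 : (G.fil (base p n A hA)).F 0 = ⊤ := SY.fil_zero hA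
  have hint1 : ∀ d, Integrable (fun U => eE (G.PP (base p n A hA) (HU eig t V a lam U) d)
      (fun ω => O U ω.1)) ν := fun d =>
    integrable_eE_PP hA eig t hν.mem V a lam d hOm hK
  have hintP := fun d => integrable_PhU (n := n) hA eig t V a lam d hν.mem
  have hintP' := fun d => integrable_PhU (n := n) hA eig t V' a' lam' d hν.mem
  have hpt : ∀ d U, s * eE (G.PP (base p n A hA) (HU eig t V a lam U) d) (fun ω => O U ω.1) ≤
      PhU hA eig t V' a' lam' d n U - PhU hA eig t V a lam d n U := by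
    intro d U
    have h1 := ObsConc.gA_sub_pt (𝓕 := G.fil (base p n A hA)) (G.prior_isProb (base p n A hA))
      p.xs_expo.pos hF0 (G.UU (base p n A hA) (HU eig t V a lam U) d) (fun ω => O U ω.1) s
    have e1 : (fun w => G.UU (base p n A hA) (HU eig t V a lam U) d w + s * O U w.1) =
        G.UU (base p n A hA) (HU eig t V' a' lam' U) d := by
      funext w
      show HU eig t V a lam U w.1 + G.WW (base p n A hA) d w + s * O U w.1 =
        HU eig t V' a' lam' U w.1 + G.WW (base p n A hA) d w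
      have := hO U w.1
      linarith
    unfold ObsConc.gA at h1
    rw [e1] at h1
    exact h1
  have hU : ∀ d, s * ∫ U, eE (G.PP (base p n A hA) (HU eig t V a lam U) d)
      (fun ω => O U ω.1) ∂ν ≤
      ∫ U, PhU hA eig t V' a' lam' d n U ∂ν - ∫ U, PhU hA eig t V a lam d n U ∂ν := by
    intro d
    rw [← integral_const_mul, ← integral_sub (hintP' d) (hintP d)]
    exact integral_mono ((hint1 d).const_mul s) ((hintP' d).sub (hintP d)) (hpt d)
  have hd := Ed_mono p N hU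
  rw [Ed_smul, Ed_sub p N] at hd
  exact hd

/-- **Concentration of a general observable, second-difference form.** -/
theorem conc_sd (hnb : p.nb = 0) (hN : 2 < N) (V V₁ V₂ : (Fin N → Bool) → ℝ)
    (a lam a₁ lam₁ a₂ lam₂ : Fin N → Fin p.nc → ℝ) {Λ0 Λ Λa BV : ℝ} (hΛ0 : ∀ i, |eig i| ≤ Λ0)
    (ht : |t| ≤ 1) (hΛ : ∀ i g, |lam i g| ≤ Λ) (ha : ∀ i g, |a i g| ≤ Λa)
    (hV : ∀ σ, |V σ| ≤ BV * N) (hΛ₁ : ∀ i g, |lam₁ i g| ≤ Λ) (ha₁ : ∀ i g, |a₁ i g| ≤ Λa)
    (hV₁ : ∀ σ, |V₁ σ| ≤ BV * N) (hΛ₂ : ∀ i g, |lam₂ i g| ≤ Λ) (ha₂ : ∀ i g, |a₂ i g| ≤ Λa)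
    (hV₂ : ∀ σ, |V₂ σ| ≤ BV * N) (hν : OInv ν) {O : Mat N → SS p n A → ℝ}
    (hOm : ∀ s, Measurable fun U => O U s) {s : ℝ} (hs : s ≠ 0)
    (hO₁ : ∀ U σ, HU eig t V₁ a₁ lam₁ U σ = HU eig t V a lam U σ + s * O U σ)
    (hO₂ : ∀ U σ, HU eig t V₂ a₂ lam₂ U σ = HU eig t V a lam U σ + (-s) * O U σ) :
    |s| * Ed p N (fun d => ∫ U, eE (G.PP (base p n A hA) (HU eig t V a lam U) d)
        (fun ω => |O U ω.1 - mO hA eig t ν V a lam O|) ∂ν) ≤
      2 * Real.log 2 * (p.nc + 1) + 4 * (Real.sqrt (CV p Λ0 Λ Λa BV * N) + p.nc * p.T * p.τ) +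
      2 * (Fm hA eig t ν n V₁ a₁ lam₁ + Fm hA eig t ν n V₂ a₂ lam₂ -
        2 * Fm hA eig t ν n V a lam) := by
  have h := conc_gen (n := n) hA eig t hnb hN V V₁ a lam a₁ lam₁ hΛ0 ht hΛ ha hV hΛ₁ ha₁ hV₁ hν hOm
    hs hO₁
  have h1 := slope_le (n := n) hA eig t (by omega) V V₁ a lam a₁ lam₁ hΛ0 ht hΛ ha hV hΛ₁ ha₁ hV₁
    hν hOm hs hO₁
  have h2 := slope_le (n := n) hA eig t (by omega) V V₂ a lam a₂ lam₂ hΛ0 ht hΛ ha hV hΛ₂ ha₂ hV₂
    hν hOm (neg_ne_zero.mpr hs) hO₂
  refine h.trans ?_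
  have h3 : max (Fm hA eig t ν n V₁ a₁ lam₁ - Fm hA eig t ν n V a lam -
      s * mO hA eig t ν V a lam O) 0 ≤ Fm hA eig t ν n V₁ a₁ lam₁ + Fm hA eig t ν n V₂ a₂ lam₂ -
        2 * Fm hA eig t ν n V a lam := by
    apply max_le <;> linarith
  linarith

end

end Crest.Agent.R164.CSys
end

-- ▼ part R164/UConc3
section

set_option autoImplicit false

/-!
Row 164, module (Conc): final form for the upper-bound assembly (`US.FN`).
-/

namespace Crest.Agent.R164.CSys

open Finset MeasureTheory Filter Topology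
open Crest.Agent.R141
open Crest.Agent.R164 SY
open Crest.Agent.Lib.OrthPoinc

noncomputable section

variable {κ : Type} [Fintype κ] [DecidableEq κ]

theorem oInv_of_rHaar {N : ℕ} {ν : Measure (Fin N → Fin N → ℝ)} (h : Haar.RHaar ν) : OInv ν where
  mem := h.mem
  inv := h.inv

theorem HF_eq_HU {p : Par} {N n : ℕ} (A : Finset (Fin N → Bool)) (lab : Fin N → κ) (th : κ → ℝ)
    (η t : ℝ) (a : Fin p.nc → ℝ) (l : κ × Fin p.nc → ℝ) (U : Fin N → Fin N → ℝ) (s : SS p n A) :
    US.HF A n lab th η t a l U s =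
      HU (fun i => th (lab i)) t (fun _ => 0) (fun _ => a) (US.lamF lab η l) U s := rfl

/-- the observable of the class `k` in the cell `g`, not normalised -/
def Ok {p : Par} {N : ℕ} (n : ℕ) (A : Finset (Fin N → Bool)) (lab : Fin N → κ) (k : κ)
    (g : Fin p.nc) (U : Fin N → Fin N → ℝ) (s : SS p n A) : ℝ :=
  ∑ i, if lab i = k then zf s.2.2 g i * xU (Matrix.of U) s.1.1 i else 0

theorem measurable_Ok {p : Par} {N : ℕ} (n : ℕ) (A : Finset (Fin N → Bool)) (lab : Fin N → κ)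
    (k : κ) (g : Fin p.nc) (s : SS p n A) : Measurable fun U => Ok n A lab k g U s := by
  unfold Ok xU
  simp only [Matrix.mulVec, dotProduct, Matrix.of_apply]
  refine Finset.measurable_sum _ fun i _ => ?_
  split_ifs
  · fun_prop
  · exact measurable_const

theorem HF_update {p : Par} {N n : ℕ} (A : Finset (Fin N → Bool)) (lab : Fin N → κ) (th : κ → ℝ)
    (η t : ℝ) (a : Fin p.nc → ℝ) (l : κ × Fin p.nc → ℝ) (k : κ) (g : Fin p.nc) (y : ℝ)
    (U : Fin N → Fin N → ℝ) (s : SS p n A) :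
    US.HF A n lab th η t a (Function.update l (k, g) y) U s =
      US.HF A n lab th η t a l U s + (Real.sqrt η * (y - l (k, g))) * Ok n A lab k g U s := by
  rw [US.HF_eq, US.HF_eq]
  have h1 : ∑ j, Function.update l (k, g) y j * US.Vl A n lab η j U s =
      ∑ j, l j * US.Vl A n lab η j U s + (y - l (k, g)) * US.Vl A n lab η (k, g) U s := by
    rw [← Finset.add_sum_erase _ _ (Finset.mem_univ (k, g)),
      ← Finset.add_sum_erase _ (fun j => l j * US.Vl A n lab η j U s) (Finset.mem_univ (k, g))]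
    have h2 : ∑ j ∈ univ.erase (k, g), Function.update l (k, g) y j * US.Vl A n lab η j U s =
        ∑ j ∈ univ.erase (k, g), l j * US.Vl A n lab η j U s := by
      refine Finset.sum_congr rfl fun j hj => ?_
      rw [Function.update_of_ne (Finset.ne_of_mem_erase hj)]
    rw [h2, Function.update_self]
    ring
  rw [h1]
  have h3 : US.Vl A n lab η (k, g) U s = Real.sqrt η * Ok n A lab k g U s := rfl
  rw [h3]
  ring

theorem FP_eq_Fm {p : Par} {N : ℕ} (n : ℕ) {A : Finset (Fin N → Bool)} (hA : A.Nonempty)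
    (ν : Measure (Fin N → Fin N → ℝ)) (lab : Fin N → κ) (th : κ → ℝ)
    (η t : ℝ) (a : Fin p.nc → ℝ) (l : κ × Fin p.nc → ℝ) :
    US.FP n hA ν lab th η t a l =
      Fm hA (fun i => th (lab i)) t ν n (fun _ => 0) (fun _ => a) (US.lamF lab η l) := by
  unfold US.FP US.EP Fm PhU
  have h : ∀ U : Mat N, (US.HF A n lab th η t a l U : SS p n A → ℝ) =
      HU (fun i => th (lab i)) t (fun _ => 0) (fun _ => a) (US.lamF lab η l) U := by
    intro U; funext s; exact HF_eq_HU A lab th η t a l U s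
  simp only [h]

/-- the error constants -/
theorem exists_N0 (C1 C2 h ε : ℝ) (hh : 0 < h) (hε : 0 < ε) :
    ∃ N0 : ℕ, ∀ N : ℕ, N0 ≤ N → (C1 + C2 * Real.sqrt N) / (h * N) ≤ ε := by
  have h1 : Tendsto (fun N : ℕ => C1 / h * ((N : ℝ))⁻¹ + C2 / h * (Real.sqrt N)⁻¹) atTop
      (𝓝 (C1 / h * 0 + C2 / h * 0)) := by
    refine Tendsto.add ?_ ?_
    · exact tendsto_const_nhds.mul (tendsto_inv_atTop_zero.comp tendsto_natCast_atTop_atTop)
    · exact tendsto_const_nhds.mul (tendsto_inv_atTop_zero.comp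
        (Real.tendsto_sqrt_atTop.comp tendsto_natCast_atTop_atTop))
  simp only [mul_zero, add_zero] at h1
  obtain ⟨N0, hN0⟩ := eventually_atTop.mp ((h1.eventually (gt_mem_nhds hε)))
  refine ⟨max N0 1, fun N hN => ?_⟩
  have h2 := hN0 N ((le_max_left _ _).trans hN)
  have hN1 : 1 ≤ N := (le_max_right _ _).trans hN
  have hNpos : (0 : ℝ) < N := by exact_mod_cast hN1
  have hs : 0 < Real.sqrt N := Real.sqrt_pos.mpr hNpos
  have e : (C1 + C2 * Real.sqrt N) / (h * N) = C1 / h * ((N : ℝ))⁻¹ + C2 / h * (Real.sqrt N)⁻¹ := by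
    have h3 : (N : ℝ) = Real.sqrt N * Real.sqrt N := (Real.mul_self_sqrt hNpos.le).symm
    field_simp
    have h4 : Real.sqrt N ^ 2 = N := Real.sq_sqrt hNpos.le
    linear_combination C2 * h4
  rw [e]
  exact h2.le

/-- **Final form of (Conc) for the contact argument.** -/
theorem uconc {p : Par} (hnb : p.nb = 0) {Λ0 η Am δ : ℝ} (hη : 0 < η) (hδ : 0 < δ) :
    ∃ N0 : ℕ, ∀ N : ℕ, N0 ≤ N → ∀ (n : ℕ) (A : Finset (Fin N → Bool)) (hA : A.Nonempty)
      (ν : Measure (Fin N → Fin N → ℝ)), IsProbabilityMeasure ν → Haar.RHaar ν →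
      ∀ (lab : Fin N → κ) (th : κ → ℝ), (∀ k, |th k| ≤ Λ0) → ∀ t ∈ Set.Icc (0 : ℝ) 1,
      ∀ a : Fin p.nc → ℝ, (∀ g, |a g| ≤ Am) →
      ∀ l : κ × Fin p.nc → ℝ, (∀ j, l j ∈ Set.Icc (1 : ℝ) 2) → ∀ (k : κ) (g : Fin p.nc),
      l (k, g) ∈ Set.Icc (5 / 4 : ℝ) (7 / 4) → ∀ Fl : ℝ,
      (∀ y ∈ Set.Icc (1 : ℝ) 2, US.FN n hA ν lab th η t a (Function.update l (k, g) y) ≤
        US.FN n hA ν lab th η t a l + Fl * (y - l (k, g)) + 8 * η * (y - l (k, g)) ^ 2) →
      ∃ dd : ℝ, Ed p N (fun d => ∫ U, eE (G.PP (base p n A hA) (US.HF A n lab th η t a l U) d)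
        (fun w => |(N : ℝ)⁻¹ * (∑ i, if lab i = k then
          zf w.1.2.2 g i * xU (Matrix.of U) w.1.1.1 i else 0) - dd|) ∂ν) ≤ δ := by
  set Λ := Real.sqrt η * 2 with hΛ
  have hsη : 0 < Real.sqrt η := Real.sqrt_pos.mpr hη
  set h := min (1 / 4 : ℝ) (δ / (64 * Real.sqrt η)) with hh
  have hhpos : 0 < h := lt_min (by norm_num) (by positivity)
  have hh1 : h ≤ 1 / 4 := min_le_left _ _
  have hh2 : 32 * Real.sqrt η * h ≤ δ / 2 := by
    have : h ≤ δ / (64 * Real.sqrt η) := min_le_right _ _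
    calc 32 * Real.sqrt η * h ≤ 32 * Real.sqrt η * (δ / (64 * Real.sqrt η)) := by gcongr
      _ = δ / 2 := by field_simp; norm_num
  obtain ⟨N0, hN0⟩ := exists_N0 (2 * Real.log 2 * (p.nc + 1) + 4 * (p.nc * p.T * p.τ))
    (4 * Real.sqrt (CV p Λ0 Λ Am 0)) (Real.sqrt η * h) (δ / 2) (by positivity) (by linarith)
  refine ⟨max N0 3, ?_⟩
  intro N hN n A hA ν hνp hν lab th hth t ht a ha l hl k g hlk Fl hFl
  have hN3 : 3 ≤ N := (le_max_right _ _).trans hN
  have hNr : (0 : ℝ) < N := by exact_mod_cast (by omega : 0 < N)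
  have hO := oInv_of_rHaar hν
  set eig : Fin N → ℝ := fun i => th (lab i) with heig
  -- the three parameter sets
  set lp := Function.update l (k, g) (l (k, g) + h) with hlp
  set lm := Function.update l (k, g) (l (k, g) - h) with hlm
  have hb : ∀ l' : κ × Fin p.nc → ℝ, (∀ j, l' j ∈ Set.Icc (1 : ℝ) 2) → ∀ i g',
      |US.lamF lab η l' i g'| ≤ Λ := by
    intro l' hl' i g'
    unfold US.lamF
    have := hl' (lab i, g')
    rw [abs_mul, abs_of_pos hsη, abs_of_nonneg (by linarith [this.1])]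
    exact mul_le_mul_of_nonneg_left this.2 hsη.le
  have hlpb : ∀ j, lp j ∈ Set.Icc (1 : ℝ) 2 := by
    intro j
    rw [hlp]
    by_cases hj : j = (k, g)
    · subst hj; rw [Function.update_self]; exact ⟨by linarith [hlk.1], by linarith [hlk.2]⟩
    · rw [Function.update_of_ne hj]; exact hl j
  have hlmb : ∀ j, lm j ∈ Set.Icc (1 : ℝ) 2 := by
    intro j
    rw [hlm]
    by_cases hj : j = (k, g)
    · subst hj; rw [Function.update_self]; exact ⟨by linarith [hlk.1], by linarith [hlk.2]⟩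
    · rw [Function.update_of_ne hj]; exact hl j
  have hO1 : ∀ (U : Mat N) (σ : SS p n A), HU eig t (fun _ => 0) (fun _ => a) (US.lamF lab η lp) U σ =
      HU eig t (fun _ => 0) (fun _ => a) (US.lamF lab η l) U σ +
        (Real.sqrt η * h) * Ok n A lab k g U σ := by
    intro U σ
    have h1 := HF_update A lab th η t a l k g (l (k, g) + h) U σ
    rw [← hlp, HF_eq_HU, HF_eq_HU] at h1
    rw [h1]; ring
  have hO2 : ∀ (U : Mat N) (σ : SS p n A), HU eig t (fun _ => 0) (fun _ => a) (US.lamF lab η lm) U σ =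
      HU eig t (fun _ => 0) (fun _ => a) (US.lamF lab η l) U σ +
        (-(Real.sqrt η * h)) * Ok n A lab k g U σ := by
    intro U σ
    have h1 := HF_update A lab th η t a l k g (l (k, g) - h) U σ
    rw [← hlm, HF_eq_HU, HF_eq_HU] at h1
    rw [h1]; ring
  have hs0 : Real.sqrt η * h ≠ 0 := (mul_pos hsη hhpos).ne'
  have hmain := conc_sd (n := n) hA eig t hnb (by omega) (fun _ => 0) (fun _ => 0) (fun _ => 0)
    (fun _ => a) (US.lamF lab η l) (fun _ => a) (US.lamF lab η lp) (fun _ => a)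
    (US.lamF lab η lm) (Λ0 := Λ0) (Λ := Λ) (Λa := Am) (BV := 0) (fun i => hth _)
    (by rw [abs_of_nonneg ht.1]; exact ht.2) (hb l hl) (fun _ g => ha g) (by simp)
    (hb lp hlpb) (fun _ g => ha g) (by simp) (hb lm hlmb) (fun _ g => ha g) (by simp) hO
    (measurable_Ok n A lab k g) hs0 hO1 hO2
  rw [← FP_eq_Fm, ← FP_eq_Fm, ← FP_eq_Fm] at hmain
  -- second difference
  have hsd : US.FP n hA ν lab th η t a lp + US.FP n hA ν lab th η t a lm -
      2 * US.FP n hA ν lab th η t a l ≤ N * (16 * η * h ^ 2) := by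
    have h1 := hFl (l (k, g) + h) ⟨by linarith [hlk.1], by linarith [hlk.2]⟩
    have h2 := hFl (l (k, g) - h) ⟨by linarith [hlk.1], by linarith [hlk.2]⟩
    rw [← hlp] at h1
    rw [← hlm] at h2
    unfold US.FN at h1 h2
    have h3 : (N : ℝ)⁻¹ * (US.FP n hA ν lab th η t a lp + US.FP n hA ν lab th η t a lm -
      2 * US.FP n hA ν lab th η t a l) ≤ 16 * η * h ^ 2 := by
      nlinarith [h1, h2]
    rwa [inv_mul_le_iff₀ hNr] at h3
  set mo := mO hA eig t ν (fun _ => 0) (fun _ => a) (US.lamF lab η l) (Ok n A lab k g) with hmo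
  refine ⟨(N : ℝ)⁻¹ * mo, ?_⟩
  have e1 : Ed p N (fun d => ∫ U, eE (G.PP (base p n A hA) (US.HF A n lab th η t a l U) d)
        (fun w => |(N : ℝ)⁻¹ * (∑ i, if lab i = k then
          zf w.1.2.2 g i * xU (Matrix.of U) w.1.1.1 i else 0) - (N : ℝ)⁻¹ * mo|) ∂ν) =
      (N : ℝ)⁻¹ * Ed p N (fun d => ∫ U, eE (G.PP (base p n A hA)
        (HU eig t (fun _ => 0) (fun _ => a) (US.lamF lab η l) U) d)
        (fun ω => |Ok n A lab k g U ω.1 - mo|) ∂ν) := by
    rw [← Ed_smul]
    congr 1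
    funext d
    rw [← integral_const_mul]
    congr 1
    funext U
    have h1 : (US.HF A n lab th η t a l U : SS p n A → ℝ) =
        HU eig t (fun _ => 0) (fun _ => a) (US.lamF lab η l) U := by
      funext s; exact HF_eq_HU A lab th η t a l U s
    rw [← eE_smul]
    have h2 : (G.PP (base p n A hA) (US.HF A n lab th η t a l U) d) =
      G.PP (base p n A hA) (HU eig t (fun _ => 0) (fun _ => a) (US.lamF lab η l) U) d :=
      congrArg (fun H => G.PP (base p n A hA) H d) h1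
    rw [h2]
    congr 1
    funext w
    rw [← mul_sub, abs_mul, abs_of_pos (inv_pos.mpr hNr)]
    rfl
  rw [e1]
  set X := Ed p N (fun d => ∫ U, eE (G.PP (base p n A hA)
        (HU eig t (fun _ => 0) (fun _ => a) (US.lamF lab η l) U) d)
        (fun ω => |Ok n A lab k g U ω.1 - mo|) ∂ν) with hX
  rw [abs_of_pos (mul_pos hsη hhpos)] at hmain
  have hrate := hN0 N ((le_max_left _ _).trans hN)
  have hsq : Real.sqrt (CV p Λ0 Λ Am 0 * N) = Real.sqrt (CV p Λ0 Λ Am 0) * Real.sqrt N := by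
    have hΛ00 : 0 ≤ Λ0 := (abs_nonneg _).trans (hth (lab ⟨0, by omega⟩))
    exact Real.sqrt_mul (CV_pos (p := p) (Λ := Λ) (Λa := Am) hΛ00 le_rfl).le _
  rw [hsq] at hmain
  have hden : 0 < Real.sqrt η * h * N := by positivity
  rw [div_le_iff₀ hden] at hrate
  have hηs : Real.sqrt η * Real.sqrt η = η := Real.mul_self_sqrt hη.le
  have hfin : (Real.sqrt η * h) * X ≤ (Real.sqrt η * h) * (N * δ) := by
    have h1 : 2 * (US.FP n hA ν lab th η t a lp + US.FP n hA ν lab th η t a lm -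
      2 * US.FP n hA ν lab th η t a l) ≤ Real.sqrt η * h * N * (32 * Real.sqrt η * h) := by
      have : Real.sqrt η * h * N * (32 * Real.sqrt η * h) = 2 * (N * (16 * (Real.sqrt η *
        Real.sqrt η) * h ^ 2)) := by ring
      rw [this, hηs]
      linarith
    have h2 : Real.sqrt η * h * N * (32 * Real.sqrt η * h) ≤ Real.sqrt η * h * N * (δ / 2) :=
      mul_le_mul_of_nonneg_left hh2 hden.le
    nlinarith
  have hX2 : X ≤ N * δ := le_of_mul_le_mul_left hfin (mul_pos hsη hhpos)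
  rw [inv_mul_le_iff₀ hNr]
  exact hX2

end

end Crest.Agent.R164.CSys
end

-- ▼ part R164/UHConc
section

set_option autoImplicit false

/-!
Row 164, module (Conc): the Prop `US.HConc` of the upper-bound assembly.
-/

namespace Crest.Agent.R164.CSys

open Finset MeasureTheory Filter Topology
open Crest.Agent.R141
open Crest.Agent.R164 SY

noncomputable section

/-- **(Conc)** in the form consumed by the upper-bound assembly. -/
theorem hConc (K : ℕ) (val : Fin (K + 1) → ℝ) : US.HConc K val := by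
  intro p hnb η hη Amax δ hδ
  obtain ⟨N0, hN0⟩ := uconc (κ := Fin (K + 1)) (p := p) hnb (Λ0 := ∑ k, |val k|) (η := η)
    (Am := Amax) hη hδ
  refine ⟨N0, fun _ => 0, ?_⟩
  intro N hN n _ A hA ν hνp hν lab t ht a ha l hl j F' hF'
  obtain ⟨k, g⟩ := j
  exact hN0 N hN n A hA ν hνp hν lab val
    (fun k => Finset.single_le_sum (f := fun k => |val k|) (fun i _ => abs_nonneg _)
      (Finset.mem_univ k)) t ht a
    (fun g => by rw [abs_of_nonneg (ha g).1]; exact (ha g).2) l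
    (fun j => ⟨by linarith [(hl j).1], by linarith [(hl j).2]⟩) k g (hl (k, g)) F' hF'

end

end Crest.Agent.R164.CSys
end

-- ▼ part R164/CoinZ
section

/-!
Row 164: the nested Gaussian recursion of the cell system is `fieldValueAt` (helper399).
-/

set_option autoImplicit false

namespace Crest.Agent.R164.CoinG

open MeasureTheory ProbabilityTheory Filter Topology Set
open Crest.ProbabilityR.InvariantGlass
open Crest.Agent.R164.GC

noncomputable section

/-- `log cosh` -/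
def lc (z : ℝ) : ℝ := Real.log (Real.cosh z)

theorem lc_lip : Lip1 lc := Lip1.of_lip GTilt.lip_log_cosh

/-- exponents of the cells -/
def xc (nc : ℕ) (g : Fin nc) : ℝ := ((g : ℝ) + 1) / ((nc : ℝ) + 1)

theorem xc_pos {nc : ℕ} (g : Fin nc) : 0 < xc nc g := by unfold xc; positivity


/-- equal widths -/
def wc (nc : ℕ) : Fin (nc + 1) → ℝ := fun _ => 1 / ((nc : ℝ) + 1)

/-- the step field with increments `a g ^ 2` at the cells -/
def hc (nc : ℕ) (a : Fin nc → ℝ) : Fin (nc + 1) → ℝ :=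
  fun i => ∑ g : Fin nc, if (g : ℕ) < (i : ℕ) then a g ^ 2 else 0

theorem leftEnd_wc (nc : ℕ) (i : Fin (nc + 1)) :
    leftEnd (wc nc) i = (i : ℝ) / ((nc : ℝ) + 1) := by
  unfold leftEnd wc
  rw [← Finset.sum_filter, Finset.sum_const, nsmul_eq_mul]
  have : (Finset.univ.filter fun l : Fin (nc + 1) => l < i).card = (i : ℕ) := by
    rw [show (Finset.univ.filter fun l : Fin (nc + 1) => l < i) = Finset.Iio i by ext; simp]
    exact Fin.card_Iio i
  rw [this]; ring

theorem leftEnd_wc_succ (nc : ℕ) (g : Fin nc) : leftEnd (wc nc) g.succ = xc nc g := by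
  rw [leftEnd_wc, xc]; simp

theorem leftEnd_wc_zero (nc : ℕ) : leftEnd (wc nc) 0 = 0 := by
  rw [leftEnd_wc]; simp

theorem hc_zero (nc : ℕ) (a : Fin nc → ℝ) : hc nc a 0 = 0 := by
  unfold hc; simp

theorem hc_last (nc : ℕ) (a : Fin nc → ℝ) : hc nc a (Fin.last nc) = ∑ g, a g ^ 2 := by
  unfold hc
  refine Finset.sum_congr rfl fun g _ => ?_
  rw [if_pos]; simp

theorem hc_succ (nc : ℕ) (a : Fin nc → ℝ) (g : Fin nc) :
    hc nc a g.succ = hc nc a g.castSucc + a g ^ 2 := by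
  unfold hc
  have h : ∀ g' : Fin nc, (if (g' : ℕ) < (g.succ : ℕ) then a g' ^ 2 else 0) =
      (if (g' : ℕ) < (g.castSucc : ℕ) then a g' ^ 2 else 0) + if g' = g then a g' ^ 2 else 0 := by
    intro g'
    simp only [Fin.val_succ, Fin.val_castSucc, Fin.ext_iff]
    rcases lt_trichotomy (g' : ℕ) (g : ℕ) with h | h | h
    · rw [if_pos (by omega), if_pos h, if_neg (by omega), add_zero]
    · rw [if_pos (by omega), if_neg (by omega), if_pos h, zero_add]
    · rw [if_neg (by omega), if_neg (by omega), if_neg (by omega), add_zero]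
  simp only [h, Finset.sum_add_distrib]
  simp

theorem hc_nonneg (nc : ℕ) (a : Fin nc → ℝ) (i : Fin (nc + 1)) : 0 ≤ hc nc a i := by
  unfold hc
  refine Finset.sum_nonneg fun g _ => ?_
  split_ifs <;> positivity

theorem hc_mono (nc : ℕ) (a : Fin nc → ℝ) : Monotone (hc nc a) := by
  intro i j hij
  unfold hc
  refine Finset.sum_le_sum fun g _ => ?_
  have : (i : ℕ) ≤ j := hij
  split_ifs with h1 h2
  · exact le_rfl
  · omega
  · positivity
  · exact le_rfl

theorem wc_pos (nc : ℕ) (i : Fin (nc + 1)) : 0 < wc nc i := by unfold wc; positivity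

theorem wc_sum (nc : ℕ) : ∑ i, wc nc i = 1 := by
  unfold wc
  rw [Finset.sum_const, Finset.card_univ, Fintype.card_fin, nsmul_eq_mul]
  push_cast
  field_simp

theorem isStep (nc : ℕ) (a : Fin nc → ℝ) : IsStepField (wc nc) (hc nc a) :=
  ⟨Nat.succ_pos nc, wc_pos nc, wc_sum nc, hc_mono nc a, hc_nonneg nc a⟩

theorem increment_hc_zero (nc : ℕ) (a : Fin nc → ℝ) : increment (hc nc a) 0 = 0 := by
  unfold increment
  rw [hc_zero]; simp

theorem increment_hc_succ (nc : ℕ) (a : Fin nc → ℝ) (g : Fin nc) :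
    increment (hc nc a) g.succ = a g ^ 2 := by
  unfold increment
  have h : ∑ l : Fin (nc + 1), (if (l : ℕ) + 1 = (g.succ : ℕ) then hc nc a l else 0) =
      hc nc a g.castSucc := by
    rw [Finset.sum_eq_single g.castSucc]
    · simp
    · intro l _ hl
      rw [if_neg]
      intro h
      apply hl
      ext
      simp only [Fin.val_succ, Fin.val_castSucc] at h ⊢
      omega
    · intro h; exact absurd (Finset.mem_univ _) h
  rw [h, hc_succ]; ring

theorem gaussOp_zero_zero (f : ℝ → ℝ) (z : ℝ) : gaussOp 0 0 f z = f z := by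
  rw [gaussOp_zero, Real.sqrt_zero, H_zero]

/-- the nested Gaussian recursion of the cells is the field value -/
theorem fieldValueAt_hc (nc : ℕ) (a : Fin nc → ℝ) (b : ℝ) :
    fieldValueAt b (wc nc) (hc nc a) =
      gRec (xc nc) a (List.finRange nc) lc b - (∑ g, a g ^ 2) / 2 := by
  unfold fieldValueAt
  have h1 : (∑ l : Fin (nc + 1), if (l : ℕ) + 1 = nc + 1 then hc nc a l else 0) =
      ∑ g, a g ^ 2 := by
    rw [← hc_last, Finset.sum_eq_single (Fin.last nc)]
    · simp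
    · intro l _ hl
      rw [if_neg]
      intro h
      apply hl
      ext
      simp only [Fin.val_last]
      omega
    · intro h; exact absurd (Finset.mem_univ _) h
  rw [h1]
  congr 1
  rw [List.finRange_succ, List.foldr_cons, leftEnd_wc_zero, increment_hc_zero, gaussOp_zero_zero,
    List.foldr_map]
  unfold gRec
  simp only [leftEnd_wc_succ, increment_hc_succ]
  rfl

end

end Crest.Agent.R164.CoinG
end

-- ▼ part R164/ZUp
section

/-!
Row 164 (helper399): bounds for the nested coin recursion, the box inequality and the coercivity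
bound (Z2).
-/

set_option autoImplicit false

namespace Crest.Agent.R164.CoinG

open MeasureTheory ProbabilityTheory Filter Topology
open Crest.ProbabilityR.InvariantGlass
open Crest.Agent.R164.GC

noncomputable section

/-! ### two-sided bounds of the recursion -/

theorem one_le_bavg_exp (n : ℕ) (t : ℝ) : 1 ≤ bavg n (fun s => Real.exp (t * s)) := by
  rw [bavg_exp]
  exact one_le_pow₀ (Real.one_le_cosh _)

theorem coinOp_ge (n : ℕ) {x : ℝ} (hx : 0 < x) (a : ℝ) {f : ℝ → ℝ} {c : ℝ}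
    (h : ∀ y, |y| - c ≤ f y) (z : ℝ) : |z| - c ≤ coinOp n x a f z := by
  have key : ∀ e : ℝ, |e| = 1 → e * z - c ≤ coinOp n x a f z := by
    intro e he
    unfold coinOp
    have h1 : Real.exp (x * (e * z - c)) * bavg n (fun s => Real.exp ((x * e * a) * s)) ≤
        bavg n (fun s => Real.exp (x * f (z + a * s))) := by
      rw [← bavg_const_mul]
      refine bavg_mono n fun s => ?_
      rw [← Real.exp_add]
      apply Real.exp_le_exp.2
      have h2 := h (z + a * s)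
      have h3 : e * (z + a * s) ≤ |z + a * s| := by
        refine (le_abs_self _).trans ?_
        rw [abs_mul, he, one_mul]
      have h4 : e * (z + a * s) - c ≤ f (z + a * s) := by linarith
      calc x * (e * z - c) + x * e * a * s = x * (e * (z + a * s) - c) := by ring
        _ ≤ _ := mul_le_mul_of_nonneg_left h4 hx.le
    have h5 : Real.exp (x * (e * z - c)) ≤ bavg n (fun s => Real.exp (x * f (z + a * s))) := by
      refine le_trans ?_ h1
      have := mul_le_mul_of_nonneg_left (one_le_bavg_exp n (x * e * a))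
        (Real.exp_pos (x * (e * z - c))).le
      linarith
    have h6 := Real.log_le_log (Real.exp_pos _) h5
    rw [Real.log_exp] at h6
    have h7 := mul_le_mul_of_nonneg_left h6 (by positivity : 0 ≤ 1 / x)
    calc e * z - c = 1 / x * (x * (e * z - c)) := by field_simp
      _ ≤ _ := h7
  rcases abs_cases z with ⟨h1, _⟩ | ⟨h1, _⟩
  · rw [h1]; have := key 1 (by simp); linarith
  · rw [h1]; have := key (-1) (by simp); linarith

theorem coinOp_le (n : ℕ) {x : ℝ} (hx : 0 < x) (a : ℝ) {f : ℝ → ℝ} {c : ℝ}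
    (h : ∀ y, f y ≤ |y| + c) (z : ℝ) :
    coinOp n x a f z ≤ |z| + (c + (Real.log 2 / x + x * a ^ 2 / 2)) := by
  unfold coinOp
  have h1 : bavg n (fun s => Real.exp (x * f (z + a * s))) ≤
      Real.exp (Real.log 2 + x * |z| + x * c + (x * a) ^ 2 / 2) := by
    have h2 : ∀ s, Real.exp (x * f (z + a * s)) ≤
        Real.exp (x * |z| + x * c) * Real.exp ((x * a) * s) +
        Real.exp (x * |z| + x * c) * Real.exp ((-(x * a)) * s) := by
      intro s
      have h3 := mul_le_mul_of_nonneg_left (h (z + a * s)) hx.le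
      have hz := neg_abs_le z
      have hz' := le_abs_self z
      rw [← Real.exp_add, ← Real.exp_add]
      rcases abs_cases (z + a * s) with ⟨h4, _⟩ | ⟨h4, _⟩
      · have h5 : x * f (z + a * s) ≤ x * |z| + x * c + x * a * s := by
          rw [h4] at h3
          nlinarith
        have := Real.exp_le_exp.2 h5
        have := Real.exp_pos (x * |z| + x * c + -(x * a) * s)
        linarith
      · have h5 : x * f (z + a * s) ≤ x * |z| + x * c + -(x * a) * s := by
          rw [h4] at h3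
          nlinarith
        have := Real.exp_le_exp.2 h5
        have := Real.exp_pos (x * |z| + x * c + (x * a) * s)
        linarith
    refine (bavg_mono n h2).trans ?_
    rw [bavg_add, bavg_const_mul, bavg_const_mul]
    have e1 := bavg_exp_le n (x * a)
    have e2 := bavg_exp_le n (-(x * a))
    rw [neg_sq] at e2
    have e3 := mul_le_mul_of_nonneg_left (add_le_add e1 e2) (Real.exp_pos (x * |z| + x * c)).le
    have e4 : Real.exp (Real.log 2 + x * |z| + x * c + (x * a) ^ 2 / 2) =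
        Real.exp (x * |z| + x * c) *
          (Real.exp ((x * a) ^ 2 / 2) + Real.exp ((x * a) ^ 2 / 2)) := by
      rw [show Real.log 2 + x * |z| + x * c + (x * a) ^ 2 / 2 =
        Real.log 2 + ((x * |z| + x * c) + (x * a) ^ 2 / 2) by ring, Real.exp_add,
        Real.exp_log two_pos, Real.exp_add]
      ring
    rw [e4]
    linarith
  have h6 := Real.log_le_log (bavg_pos n fun s => Real.exp_pos _) h1
  rw [Real.log_exp] at h6
  have h7 := mul_le_mul_of_nonneg_left h6 (by positivity : 0 ≤ 1 / x)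
  refine h7.trans (le_of_eq ?_)
  field_simp
  ring

theorem cRec_ge {κ : Type*} {x : κ → ℝ} (hx : ∀ g, 0 < x g) (n : ℕ) (a : κ → ℝ) (L : List κ)
    {f : ℝ → ℝ} {c : ℝ} (h : ∀ y, |y| - c ≤ f y) (z : ℝ) : |z| - c ≤ cRec n x a L f z := by
  induction L generalizing z with
  | nil => exact h z
  | cons g L ih => exact coinOp_ge n (hx g) (a g) ih z

theorem cRec_le {κ : Type*} {x : κ → ℝ} (hx : ∀ g, 0 < x g) (n : ℕ) (a : κ → ℝ) (L : List κ)
    {f : ℝ → ℝ} {c : ℝ} (h : ∀ y, f y ≤ |y| + c) (z : ℝ) :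
    cRec n x a L f z ≤
      |z| + (c + (L.map fun g => Real.log 2 / x g + x g * a g ^ 2 / 2).sum) := by
  induction L generalizing z with
  | nil =>
    rw [List.map_nil, List.sum_nil, add_zero]
    exact h z
  | cons g L ih =>
    have := coinOp_le n (hx g) (a g) ih z
    refine this.trans (le_of_eq ?_)
    rw [List.map_cons, List.sum_cons]
    ring

theorem lc_le (y : ℝ) : lc y ≤ |y| := by
  have h := lc_lip y 0
  have h0 : lc 0 = 0 := by unfold lc; simp
  rw [h0, sub_zero] at h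
  linarith

theorem lc_ge (y : ℝ) : |y| - Real.log 2 ≤ lc y := by
  unfold lc
  have h1 : Real.exp |y| / 2 ≤ Real.cosh y := by
    rw [← Real.cosh_abs, Real.cosh_eq]
    have := Real.exp_pos (-|y|)
    linarith
  have h2 := Real.log_le_log (by positivity) h1
  rwa [Real.log_div (Real.exp_pos _).ne' two_ne_zero, Real.log_exp] at h2

/-- bounds for the Gaussian recursion -/
theorem gRec_ge {κ : Type*} {x : κ → ℝ} (hx : ∀ g, 0 < x g) (a : κ → ℝ) (ha : ∀ g, 0 ≤ a g)
    (L : List κ) (z : ℝ) : |z| - Real.log 2 ≤ gRec x a L lc z := by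
  have h : Tendsto (fun n : ℕ => cRec n x a L lc z) atTop (𝓝 (gRec x a L lc z)) :=
    cRec_tendsto tendsto_id hx L lc_lip ha (fun g => tendsto_const_nhds) tendsto_const_nhds
  exact ge_of_tendsto' h fun n => cRec_ge hx n a L lc_ge z

theorem gRec_le {κ : Type*} {x : κ → ℝ} (hx : ∀ g, 0 < x g) (a : κ → ℝ) (ha : ∀ g, 0 ≤ a g)
    (L : List κ) (z : ℝ) : gRec x a L lc z ≤
      |z| + (L.map fun g => Real.log 2 / x g + x g * a g ^ 2 / 2).sum := by
  have h : Tendsto (fun n : ℕ => cRec n x a L lc z) atTop (𝓝 (gRec x a L lc z)) :=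
    cRec_tendsto tendsto_id hx L lc_lip ha (fun g => tendsto_const_nhds) tendsto_const_nhds
  refine le_of_tendsto' h fun n => ?_
  have := cRec_le hx n a L (c := 0) (fun y => by simpa using lc_le y) z
  simpa using this

theorem sum_finRange {nc : ℕ} (f : Fin nc → ℝ) : ((List.finRange nc).map f).sum = ∑ g, f g := by
  rw [Fin.sum_univ_def]

/-! ### the last step -/

theorem avg_spin_prod {N : ℕ} (u : Fin N → ℝ) :
    ∑ σ : Fin N → Bool, Real.exp (∑ i, Crest.Agent.R141.sv (σ i) * u i) =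
      2 ^ N * ∏ i, Real.cosh (u i) := by
  have h : ∀ σ : Fin N → Bool, Real.exp (∑ i, Crest.Agent.R141.sv (σ i) * u i) =
      ∏ i, (fun i b => Real.exp (Crest.Agent.R141.sv b * u i)) i (σ i) := by
    intro σ; rw [Real.exp_sum]
  simp only [h]
  rw [← Fintype.prod_sum (fun i b => Real.exp (Crest.Agent.R141.sv b * u i))]
  rw [show (2:ℝ) ^ N * ∏ i, Real.cosh (u i) = ∏ i : Fin N, (2 * Real.cosh (u i)) by
    rw [Finset.prod_mul_distrib]; simp]
  refine Finset.prod_congr rfl fun i _ => ?_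
  rw [Fintype.sum_bool, Real.cosh_eq]
  simp [Crest.Agent.R141.sv]
  ring

end

end Crest.Agent.R164.CoinG

namespace Crest.Agent.R164.Z

open Finset Crest.Agent.R141 Crest.Agent.R141.SysF Crest.Agent.R141.SysIC Crest.Agent.R164
  Crest.Agent.R164.SY Crest.Agent.R164.CoinG

noncomputable section

variable {p : Par} {N n : ℕ} {K : Finset (Fin N → Bool)} (hK : K.Nonempty)

theorem unif_sum (f : {σ : Fin N → Bool // σ ∈ K} → ℝ) :
    eE (unif {σ : Fin N → Bool // σ ∈ K}) f = (K.card : ℝ)⁻¹ * ∑ σ, f σ := by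
  unfold eE unif
  rw [Finset.mul_sum, Fintype.card_coe]

include hK in
/-- the last step for a restricted set of spins -/
theorem hlast_box {b m : Fin N → ℝ} (h : ∀ σ ∈ K, 0 ≤ ∑ i, b i * (sv (σ i) - m i))
    (y : Fin N → ℝ) : eE (unif {σ : Fin N → Bool // σ ∈ K})
      (fun σ => Real.exp (∑ i, sv (σ.1 i) * y i)) ≤
      Real.exp ((-Real.log ((K.card : ℝ) * (1 / 2) ^ N) - ∑ i, b i * m i) +
        ∑ i, lc (b i + y i)) := by
  have hc : (0:ℝ) < K.card := by exact_mod_cast hK.card_pos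
  rw [unif_sum, Finset.sum_coe_sort K (fun σ => Real.exp (∑ i, sv (σ i) * y i))]
  have h1 : ∑ σ ∈ K, Real.exp (∑ i, sv (σ i) * y i) ≤
      Real.exp (-∑ i, b i * m i) * (2 ^ N * ∏ i, Real.cosh (b i + y i)) := by
    rw [← avg_spin_prod, Finset.mul_sum]
    refine (Finset.sum_le_sum (f := fun σ : Fin N → Bool => Real.exp (∑ i, sv (σ i) * y i))
      (g := fun σ => Real.exp (-∑ i, b i * m i) *
      Real.exp (∑ i, sv (σ i) * (b i + y i))) fun σ hσ => ?_).trans
      (Finset.sum_le_sum_of_subset_of_nonneg (Finset.subset_univ K) fun σ _ _ => by positivity)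
    rw [← Real.exp_add]
    apply Real.exp_le_exp.2
    have h2 := h σ hσ
    have h3 : ∑ i, b i * (sv (σ i) - m i) = ∑ i, sv (σ i) * b i - ∑ i, b i * m i := by
      rw [← Finset.sum_sub_distrib]
      exact Finset.sum_congr rfl fun i _ => by ring
    have h4 : ∑ i, sv (σ i) * (b i + y i) = ∑ i, sv (σ i) * b i + ∑ i, sv (σ i) * y i := by
      rw [← Finset.sum_add_distrib]
      exact Finset.sum_congr rfl fun i _ => by ring
    linarith
  refine (mul_le_mul_of_nonneg_left h1 (inv_pos.2 hc).le).trans (le_of_eq ?_)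
  have h5 : Real.exp (-Real.log ((K.card : ℝ) * (1 / 2) ^ N)) = (K.card : ℝ)⁻¹ * 2 ^ N := by
    rw [Real.exp_neg, Real.exp_log (by positivity), mul_inv, ← inv_pow]
    norm_num
  have h6 : Real.exp (∑ i, lc (b i + y i)) = ∏ i, Real.cosh (b i + y i) := by
    rw [Real.exp_sum]
    exact Finset.prod_congr rfl fun i _ => Real.exp_log (Real.cosh_pos _)
  rw [Real.exp_add, sub_eq_add_neg, Real.exp_add, h5, h6]
  ring




end

end Crest.Agent.R164.Z
end

-- ▼ part R164/ZFin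
section

/-!
Row 164 (helper399): (Z1), the initial value `F(0, a, lam)` of the comparison.
-/

set_option autoImplicit false

namespace Crest.Agent.R164.Z

open Finset Crest.Agent.R141 Crest.Agent.R141.SysF Crest.Agent.R141.SysIC Crest.Agent.R164
  Crest.Agent.R164.SY Crest.Agent.R164.CoinG
open Crest.ProbabilityR.InvariantGlass

noncomputable section

/-! ### the constrained one-site value as a real number -/

/-- one-site value of the cell field -/
def lb (nc : ℕ) (a : Fin nc → ℝ) (b : ℝ) : ℝ := fieldValueAt b (wc nc) (hc nc a)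

/-- constrained one-site value -/
def cst (nc : ℕ) (a : Fin nc → ℝ) (s : ℝ) : ℝ := ⨅ b : ℝ, (lb nc a b - b * s)

/-- upper bound for the recursion at zero -/
def cU (nc : ℕ) (a : Fin nc → ℝ) : ℝ := ∑ g : Fin nc, (Real.log 2 / xc nc g + xc nc g * a g ^ 2 / 2)

theorem lb_eq (nc : ℕ) (a : Fin nc → ℝ) (b : ℝ) :
    lb nc a b = gRec (xc nc) a (List.finRange nc) lc b - (∑ g, a g ^ 2) / 2 :=
  fieldValueAt_hc nc a b

theorem lb_ge {nc : ℕ} {a : Fin nc → ℝ} (ha : ∀ g, 0 ≤ a g) (b : ℝ) :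
    |b| - Real.log 2 - (∑ g, a g ^ 2) / 2 ≤ lb nc a b := by
  rw [lb_eq]
  have := gRec_ge (x := xc nc) xc_pos a ha (List.finRange nc) b
  linarith

theorem lb_zero_le {nc : ℕ} {a : Fin nc → ℝ} (ha : ∀ g, 0 ≤ a g) :
    lb nc a 0 ≤ cU nc a - (∑ g, a g ^ 2) / 2 := by
  rw [lb_eq]
  have := gRec_le (x := xc nc) xc_pos a ha (List.finRange nc) 0
  rw [sum_finRange, abs_zero, zero_add] at this
  unfold cU
  linarith

theorem lb_neg (nc : ℕ) (a : Fin nc → ℝ) (b : ℝ) : lb nc a (-b) = lb nc a b :=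
  Mag.fieldValueAt_neg b _ _

theorem lb_min (nc : ℕ) (a : Fin nc → ℝ) (b : ℝ) : lb nc a 0 ≤ lb nc a b := by
  have h1 := GC.fieldValueAt_tangent (isStep nc a) 0 b
  have h2 := GC.fieldValueAt_tangent (isStep nc a) 0 (-b)
  rw [Mag.fieldValueAt_neg] at h2
  unfold lb
  linarith

theorem lb_bdd {nc : ℕ} {a : Fin nc → ℝ} (ha : ∀ g, 0 ≤ a g) (s : ℝ) (b : ℝ) :
    (1 - |s|) * |b| - Real.log 2 - (∑ g, a g ^ 2) / 2 ≤ lb nc a b - b * s := by
  have h1 := lb_ge ha b
  have h2 : b * s ≤ |b| * |s| := by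
    rw [← abs_mul]; exact le_abs_self _
  nlinarith [abs_nonneg b]

theorem bddBelow_lb {nc : ℕ} {a : Fin nc → ℝ} (ha : ∀ g, 0 ≤ a g) {s : ℝ} (hs : |s| ≤ 1) :
    BddBelow (Set.range fun b : ℝ => lb nc a b - b * s) := by
  refine ⟨- Real.log 2 - (∑ g, a g ^ 2) / 2, ?_⟩
  rintro _ ⟨b, rfl⟩
  have h1 := lb_bdd ha s b
  have h2 : 0 ≤ (1 - |s|) * |b| := mul_nonneg (by linarith) (abs_nonneg b)
  simp only
  linarith

theorem cst_le {nc : ℕ} {a : Fin nc → ℝ} (ha : ∀ g, 0 ≤ a g) {s : ℝ} (hs : |s| ≤ 1) (b : ℝ) :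
    cst nc a s ≤ lb nc a b - b * s := ciInf_le (bddBelow_lb ha hs) b

theorem cst_le_cU {nc : ℕ} {a : Fin nc → ℝ} (ha : ∀ g, 0 ≤ a g) {s : ℝ} (hs : |s| ≤ 1) :
    cst nc a s ≤ cU nc a := by
  have h1 := cst_le ha hs 0
  have h2 := lb_zero_le ha
  have h3 : 0 ≤ ∑ g, a g ^ 2 := Finset.sum_nonneg fun g _ => sq_nonneg _
  linarith

theorem cst_ge {nc : ℕ} {a : Fin nc → ℝ} (ha : ∀ g, 0 ≤ a g) {s : ℝ} (hs1 : |s| ≤ 1) :
    - Real.log 2 - (∑ g, a g ^ 2) / 2 ≤ cst nc a s := by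
  refine le_ciInf fun b => ?_
  have h1 := lb_bdd ha s b
  have h2 : 0 ≤ (1 - |s|) * |b| := mul_nonneg (sub_nonneg.2 hs1) (abs_nonneg b)
  linarith

theorem constrained_eq {nc : ℕ} {a : Fin nc → ℝ} (ha : ∀ g, 0 ≤ a g) {s : ℝ} (hs : |s| ≤ 1) :
    constrainedFieldValue s (wc nc) (hc nc a) = ((cst nc a s : ℝ) : EReal) := by
  unfold constrainedFieldValue
  have hle : ∀ b : ℝ, (⨅ b : ℝ, ((fieldValueAt b (wc nc) (hc nc a) - b * s : ℝ) : EReal)) ≤
      ((lb nc a b - b * s : ℝ) : EReal) := fun b => iInf_le _ b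
  have hge : ((cst nc a s : ℝ) : EReal) ≤
      ⨅ b : ℝ, ((fieldValueAt b (wc nc) (hc nc a) - b * s : ℝ) : EReal) :=
    le_iInf fun b => EReal.coe_le_coe_iff.2 (cst_le ha hs b)
  refine le_antisymm ?_ hge
  generalize (⨅ b : ℝ, ((fieldValueAt b (wc nc) (hc nc a) - b * s : ℝ) : EReal)) = X at hle hge
  have hX1 : X ≠ ⊤ := ne_top_of_le_ne_top (EReal.coe_ne_top _) (hle 0)
  have hX2 : X ≠ ⊥ := ne_bot_of_le_ne_bot (EReal.coe_ne_bot _) hge
  lift X to ℝ using ⟨hX1, hX2⟩
  exact EReal.coe_le_coe_iff.2 (le_ciInf fun b => EReal.coe_le_coe_iff.1 (hle b))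

/-- near-minimisers of the right sign in a bounded interval -/
theorem exists_near {nc : ℕ} {a : Fin nc → ℝ} (ha : ∀ g, 0 ≤ a g) {s : ℝ} (_hs : |s| < 1)
    {ε : ℝ} (hε : 0 < ε) : ∃ b : ℝ, (1 - |s|) * |b| ≤ Real.log 2 + cU nc a ∧ 0 ≤ b * s ∧
      (s = 0 → b = 0) ∧ lb nc a b - b * s ≤ cst nc a s + ε := by
  by_cases hs0 : s = 0
  · refine ⟨0, ?_, by simp, fun _ => rfl, ?_⟩
    · have h1 : 0 ≤ cU nc a := Finset.sum_nonneg fun g _ => by
        have := xc_pos g
        have h2 : 0 ≤ Real.log 2 := Real.log_nonneg (by norm_num)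
        positivity
      have h2 : 0 ≤ Real.log 2 := Real.log_nonneg (by norm_num)
      simp; linarith
    · have h1 : lb nc a 0 ≤ cst nc a s := by
        refine le_ciInf fun b => ?_
        have := lb_min nc a b
        rw [hs0]; linarith
      linarith
  · obtain ⟨b0, hb0⟩ := exists_lt_of_ciInf_lt (show (⨅ b : ℝ, (lb nc a b - b * s)) < cst nc a s + ε by
      show cst nc a s < cst nc a s + ε
      linarith)
    -- the sign
    have h1 : ∃ b, 0 ≤ b * s ∧ lb nc a b - b * s < cst nc a s + ε := by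
      rcases le_total 0 (b0 * s) with h | h
      · exact ⟨b0, h, hb0⟩
      · refine ⟨-b0, by linarith, ?_⟩
        rw [lb_neg]; linarith
    obtain ⟨b, hb, hb'⟩ := h1
    by_cases hc : lb nc a b - b * s ≤ lb nc a 0
    · refine ⟨b, ?_, hb, fun h => absurd h hs0, hb'.le⟩
      have h2 := lb_bdd ha s b
      have h3 := lb_zero_le ha
      linarith
    · push Not at hc
      refine ⟨0, ?_, by simp, fun _ => rfl, ?_⟩
      · have h1 : 0 ≤ cU nc a := Finset.sum_nonneg fun g _ => by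
          have := xc_pos g
          have h2 : 0 ≤ Real.log 2 := Real.log_nonneg (by norm_num)
          positivity
        have h2 : 0 ≤ Real.log 2 := Real.log_nonneg (by norm_num)
        simp; linarith
      · rw [zero_mul, sub_zero]; linarith

/-! ### the initial value -/

theorem cU_mono {nc : ℕ} {a : Fin nc → ℝ} {Amax : ℝ} (ha : ∀ g, 0 ≤ a g ∧ a g ≤ Amax) :
    cU nc a ≤ cU nc (fun _ => Amax) := by
  unfold cU
  refine Finset.sum_le_sum fun g _ => ?_
  have h1 := xc_pos g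
  have h2 : a g ^ 2 ≤ Amax ^ 2 := pow_le_pow_left₀ (ha g).1 (ha g).2 2
  have h3 := mul_le_mul_of_nonneg_left h2 h1.le
  linarith

theorem cU_nonneg (nc : ℕ) (a : Fin nc → ℝ) : 0 ≤ cU nc a :=
  Finset.sum_nonneg fun g _ => by
    have := xc_pos g
    have h2 : 0 ≤ Real.log 2 := Real.log_nonneg (by norm_num)
    positivity

/-- **(Z1)** upper bound at `t = 0`, uniform in the strengths of the main fields. -/
theorem Phi_upper (p : Par) (Amax : ℝ) {J : ℕ} (m : Fin J → ℝ) (hm : ∀ j, |m j| < 1) {ε : ℝ}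
    (hε : 0 < ε) : ∃ n0 : ℕ, ∀ n, n0 ≤ n → ∀ {N : ℕ} {K : Finset (Fin N → Bool)}
      (hK : K.Nonempty) (lab : Fin N → Fin J),
      (∀ b : Fin J → ℝ, (∀ j, 0 ≤ b j * m j) → (∀ j, m j = 0 → b j = 0) → ∀ σ ∈ K,
        0 ≤ ∑ i, b (lab i) * (sv (σ i) - m (lab i))) →
      ∀ a : Fin p.nc → ℝ, (∀ g, 0 ≤ a g ∧ a g ≤ Amax) →
      ∀ (h0 : (Fin N → Bool) → ℝ) (C0 : ℝ), (∀ σ ∈ K, h0 σ ≤ C0) →
      ∀ (lam : Fin N → Fin p.nc → ℝ) (x : (Fin N → Bool) → Fin N → ℝ) (κ : ℝ),
      (∀ σ ∈ K, ∑ g, ∑ i, (lam i g * x σ i) ^ 2 ≤ κ) → ∀ d : DD p N,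
      Real.log ((K.card : ℝ) * (1 / 2) ^ N) + G.Phi (base p n K hK) (HH h0 a lam x) d ≤
        C0 + ∑ i, cst p.nc a (m (lab i)) + N * ((∑ g, a g ^ 2) / 2) + N * ε + κ / 2 +
        (N * (p.nb * (p.Q : ℝ)⁻¹) + p.τ * Fintype.card (Stp p)) := by
  have hlog2 : 0 ≤ Real.log 2 := Real.log_nonneg (by norm_num)
  set M : ℝ := Real.log 2 + cU p.nc (fun _ => Amax) with hM
  have hM0 : 0 ≤ M := add_nonneg hlog2 (cU_nonneg _ _)
  set Bm : ℝ := ∑ j, M / (1 - |m j|) with hBm
  have hpos : ∀ j, 0 < 1 - |m j| := fun j => by linarith [hm j]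
  have hBj : ∀ j, M / (1 - |m j|) ≤ Bm := fun j =>
    Finset.single_le_sum (f := fun j => M / (1 - |m j|))
      (fun j _ => div_nonneg hM0 (hpos j).le) (Finset.mem_univ j)
  have hcomp : IsCompact ((Set.pi Set.univ fun _ : Fin p.nc => Set.Icc (0:ℝ) Amax) ×ˢ
      Set.Icc (-Bm) Bm) := (isCompact_univ_pi fun _ => isCompact_Icc).prod isCompact_Icc
  obtain ⟨n0, hn0⟩ := cRec_unif (x := xc p.nc) xc_pos (List.finRange p.nc) lc_lip hcomp
    (fun q hq g => (hq.1 g trivial).1) (half_pos hε)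
  refine ⟨n0, fun n hn N K hK lab hbox a ha h0 C0 hh0 lam x κ hκ d => ?_⟩
  have ha0 : ∀ g, 0 ≤ a g := fun g => (ha g).1
  choose b hb1 hb2 hb3 hb4 using fun j => exists_near ha0 (hm j) (half_pos hε)
  have hbB : ∀ j, |b j| ≤ Bm := by
    intro j
    refine le_trans ?_ (hBj j)
    rw [le_div_iff₀ (hpos j), mul_comm]
    refine (hb1 j).trans ?_
    have := cU_mono ha
    rw [hM]; linarith
  have hlast := hlast_box hK (b := fun i => b (lab i)) (m := fun i => m (lab i))
    (hbox b hb2 hb3)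
  have h1 := Phi_le hK h0 hh0 a lam x hκ (ρ := fun i y => lc (b (lab i) + y)) hlast d (n := n)
  have h2 : ∀ i, cRec n (fun g : Fin p.nc => p.xi g) a (List.finRange p.nc)
      (fun y => lc (b (lab i) + y)) 0 ≤ cst p.nc a (m (lab i)) + b (lab i) * m (lab i) +
        (∑ g, a g ^ 2) / 2 + ε := by
    intro i
    rw [cRec_shift, add_zero]
    have h3 := hn0 n hn (a, b (lab i)) ⟨fun g _ => ha g, abs_le.1 (hbB (lab i))⟩
    have h4 := (abs_lt.1 h3).2
    have h5 := lb_eq p.nc a (b (lab i))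
    have h6 := hb4 (lab i)
    have h7 : cRec n (fun g : Fin p.nc => p.xi g) a (List.finRange p.nc) lc (b (lab i)) =
        cRec n (xc p.nc) a (List.finRange p.nc) lc (b (lab i)) := rfl
    rw [h7]
    simp only at h4
    linarith
  have h8 := Finset.sum_le_sum fun i (_ : i ∈ Finset.univ) => h2 i
  have h9 : ∑ i : Fin N, (cst p.nc a (m (lab i)) + b (lab i) * m (lab i) +
        (∑ g, a g ^ 2) / 2 + ε) = ∑ i, cst p.nc a (m (lab i)) + ∑ i, b (lab i) * m (lab i) +
        N * ((∑ g, a g ^ 2) / 2) + N * ε := by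
    rw [Finset.sum_add_distrib, Finset.sum_add_distrib, Finset.sum_add_distrib]
    simp
  rw [h9] at h8
  linarith

/-- the box property -/
theorem box_ineq {N J : ℕ} (lab : Fin N → Fin J) {l u m : Fin J → ℝ}
    (hm : ∀ j, ∀ x ∈ Set.Icc (l j) (u j), |m j| ≤ |x| ∧ 0 ≤ m j * x) (b : Fin J → ℝ)
    (hb : ∀ j, 0 ≤ b j * m j) (hb0 : ∀ j, m j = 0 → b j = 0) :
    ∀ σ ∈ Mag.boxSet lab l u, 0 ≤ ∑ i, b (lab i) * (sv (σ i) - m (lab i)) := by
  intro σ hσ
  rw [Mag.mem_boxSet] at hσ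
  have h1 := Mag.field_eq lab b σ
  have h2 : ∑ i, b (lab i) * m (lab i) =
      ∑ j, b j * (((Finset.univ.filter fun r => lab r = j).card : ℝ) * m j) := by
    rw [← Finset.sum_fiberwise Finset.univ lab (fun r => b (lab r) * m (lab r))]
    refine Finset.sum_congr rfl fun j _ => ?_
    rw [Finset.sum_congr rfl fun r hr => by
      rw [(Finset.mem_filter.1 hr).2], Finset.sum_const, nsmul_eq_mul]
    ring
  have h3 : ∑ i, b (lab i) * (sv (σ i) - m (lab i)) =
      ∑ r : Fin N, b (lab r) * spinVec σ r - ∑ i, b (lab i) * m (lab i) := by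
    rw [← Finset.sum_sub_distrib]
    refine Finset.sum_congr rfl fun i _ => ?_
    rw [mul_sub, sv_eq_spinVec]
  rw [h3, h1, h2, ← Finset.sum_sub_distrib]
  refine Finset.sum_nonneg fun j _ => ?_
  have h4 : b j * (((Finset.univ.filter fun r => lab r = j).card : ℝ) * Mag.mag lab σ j) -
      b j * (((Finset.univ.filter fun r => lab r = j).card : ℝ) * m j) =
      ((Finset.univ.filter fun r => lab r = j).card : ℝ) * (b j * (Mag.mag lab σ j - m j)) := by
    ring
  rw [h4]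
  refine mul_nonneg (Nat.cast_nonneg _) ?_
  obtain ⟨h5, h6⟩ := hm j _ (hσ j)
  rcases lt_trichotomy (m j) 0 with h | h | h
  · have hb' : b j ≤ 0 := by
      by_contra hc
      push Not at hc
      have := mul_neg_of_pos_of_neg hc h
      linarith [hb j]
    have hx : Mag.mag lab σ j ≤ 0 := by
      by_contra hc
      push Not at hc
      have := mul_neg_of_neg_of_pos h hc
      linarith
    rw [abs_of_neg h, abs_of_nonpos hx] at h5
    exact mul_nonneg_of_nonpos_of_nonpos hb' (by linarith)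
  · rw [hb0 j h, zero_mul]
  · have hb' : 0 ≤ b j := by
      by_contra hc
      push Not at hc
      have := mul_neg_of_neg_of_pos hc h
      linarith [hb j]
    have hx : 0 ≤ Mag.mag lab σ j := by
      by_contra hc
      push Not at hc
      have := mul_neg_of_pos_of_neg h hc
      linarith
    rw [abs_of_pos h, abs_of_nonneg hx] at h5
    exact mul_nonneg hb' (by linarith)

/-! ### the initial value in terms of `S_m(p)` -/



theorem coe_sum' {ι : Type*} (s : Finset ι) (f : ι → ℝ) :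
    ((∑ i ∈ s, f i : ℝ) : EReal) = ∑ i ∈ s, (f i : EReal) := by
  classical
  induction s using Finset.induction_on with
  | empty => simp
  | insert i s hi ih => rw [Finset.sum_insert hi, Finset.sum_insert hi, EReal.coe_add, ih]


theorem abs_cst_le {nc : ℕ} {a : Fin nc → ℝ} {Amax : ℝ} (ha : ∀ g, 0 ≤ a g ∧ a g ≤ Amax)
    {s : ℝ} (hs : |s| ≤ 1) : |cst nc a s| ≤
      Real.log 2 + (nc * Amax ^ 2) / 2 + cU nc (fun _ => Amax) := by
  have ha0 : ∀ g, 0 ≤ a g := fun g => (ha g).1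
  have h1 := cst_le_cU ha0 hs
  have h2 := cst_ge ha0 hs
  have h3 := cU_mono ha
  have h4 : ∑ g, a g ^ 2 ≤ nc * Amax ^ 2 := by
    have := Finset.sum_le_sum fun g (_ : g ∈ Finset.univ) =>
      pow_le_pow_left₀ (ha g).1 (ha g).2 2
    simpa using this
  have h5 : 0 ≤ Real.log 2 := Real.log_nonneg (by norm_num)
  have h6 := cU_nonneg nc (fun _ => Amax)
  have h7 : 0 ≤ (nc:ℝ) * Amax ^ 2 := by positivity
  rw [abs_le]
  constructor <;> linarith


end

end Crest.Agent.R164.Z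
end

-- ▼ part R164/ZU
section

/-!
Row 164 (helper399): (Z1) in terms of `US.FN`.
-/

set_option autoImplicit false

namespace Crest.Agent.R164.Z

open Finset Filter MeasureTheory Crest.Agent.R141 Crest.Agent.R164 Crest.Agent.R164.SY
  Crest.Agent.R164.CoinG
open Crest.ProbabilityR.InvariantGlass

noncomputable section

/-- averages over the sites converge to the group value, uniformly in the strengths -/
theorem avg_cst_le (nc : ℕ) (Amax : ℝ) {J : ℕ} {γ : Fin J → ℝ} {m : Fin J → ℝ}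
    (hm : ∀ j, |m j| ≤ 1) (lab : (N : ℕ) → Fin N → Fin J)
    (hlab : ∀ j : Fin J, Tendsto
      (fun N : ℕ => ((Finset.univ.filter fun r : Fin N => lab N r = j).card : ℝ) / (N : ℝ))
      atTop (nhds (γ j))) {ε : ℝ} (hε : 0 < ε) :
    ∀ᶠ N : ℕ in atTop, ∀ a : Fin nc → ℝ, (∀ g, 0 ≤ a g ∧ a g ≤ Amax) →
      (N : ℝ)⁻¹ * ∑ i, cst nc a (m (lab N i)) ≤ ∑ j, γ j * cst nc a (m j) + ε := by
  set C : ℝ := Real.log 2 + (nc * Amax ^ 2) / 2 + cU nc (fun _ => Amax) with hC
  have hlim : Tendsto (fun N : ℕ => ∑ j : Fin J,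
      |((Finset.univ.filter fun r : Fin N => lab N r = j).card : ℝ) / (N : ℝ) - γ j| * C)
      atTop (nhds 0) := by
    have h1 : Tendsto (fun N : ℕ => ∑ j : Fin J,
      |((Finset.univ.filter fun r : Fin N => lab N r = j).card : ℝ) / (N : ℝ) - γ j| * C)
      atTop (nhds (∑ _j : Fin J, 0)) := by
      refine tendsto_finsetSum _ fun j _ => ?_
      have h2 := (((hlab j).sub_const (γ j)).abs).mul_const C
      simpa using h2
    simpa using h1
  filter_upwards [hlim.eventually (gt_mem_nhds hε)] with N hN a ha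
  have e1 : ∑ i, cst nc a (m (lab N i)) =
      ∑ j, ((Finset.univ.filter fun r => lab N r = j).card : ℝ) * cst nc a (m j) := by
    rw [← Finset.sum_fiberwise Finset.univ (lab N) (fun i => cst nc a (m (lab N i)))]
    refine Finset.sum_congr rfl fun j _ => ?_
    rw [Finset.sum_congr rfl fun r hr => by
      rw [(Finset.mem_filter.1 hr).2], Finset.sum_const, nsmul_eq_mul]
  rw [e1, Finset.mul_sum]
  have e2 : ∀ j, (N : ℝ)⁻¹ * (((Finset.univ.filter fun r => lab N r = j).card : ℝ) *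
      cst nc a (m j)) ≤ γ j * cst nc a (m j) +
      |((Finset.univ.filter fun r : Fin N => lab N r = j).card : ℝ) / (N : ℝ) - γ j| * C := by
    intro j
    have e3 : (((Finset.univ.filter fun r : Fin N => lab N r = j).card : ℝ) / (N : ℝ) -
      γ j) * cst nc a (m j) ≤
      |((Finset.univ.filter fun r : Fin N => lab N r = j).card : ℝ) / (N : ℝ) - γ j| * C := by
      refine (le_abs_self _).trans ?_
      rw [abs_mul]
      exact mul_le_mul_of_nonneg_left (abs_cst_le ha (hm j)) (abs_nonneg _)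
    have e4 : (N : ℝ)⁻¹ * (((Finset.univ.filter fun r => lab N r = j).card : ℝ) *
      cst nc a (m j)) =
      (((Finset.univ.filter fun r : Fin N => lab N r = j).card : ℝ) / (N : ℝ)) *
        cst nc a (m j) := by ring
    rw [e4]
    linarith
  refine (Finset.sum_le_sum fun j _ => e2 j).trans ?_
  rw [Finset.sum_add_distrib]
  linarith

theorem groupFieldValue_hc {J nc : ℕ} {γ m : Fin J → ℚ} (hm : ∀ j, |((m j : ℚ) : ℝ)| ≤ 1)
    {a : Fin nc → ℝ} (ha : ∀ g, 0 ≤ a g) :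
    groupFieldValue γ m (US.wU nc) (US.hvA a) =
      ((∑ j, ((γ j : ℚ) : ℝ) * cst nc a ((m j : ℚ) : ℝ) : ℝ) : EReal) := by
  show groupFieldValue γ m (wc nc) (hc nc a) = _
  unfold groupFieldValue
  rw [coe_sum']
  refine Finset.sum_congr rfl fun j _ => ?_
  rw [constrained_eq ha (hm j), EReal.coe_mul]

/-- **(Z1)** for the U side. -/
theorem FN_zero_le {p : Par} (hb : p.nb = 0) (Amax : ℝ) {J : ℕ} {γ m : Fin J → ℚ}
    (hm : ∀ j, (-1 : ℚ) < m j ∧ m j < 1) (lab : (N : ℕ) → Fin N → Fin J)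
    (hlab : ∀ j : Fin J, Tendsto
      (fun N : ℕ => ((Finset.univ.filter fun r : Fin N => lab N r = j).card : ℝ) / (N : ℝ))
      atTop (nhds ((γ j : ℚ) : ℝ))) {l u : Fin J → ℝ}
    (hbox : ∀ j, ∀ x ∈ Set.Icc (l j) (u j),
      |((m j : ℚ) : ℝ)| ≤ |x| ∧ 0 ≤ ((m j : ℚ) : ℝ) * x) {ε : ℝ} (hε : 0 < ε) :
    ∃ N0 n0 : ℕ, ∀ N, N0 ≤ N → ∀ n, n0 ≤ n → ∀ (hA : (Mag.boxSet (lab N) l u).Nonempty)
      (ν : Measure (Fin N → Fin N → ℝ)), IsProbabilityMeasure ν →
      ∀ {κ : Type} (labE : Fin N → κ) (th : κ → ℝ) (η : ℝ) (a : Fin p.nc → ℝ),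
      (∀ g, 0 ≤ a g ∧ a g ≤ Amax) →
      ((US.FN n hA ν labE th η 0 a 0 : ℝ) : EReal) ≤
        groupFieldValue γ m (US.wU p.nc) (US.hvA a) + ((ε : ℝ) : EReal) := by
  have hm1 : ∀ j, |((m j : ℚ) : ℝ)| < 1 := fun j => by
    rw [abs_lt]; constructor <;> [exact_mod_cast (hm j).1; exact_mod_cast (hm j).2]
  obtain ⟨n0, hn0⟩ := Phi_upper p Amax (fun j => ((m j : ℚ) : ℝ)) hm1
    (show 0 < ε / 3 by linarith)
  have h3 := avg_cst_le p.nc Amax (fun j => (hm1 j).le) lab hlab (show 0 < ε / 3 by linarith)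
  have h4 : ∀ᶠ N : ℕ in atTop, (N : ℝ)⁻¹ * (p.τ * Fintype.card (Stp p)) < ε / 3 := by
    have h5 : Tendsto (fun N : ℕ => (N : ℝ)⁻¹ * (p.τ * Fintype.card (Stp p))) atTop
        (nhds (0 * (p.τ * Fintype.card (Stp p)))) :=
      tendsto_inv_atTop_nhds_zero_nat.mul_const _
    rw [zero_mul] at h5
    exact h5.eventually (gt_mem_nhds (by linarith))
  obtain ⟨N0, hN0⟩ := eventually_atTop.1 (h3.and (h4.and (eventually_gt_atTop 0)))
  refine ⟨N0, n0, fun N hN n hn hA ν hν κ labE th η a ha => ?_⟩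
  obtain ⟨h3, h4, hNpos⟩ := hN0 N hN
  have hN' : (0:ℝ) < N := by exact_mod_cast hNpos
  have ha0 : ∀ g, 0 ≤ a g := fun g => (ha g).1
  rw [groupFieldValue_hc (fun j => (hm1 j).le) ha0, ← EReal.coe_add, EReal.coe_le_coe_iff]
  have hU : ∀ (U : Fin N → Fin N → ℝ) (d : DD p N),
      Real.log (((Mag.boxSet (lab N) l u).card : ℝ) * (1 / 2) ^ N) +
        G.Phi (SY.base p n (Mag.boxSet (lab N) l u) hA)
          (US.HF (Mag.boxSet (lab N) l u) n labE th η 0 a 0 U) d ≤
      ∑ i, cst p.nc a ((m (lab N i) : ℚ) : ℝ) + N * ((∑ g, a g ^ 2) / 2) + N * (ε / 3) +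
        p.τ * Fintype.card (Stp p) := by
    intro U d
    have h1 := hn0 n hn hA (lab N) (box_ineq (lab N) hbox) a ha
      (SY.h0q (fun i => th (labE i)) (Matrix.of U) 0 (fun _ => 0)) 0
      (fun σ _ => by unfold SY.h0q; simp)
      (US.lamF labE η 0) (SY.xU (Matrix.of U)) 0
      (fun σ _ => by unfold US.lamF; simp) d
    rw [hb] at h1
    simp only [Nat.cast_zero, zero_mul, mul_zero, zero_add, zero_div, add_zero] at h1
    have h2 : (US.HF (Mag.boxSet (lab N) l u) n labE th η 0 a 0 U : SY.SS p n _ → ℝ) =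
        SY.HH (SY.h0q (fun i => th (labE i)) (Matrix.of U) 0 (fun _ => 0)) a
          (US.lamF labE η 0) (SY.xU (Matrix.of U)) := by
      rw [SY.HH_eq_HS]; rfl
    have h3 : G.Phi (SY.base p n (Mag.boxSet (lab N) l u) hA)
        (US.HF (Mag.boxSet (lab N) l u) n labE th η 0 a 0 U) d =
        G.Phi (SY.base p n (Mag.boxSet (lab N) l u) hA)
        (SY.HH (SY.h0q (fun i => th (labE i)) (Matrix.of U) 0 (fun _ => 0)) a
          (US.lamF labE η 0) (SY.xU (Matrix.of U))) d :=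
      congrArg (fun H => G.Phi (SY.base p n (Mag.boxSet (lab N) l u) hA) H d) h2
    rw [h3]
    exact h1
  -- the Hamiltonian does not depend on `U`
  have hc : ∀ U : Fin N → Fin N → ℝ,
      (US.HF (Mag.boxSet (lab N) l u) n labE th η 0 a 0 U : SY.SS p n _ → ℝ) =
        US.HF (Mag.boxSet (lab N) l u) n labE th η 0 a 0 (fun _ _ => 0) := by
    intro U
    funext s
    unfold US.HF SY.HS SY.h0q US.lamF
    simp
  have hFP : US.FP n hA ν labE th η 0 a 0 ≤
      (∑ i, cst p.nc a ((m (lab N i) : ℚ) : ℝ) + N * ((∑ g, a g ^ 2) / 2) + N * (ε / 3) +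
        p.τ * Fintype.card (Stp p)) -
      Real.log (((Mag.boxSet (lab N) l u).card : ℝ) * (1 / 2) ^ N) := by
    unfold US.FP US.EP
    rw [← Ed_const p hNpos ((∑ i, cst p.nc a ((m (lab N i) : ℚ) : ℝ) +
      N * ((∑ g, a g ^ 2) / 2) + N * (ε / 3) + p.τ * Fintype.card (Stp p)) -
      Real.log (((Mag.boxSet (lab N) l u).card : ℝ) * (1 / 2) ^ N))]
    refine Ed_mono p N fun d => ?_
    have h6 : (fun U : Fin N → Fin N → ℝ => G.Phi (SY.base p n (Mag.boxSet (lab N) l u) hA)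
        (US.HF (Mag.boxSet (lab N) l u) n labE th η 0 a 0 U) d) =
        fun _ => G.Phi (SY.base p n (Mag.boxSet (lab N) l u) hA)
        (US.HF (Mag.boxSet (lab N) l u) n labE th η 0 a 0 (fun _ _ => 0)) d := by
      funext U
      exact congrArg (fun H => G.Phi (SY.base p n (Mag.boxSet (lab N) l u) hA) H d) (hc U)
    rw [h6, integral_const, probReal_univ, one_smul]
    have := hU (fun _ _ => 0) d
    linarith
  unfold US.FN
  have h7 := mul_le_mul_of_nonneg_left hFP (inv_pos.2 hN').le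
  have h8 := h3 a ha
  have h9 : (N : ℝ)⁻¹ * ((∑ i, cst p.nc a ((m (lab N i) : ℚ) : ℝ) +
      N * ((∑ g, a g ^ 2) / 2) + N * (ε / 3) + p.τ * Fintype.card (Stp p)) -
      Real.log (((Mag.boxSet (lab N) l u).card : ℝ) * (1 / 2) ^ N)) =
      (N : ℝ)⁻¹ * ∑ i, cst p.nc a ((m (lab N i) : ℚ) : ℝ) + (∑ g, a g ^ 2) / 2 + ε / 3 +
      (N : ℝ)⁻¹ * (p.τ * Fintype.card (Stp p)) -
      (N : ℝ)⁻¹ * Real.log ((1 / 2) ^ N * ((Mag.boxSet (lab N) l u).card : ℝ)) := by
    rw [mul_comm ((1 / 2 : ℝ) ^ N)]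
    field_simp
  rw [h9] at h7
  linarith

end

end Crest.Agent.R164.Z
end

-- ▼ part R164/UInit
section

/-!
Row 164 (helper399): the input `US.HInit` of the U assembly.
-/

set_option autoImplicit false

namespace Crest.Agent.R164.US

theorem hInit (K : ℕ) (val : Fin (K + 1) → ℝ) : HInit K val := by
  intro J γ hγ hγs lab hlab l u hlu hb m hm hbox p hnb Amax ε hε
  obtain ⟨N0, n0, h⟩ := Z.FN_zero_le (γ := γ) hnb Amax hm lab hlab hbox hε
  refine ⟨N0, fun _ => n0, fun N hN n hn hA ν hν _ labE η a ha => ?_⟩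
  exact h N hN n hn hA ν hν labE val η a ha

end Crest.Agent.R164.US
end

-- ▼ part R164/UCoer
section

/-!
Row 164, upper bound (helper362): coercivity (Z2) of the function `FN` in the strengths `a`.
-/

set_option autoImplicit false

namespace Crest.Agent.R164.US

open Finset MeasureTheory Crest.Agent.R141 Crest.Agent.R141.SysF Crest.Agent.R141.SysIC Crest.Agent.R164 Crest.Agent.R164.CoinG
open Crest.ProbabilityR.InvariantGlass

noncomputable section

/-! ### nested coin recursion started at `|y|` -/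

theorem bavg_pos' (n : ℕ) (φ : ℝ → ℝ) : 0 < bavg n (fun s => Real.exp (φ s)) :=
  bavg_pos n fun _ => Real.exp_pos _

theorem coinOp_abs_le (n : ℕ) {x : ℝ} (hx : 0 < x) (a c z : ℝ) :
    coinOp n x a (fun y => |y| + c) z ≤ |z| + (c + (Real.log 2 / x + x * a ^ 2 / 2)) := by
  unfold coinOp
  have h1 : bavg n (fun s => Real.exp (x * (|z + a * s| + c))) ≤
      Real.exp (x * (|z| + c)) * (2 * Real.exp ((x * |a|) ^ 2 / 2)) := by
    calc bavg n (fun s => Real.exp (x * (|z + a * s| + c)))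
        ≤ bavg n (fun s => Real.exp (x * (|z| + c)) * Real.exp (x * |a| * |s|)) := by
          apply bavg_mono
          intro s
          rw [← Real.exp_add]
          apply Real.exp_le_exp.2
          have h2 := abs_add_le z (a * s)
          rw [abs_mul] at h2
          nlinarith
      _ = Real.exp (x * (|z| + c)) * bavg n (fun s => Real.exp (x * |a| * |s|)) :=
          bavg_const_mul n _ _
      _ ≤ _ := mul_le_mul_of_nonneg_left (bavg_exp_abs_le n _) (Real.exp_pos _).le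
  have h3 := Real.log_le_log (bavg_pos' n _) h1
  rw [Real.log_mul (Real.exp_pos _).ne' (by positivity), Real.log_exp,
    Real.log_mul (by norm_num) (Real.exp_pos _).ne', Real.log_exp, mul_pow, sq_abs] at h3
  have h4 := mul_le_mul_of_nonneg_left h3 (by positivity : 0 ≤ 1 / x)
  refine h4.trans (le_of_eq ?_)
  field_simp
  ring

theorem cRec_abs_le {κ : Type*} {x : κ → ℝ} (hx : ∀ g, 0 < x g) (n : ℕ) (a : κ → ℝ) (L : List κ)
    (z : ℝ) : cRec n x a L (fun y => |y|) z ≤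
      |z| + (L.map fun g => Real.log 2 / x g + x g * a g ^ 2 / 2).sum := by
  induction L generalizing z with
  | nil => simp [cRec]
  | cons g L ih =>
    show coinOp n (x g) (a g) (cRec n x a L fun y => |y|) z ≤ _
    refine (coinOp_mono n (hx g) (a g) ih z).trans ?_
    refine (coinOp_abs_le n (hx g) (a g) _ z).trans (le_of_eq ?_)
    rw [List.map_cons, List.sum_cons]
    ring

/-! ### the bound -/

theorem exp_avg_abs {N : ℕ} {K : Finset (Fin N → Bool)} (hK : K.Nonempty) (y : Fin N → ℝ) :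
    eE (unif {σ : Fin N → Bool // σ ∈ K}) (fun σ => Real.exp (∑ i, sv (σ.1 i) * y i)) ≤
      Real.exp (0 + ∑ i, |y i|) := by
  haveI := Z.spin_nonempty hK
  refine eE_le_of_le (unif_isProb _) fun σ => ?_
  apply Real.exp_le_exp.2
  rw [zero_add]
  refine Finset.sum_le_sum fun i _ => ?_
  refine (le_abs_self _).trans ?_
  rw [abs_mul, sv_abs, one_mul]

theorem Phi_coer (p : Par) (hb : p.nb = 0) {N n : ℕ} {A : Finset (Fin N → Bool)}
    (hA : A.Nonempty) (h0 : (Fin N → Bool) → ℝ) {C0 : ℝ} (hh0 : ∀ σ ∈ A, h0 σ ≤ C0)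
    (a : Fin p.nc → ℝ) (x : (Fin N → Bool) → Fin N → ℝ) (d : DD p N) :
    G.Phi (SY.base p n A hA) (SY.HH h0 a (fun _ _ => 0) x) d ≤
      C0 + N * ∑ g : Fin p.nc, (Real.log 2 / p.xi g + p.xi g * a g ^ 2 / 2) +
        p.τ * Fintype.card (Stp p) := by
  have h := Z.Phi_le (p := p) (n := n) hA h0 hh0 a (fun _ _ => 0) x (κ := 0)
    (fun σ _ => by simp) (ρ := fun _ y => |y|) (c0 := 0) (fun y => exp_avg_abs hA y) d
  refine h.trans ?_
  have h1 : ∑ _i : Fin N, cRec n (fun g : Fin p.nc => p.xi g) a (List.finRange p.nc)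
      (fun y => |y|) 0 ≤ N * ∑ g : Fin p.nc, (Real.log 2 / p.xi g + p.xi g * a g ^ 2 / 2) := by
    rw [Finset.sum_const, Finset.card_univ, Fintype.card_fin, nsmul_eq_mul]
    refine mul_le_mul_of_nonneg_left ?_ (Nat.cast_nonneg _)
    refine (cRec_abs_le (fun g => by unfold Par.xi; positivity) n a _ 0).trans (le_of_eq ?_)
    rw [abs_zero, zero_add, ← List.ofFn_eq_map, List.sum_ofFn]
  rw [hb]
  push_cast
  linarith

variable {κ : Type} [Fintype κ] [DecidableEq κ]

/-- **(Z2)** coercivity of `FN` in the strengths of the main fields. -/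
theorem FN_coer (p : Par) (hb : p.nb = 0) (Λ : ℝ) : ∃ C1 : ℝ, ∀ (N n : ℕ), 0 < N →
    ∀ (A : Finset (Fin N → Bool)) (hA : A.Nonempty) (ν : Measure (Fin N → Fin N → ℝ)),
    IsProbabilityMeasure ν → (∀ᵐ U ∂ν, U ∈ Rot.OK N) → ∀ (lab : Fin N → κ) (th : κ → ℝ),
    (∀ k, |th k| ≤ Λ) → ∀ (η t : ℝ), 0 ≤ t → t ≤ 1 → ∀ a : Fin p.nc → ℝ,
    FN n hA ν lab th η t a (fun _ => 0) ≤
      C1 - 1 / 2 * ∑ g : Fin p.nc, a g ^ 2 * (1 - ((g : ℝ) + 1) / ((p.nc : ℝ) + 1)) := by
  refine ⟨Λ / 2 + ∑ g : Fin p.nc, Real.log 2 / p.xi g + p.τ * Fintype.card (Stp p), ?_⟩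
  intro N n hN A hA ν hνp hν lab th hth η t ht0 ht1 a
  have hN' : (0:ℝ) < N := by exact_mod_cast hN
  have hN1 : (1:ℝ) ≤ N := by exact_mod_cast hN
  have hΛ : 0 ≤ Λ := (abs_nonneg _).trans (hth (lab ⟨0, hN⟩))
  have hτ : 0 ≤ p.τ * Fintype.card (Stp p) := mul_nonneg p.hτ0.le (Nat.cast_nonneg _)
  set B : ℝ := Λ / 2 * N + N * ∑ g : Fin p.nc, (Real.log 2 / p.xi g + p.xi g * a g ^ 2 / 2) +
        p.τ * Fintype.card (Stp p) with hB
  -- pointwise bound
  have hpt : ∀ U ∈ Rot.OK N, ∀ d : DD p N,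
      G.Phi (SY.base p n A hA) (HF A n lab th η t a (fun _ => 0) U) d ≤ B := by
    intro U hU d
    have e : HF A n lab th η t a (fun _ => 0) U =
        SY.HH (SY.h0q (fun i => th (lab i)) (Matrix.of U) t (fun _ => 0)) a (fun _ _ => 0)
          (SY.xU (Matrix.of U)) := by
      rw [SY.HH_eq_HS]
      funext s
      unfold HF lamF
      simp only [mul_zero]
    rw [e]
    refine Phi_coer p hb hA _ (C0 := Λ / 2 * N) (fun σ _ => ?_) a _ d
    unfold SY.h0q
    rw [add_zero]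
    have h1 := Mag.abs_qd_le (eig := fun i => th (lab i)) (fun i => hth (lab i))
      (U := Matrix.of U) hU σ
    have h2 := (abs_le.1 h1).2
    have h3 := (abs_le.1 h1).1
    have h4 : 0 ≤ Λ / 2 * N := by positivity
    calc t * Mag.qd (fun i => th (lab i)) (Matrix.of U) σ ≤ t * (Λ / 2 * N) :=
          mul_le_mul_of_nonneg_left h2 ht0
      _ ≤ 1 * (Λ / 2 * N) := mul_le_mul_of_nonneg_right ht1 h4
      _ = _ := one_mul _
  have hFP : FP n hA ν lab th η t a (fun _ => 0) ≤ B := by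
    unfold FP EP Ed
    obtain ⟨c, _, hc⟩ := ae_bound hν
      (continuous_HF (A := A) (n := n) lab th η t a (fun _ => 0))
    have h1 : ∀ d : DD p N, ∫ U, G.Phi (SY.base p n A hA)
        (HF A n lab th η t a (fun _ => 0) U) d ∂ν ≤ B := by
      intro d
      calc ∫ U, G.Phi (SY.base p n A hA) (HF A n lab th η t a (fun _ => 0) U) d ∂ν
          ≤ ∫ _U, B ∂ν := by
            refine integral_mono_ae (integrable_Phi (SY.base p n A hA) ν
              (fun s => (continuous_HF lab th η t a (fun _ => 0) s).measurable) hc d)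
              (integrable_const _) ?_
            filter_upwards [hν] with U hU
            exact hpt U hU d
        _ = B := by simp
    calc _ ≤ ∑ d, dw p N d * B :=
          Finset.sum_le_sum fun d _ => mul_le_mul_of_nonneg_left (h1 d) (dw_nonneg p N d)
      _ = B := by rw [← Finset.sum_mul, dw_sum p hN, one_mul]
  have hlog : Real.log ((1 / 2 : ℝ) ^ N * (A.card : ℝ)) ≤ 0 := by
    refine Real.log_nonpos (by positivity) ?_
    have h1 : (A.card : ℝ) ≤ 2 ^ N := by
      have := Finset.card_le_univ A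
      rw [Fintype.card_fun, Fintype.card_bool, Fintype.card_fin] at this
      exact_mod_cast this
    calc (1 / 2 : ℝ) ^ N * (A.card : ℝ) ≤ (1 / 2) ^ N * 2 ^ N :=
          mul_le_mul_of_nonneg_left h1 (by positivity)
      _ = 1 := by rw [← mul_pow]; norm_num
  unfold FN
  have h1 := mul_le_mul_of_nonneg_left hFP (by positivity : 0 ≤ (N:ℝ)⁻¹)
  have h2 := mul_le_mul_of_nonneg_left hlog (by positivity : 0 ≤ (N:ℝ)⁻¹)
  rw [mul_zero] at h2
  have h3 : (N:ℝ)⁻¹ * B ≤ Λ / 2 + ∑ g : Fin p.nc, (Real.log 2 / p.xi g + p.xi g * a g ^ 2 / 2) +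
      p.τ * Fintype.card (Stp p) := by
    rw [hB]
    have : (N:ℝ)⁻¹ * (Λ / 2 * N + N * ∑ g : Fin p.nc,
        (Real.log 2 / p.xi g + p.xi g * a g ^ 2 / 2) + p.τ * Fintype.card (Stp p)) =
        Λ / 2 + ∑ g : Fin p.nc, (Real.log 2 / p.xi g + p.xi g * a g ^ 2 / 2) +
        (N:ℝ)⁻¹ * (p.τ * Fintype.card (Stp p)) := by
      field_simp
    rw [this]
    have h5 : (N:ℝ)⁻¹ * (p.τ * Fintype.card (Stp p)) ≤ 1 * (p.τ * Fintype.card (Stp p)) :=
      mul_le_mul_of_nonneg_right (inv_le_one_of_one_le₀ hN1) hτ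
    linarith
  have h4 : ∑ g : Fin p.nc, (Real.log 2 / p.xi g + p.xi g * a g ^ 2 / 2) - 1 / 2 * ∑ g, a g ^ 2 =
      ∑ g : Fin p.nc, Real.log 2 / p.xi g -
        1 / 2 * ∑ g : Fin p.nc, a g ^ 2 * (1 - ((g : ℝ) + 1) / ((p.nc : ℝ) + 1)) := by
    rw [Finset.mul_sum, Finset.mul_sum, ← Finset.sum_sub_distrib, ← Finset.sum_sub_distrib]
    refine Finset.sum_congr rfl fun g _ => ?_
    unfold Par.xi
    ring
  linarith

/-- **(Z2)** in the form consumed by the assembly. -/
theorem hCoer (K : ℕ) (val : Fin (K + 1) → ℝ) : HCoer K val := by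
  intro p hb
  obtain ⟨C1, h⟩ := FN_coer (κ := Fin (K + 1)) p hb (∑ k, |val k|)
  refine ⟨C1, fun N hN n _ A hA ν hνp hν lab η t ht a => ?_⟩
  exact h N n hN A hA ν hνp hν lab val (fun k => Finset.single_le_sum
    (f := fun k => |val k|) (fun k _ => abs_nonneg _) (Finset.mem_univ k)) η t ht.1 ht.2 a

end

end Crest.Agent.R164.US
end

-- ▼ part R164/UTop
section

/-!
Row 164, upper bound assembly (helper466): `Mag.UB` for finite spectra from `HStr`.
-/

set_option autoImplicit false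

namespace Crest.Agent.R164.US

open MeasureTheory Crest.Agent.R141 Crest.Agent.R164
open Crest.ProbabilityR.InvariantGlass

/-- **(UB)** for finite spectra from the structure input `HStr`. -/
theorem ub_of {K : ℕ} {w val : Fin (K + 1) → ℝ} (hStr : HStr K w val)
    {Ω : Type} [MeasurableSpace Ω] {P : Measure Ω} [IsProbabilityMeasure P]
    {Us : (N : ℕ) → Ω → (Fin N → Fin N → ℝ)} (hmeas : ∀ N, Measurable (Us N))
    (horth : ∀ N, ∀ᵐ ω ∂P, Matrix.of (Us N ω) ∈ Matrix.orthogonalGroup (Fin N) ℝ)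
    (hHaar : ∀ (N : ℕ) (O : Matrix (Fin N) (Fin N) ℝ), O ∈ Matrix.orthogonalGroup (Fin N) ℝ →
      P.map (fun ω => fun i j => (Matrix.of (Us N ω) * O) i j) = P.map (Us N))
    (hv : StrictMono val) (hw : ∀ k, 0 < w k) (hs : ∑ k, w k = 1)
    (labE : (N : ℕ) → Fin N → Fin (K + 1))
    (hlabE : ∀ k, Filter.Tendsto (fun N : ℕ =>
      ((Finset.univ.filter fun i : Fin N => labE N i = k).card : ℝ) / (N : ℝ)) Filter.atTop
        (nhds (w k))) :
    Mag.UB (Atomic.atomic w val) (val (Fin.last K)) (fun N i => val (labE N i)) P Us := by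
  intro J γ hγ hγs lab hlab l u hlu hlu1 m hm hbox q hq r hr ε hε
  have h := upper_bound hv hw hs hStr (CSys.hConc K val) (hInit K val) (hCoer K val) labE hlabE
    (fun N => P.map (Us N)) (fun N => Measure.isProbabilityMeasure_map (hmeas N).aemeasurable)
    (fun N => Mag.rHaar_map (hmeas N) (horth N) (hHaar N)) hγ hγs lab hlab hlu hlu1 hm hbox hq hr hε
  filter_upwards [h] with N hN
  rw [Mag.int_pressG_map (hmeas N)]
  exact hN

end Crest.Agent.R164.US
end

-- ▼ part R164/UFinal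

/-!
Row 164 (helper466): `Mag.UB` for finite spectra, unconditional.
-/

set_option autoImplicit false

namespace Crest.Agent.R164.US

open MeasureTheory Crest.Agent.R141 Crest.Agent.R164
open Crest.ProbabilityR.InvariantGlass

/-- **(UB)** for finite spectra. -/
theorem ub {K : ℕ} {w val : Fin (K + 1) → ℝ}
    {Ω : Type} [MeasurableSpace Ω] {P : Measure Ω} [IsProbabilityMeasure P]
    {Us : (N : ℕ) → Ω → (Fin N → Fin N → ℝ)} (hmeas : ∀ N, Measurable (Us N))
    (horth : ∀ N, ∀ᵐ ω ∂P, Matrix.of (Us N ω) ∈ Matrix.orthogonalGroup (Fin N) ℝ)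
    (hHaar : ∀ (N : ℕ) (O : Matrix (Fin N) (Fin N) ℝ), O ∈ Matrix.orthogonalGroup (Fin N) ℝ →
      P.map (fun ω => fun i j => (Matrix.of (Us N ω) * O) i j) = P.map (Us N))
    (hv : StrictMono val) (hw : ∀ k, 0 < w k) (hs : ∑ k, w k = 1)
    (labE : (N : ℕ) → Fin N → Fin (K + 1))
    (hlabE : ∀ k, Filter.Tendsto (fun N : ℕ =>
      ((Finset.univ.filter fun i : Fin N => labE N i = k).card : ℝ) / (N : ℝ)) Filter.atTop
        (nhds (w k))) :
    Mag.UB (Atomic.atomic w val) (val (Fin.last K)) (fun N i => val (labE N i)) P Us :=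
  ub_of (LStr.hStr K hw) hmeas horth hHaar hv hw hs labE hlabE

end Crest.Agent.R164.US
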