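import Crest.Agent.R164.EDq2
import Crest.Agent.R164.EDj_Mg
import Crest.Agent.R164.LPert
import Crest.Agent.R164.LPen2
import Crest.Agent.R164.UFinal
import Crest.Agent.R164.GCalc2

-- ▼ part R164/EDq3
section

/-!
# Row 164, L side, module E-DIFF part q3 (helper562): comparison of the magnetisations (O2, O3)
-/

set_option autoImplicit false

namespace Crest.Agent.R164.ED

open MeasureTheory ProbabilityTheory Filter
open Finset Crest.Agent.R141 Crest.Agent.R164 Crest.Agent.R164.PF Crest.Agent.R164.Haar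
open Crest.ProbabilityR.InvariantGlass

noncomputable section

section gen

variable {Ω : Type*} [Fintype Ω] {P : Ω → ℝ} {𝓕 : Filt Ω} {x : ℕ → ℝ} {K : ℝ}

theorem sqrt_le_lin {t θ : ℝ} (ht : 0 ≤ t) (hθ : 0 < θ) : Real.sqrt t ≤ t / (2 * θ) + θ / 2 := by
  have h1 := Real.sq_sqrt ht
  have h2 : 0 ≤ (Real.sqrt t - θ) ^ 2 / (2 * θ) := by positivity
  have e : (Real.sqrt t - θ) ^ 2 / (2 * θ) = t / (2 * θ) + θ / 2 - Real.sqrt t := by
    rw [sub_sq, h1]; field_simp; ring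
  linarith

theorem tl_add_const (hP : IsProb P) (hx : ∀ k, 0 < x k) (X : Ω → ℝ) (c : ℝ) :
    tl P 𝓕 x (fun w => X w + c) = tl P 𝓕 x X := by
  have h := tl_add (𝓕 := 𝓕) hP hx X (fun _ => c)
  rw [h]
  exact tl_const (tl_isProb hP hx X) hx c

omit [Fintype Ω] in
theorem mB_sub_const (U : Ω × Bool → ℝ) (c : ℝ) (w : Ω) : mB (fun u => U u - c) w = mB U w := by
  rw [mB_eq, mB_eq, mg2_eq, mg2_eq]
  congr 1
  ring

/-- linearised form of `(AL2')` -/
theorem mag_compare_lin (hP : IsProb P) (hx : IsExpo x) (hK : 0 ≤ K) (U U' : Ω × Bool → ℝ)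
    (h : Ω → ℝ) {M θ : ℝ} (hM1 : 1 ≤ M) (hθ : 0 < θ)
    (hMX : eE (tl P 𝓕 x (redB U)) (fun w => h w ^ 2) ≤ M)
    (hMY : eE (tl P 𝓕 x (fun w => psi K (redB U' w))) (fun w => h w ^ 2) ≤ M) :
    |eE (tl P 𝓕 x (redB U)) (fun w => mB U w * h w) -
      eE (tl P 𝓕 x (fun w => psi K (redB U' w)))
        (fun w => dpsi K (redB U' w) * mB U' w * h w)| ≤
      4 * Real.sqrt M / θ *
        (eE (tl P 𝓕 x (redB U)) (fun w => min 1 (dm U U' w)) +
          eE (tl P 𝓕 x (redB U)) (fun w => if K < |redB U' w| then 1 else 0) +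
          Real.exp (2 * (K + 1)) * eE P (dm U U') +
          eE P (fun w => if redB U' w < -K then |redB U' w| else 0)) +
        16 * Real.sqrt M * θ := by
  refine (eE_mag_compare hP hx hK U U' h hM1 hMX hMY).trans ?_
  have hQX : IsProb (tl P 𝓕 x (redB U)) := tl_isProb hP hx.pos _
  set q1 := eE (tl P 𝓕 x (redB U)) (fun w => min 1 (dm U U' w))
  set q2 := eE (tl P 𝓕 x (redB U)) (fun w => if K < |redB U' w| then 1 else 0)
  set q3 := eE P (dm U U')
  set q4 := eE P (fun w => if redB U' w < -K then |redB U' w| else 0)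
  have hq10 : 0 ≤ q1 := eE_nonneg hQX fun w => le_min zero_le_one (dm_nonneg _ _ w)
  have hq20 : 0 ≤ q2 := eE_nonneg hQX fun w => by split_ifs <;> norm_num
  have hq30 : 0 ≤ q3 := eE_nonneg hP fun w => dm_nonneg _ _ w
  have hq40 : 0 ≤ q4 := eE_nonneg hP fun w => by
    split_ifs
    · exact abs_nonneg _
    · exact le_rfl
  have e1 : Real.exp (K + 1) * Real.sqrt q3 = Real.sqrt (Real.exp (2 * (K + 1)) * q3) := by
    have e2 : Real.exp (2 * (K + 1)) = Real.exp (K + 1) ^ 2 := by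
      rw [← Real.exp_nat_mul]; norm_num
    rw [Real.sqrt_mul (Real.exp_pos _).le, e2, Real.sqrt_sq (Real.exp_pos _).le]
  rw [e1]
  have s1 := sqrt_le_lin hq10 hθ
  have s2 := sqrt_le_lin hq20 hθ
  have s3 := sqrt_le_lin (mul_nonneg (Real.exp_pos (2 * (K + 1))).le hq30) hθ
  have s4 := sqrt_le_lin hq40 hθ
  have hM0 : 0 ≤ 8 * Real.sqrt M := by positivity
  calc 8 * Real.sqrt M * (Real.sqrt q1 + Real.sqrt q2 +
        Real.sqrt (Real.exp (2 * (K + 1)) * q3) + Real.sqrt q4) ≤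
      8 * Real.sqrt M * ((q1 / (2 * θ) + θ / 2) + (q2 / (2 * θ) + θ / 2) +
        (Real.exp (2 * (K + 1)) * q3 / (2 * θ) + θ / 2) + (q4 / (2 * θ) + θ / 2)) :=
        mul_le_mul_of_nonneg_left (by linarith) hM0
    _ = _ := by field_simp; ring

/-- `E 1[W < -K] |W| ≤ E Q / K` -/
theorem eE_neg_le (hP : IsProb P) (hK : 0 < K) {W Q : Ω → ℝ} (hQ : ∀ w, W w ^ 2 ≤ Q w) :
    eE P (fun w => if W w < -K then |W w| else 0) ≤ (1 / K) * eE P Q := by
  rw [← eE_smul]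
  refine eE_mono hP fun w => ?_
  have h5 := hQ w
  split_ifs with h
  · rw [one_div, ← div_eq_inv_mul, le_div_iff₀ hK]
    have h6 : K ≤ |W w| := by rw [abs_of_neg (by linarith)]; linarith
    have h7 := sq_abs (W w)
    nlinarith [abs_nonneg (W w)]
  · exact mul_nonneg (by positivity) ((sq_nonneg _).trans h5)

/-- change of law for the mean of a small quantity -/
theorem min_one_change (hP : IsProb P) (hx : IsExpo x) (hK : 0 ≤ K) (U V : Ω × Bool → ℝ)
    {D : Ω → ℝ} (hD : ∀ w, 0 ≤ D w) :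
    eE (tl P 𝓕 x (redB U)) (fun w => min 1 (D w)) ≤ Real.exp (2 * (K + 1)) * eE P D +
      (2 * (eE (tl P 𝓕 x (redB U)) (fun w => min 1 (dm U V w)) +
        eE (tl P 𝓕 x (redB U)) (fun w => if K < |redB V w| then 1 else 0)) +
      2 * (Real.exp (2 * (K + 1)) * eE P (dm U V) +
        Real.exp 1 * eE P (fun w => if redB V w < -K then |redB V w| else 0))) := by
  have h1 := dTV_redB_psi (𝓕 := 𝓕) hP hx hK U V
  have h2 := abs_eE_sub_le (P := tl P 𝓕 x (redB U))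
    (Q := tl P 𝓕 x (fun w => psi K (redB V w))) (O := fun w => min 1 (D w)) (c := 1)
    (fun w => by
      rw [abs_of_nonneg (le_min zero_le_one (hD w))]; exact min_le_left _ _)
  rw [one_mul] at h2
  have h3 : eE (tl P 𝓕 x (fun w => psi K (redB V w))) (fun w => min 1 (D w)) ≤
      Real.exp (2 * (K + 1)) * eE P D := by
    refine (eE_mono (tl_isProb hP hx.pos _) fun w => min_le_right 1 (D w)).trans ?_
    exact eE_tl_le hP hx (fun w => abs_psi_le hK _) hD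
  have h4 := (abs_le.1 h2).2
  linarith

end gen

variable {p : Par} {N n : ℕ}
variable {eig : Fin (N + 1) → ℝ} {W0 : (Fin N → Bool) → ℝ} {W1 : (Fin (N + 1) → Bool) → ℝ}
  {a lam : Fin (N + 1) → Fin p.nc → ℝ} {Λ m1 S Cφ : ℝ}

theorem stQ_eq_sub (H0 : SY.SS p n (univ : Finset (Fin N → Bool)) → ℝ)
    (H1 : SY.SS p n (univ : Finset (Fin (N + 1) → Bool)) → ℝ) (d : DD p N) (cs : ℝ) :
    tl (stP p N n H0 d) (stF p N n) p.xs (redB fun u => xw H0 H1 u - cs) = stQ H0 H1 d := by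
  have e : (redB fun u => xw H0 H1 u - cs) = fun w => Xr H0 H1 w + (-cs) := by
    funext w
    rw [redB_sub_const]
    rfl
  rw [e]
  exact tl_add_const (stP_isProb H0 d) p.xs_expo.pos _ _


/-- the `K`-exceedance indicator of the ideal weight -/
def exK (K : ℝ) (eig : Fin (N + 1) → ℝ) (m1 : ℝ) (b : Fin p.nc → ℝ) (bb : ℝ)
    (v : (Fin N → Bool) → Bool → ℝ) (q : Mat (Fin N) × (Fin (N + 1) → ℝ))
    (w : OU p N n × LS p n) : ℝ :=
  if K < |redB (WX eig m1 b bb v q.1 q.2) w| then 1 else 0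

/-- **pointwise comparison of the magnetisations** -/
theorem mag_pt (hN : 1 ≤ N) (he : ∀ i, |eig i| ≤ Λ) (hm : |m1| ≤ Λ) (hS : 0 < S)
    {cs bb B K : ℝ} (hK : 0 < K) {Δ : (Fin N → Bool) → ℝ} (hΔ0 : ∀ σ, 0 ≤ Δ σ)
    (hΔ : ∀ σ c, |vT W0 W1 σ c - (cs + bb * sv c)| ≤ Δ σ) (hv : ∀ σ c, |vT W0 W1 σ c| ≤ B)
    {q : Mat (Fin N) × (Fin (N + 1) → ℝ)} (hq : q ∈ GP N) (d : DD p N)
    (h : OU p N n × LS p n → ℝ) {M θ : ℝ} (hM1 : 1 ≤ M) (hθ : 0 < θ)
    (hMX : eE (stQ (n := n) (HN eig W0 a lam q.1) (HN1 eig W1 a lam (cplS q.1 q.2)) d)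
      (fun w => h w ^ 2) ≤ M)
    (hMY : eE (tl (stP p N n (HN eig W0 a lam q.1) d) (stF p N n) p.xs (fun w => psi K
      (redB (WX eig m1 (a (Fin.last N)) bb (fun _ _ => 0) q.1 q.2) w))) (fun w => h w ^ 2) ≤ M) :
    |eE (stQ (n := n) (HN eig W0 a lam q.1) (HN1 eig W1 a lam (cplS q.1 q.2)) d)
        (fun w => mB (xw (HN eig W0 a lam q.1) (HN1 eig W1 a lam (cplS q.1 q.2))) w * h w) -
      eE (tl (stP p N n (HN eig W0 a lam q.1) d) (stF p N n) p.xs (fun w => psi K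
        (redB (WX eig m1 (a (Fin.last N)) bb (fun _ _ => 0) q.1 q.2) w)))
        (fun w => dpsi K (redB (WX eig m1 (a (Fin.last N)) bb (fun _ _ => 0) q.1 q.2) w) *
          mB (WX eig m1 (a (Fin.last N)) bb (fun _ _ => 0) q.1 q.2) w * h w)| ≤
      4 * Real.sqrt M / θ *
        (3 * eE (stQ (n := n) (HN eig W0 a lam q.1) (HN1 eig W1 a lam (cplS q.1 q.2)) d)
            (fun w => min 1 (g1 eig lam Λ m1 q w)) +
          2 * eE (stQ (n := n) (HN eig W0 a lam q.1) (HN1 eig W1 a lam (cplS q.1 q.2)) d)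
            (exK K eig m1 (a (Fin.last N)) 0 (vT W0 W1) q) +
          eE (stQ (n := n) (HN eig W0 a lam q.1) (HN1 eig W1 a lam (cplS q.1 q.2)) d)
            (exK K eig m1 (a (Fin.last N)) bb (fun _ _ => 0) q) +
          Real.exp (2 * (K + 1)) * (3 * eE (stP p N n (HN eig W0 a lam q.1) d)
              (gR eig lam Λ m1 (Real.sqrt S) q) +
            2 * eE (stP p N n (HN eig W0 a lam q.1) d) (fun w => Δ w.1.1.1.1)) +
          1 / K * (2 * Real.exp 1 * eE (stP p N n (HN eig W0 a lam q.1) d)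
              (gQ eig Λ B 0 (a (Fin.last N)) q) +
            eE (stP p N n (HN eig W0 a lam q.1) d) (gQ eig Λ 0 bb (a (Fin.last N)) q))) +
        16 * Real.sqrt M * θ := by
  set H0 := HN (n := n) eig W0 a lam q.1 with hH0
  set H1 := HN1 (n := n) eig W1 a lam (cplS q.1 q.2) with hH1
  set U : (OU p N n × LS p n) × Bool → ℝ := fun u => xw H0 H1 u - cs with hU
  set Wc : (OU p N n × LS p n) × Bool → ℝ :=
    WX eig m1 (a (Fin.last N)) bb (fun _ _ => 0) q.1 q.2 with hWc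
  set Wv : (OU p N n × LS p n) × Bool → ℝ :=
    WX eig m1 (a (Fin.last N)) 0 (vT W0 W1) q.1 q.2 with hWv
  have hP : IsProb (stP p N n H0 d) := stP_isProb H0 d
  have hx : IsExpo p.xs := p.xs_expo
  have hΛ0 : 0 ≤ Λ := (abs_nonneg _).trans hm
  have eQ : tl (stP p N n H0 d) (stF p N n) p.xs (redB U) = stQ H0 H1 d := stQ_eq_sub H0 H1 d cs
  have eQ' : tl (stP p N n H0 d) (stF p N n) p.xs (redB (xw H0 H1)) = stQ H0 H1 d := rfl
  have hQ : IsProb (stQ H0 H1 d) := stQ_isProb H0 H1 d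
  have hmain := mag_compare_lin (P := stP p N n H0 d) (𝓕 := stF p N n) (x := p.xs) hP hx hK.le
    U Wc h hM1 hθ (by rw [eQ]; exact hMX) hMY
  rw [eQ] at hmain
  have em : (fun w => mB U w * h w) = fun w => mB (xw H0 H1) w * h w := by
    funext w
    rw [hU, mB_sub_const]
  rw [em] at hmain
  refine hmain.trans (add_le_add (mul_le_mul_of_nonneg_left ?_ (by positivity)) le_rfl)
  -- pointwise bounds
  have hdm : ∀ w, dm U Wc w ≤ g1 eig lam Λ m1 q w + Δ w.1.1.1.1 := fun w =>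
    max_le (xw_sub_c hN he hm hΔ hq w true) (xw_sub_c hN he hm hΔ hq w false)
  have hdv : ∀ w, dm (xw H0 H1) Wv w ≤ g1 eig lam Λ m1 q w := fun w =>
    max_le (xw_sub_v hN he hm hq w true) (xw_sub_v hN he hm hq w false)
  have hg0 : ∀ w : OU p N n × LS p n, 0 ≤ g1 eig lam Λ m1 q w := fun w => g1_nonneg hΛ0 q w
  -- the first term
  have b1 : eE (stQ H0 H1 d) (fun w => min 1 (dm U Wc w)) ≤
      eE (stQ H0 H1 d) (fun w => min 1 (g1 eig lam Λ m1 q w)) +
        eE (stQ H0 H1 d) (fun w => min 1 (Δ w.1.1.1.1)) := by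
    rw [← eE_add]
    exact eE_mono hQ fun w => (min_le_min_left 1 (hdm w)).trans
      (min_one_add_le (hg0 w) (hΔ0 _))
  have b2 := min_one_change (P := stP p N n H0 d) (𝓕 := stF p N n) (x := p.xs) hP hx hK.le
    (xw H0 H1) Wv (D := fun w => Δ w.1.1.1.1) (fun w => hΔ0 _)
  rw [eQ'] at b2
  have b3 : eE (stQ H0 H1 d) (fun w => min 1 (dm (xw H0 H1) Wv w)) ≤
      eE (stQ H0 H1 d) (fun w => min 1 (g1 eig lam Λ m1 q w)) :=
    eE_mono hQ fun w => min_le_min_left 1 (hdv w)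
  have b4 : eE (stP p N n H0 d) (dm (xw H0 H1) Wv) ≤
      eE (stP p N n H0 d) (gR eig lam Λ m1 (Real.sqrt S) q) :=
    eE_mono hP fun w => (hdv w).trans (g1_le_gR hS hq w)
  have b5 : eE (stP p N n H0 d) (dm U Wc) ≤
      eE (stP p N n H0 d) (gR eig lam Λ m1 (Real.sqrt S) q) +
        eE (stP p N n H0 d) (fun w => Δ w.1.1.1.1) := by
    rw [← eE_add]
    exact eE_mono hP fun w => (hdm w).trans (add_le_add (g1_le_gR hS hq w) le_rfl)
  have b6 : eE (stP p N n H0 d) (fun w => if redB Wv w < -K then |redB Wv w| else 0) ≤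
      (1 / K) * eE (stP p N n H0 d) (gQ eig Λ B 0 (a (Fin.last N)) q) :=
    eE_neg_le hP hK fun w => sq_redB_WX_le he hm (a (Fin.last N)) hv q w
  have b7 : eE (stP p N n H0 d) (fun w => if redB Wc w < -K then |redB Wc w| else 0) ≤
      (1 / K) * eE (stP p N n H0 d) (gQ eig Λ 0 bb (a (Fin.last N)) q) :=
    eE_neg_le hP hK fun w => sq_redB_WX_le he hm (a (Fin.last N)) (v := fun _ _ => 0)
      (fun σ c => by simp) q w
  have x1 : eE (stQ H0 H1 d) (fun w => if K < |redB Wv w| then (1:ℝ) else 0) =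
      eE (stQ H0 H1 d) (exK K eig m1 (a (Fin.last N)) 0 (vT W0 W1) q) := rfl
  have x2 : eE (stQ H0 H1 d) (fun w => if K < |redB Wc w| then (1:ℝ) else 0) =
      eE (stQ H0 H1 d) (exK K eig m1 (a (Fin.last N)) bb (fun _ _ => 0) q) := rfl
  rw [x1] at b2
  rw [x2]
  set E := Real.exp (2 * (K + 1)) with hE
  have hE0 : 0 ≤ E := (Real.exp_pos _).le
  have b4' := mul_le_mul_of_nonneg_left b4 hE0
  have b5' := mul_le_mul_of_nonneg_left b5 hE0
  have b6' := mul_le_mul_of_nonneg_left b6 (Real.exp_pos 1).le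
  clear_value E
  have e9 : 1 / K * (2 * Real.exp 1 * eE (stP p N n H0 d) (gQ eig Λ B 0 (a (Fin.last N)) q) +
      eE (stP p N n H0 d) (gQ eig Λ 0 bb (a (Fin.last N)) q)) =
      2 * (Real.exp 1 * (1 / K * eE (stP p N n H0 d) (gQ eig Λ B 0 (a (Fin.last N)) q))) +
      1 / K * eE (stP p N n H0 d) (gQ eig Λ 0 bb (a (Fin.last N)) q) := by ring
  rw [e9]
  linarith

end

end Crest.Agent.R164.ED
end

-- ▼ part R164/EDq4
section

/-!
# Row 164, L side, module E-DIFF part q4 (helper562): integrated comparison of the magnetisations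
-/

set_option autoImplicit false

namespace Crest.Agent.R164.ED

open MeasureTheory ProbabilityTheory Filter
open Finset Crest.Agent.R141 Crest.Agent.R164 Crest.Agent.R164.PF Crest.Agent.R164.Haar
open Crest.ProbabilityR.InvariantGlass

noncomputable section

/-- closeness of two integrals with two error functions -/
theorem int_close2 {α : Type*} [MeasurableSpace α] {ρ : Measure α} [IsProbabilityMeasure ρ]
    {G : Set α} (hG : MeasurableSet G) {a f R T : α → ℝ} (ia : Integrable a ρ)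
    (jf : Integrable f ρ) (iR : Integrable R ρ) (iT : Integrable T ρ)
    (nR : ∀ q, 0 ≤ R q) (nT : ∀ q, 0 ≤ T q) {c jR BT t M γ : ℝ} (hc : 0 ≤ c) (ht : 0 ≤ t)
    (bR : ∫ q in G, R q ∂ρ ≤ jR) (bT : ∫ q, T q ∂ρ ≤ BT)
    (h : ∀ᵐ q ∂ρ, q ∈ G → |a q - f q| ≤ c * (R q + T q) + t)
    (hM : ∀ᵐ q ∂ρ, |a q| + |f q| ≤ M) (hg : (ρ Gᶜ).toReal ≤ γ) :
    |∫ q, a q ∂ρ - ∫ q, f q ∂ρ| ≤ c * (jR + BT) + t + M * γ := by
  have iR' : Integrable (fun q => G.indicator R q) ρ := iR.indicator hG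
  have i1 : Integrable (fun q => c * (G.indicator R q + T q)) ρ := (iR'.add iT).const_mul _
  have ir : Integrable (fun q => c * (G.indicator R q + T q) + t) ρ := i1.add (integrable_const t)
  have hmain := int_close hG ia jf ir (fun q => by
    have := Set.indicator_nonneg (s := G) (fun q _ => nR q) q
    have := nT q
    positivity) (h.mono fun q hq hqG => by
      rw [Set.indicator_of_mem hqG]; exact hq hqG) hM
  have hr : ∫ q, (c * (G.indicator R q + T q) + t) ∂ρ ≤ c * (jR + BT) + t := by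
    rw [integral_add i1 (integrable_const t), integral_const_mul, integral_add iR' iT,
      integral_indicator hG, integral_const]
    simp only [probReal_univ, smul_eq_mul, one_mul]
    have := mul_le_mul_of_nonneg_left (add_le_add bR bT) hc
    linarith
  obtain ⟨q, hq⟩ := hM.exists
  have hM0 : 0 ≤ M := (add_nonneg (abs_nonneg _) (abs_nonneg _)).trans hq
  have hg2 := mul_le_mul_of_nonneg_left hg hM0
  linarith

variable {p : Par} {N n : ℕ}
variable {eig : Fin (N + 1) → ℝ} {W0 : (Fin N → Bool) → ℝ} {W1 : (Fin (N + 1) → Bool) → ℝ}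
  {a lam : Fin (N + 1) → Fin p.nc → ℝ} {Λ m1 S Cφ : ℝ}

/-- averaged magnetisation of the true step -/
def stM (n : ℕ) (eig : Fin (N + 1) → ℝ) (W0 : (Fin N → Bool) → ℝ)
    (W1 : (Fin (N + 1) → Bool) → ℝ) (a lam : Fin (N + 1) → Fin p.nc → ℝ)
    (h : OU p N n × LS p n → ℝ) (q : Mat (Fin N) × (Fin (N + 1) → ℝ)) : ℝ :=
  Ed p N (fun d => eE (stQ (n := n) (HN eig W0 a lam q.1) (HN1 eig W1 a lam (cplS q.1 q.2)) d)
    (fun w => mB (xw (HN eig W0 a lam q.1) (HN1 eig W1 a lam (cplS q.1 q.2))) w * h w))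

/-- averaged magnetisation of the ideal step -/
def stT (n : ℕ) (eig : Fin (N + 1) → ℝ) (W0 : (Fin N → Bool) → ℝ)
    (a lam : Fin (N + 1) → Fin p.nc → ℝ) (m1 : ℝ) (b : Fin p.nc → ℝ) (bb K : ℝ)
    (h : OU p N n × LS p n → ℝ) (q : Mat (Fin N) × (Fin (N + 1) → ℝ)) : ℝ :=
  Ed p N (fun d => eE (tl (stP p N n (HN eig W0 a lam q.1) d) (stF p N n) p.xs (fun w => psi K
      (redB (WX eig m1 b bb (fun _ _ => 0) q.1 q.2) w)))
    (fun w => dpsi K (redB (WX eig m1 b bb (fun _ _ => 0) q.1 q.2) w) *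
      mB (WX eig m1 b bb (fun _ _ => 0) q.1 q.2) w * h w))

/-! ### measurability -/

theorem measurable_dqq : Measurable dqq := by
  unfold dqq pp
  fun_prop

theorem measurable_dpsi (K : ℝ) : Measurable (dpsi K) := by
  unfold dpsi
  exact (measurable_const.sub (measurable_dqq.comp (measurable_id.sub_const K))).sub
    (measurable_dqq.comp (measurable_id.neg.sub_const K))

theorem measurable_mB {Z : Type*} [MeasurableSpace Z] {Ω : Type*} {U : Z → Ω × Bool → ℝ}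
    (hU : ∀ u, Measurable fun z => U z u) (w : Ω) : Measurable fun z => mB (U z) w := by
  unfold mB
  exact ((Real.measurable_exp.comp (hU _)).sub (Real.measurable_exp.comp (hU _))).div
    ((Real.measurable_exp.comp (hU _)).add (Real.measurable_exp.comp (hU _)))

theorem tl_stP_eq (H0 : SY.SS p n (univ : Finset (Fin N → Bool)) → ℝ) (d : DD p N)
    (X : OU p N n × LS p n → ℝ) :
    tl (stP p N n H0 d) (stF p N n) p.xs X = tl (pP (G.prior (BU p N n)) (lsP p n)) (stF p N n)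
      p.xs (fun w => G.UU (BU p N n) H0 d w.1 + X w) := by
  have hPL : IsProb (pP (G.prior (BU p N n)) (lsP p n)) := pP_isProb (G.prior_isProb _) lsP_isProb
  have h3 := tl_add (𝓕 := stF p N n) hPL p.xs_expo.pos
    (fun w => G.UU (BU p N n) H0 d w.1) X
  rw [stP_eq] at h3
  exact h3.symm

theorem measurable_tl_stP (W0 : (Fin N → Bool) → ℝ)
    {X : Mat (Fin N) × (Fin (N + 1) → ℝ) → OU p N n × LS p n → ℝ}
    (hX : ∀ w, Measurable fun q => X q w) (d : DD p N) (w : OU p N n × LS p n) :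
    Measurable fun q : Mat (Fin N) × (Fin (N + 1) → ℝ) =>
      tl (stP p N n (HN eig W0 a lam q.1) d) (stF p N n) p.xs (X q) w := by
  simp only [tl_stP_eq]
  refine G.meas_tl (pP_isProb (G.prior_isProb _) lsP_isProb) p.xs_expo.pos (fun ω => ?_) w
  refine Measurable.add ?_ (hX ω)
  exact G.meas_UU (BU p N n) (H := fun q : Mat (Fin N) × (Fin (N + 1) → ℝ) =>
    HN eig W0 a lam q.1) (fun s => (meas_HN eig W0 a lam s).comp measurable_fst) d ω.1

theorem measurable_stM (h : OU p N n × LS p n → ℝ) :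
    Measurable (stM n eig W0 W1 a lam h) := by
  unfold stM
  refine meas_Ed fun d => G.meas_eE (fun w => TLaw.measurable_SQ d w) fun w => ?_
  exact (measurable_mB (fun u => TLaw.measurable_xw u) w).mul_const _

theorem measurable_stT (b : Fin p.nc → ℝ) (bb K : ℝ) (h : OU p N n × LS p n → ℝ) :
    Measurable (stT n eig W0 a lam m1 b bb K h) := by
  unfold stT
  refine meas_Ed fun d => G.meas_eE (fun w => measurable_tl_stP W0
    (fun w => (measurable_psi K).comp (measurable_redB_WX b bb _ w)) d w) fun w => ?_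
  exact (((measurable_dpsi K).comp (measurable_redB_WX b bb _ w)).mul
    (measurable_mB (fun u => measurable_WX b bb _ u) w)).mul_const _

theorem measurable_FF (s : SY.SS p n (univ : Finset (Fin N → Bool))) :
    Measurable fun G : Fin (N + 1) → ℝ => FF lam G s := by
  have e : (fun G : Fin (N + 1) → ℝ => FF lam G s) =
      fun G => ∑ i, phi lam s i * un G i.castSucc := funext fun G => FF_eq lam G s
  rw [e]
  exact measurable_sum_un (phi lam s)

theorem measurable_g1 (w : OU p N n × LS p n) :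
    Measurable fun q : Mat (Fin N) × (Fin (N + 1) → ℝ) => g1 eig lam Λ m1 q w := by
  have h1 := measurable_Z0 (N := N) w.1.1.1.1
  have h2 := measurable_qf2 eig w.1.1.1.1
  have h3 : Measurable fun q : Mat (Fin N) × (Fin (N + 1) → ℝ) => kp (e0 eig) m1 q.2 :=
    (measurable_kp (e0 eig) m1).comp measurable_snd
  have h4 : Measurable fun q : Mat (Fin N) × (Fin (N + 1) → ℝ) => FF lam q.2 w.1.1 :=
    (measurable_FF w.1.1).comp measurable_snd
  unfold g1 eF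
  exact ((h3.mul h2).const_mul _).add (((measurable_const.add h1.norm).const_mul 2).mul
    (h4.norm.add measurable_const))

theorem measurable_exK (K : ℝ) (b : Fin p.nc → ℝ) (bb : ℝ) (v : (Fin N → Bool) → Bool → ℝ)
    (w : OU p N n × LS p n) :
    Measurable fun q : Mat (Fin N) × (Fin (N + 1) → ℝ) => exK K eig m1 b bb v q w := by
  unfold exK
  exact Measurable.ite (measurableSet_lt measurable_const (measurable_redB_WX b bb v w).norm)
    measurable_const measurable_const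

theorem exK_mem (K : ℝ) (b : Fin p.nc → ℝ) (bb : ℝ) (v : (Fin N → Bool) → Bool → ℝ)
    (q : Mat (Fin N) × (Fin (N + 1) → ℝ)) (w : OU p N n × LS p n) :
    0 ≤ exK K eig m1 b bb v q w ∧ exK K eig m1 b bb v q w ≤ 1 := by
  unfold exK
  split_ifs <;> norm_num

/-- step averages of functions with values in `[0, 1]` -/
theorem ST_unit (hN : 0 < N) {μ : Measure (Mat (Fin N))} [IsProbabilityMeasure μ]
    {F : Mat (Fin N) × (Fin (N + 1) → ℝ) → DD p N → OU p N n × LS p n → ℝ}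
    (hF : ∀ d w, Measurable fun q => F q d w) (h0 : ∀ q d w, 0 ≤ F q d w)
    (h1 : ∀ q d w, F q d w ≤ 1) :
    Integrable (TLaw.ST eig W0 W1 a lam F) (rho μ) ∧ ∀ q, 0 ≤ TLaw.ST eig W0 W1 a lam F q := by
  refine ⟨?_, TLaw.ST_nonneg h0⟩
  refine Integrable.of_bound (TLaw.measurable_ST hF).aestronglyMeasurable 1 ?_
  refine Eventually.of_forall fun q => ?_
  rw [Real.norm_eq_abs]
  refine abs_Ed_le hN fun d => ?_
  have hP := TLaw.SQ_isProb (n := n) (eig := eig) (W0 := W0) (W1 := W1) (a := a) (lam := lam) q d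
  rw [abs_of_nonneg (eE_nonneg hP fun w => h0 q d w)]
  have := eE_mono hP (g := fun _ => (1:ℝ)) fun w => h1 q d w
  rwa [eE_const hP] at this

/-- mean of a bounded magnetisation times `h` -/
theorem abs_eE_mul_le {Ω : Type*} [Fintype Ω] {P : Ω → ℝ} (hP : IsProb P) {m h : Ω → ℝ}
    (hm : ∀ w, |m w| ≤ 1) {M : ℝ} (hM : eE P (fun w => h w ^ 2) ≤ M) :
    |eE P (fun w => m w * h w)| ≤ Real.sqrt M := by
  refine (abs_eE_le_eE_abs hP _).trans (le_trans ?_ (eE_abs_le_sqrt hP hM))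
  refine eE_mono hP fun w => ?_
  rw [abs_mul]
  exact mul_le_of_le_one_left (abs_nonneg _) (hm w)

theorem abs_dpsi_mB_le {Ω : Type*} {K : ℝ} (hK : 0 ≤ K) (U : Ω × Bool → ℝ) (w : Ω) :
    |dpsi K (redB U w) * mB U w| ≤ 1 := by
  rw [abs_mul, abs_of_nonneg (dpsi_mem hK _).1]
  calc _ ≤ 1 * 1 := mul_le_mul (dpsi_mem hK _).2 (abs_mB_le U w) (abs_nonneg _) zero_le_one
    _ = 1 := one_mul 1

set_option maxHeartbeats 1000000 in
/-- **integrated comparison of the magnetisations** -/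
theorem mag_int {μ : Measure (Mat (Fin N))} [IsProbabilityMeasure μ]
    (D : EDat μ n eig W0 a lam Λ m1 S Cφ) {cs bb B K A2 δ Dm j1 j2 j3 M θ : ℝ} (hK : 0 < K)
    {Δ : (Fin N → Bool) → ℝ} (hΔ0 : ∀ σ, 0 ≤ Δ σ) (hDm : ∀ σ, Δ σ ≤ Dm)
    (hΔ : ∀ σ c, |vT W0 W1 σ c - (cs + bb * sv c)| ≤ Δ σ) (hv : ∀ σ c, |vT W0 W1 σ c| ≤ B)
    (hδ : ∫ V, Ed p N (fun d => eE (G.PP (BU p N n) (HN eig W0 a lam V) d)
      (fun w => Δ w.1.1.1)) ∂μ ≤ δ)
    (hy : eE (lsP p n) (fun l => yb (a (Fin.last N)) l ^ 2) ≤ A2) (hA2 : 0 ≤ A2)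
    (h : OU p N n × LS p n → ℝ) (hM1 : 1 ≤ M) (hθ : 0 < θ)
    (hMX : ∀ᵐ q ∂(rho μ), ∀ d, eE (stQ (n := n) (HN eig W0 a lam q.1)
      (HN1 eig W1 a lam (cplS q.1 q.2)) d) (fun w => h w ^ 2) ≤ M)
    (hMY : ∀ᵐ q ∂(rho μ), ∀ d, eE (tl (stP p N n (HN eig W0 a lam q.1) d) (stF p N n) p.xs
      (fun w => psi K (redB (WX eig m1 (a (Fin.last N)) bb (fun _ _ => 0) q.1 q.2) w)))
      (fun w => h w ^ 2) ≤ M)
    (hj1 : ∫ q in GP N, TLaw.ST (n := n) eig W0 W1 a lam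
      (fun q _ w => min 1 (g1 eig lam Λ m1 q w)) q ∂(rho μ) ≤ j1)
    (hj2 : ∫ q in GP N, TLaw.ST (n := n) eig W0 W1 a lam
      (fun q _ w => exK K eig m1 (a (Fin.last N)) 0 (vT W0 W1) q w) q ∂(rho μ) ≤ j2)
    (hj3 : ∫ q in GP N, TLaw.ST (n := n) eig W0 W1 a lam
      (fun q _ w => exK K eig m1 (a (Fin.last N)) bb (fun _ _ => 0) q w) q ∂(rho μ) ≤ j3) :
    |∫ q, stM n eig W0 W1 a lam h q ∂(rho μ) -
      ∫ q, stT n eig W0 a lam m1 (a (Fin.last N)) bb K h q ∂(rho μ)| ≤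
      4 * Real.sqrt M / θ * ((3 * j1 + 2 * j2 + j3) +
        (Real.exp (2 * (K + 1)) * (3 * (680 * (1 + Λ) ^ 3 * kapN eig Λ m1 +
          (9 + 2 * Cφ) * Real.sqrt S) + 2 * δ) +
          1 / K * (2 * Real.exp 1 * Cw Λ B 0 A2 + Cw Λ 0 bb A2))) +
        16 * Real.sqrt M * θ + (Real.sqrt M + Real.sqrt M) * (500 / ((N : ℝ) + 1) ^ 2) := by
  have hN' : 0 < N := D.hN
  have E1 := D.avg_gR
  have E2 := D.avg_gQ (B := 0) (bb := bb) hy hA2
  have E2v := D.avg_gQ (B := B) (bb := 0) hy hA2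
  have E3 := avg_Δ (p := p) (n := n) (eig := eig) (W0 := W0) (a := a) (lam := lam) hN' (μ := μ)
    Δ (Dm := Dm) (fun σ => by rw [abs_of_nonneg (hΔ0 σ)]; exact hDm σ)
  rw [← E3.2] at hδ
  have hΛ0 : 0 ≤ Λ := (abs_nonneg _).trans D.hm
  have U1 := ST_unit (n := n) (eig := eig) (W0 := W0) (W1 := W1) (a := a) (lam := lam) hN' (μ := μ)
    (F := fun q _ w => min 1 (g1 eig lam Λ m1 q w))
    (fun d w => measurable_const.min (measurable_g1 w))
    (fun q d w => le_min zero_le_one (g1_nonneg hΛ0 q w)) (fun q d w => min_le_left _ _)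
  have U2 := ST_unit (n := n) (eig := eig) (W0 := W0) (W1 := W1) (a := a) (lam := lam) hN' (μ := μ)
    (F := fun q _ w => exK K eig m1 (a (Fin.last N)) 0 (vT W0 W1) q w)
    (fun d w => measurable_exK K _ _ _ w) (fun q d w => (exK_mem K _ _ _ q w).1)
    (fun q d w => (exK_mem K _ _ _ q w).2)
  have U3 := ST_unit (n := n) (eig := eig) (W0 := W0) (W1 := W1) (a := a) (lam := lam) hN' (μ := μ)
    (F := fun q _ w => exK K eig m1 (a (Fin.last N)) bb (fun _ _ => 0) q w)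
    (fun d w => measurable_exK K _ _ _ w) (fun q d w => (exK_mem K _ _ _ q w).1)
    (fun q d w => (exK_mem K _ _ _ q w).2)
  set S1 := TLaw.ST (n := n) eig W0 W1 a lam (fun q _ w => min 1 (g1 eig lam Λ m1 q w)) with hS1
  set S2 := TLaw.ST (n := n) eig W0 W1 a lam
      (fun q _ w => exK K eig m1 (a (Fin.last N)) 0 (vT W0 W1) q w) with hS2
  set S3 := TLaw.ST (n := n) eig W0 W1 a lam
      (fun q _ w => exK K eig m1 (a (Fin.last N)) bb (fun _ _ => 0) q w) with hS3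
  set F1 : Mat (Fin N) × (Fin (N + 1) → ℝ) → ℝ := fun q => Ed p N (fun d =>
    eE (stP p N n (HN eig W0 a lam q.1) d) (gR eig lam Λ m1 (Real.sqrt S) q)) with hF1
  set F2 : Mat (Fin N) × (Fin (N + 1) → ℝ) → ℝ := fun q => Ed p N (fun d =>
    eE (stP p N n (HN eig W0 a lam q.1) d) (fun w => Δ w.1.1.1.1)) with hF2
  set F3 : Mat (Fin N) × (Fin (N + 1) → ℝ) → ℝ := fun q => Ed p N (fun d =>
    eE (stP p N n (HN eig W0 a lam q.1) d) (gQ eig Λ B 0 (a (Fin.last N)) q)) with hF3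
  set F4 : Mat (Fin N) × (Fin (N + 1) → ℝ) → ℝ := fun q => Ed p N (fun d =>
    eE (stP p N n (HN eig W0 a lam q.1) d) (gQ eig Λ 0 bb (a (Fin.last N)) q)) with hF4
  have n1 : ∀ q, 0 ≤ F1 q := fun q => Ed_nonneg fun d => eE_nonneg (stP_isProb _ _)
    fun w => gR_nonneg eig lam hΛ0 (Real.sqrt_pos.2 D.hS) m1 q w
  have n2 : ∀ q, 0 ≤ F2 q := fun q => Ed_nonneg fun d => eE_nonneg (stP_isProb _ _)
    fun w => hΔ0 _
  have n3 : ∀ q, 0 ≤ F3 q := fun q => Ed_nonneg fun d => eE_nonneg (stP_isProb _ _)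
    fun w => by unfold gQ; positivity
  have n4 : ∀ q, 0 ≤ F4 q := fun q => Ed_nonneg fun d => eE_nonneg (stP_isProb _ _)
    fun w => by unfold gQ; positivity
  have hsM : 0 ≤ Real.sqrt M := Real.sqrt_nonneg _
  -- bounds of the two averages
  have hbM : ∀ᵐ q ∂(rho μ), |stM n eig W0 W1 a lam h q| ≤ Real.sqrt M :=
    hMX.mono fun q hq => abs_Ed_le hN' fun d =>
      abs_eE_mul_le (stQ_isProb _ _ d) (fun w => abs_mB_le _ w) (hq d)
  have hbT : ∀ᵐ q ∂(rho μ), |stT n eig W0 a lam m1 (a (Fin.last N)) bb K h q| ≤ Real.sqrt M :=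
    hMY.mono fun q hq => abs_Ed_le hN' fun d =>
      abs_eE_mul_le (tl_isProb (stP_isProb _ d) p.xs_expo.pos _)
        (fun w => abs_dpsi_mB_le hK.le _ w) (hq d)
  have iM : Integrable (stM n eig W0 W1 a lam h) (rho μ) :=
    Integrable.of_bound (measurable_stM h).aestronglyMeasurable (Real.sqrt M)
      (hbM.mono fun q hq => by rwa [Real.norm_eq_abs])
  have iT : Integrable (stT n eig W0 a lam m1 (a (Fin.last N)) bb K h) (rho μ) :=
    Integrable.of_bound (measurable_stT _ _ _ h).aestronglyMeasurable (Real.sqrt M)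
      (hbT.mono fun q hq => by rwa [Real.norm_eq_abs])
  -- the error functions
  have iR : Integrable (fun q => 3 * S1 q + 2 * S2 q + S3 q) (rho μ) :=
    ((U1.1.const_mul 3).add (U2.1.const_mul 2)).add U3.1
  have iE : Integrable (fun q => Real.exp (2 * (K + 1)) * (3 * F1 q + 2 * F2 q) +
      1 / K * (2 * Real.exp 1 * F3 q + F4 q)) (rho μ) :=
    (((E1.1.const_mul 3).add (E3.1.const_mul 2)).const_mul _).add
      (((E2v.1.const_mul (2 * Real.exp 1)).add E2.1).const_mul _)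
  have bR : ∫ q in GP N, (3 * S1 q + 2 * S2 q + S3 q) ∂(rho μ) ≤ 3 * j1 + 2 * j2 + j3 := by
    have i1 := (U1.1.const_mul 3).integrableOn (s := GP N)
    have i2 := (U2.1.const_mul 2).integrableOn (s := GP N)
    have i3 := U3.1.integrableOn (s := GP N)
    have i12 : IntegrableOn (fun q => 3 * S1 q + 2 * S2 q) (GP N) (rho μ) := i1.add i2
    rw [integral_add i12 i3, integral_add i1 i2, integral_const_mul, integral_const_mul]
    linarith
  have bE : ∫ q, (Real.exp (2 * (K + 1)) * (3 * F1 q + 2 * F2 q) +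
      1 / K * (2 * Real.exp 1 * F3 q + F4 q)) ∂(rho μ) ≤
      Real.exp (2 * (K + 1)) * (3 * (680 * (1 + Λ) ^ 3 * kapN eig Λ m1 +
          (9 + 2 * Cφ) * Real.sqrt S) + 2 * δ) +
          1 / K * (2 * Real.exp 1 * Cw Λ B 0 A2 + Cw Λ 0 bb A2) := by
    have i1 : Integrable (fun q => 3 * F1 q) (rho μ) := E1.1.const_mul 3
    have i2 : Integrable (fun q => 2 * F2 q) (rho μ) := E3.1.const_mul 2
    have i3 : Integrable (fun q => 2 * Real.exp 1 * F3 q) (rho μ) := E2v.1.const_mul _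
    have i12 : Integrable (fun q => 3 * F1 q + 2 * F2 q) (rho μ) := i1.add i2
    have i34 : Integrable (fun q => 2 * Real.exp 1 * F3 q + F4 q) (rho μ) := i3.add E2.1
    have i12' : Integrable (fun q => Real.exp (2 * (K + 1)) * (3 * F1 q + 2 * F2 q)) (rho μ) :=
      i12.const_mul _
    have i34' : Integrable (fun q => 1 / K * (2 * Real.exp 1 * F3 q + F4 q)) (rho μ) :=
      i34.const_mul _
    rw [integral_add i12' i34', integral_const_mul, integral_const_mul, integral_add i1 i2,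
      integral_add i3 E2.1, integral_const_mul, integral_const_mul, integral_const_mul]
    have hb1 : 3 * ∫ q, F1 q ∂(rho μ) + 2 * ∫ q, F2 q ∂(rho μ) ≤
        3 * (680 * (1 + Λ) ^ 3 * kapN eig Λ m1 + (9 + 2 * Cφ) * Real.sqrt S) + 2 * δ := by
      have := E1.2
      linarith
    have hb2 : 2 * Real.exp 1 * ∫ q, F3 q ∂(rho μ) + ∫ q, F4 q ∂(rho μ) ≤
        2 * Real.exp 1 * Cw Λ B 0 A2 + Cw Λ 0 bb A2 := by
      have h1 := mul_le_mul_of_nonneg_left E2v.2 (by positivity : 0 ≤ 2 * Real.exp 1)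
      have h2 := E2.2
      linarith
    exact add_le_add (mul_le_mul_of_nonneg_left hb1 (Real.exp_pos _).le)
      (mul_le_mul_of_nonneg_left hb2 (by positivity))
  refine int_close2 (ρ := rho μ) (measurableSet_GP (N := N)) iM iT iR iE
    (fun q => by
      have := U1.2 q
      have := U2.2 q
      have := U3.2 q
      positivity)
    (fun q => by
      have := n1 q
      have := n2 q
      have := n3 q
      have := n4 q
      positivity) (by positivity) (by positivity) bR bE ?_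
    (by filter_upwards [hbM, hbT] with q h1 h2; exact add_le_add h1 h2)
    (rho_GP_compl (N := N) (μ := μ))
  filter_upwards [hMX, hMY] with q h1 h2 hq
  have h3 : ∀ d : DD p N, _ := fun d => mag_pt (W0 := W0) (W1 := W1) (a := a) (lam := lam) D.hN
    D.he D.hm D.hS hK hΔ0 hΔ hv hq d h hM1 hθ (h1 d) (h2 d)
  have h4 : |stM n eig W0 W1 a lam h q - stT n eig W0 a lam m1 (a (Fin.last N)) bb K h q| ≤
      Ed p N (fun d => |eE (stQ (n := n) (HN eig W0 a lam q.1)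
        (HN1 eig W1 a lam (cplS q.1 q.2)) d)
        (fun w => mB (xw (HN eig W0 a lam q.1) (HN1 eig W1 a lam (cplS q.1 q.2))) w * h w) -
      eE (tl (stP p N n (HN eig W0 a lam q.1) d) (stF p N n) p.xs (fun w => psi K
        (redB (WX eig m1 (a (Fin.last N)) bb (fun _ _ => 0) q.1 q.2) w)))
        (fun w => dpsi K (redB (WX eig m1 (a (Fin.last N)) bb (fun _ _ => 0) q.1 q.2) w) *
          mB (WX eig m1 (a (Fin.last N)) bb (fun _ _ => 0) q.1 q.2) w * h w)|) := by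
    unfold stM stT Ed
    rw [← Finset.sum_sub_distrib]
    refine (Finset.abs_sum_le_sum_abs _ _).trans (Finset.sum_le_sum fun d _ => ?_)
    rw [← mul_sub, abs_mul, abs_of_nonneg (dw_nonneg p N d)]
  refine h4.trans ((Ed_mono p N h3).trans (le_of_eq ?_))
  simp only [Ed_add, Ed_smul, Ed_const p hN']
  show 4 * Real.sqrt M / θ * (3 * S1 q + 2 * S2 q + S3 q +
    Real.exp (2 * (K + 1)) * (3 * F1 q + 2 * F2 q) +
      1 / K * (2 * Real.exp 1 * F3 q + F4 q)) + 16 * Real.sqrt M * θ = _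
  rw [add_assoc (3 * S1 q + 2 * S2 q + S3 q)]

end

end Crest.Agent.R164.ED
end

-- ▼ part R164/EDq5
section

/-!
# Row 164, L side, module E-DIFF part q5 (helper562): difference quotients of the ideal functional
-/

set_option autoImplicit false

namespace Crest.Agent.R164.ED

open MeasureTheory ProbabilityTheory Filter
open Finset Crest.Agent.R141 Crest.Agent.R164 Crest.Agent.R164.PF Crest.Agent.R164.Haar
open Crest.ProbabilityR.InvariantGlass

noncomputable section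

variable {p : Par} {N n : ℕ}
variable {eig : Fin (N + 1) → ℝ} {W0 : (Fin N → Bool) → ℝ} {W1 : (Fin (N + 1) → Bool) → ℝ}
  {a lam : Fin (N + 1) → Fin p.nc → ℝ} {Λ m1 S Cφ : ℝ}

theorem yb_update (b : Fin p.nc → ℝ) (g : Fin p.nc) (s : ℝ) (l : LS p n) :
    yb (Function.update b g (b g + s)) l = yb b l + s * zl l.1 g := by
  unfold yb
  have e : ∀ c, Function.update b g (b g + s) c * zl l.1 c =
      b c * zl l.1 c + (if c = g then s * zl l.1 g else 0) := by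
    intro c
    by_cases h : c = g
    · subst h
      rw [Function.update_self, if_pos rfl]; ring
    · rw [Function.update_of_ne h, if_neg h, add_zero]
  simp only [e, Finset.sum_add_distrib, Finset.sum_ite_eq', Finset.mem_univ, if_true]

theorem WX_update (b : Fin p.nc → ℝ) (g : Fin p.nc) (s bb : ℝ)
    (v : (Fin N → Bool) → Bool → ℝ) (V : Mat (Fin N)) (G : Fin (N + 1) → ℝ) :
    WX (n := n) eig m1 (Function.update b g (b g + s)) bb v V G =
      sh (WX (n := n) eig m1 b bb v V G) (fun w => zl w.2.1 g) s := by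
  funext u
  unfold sh WX wx
  rw [yb_update]
  ring

theorem WX_bb (b : Fin p.nc → ℝ) (s bb : ℝ) (v : (Fin N → Bool) → Bool → ℝ) (V : Mat (Fin N))
    (G : Fin (N + 1) → ℝ) :
    WX (n := n) eig m1 b (bb + s) v V G = sh (WX (n := n) eig m1 b bb v V G) (fun _ => 1) s := by
  funext u
  unfold sh WX wx
  ring

/-- difference quotient of the ideal functional -/
theorem quot_main {μ : Measure (Mat (Fin N))} [IsProbabilityMeasure μ] (hN : 0 < N) {K : ℝ}
    (hK : 0 ≤ K) {b b' : Fin p.nc → ℝ} {bb bb' : ℝ} {h : OU p N n × LS p n → ℝ} {s : ℝ}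
    (hs : |s| ≤ 1)
    (hW : ∀ q : Mat (Fin N) × (Fin (N + 1) → ℝ), WX (n := n) eig m1 b' bb' (fun _ _ => 0) q.1 q.2 =
      sh (WX (n := n) eig m1 b bb (fun _ _ => 0) q.1 q.2) h s)
    {M : ℝ} (hM1 : 1 ≤ M)
    (hM : ∀ (q : Mat (Fin N) × (Fin (N + 1) → ℝ)) (d : DD p N) (s' : ℝ), |s'| ≤ 1 →
      eE (tl (stP p N n (HN eig W0 a lam q.1) d) (stF p N n) p.xs (fun w => psi K
        (redB (sh (WX eig m1 b bb (fun _ _ => 0) q.1 q.2) h s') w))) (fun w => h w ^ 2) ≤ M) :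
    |cavF μ n (HN eig W0 a lam) eig m1 b' bb' 0 K - cavF μ n (HN eig W0 a lam) eig m1 b bb 0 K -
      s * ∫ q, stT n eig W0 a lam m1 b bb K h q ∂(rho μ)| ≤ 6 * M * (|s| * Real.sqrt |s|) := by
  have hbT : ∀ q, |stT n eig W0 a lam m1 b bb K h q| ≤ Real.sqrt M := by
    intro q
    refine abs_Ed_le hN fun d => abs_eE_mul_le (tl_isProb (stP_isProb _ d) p.xs_expo.pos _)
        (fun w => abs_dpsi_mB_le hK _ w) ?_
    have h1 := hM q d 0 (by norm_num)
    rwa [sh_zero] at h1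
  have iT : Integrable (stT n eig W0 a lam m1 b bb K h) (rho μ) :=
    Integrable.of_bound (measurable_stT _ _ _ h).aestronglyMeasurable (Real.sqrt M)
      (Eventually.of_forall fun q => by rw [Real.norm_eq_abs]; exact hbT q)
  have i1 := integrable_stC (n := n) (eig := eig) (W0 := W0) (a := a) (lam := lam) (m1 := m1)
    hN (μ := μ) hK b' bb'
  have i2 := integrable_stC (n := n) (eig := eig) (W0 := W0) (a := a) (lam := lam) (m1 := m1)
    hN (μ := μ) hK b bb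
  have i12 : Integrable (fun q => stC n eig W0 a lam m1 b' bb' K q -
    stC n eig W0 a lam m1 b bb K q) (rho μ) := i1.sub i2
  rw [cavF_eq, cavF_eq, ← integral_sub i1 i2, ← integral_const_mul,
    ← integral_sub i12 (iT.const_mul s), ← Real.norm_eq_abs]
  have hb : ∀ q, ‖stC n eig W0 a lam m1 b' bb' K q - stC n eig W0 a lam m1 b bb K q -
      s * stT n eig W0 a lam m1 b bb K h q‖ ≤ 6 * M * (|s| * Real.sqrt |s|) := by
    intro q
    rw [Real.norm_eq_abs]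
    have e : stC n eig W0 a lam m1 b' bb' K q - stC n eig W0 a lam m1 b bb K q -
      s * stT n eig W0 a lam m1 b bb K h q = Ed p N (fun d =>
        aE (stP p N n (HN eig W0 a lam q.1) d) (stF p N n) p.xs
          (fun w => psi K (redB (sh (WX eig m1 b bb (fun _ _ => 0) q.1 q.2) h s) w)) -
        aE (stP p N n (HN eig W0 a lam q.1) d) (stF p N n) p.xs
          (fun w => psi K (redB (WX eig m1 b bb (fun _ _ => 0) q.1 q.2) w)) -
        s * eE (tl (stP p N n (HN eig W0 a lam q.1) d) (stF p N n) p.xs (fun w => psi K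
          (redB (WX eig m1 b bb (fun _ _ => 0) q.1 q.2) w)))
          (fun w => dpsi K (redB (WX eig m1 b bb (fun _ _ => 0) q.1 q.2) w) *
            mB (WX eig m1 b bb (fun _ _ => 0) q.1 q.2) w * h w)) := by
      unfold stC stT Ed
      rw [hW q, Finset.mul_sum, ← Finset.sum_sub_distrib, ← Finset.sum_sub_distrib]
      exact Finset.sum_congr rfl fun d _ => by ring
    rw [e]
    refine abs_Ed_le hN fun d => ?_
    exact aE_sh_expand (stP_isProb _ d) p.xs_expo hK _ h hM1 hs (fun s' hs' => hM q d s' hs')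
  have h3 := norm_integral_le_of_norm_le_const (μ := rho μ) (Eventually.of_forall hb)
  simpa using h3

/-- the bound of the second moments of the labels -/
def MM (A : ℝ) : ℝ := 32 * (1 + (|A| + 1) ^ 2)

theorem one_le_MM (A : ℝ) : 1 ≤ MM A := by
  unfold MM
  nlinarith [sq_nonneg (|A| + 1)]

theorem abs_le_of_sum_sq {b : Fin p.nc → ℝ} {A : ℝ} (hb : ∑ g, b g ^ 2 ≤ A ^ 2) (g : Fin p.nc) :
    |b g| ≤ |A| := by
  have h1 : b g ^ 2 ≤ A ^ 2 :=
    (Finset.single_le_sum (f := fun g => b g ^ 2) (fun i _ => sq_nonneg _)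
      (Finset.mem_univ g)).trans hb
  exact sq_le_sq.1 h1

theorem MM_bound {x A : ℝ} (hx : |x| ≤ |A| + 1) : 32 * (1 + x ^ 2) ≤ MM A := by
  unfold MM
  have : x ^ 2 ≤ (|A| + 1) ^ 2 := by
    rw [← sq_abs x]
    exact pow_le_pow_left₀ (abs_nonneg _) hx 2
  linarith

/-- **(O2) up to constants** -/
theorem O2_core {μ : Measure (Mat (Fin N))} {ν : Measure (Mat (Fin (N + 1)))}
    [IsProbabilityMeasure μ] [IsProbabilityMeasure ν] (hnb : p.nb = 0) (hN : 0 < N)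
    (hμ : RHaar μ) (hν : RHaar ν) {K A bb e1 : ℝ} (hK : 0 ≤ K)
    (hA : ∑ g, a (Fin.last N) g ^ 2 ≤ A ^ 2) (g : Fin p.nc)
    (hmag : |∫ q, stM n eig W0 W1 a lam (fun w => zl w.2.1 g) q ∂(rho μ) -
      ∫ q, stT n eig W0 a lam m1 (a (Fin.last N)) bb K (fun w => zl w.2.1 g) q ∂(rho μ)| ≤ e1)
    (s : ℝ) (hs : |s| ≤ 1) :
    |cavF μ n (HN eig W0 a lam) eig m1
        (Function.update (a (Fin.last N)) g (a (Fin.last N) g + s)) bb 0 K -
      cavF μ n (HN eig W0 a lam) eig m1 (a (Fin.last N)) bb 0 K -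
      s * GX.EE (p := p) (n := n) (univ_nonempty (α := Fin (N + 1) → Bool)) ν eig 1 W1 a lam
        (fun _ _ w => SY.zf w.1.2.1 g (Fin.last N) * sv (w.1.1.1 (Fin.last N)))| ≤
      6 * MM A * (|s| * Real.sqrt |s|) + |s| * (e1 +
        p.nc * p.T * (Real.sqrt (cT p) * (1 + |A|)) / ((N : ℝ) + 1)) := by
  have hg := abs_le_of_sum_sq hA g
  have h1 := quot_main (W0 := W0) (a := a) (lam := lam) (μ := μ) hN hK (b := a (Fin.last N))
    (b' := Function.update (a (Fin.last N)) g (a (Fin.last N) g + s)) (bb := bb) (bb' := bb)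
    (h := fun w : OU p N n × LS p n => zl w.2.1 g) hs
    (fun q => WX_update _ g s bb _ q.1 q.2) (one_le_MM A) (fun q d s' hs' => by
      rw [← WX_update]
      refine (sm1 hK eig m1 _ bb _ q.1 q.2 (HN eig W0 a lam q.1) d g).trans ?_
      rw [Function.update_self]
      exact MM_bound ((abs_add_le _ _).trans (add_le_add hg hs')))
  have h2 := tt3_z (n := n) eig W0 W1 a lam hnb hN hμ hν g
  have h2' : |GX.EE (p := p) (n := n) (univ_nonempty (α := Fin (N + 1) → Bool)) ν eig 1 W1 a lam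
        (fun _ _ w => SY.zf w.1.2.1 g (Fin.last N) * sv (w.1.1.1 (Fin.last N))) -
      ∫ q, stM n eig W0 W1 a lam (fun w => zl w.2.1 g) q ∂(rho μ)| ≤
      p.nc * p.T * (Real.sqrt (cT p) * (1 + |A|)) / ((N : ℝ) + 1) := by
    refine h2.trans ?_
    gcongr
  set X := cavF μ n (HN eig W0 a lam) eig m1
        (Function.update (a (Fin.last N)) g (a (Fin.last N) g + s)) bb 0 K -
      cavF μ n (HN eig W0 a lam) eig m1 (a (Fin.last N)) bb 0 K
  set E := GX.EE (p := p) (n := n) (univ_nonempty (α := Fin (N + 1) → Bool)) ν eig 1 W1 a lam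
        (fun _ _ w => SY.zf w.1.2.1 g (Fin.last N) * sv (w.1.1.1 (Fin.last N)))
  set IM := ∫ q, stM n eig W0 W1 a lam (fun w => zl w.2.1 g) q ∂(rho μ)
  set IT := ∫ q, stT n eig W0 a lam m1 (a (Fin.last N)) bb K (fun w => zl w.2.1 g) q ∂(rho μ)
  have e9 : X - s * E = (X - s * IT) + s * (-(E - IM) - (IM - IT)) := by ring
  rw [e9]
  refine (abs_add_le _ _).trans (add_le_add h1 ?_)
  rw [abs_mul]
  refine mul_le_mul_of_nonneg_left ?_ (abs_nonneg _)
  refine (abs_sub _ _).trans ?_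
  rw [abs_neg]
  linarith

/-- **(O3) up to constants** -/
theorem O3_core {μ : Measure (Mat (Fin N))} {ν : Measure (Mat (Fin (N + 1)))}
    [IsProbabilityMeasure μ] [IsProbabilityMeasure ν] (hnb : p.nb = 0) (hN : 0 < N)
    (hμ : RHaar μ) (hν : RHaar ν) {K A bb e1 : ℝ} (hK : 0 ≤ K)
    (hmag : |∫ q, stM n eig W0 W1 a lam (fun _ => 1) q ∂(rho μ) -
      ∫ q, stT n eig W0 a lam m1 (a (Fin.last N)) bb K (fun _ => 1) q ∂(rho μ)| ≤ e1)
    (s : ℝ) (hs : |s| ≤ 1) :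
    |cavF μ n (HN eig W0 a lam) eig m1 (a (Fin.last N)) (bb + s) 0 K -
      cavF μ n (HN eig W0 a lam) eig m1 (a (Fin.last N)) bb 0 K -
      s * GX.EE (p := p) (n := n) (univ_nonempty (α := Fin (N + 1) → Bool)) ν eig 1 W1 a lam
        (fun _ _ w => sv (w.1.1.1 (Fin.last N)))| ≤
      6 * MM A * (|s| * Real.sqrt |s|) + |s| * (e1 + p.nc * p.T / ((N : ℝ) + 1)) := by
  have h1 := quot_main (W0 := W0) (a := a) (lam := lam) (μ := μ) hN hK (b := a (Fin.last N))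
    (b' := a (Fin.last N)) (bb := bb) (bb' := bb + s)
    (h := fun _ : OU p N n × LS p n => 1) hs
    (fun q => WX_bb _ s bb _ q.1 q.2) (one_le_MM A) (fun q d s' hs' => by
      have hP := tl_isProb (𝓕 := stF p N n) (stP_isProb (HN eig W0 a lam q.1) d) p.xs_expo.pos
        (fun w => psi K (redB (sh (WX eig m1 (a (Fin.last N)) bb (fun _ _ => 0) q.1 q.2)
          (fun _ : OU p N n × LS p n => 1) s') w))
      have := eE_const hP ((1:ℝ) ^ 2)
      rw [this]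
      simpa using one_le_MM A)
  have h2 := tt3_one (n := n) eig W0 W1 a lam hnb hN hμ hν
  have h2' : |GX.EE (p := p) (n := n) (univ_nonempty (α := Fin (N + 1) → Bool)) ν eig 1 W1 a lam
        (fun _ _ w => sv (w.1.1.1 (Fin.last N))) -
      ∫ q, stM n eig W0 W1 a lam (fun _ => 1) q ∂(rho μ)| ≤ p.nc * p.T / ((N : ℝ) + 1) := h2
  set X := cavF μ n (HN eig W0 a lam) eig m1 (a (Fin.last N)) (bb + s) 0 K -
      cavF μ n (HN eig W0 a lam) eig m1 (a (Fin.last N)) bb 0 K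
  set E := GX.EE (p := p) (n := n) (univ_nonempty (α := Fin (N + 1) → Bool)) ν eig 1 W1 a lam
        (fun _ _ w => sv (w.1.1.1 (Fin.last N)))
  set IM := ∫ q, stM n eig W0 W1 a lam (fun _ => 1) q ∂(rho μ)
  set IT := ∫ q, stT n eig W0 a lam m1 (a (Fin.last N)) bb K (fun _ => 1) q ∂(rho μ)
  have e9 : X - s * E = (X - s * IT) + s * (-(E - IM) - (IM - IT)) := by ring
  rw [e9]
  refine (abs_add_le _ _).trans (add_le_add h1 ?_)
  rw [abs_mul]
  refine mul_le_mul_of_nonneg_left ?_ (abs_nonneg _)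
  refine (abs_sub _ _).trans ?_
  rw [abs_neg]
  linarith

end

end Crest.Agent.R164.ED
end

-- ▼ part R164/EDq6
section

/-!
# Row 164, L side, module E-DIFF part q6 (helper562): the three outputs with explicit errors
-/

set_option autoImplicit false

namespace Crest.Agent.R164.ED

open MeasureTheory ProbabilityTheory Filter
open Finset Crest.Agent.R141 Crest.Agent.R164 Crest.Agent.R164.PF Crest.Agent.R164.Haar
open Crest.ProbabilityR.InvariantGlass

noncomputable section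

/-! ### crude bound of the free energy -/

theorem abs_LA_le {M : ℕ} {A : Finset (Fin M → Bool)} (hA : A.Nonempty)
    {h0 : (Fin M → Bool) → ℝ} {c : ℝ} (h : ∀ σ, |h0 σ| ≤ c) : |LPert.LA A h0| ≤ c := by
  have hcA : (0:ℝ) < (A.card : ℝ) := by exact_mod_cast hA.card_pos
  have hpos := LPert.LA_pos hA h0
  have h1 : (A.card : ℝ)⁻¹ * ∑ σ ∈ A, Real.exp (h0 σ) ≤ Real.exp c := by
    have : ∑ σ ∈ A, Real.exp (h0 σ) ≤ ∑ _σ ∈ A, Real.exp c :=
      Finset.sum_le_sum fun σ _ => Real.exp_le_exp.2 (abs_le.1 (h σ)).2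
    rw [Finset.sum_const, nsmul_eq_mul] at this
    rw [inv_mul_le_iff₀ hcA]
    exact this
  have h2 : Real.exp (-c) ≤ (A.card : ℝ)⁻¹ * ∑ σ ∈ A, Real.exp (h0 σ) := by
    have : ∑ _σ ∈ A, Real.exp (-c) ≤ ∑ σ ∈ A, Real.exp (h0 σ) :=
      Finset.sum_le_sum fun σ _ => Real.exp_le_exp.2 (abs_le.1 (h σ)).1
    rw [Finset.sum_const, nsmul_eq_mul] at this
    rw [le_inv_mul_iff₀ hcA]
    exact this
  unfold LPert.LA
  rw [abs_le]
  constructor
  · rw [← Real.log_exp (-c)]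
    exact Real.log_le_log (Real.exp_pos _) h2
  · rw [← Real.log_exp c]
    exact Real.log_le_log hpos h1

/-- **(M1')** -/
theorem abs_Phi_le2 {p : Par} {M n : ℕ} (hnb : p.nb = 0) {eig : Fin M → ℝ} {W : (Fin M → Bool) → ℝ}
    {a lam : Fin M → Fin p.nc → ℝ} {Λ BV A S : ℝ} (he : ∀ i, |eig i| ≤ Λ)
    (hW : ∀ σ, |W σ| ≤ BV * M) (ha : ∀ i, ∑ g, a i g ^ 2 ≤ A ^ 2) (hl : ∀ i, ∑ g, lam i g ^ 2 ≤ S)
    {U : Mat (Fin M)} (hU : Matrix.of U ∈ Matrix.orthogonalGroup (Fin M) ℝ) (d : DD p M) :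
    |G.Phi (BU p M n) (GX.Hs eig 1 W a lam U) d| ≤ (Λ / 2 + BV + (A ^ 2 + S) / 2) * M + cP p := by
  have hb : ∀ σ, |SY.h0q eig (Matrix.of U) 1 W σ| ≤ (Λ / 2 + BV) * M :=
    abs_h0q_le he (by norm_num) hW hU
  have h1 := LPert.LA_le_Phi (p := p) (n := n) (A := univ) univ_nonempty hnb
    (SY.h0q eig (Matrix.of U) 1 W) a lam (SY.xU (Matrix.of U)) d
  have hκ : ∀ σ ∈ (univ : Finset (Fin M → Bool)), ∑ g, ∑ i, ((a i g) ^ 2 +
      (lam i g * SY.xU (Matrix.of U) σ i) ^ 2) ≤ (A ^ 2 + S) * M := by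
    intro σ _
    rw [Finset.sum_comm]
    have h2 : ∀ i : Fin M, ∑ g, ((a i g) ^ 2 + (lam i g * SY.xU (Matrix.of U) σ i) ^ 2) ≤
        A ^ 2 + S * SY.xU (Matrix.of U) σ i ^ 2 := by
      intro i
      rw [Finset.sum_add_distrib]
      refine add_le_add (ha i) ?_
      have : ∑ g, (lam i g * SY.xU (Matrix.of U) σ i) ^ 2 =
          (∑ g, lam i g ^ 2) * SY.xU (Matrix.of U) σ i ^ 2 := by
        rw [Finset.sum_mul]
        exact Finset.sum_congr rfl fun g _ => by ring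
      rw [this]
      exact mul_le_mul_of_nonneg_right (hl i) (sq_nonneg _)
    refine (Finset.sum_le_sum fun i _ => h2 i).trans (le_of_eq ?_)
    rw [Finset.sum_add_distrib, ← Finset.mul_sum, sum_xU_sq' hU]
    simp
    ring
  have h2 := LPert.Phi_le_LA (p := p) (n := n) (A := univ) univ_nonempty hnb
    (SY.h0q eig (Matrix.of U) 1 W) a lam (SY.xU (Matrix.of U)) hκ d
  have h3 := abs_LA_le (A := univ) univ_nonempty hb
  have e1 : p.τ * (Fintype.card (Stp p) : ℝ) = cP p := by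
    unfold cP
    simp only [Fintype.card_prod, Fintype.card_fin]
    push_cast
    ring
  rw [e1] at h2
  have h4 := cP_nonneg p
  have h5 : 0 ≤ (A ^ 2 + S) * M := by
    refine le_trans ?_ (hκ (fun _ => true) (mem_univ _))
    exact Finset.sum_nonneg fun g _ => Finset.sum_nonneg fun i _ => by positivity
  show |G.Phi (BU p M n) (SY.HS (SY.h0q eig (Matrix.of U) 1 W) a lam (SY.xU (Matrix.of U))) d| ≤ _
  rw [abs_le] at h3 ⊢
  constructor
  · linarith [h3.1]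
  · linarith [h3.2]

/-! ### the remaining input -/

/-- the constant of the second moment of the small fields -/
def CF (Λ BV A : ℝ) : ℝ := 8 * (Λ + 2 * BV + A ^ 2 / 2 + 4)

/-- second moment of the small fields, uniformly in the number of cells -/
def M2P : Prop := ∀ {p : Par} {M n : ℕ} (_ : p.nb = 0) (_ : 0 < M) (_ : cP p ≤ M)
  {Λ BV A S : ℝ} (_ : 0 < S) (_ : S ≤ 1) {eig : Fin M → ℝ} {W : (Fin M → Bool) → ℝ}
  {a lam : Fin M → Fin p.nc → ℝ} (_ : ∀ i, |eig i| ≤ Λ) (_ : ∀ σ, |W σ| ≤ BV * M)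
  (_ : ∀ i, ∑ g, a i g ^ 2 ≤ A ^ 2) (_ : ∀ i, ∑ g, lam i g ^ 2 ≤ S) {U : Mat (Fin M)}
  (_ : Matrix.of U ∈ Matrix.orthogonalGroup (Fin M) ℝ) (d : DD p M),
  eE (G.PP (BU p M n) (GX.Hs eig 1 W a lam U) d)
    (fun w => ∑ i, (∑ g, lam i g * SY.zf w.1.2.2 g i) ^ 2) ≤ CF Λ BV A * S * M

variable {p : Par} {N n : ℕ} {μ : Measure (Mat (Fin N))} {ν : Measure (Mat (Fin (N + 1)))}
variable {eig : Fin (N + 1) → ℝ} {W0 : (Fin N → Bool) → ℝ} {W1 : (Fin (N + 1) → Bool) → ℝ}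
  {a lam : Fin (N + 1) → Fin p.nc → ℝ} {Λ m1 BV B A γ0 S : ℝ}

theorem EHyp.edat (D : EHyp μ ν eig W0 W1 a lam Λ m1 BV B A γ0 S) (h2 : M2P) (hnb : p.nb = 0)
    (hN : 1 ≤ N) (hc : cP p ≤ N) (hS : 0 < S) (hS1 : S ≤ 1) (hC : 0 ≤ CF Λ BV A) :
    EDat μ n eig W0 a lam Λ m1 S (CF Λ BV A) where
  hN := hN
  he := D.he
  hm := D.hm
  hS := hS
  hC := hC
  ort := D.rμ.mem
  hφ V hV d := by
    have h := h2 (p := p) (n := n) hnb hN hc hS hS1 (eig := fun i : Fin N => eig i.castSucc)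
      (W := W0) (a := fun i => a i.castSucc) (lam := fun i => lam i.castSucc)
      (fun i => D.he _) D.hW0 (fun i => D.ha _) (fun i => D.hl _) hV d
    exact h
  hL := (sm4' (n := n) lam).trans (D.hl _)

theorem EHyp.Ephi (D : EHyp μ ν eig W0 W1 a lam Λ m1 BV B A γ0 S) (h2 : M2P) (hnb : p.nb = 0)
    (hc : cP p ≤ N) (hS : 0 < S) (hS1 : S ≤ 1) :
    TLaw.Eφ n eig W1 a lam ν ≤ CF Λ BV A * S * ((N : ℝ) + 1) := by
  have := D.pν
  refine TLaw.Eφ_le D.rν fun U hU d => ?_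
  have h := h2 (p := p) (n := n) hnb (Nat.succ_pos N) (by push_cast; linarith) hS hS1
    (eig := eig) (W := W1) (a := a) (lam := lam) D.he D.hW1 D.ha D.hl hU d
  push_cast at h
  exact h

/-- the constants -/
def z0C (γ0 : ℝ) : ℝ := 24 * (1 + 1 / γ0)
/-- the constants -/
def z1C (Λ γ0 : ℝ) : ℝ := 144 * Λ ^ 2 * (1 + 1 / γ0 + 1 / γ0)

/-- first error term -/
theorem EHyp.j1_le (D : EHyp μ ν eig W0 W1 a lam Λ m1 BV B A γ0 S) (h2 : M2P) (hnb : p.nb = 0)
    (hγ : 0 < γ0) (hN : 1 ≤ N) (hT : p.nc * p.T ≤ N) (hc : cP p ≤ N) (hS : 0 < S) (hS1 : S ≤ 1)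
    (hC : 0 ≤ CF Λ BV A) (hN2 : (1 + Λ ^ 2) / N ≤ S ^ 2)
    (hmean : |(N : ℝ)⁻¹ * ∑ i : Fin N, eig i.castSucc - m1| ≤ S) :
    ∫ q in GP N, TLaw.ST (n := n) eig W0 W1 a lam
      (fun q _ w => min 1 (g1 eig lam Λ m1 q w)) q ∂(rho μ) ≤
      Real.sqrt S * (Real.sqrt (10 * (1 + Λ)) * Real.sqrt 28 *
        Real.sqrt (1 + z0C γ0 + z1C Λ γ0) + 4 * (1 + z0C γ0) + 15 * (CF Λ BV A / γ0)) := by
  have := D.pμ
  have := D.pν
  have hN' : 0 < N := hN
  have hQ := D.momQ (n := n) hγ hnb hN' hT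
  have hL := D.momL (n := n) hγ hnb hN' hT hC hS.le (D.Ephi h2 hnb hc hS hS1)
  have h := (j1 (m1 := m1) stLaw hN D.he hS hQ hL).2
  have hk := (intgOn_kp hN (e := e0 eig) (fun i => D.he _) m1).2
  have hk2 : ∫ G in Gd N, kp (e0 eig) m1 G ∂(gam (Fin (N + 1))) ≤ 28 * S := by
    refine hk.trans ?_
    rw [Real.sqrt_le_left (by positivity)]
    have h3 : ((N : ℝ)⁻¹ * ∑ i, e0 eig i - m1) ^ 2 ≤ S ^ 2 := by
      rw [← sq_abs]
      exact pow_le_pow_left₀ (abs_nonneg _) hmean 2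
    nlinarith
  have hs1 : Real.sqrt (∫ G in Gd N, kp (e0 eig) m1 G ∂(gam (Fin (N + 1)))) ≤
      Real.sqrt 28 * Real.sqrt S := by
    rw [← Real.sqrt_mul (by norm_num)]
    exact Real.sqrt_le_sqrt hk2
  have hss : S / Real.sqrt S = Real.sqrt S := Real.div_sqrt
  have e1 : (12 * (CF Λ BV A * S / γ0) + 3 * (CF Λ BV A * S / γ0)) / Real.sqrt S =
      15 * (CF Λ BV A / γ0) * Real.sqrt S := by
    calc _ = 15 * (CF Λ BV A / γ0) * (S / Real.sqrt S) := by ring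
      _ = _ := by rw [hss]
  rw [e1] at h
  refine h.trans ?_
  have h4 : Real.sqrt (10 * (1 + Λ)) * Real.sqrt (∫ G in Gd N, kp (e0 eig) m1 G
      ∂(gam (Fin (N + 1)))) * Real.sqrt (1 + z0C γ0 + z1C Λ γ0) ≤
      Real.sqrt (10 * (1 + Λ)) * (Real.sqrt 28 * Real.sqrt S) *
        Real.sqrt (1 + z0C γ0 + z1C Λ γ0) := by gcongr
  have e2 : Real.sqrt S * (Real.sqrt (10 * (1 + Λ)) * Real.sqrt 28 *
        Real.sqrt (1 + z0C γ0 + z1C Λ γ0) + 4 * (1 + z0C γ0) + 15 * (CF Λ BV A / γ0)) =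
      Real.sqrt (10 * (1 + Λ)) * (Real.sqrt 28 * Real.sqrt S) *
        Real.sqrt (1 + z0C γ0 + z1C Λ γ0) + 4 * Real.sqrt S * (1 + z0C γ0) +
        15 * (CF Λ BV A / γ0) * Real.sqrt S := by ring
  rw [e2]
  have e3 : (1 : ℝ) + 24 * (1 + 1 / γ0) + 144 * Λ ^ 2 * (1 + 1 / γ0 + 1 / γ0) =
      1 + z0C γ0 + z1C Λ γ0 := rfl
  have e4 : (24 : ℝ) * (1 + 1 / γ0) = z0C γ0 := rfl
  rw [e3, e4]
  linarith

/-- second and third error terms -/
theorem EHyp.j2_le (D : EHyp μ ν eig W0 W1 a lam Λ m1 BV B A γ0 S) (hnb : p.nb = 0)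
    (hγ : 0 < γ0) (hN : 1 ≤ N) (hT : p.nc * p.T ≤ N) {K bb B' : ℝ} (hK : 0 < K)
    {v : (Fin N → Bool) → Bool → ℝ} (hv : ∀ σ c, |v σ c| ≤ B') :
    ∫ q in GP N, TLaw.ST (n := n) eig W0 W1 a lam
      (fun q _ w => exK K eig m1 (a (Fin.last N)) bb v q w) q ∂(rho μ) ≤
      (1 / K) * ((1 + 2 * Λ) * (1 + z0C γ0 + z1C Λ γ0) + B' + |bb| +
        Real.sqrt (36 * (1 + A ^ 2) ^ 2)) := by
  have := D.pμ
  have := D.pν
  have hQ := D.momQ (n := n) hγ hnb (show 0 < N from hN) hT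
  exact (j2 (m1 := m1) stLaw hN D.he D.hm hQ hK (a (Fin.last N)) hv
    (fun q d => sm3 (n := n) eig W0 W1 a lam (cplS q.1 q.2) q.1 d (D.ha _))).2

theorem kapN_le (hS : 0 < S) (hN2 : (1 + Λ ^ 2) / N ≤ S ^ 2)
    (hmean : |(N : ℝ)⁻¹ * ∑ i : Fin N, eig i.castSucc - m1| ≤ S) : kapN eig Λ m1 ≤ 2 * S := by
  unfold kapN
  rw [Real.sqrt_le_left (by positivity)]
  have h3 : ((N : ℝ)⁻¹ * ∑ i, e0 eig i - m1) ^ 2 ≤ S ^ 2 := by
    rw [← sq_abs]
    exact pow_le_pow_left₀ (abs_nonneg _) hmean 2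
  nlinarith

theorem Cw_mono {B bb A2 B' bb' : ℝ} (hB : B ^ 2 ≤ B' ^ 2) (hbb : bb ^ 2 ≤ bb' ^ 2) :
    Cw Λ B bb A2 ≤ Cw Λ B' bb' A2 := by
  unfold Cw
  linarith

end

end Crest.Agent.R164.ED
end

-- ▼ part R164/EDq7
section

/-!
# Row 164, L side, module E-DIFF part q7 (helper562): choice of the constants
-/

set_option autoImplicit false

namespace Crest.Agent.R164.ED

open MeasureTheory ProbabilityTheory Filter
open Finset Crest.Agent.R141 Crest.Agent.R164 Crest.Agent.R164.PF Crest.Agent.R164.Haar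
open Crest.ProbabilityR.InvariantGlass

noncomputable section

/-- constants of the final estimate -/
def sMC (A : ℝ) : ℝ := Real.sqrt (MM A)
/-- constants of the final estimate -/
def thC (A ε : ℝ) : ℝ := ε / (64 * sMC A)
/-- constants of the final estimate -/
def cC (A ε : ℝ) : ℝ := 4 * sMC A / thC A ε
/-- constants of the final estimate -/
def CWC (Λ B A : ℝ) : ℝ := Cw Λ B B (A ^ 2)
/-- constants of the final estimate -/
def JC (Λ B A γ0 : ℝ) : ℝ :=
  (1 + 2 * Λ) * (1 + z0C γ0 + z1C Λ γ0) + B + B + Real.sqrt (36 * (1 + A ^ 2) ^ 2)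
/-- constants of the final estimate -/
def J1C (Λ BV A γ0 : ℝ) : ℝ := Real.sqrt (10 * (1 + Λ)) * Real.sqrt 28 *
        Real.sqrt (1 + z0C γ0 + z1C Λ γ0) + 4 * (1 + z0C γ0) + 15 * (CF Λ BV A / γ0)
/-- the requirement on `K` -/
def RK (Λ B A γ0 ε : ℝ) : ℝ :=
  cC A ε * (3 * JC Λ B A γ0 + (2 * Real.exp 1 + 1) * CWC Λ B A) + Real.exp 1 * CWC Λ B A
/-- the requirement on `η` -/
def RE (Λ BV A γ0 ε K : ℝ) : ℝ :=
  cC A ε * (3 * J1C Λ BV A γ0 + Real.exp (2 * (K + 1)) *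
    (3 * (1360 * (1 + Λ) ^ 3 + (9 + 2 * CF Λ BV A)) + 2)) +
  Real.exp (2 * (K + 1)) * (1360 * (1 + Λ) ^ 3 + (9 + 2 * CF Λ BV A) + 1)
/-- the requirement on `N` -/
def RN (p : Par) (Λ BV B A K : ℝ) : ℝ :=
  1000 * sMC A + p.nc * p.T * (Real.sqrt (cT p) * (1 + |A|)) + p.nc * p.T +
  (p.nc * p.T) ^ 2 * p.τ +
  500 * (2 * (Λ / 2 + BV + (A ^ 2 + 1) / 2) + 2 * cP p + (B + (K + 1)))

variable {Λ BV B A γ0 ε K : ℝ}

theorem sMC_pos : 0 < sMC A := Real.sqrt_pos.2 (lt_of_lt_of_le one_pos (one_le_MM A))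

theorem thC_pos (hε : 0 < ε) : 0 < thC A ε := by
  have := sMC_pos (A := A)
  unfold thC
  positivity

theorem cC_pos (hε : 0 < ε) : 0 < cC A ε := by
  have := sMC_pos (A := A)
  have := thC_pos (A := A) hε
  unfold cC
  positivity

theorem z0C_nonneg (hγ : 0 < γ0) : 0 ≤ z0C γ0 := by unfold z0C; positivity

theorem z1C_nonneg (hγ : 0 < γ0) : 0 ≤ z1C Λ γ0 := by unfold z1C; positivity

theorem CWC_nonneg : 0 ≤ CWC Λ B A := by unfold CWC Cw; positivity

theorem JC_nonneg (hΛ : 0 ≤ Λ) (hB : 0 ≤ B) (hγ : 0 < γ0) : 0 ≤ JC Λ B A γ0 := by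
  have := z0C_nonneg hγ
  have := z1C_nonneg (Λ := Λ) hγ
  unfold JC
  positivity

theorem CF_nonneg (hΛ : 0 ≤ Λ) (hBV : 0 ≤ BV) : 0 ≤ CF Λ BV A := by unfold CF; positivity

theorem J1C_nonneg (hΛ : 0 ≤ Λ) (hBV : 0 ≤ BV) (hγ : 0 < γ0) : 0 ≤ J1C Λ BV A γ0 := by
  have := z0C_nonneg hγ
  have := CF_nonneg (A := A) hΛ hBV
  unfold J1C
  positivity


theorem RE_nonneg (hΛ : 0 ≤ Λ) (hBV : 0 ≤ BV) (hγ : 0 < γ0) (hε : 0 < ε) :
    0 ≤ RE Λ BV A γ0 ε K := by
  have := cC_pos (A := A) hε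
  have := J1C_nonneg (A := A) hΛ hBV hγ
  have := CF_nonneg (A := A) hΛ hBV
  unfold RE
  positivity

/-- the choice of `η` -/
def etaC (Λ BV A γ0 ε K : ℝ) : ℝ := min 1 (((ε / 8) / (RE Λ BV A γ0 ε K + 1)) ^ 2)

theorem etaC_pos (hΛ : 0 ≤ Λ) (hBV : 0 ≤ BV) (hγ : 0 < γ0) (hε : 0 < ε) :
    0 < etaC Λ BV A γ0 ε K := by
  have := RE_nonneg (A := A) (K := K) hΛ hBV hγ hε
  unfold etaC
  exact lt_min one_pos (by positivity)

theorem etaC_le_one : etaC Λ BV A γ0 ε K ≤ 1 := min_le_left _ _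

theorem sqrt_etaC (hΛ : 0 ≤ Λ) (hBV : 0 ≤ BV) (hγ : 0 < γ0) (hε : 0 < ε) :
    Real.sqrt (etaC Λ BV A γ0 ε K) * RE Λ BV A γ0 ε K ≤ ε / 8 := by
  have h := RE_nonneg (A := A) (K := K) hΛ hBV hγ hε
  have h1 : Real.sqrt (etaC Λ BV A γ0 ε K) ≤ (ε / 8) / (RE Λ BV A γ0 ε K + 1) := by
    rw [Real.sqrt_le_left (by positivity)]
    exact min_le_right _ _
  calc Real.sqrt (etaC Λ BV A γ0 ε K) * RE Λ BV A γ0 ε K ≤
      (ε / 8) / (RE Λ BV A γ0 ε K + 1) * (RE Λ BV A γ0 ε K + 1) :=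
        mul_le_mul h1 (by linarith) h (by positivity)
    _ = ε / 8 := by field_simp

variable {p : Par} {N n : ℕ} {μ : Measure (Mat (Fin N))} {ν : Measure (Mat (Fin (N + 1)))}
variable {eig : Fin (N + 1) → ℝ} {W0 : (Fin N → Bool) → ℝ} {W1 : (Fin (N + 1) → Bool) → ℝ}
  {a lam : Fin (N + 1) → Fin p.nc → ℝ} {m1 S cs bb : ℝ} {Δ : (Fin N → Bool) → ℝ}

/-- what is needed of `N` -/
structure NOK (p : Par) (N : ℕ) (Λ BV B A ε K S : ℝ) : Prop where
  h1 : 1 ≤ N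
  hT : p.nc * p.T ≤ N
  hc : cP p ≤ N
  h2 : (1 + Λ ^ 2) / N ≤ S ^ 2
  hR : RN p Λ BV B A K ≤ (ε / 8) * ((N : ℝ) + 1)

theorem fin_alg {c a1 a2 a3 a4 a5 x1 x2 g e : ℝ} (hc : 0 ≤ c) (q1 : 2 * a2 + a3 + a5 ≤ x1)
    (q3 : 3 * a1 + a4 ≤ x2) (q2 : c * x1 ≤ e) (q4 : c * x2 ≤ e) (q6 : g ≤ e) :
    c * (3 * a1 + 2 * a2 + a3 + (a4 + a5)) + 2 * e + g ≤ 5 * e := by
  have r1 := mul_le_mul_of_nonneg_left q1 hc
  have r2 := mul_le_mul_of_nonneg_left q3 hc
  have e1 : c * (3 * a1 + 2 * a2 + a3 + (a4 + a5)) =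
    c * (2 * a2 + a3 + a5) + c * (3 * a1 + a4) := by ring
  rw [e1]
  linarith

set_option maxHeartbeats 2000000 in
/-- the error of the magnetisations -/
theorem mag_final (h2 : M2P) (hnb : p.nb = 0) (hγ : 0 < γ0) (hε : 0 < ε) (hΛ : 0 ≤ Λ)
    (hBV : 0 ≤ BV) (hB : 0 ≤ B) (hK1 : 1 ≤ K) (hK : RK Λ B A γ0 ε ≤ (ε / 8) * K)
    (hS : 0 < S) (hS1 : S ≤ 1) (hSR : Real.sqrt S * RE Λ BV A γ0 ε K ≤ ε / 8)
    (hNN : NOK p N Λ BV B A ε K S)
    (D : EHyp μ ν eig W0 W1 a lam Λ m1 BV B A γ0 S)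
    (H : DHyp μ n eig W0 W1 a lam cs bb B Δ S)
    (hmean : |(N : ℝ)⁻¹ * ∑ i : Fin N, eig i.castSucc - m1| ≤ S)
    (h : OU p N n × LS p n → ℝ)
    (hMX : ∀ᵐ q ∂(rho μ), ∀ d, eE (stQ (n := n) (HN eig W0 a lam q.1)
      (HN1 eig W1 a lam (cplS q.1 q.2)) d) (fun w => h w ^ 2) ≤ MM A)
    (hMY : ∀ᵐ q ∂(rho μ), ∀ d, eE (tl (stP p N n (HN eig W0 a lam q.1) d) (stF p N n) p.xs
      (fun w => psi K (redB (WX eig m1 (a (Fin.last N)) bb (fun _ _ => 0) q.1 q.2) w)))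
      (fun w => h w ^ 2) ≤ MM A) :
    |∫ q, stM n eig W0 W1 a lam h q ∂(rho μ) -
      ∫ q, stT n eig W0 a lam m1 (a (Fin.last N)) bb K h q ∂(rho μ)| ≤ 5 * (ε / 8) := by
  have := D.pμ
  have := D.pν
  have hK0 : 0 < K := by linarith
  have hC := CF_nonneg (A := A) hΛ hBV
  have hED := D.edat (n := n) h2 hnb hNN.h1 hNN.hc hS hS1 hC
  have hj1 := D.j1_le (n := n) h2 hnb hγ hNN.h1 hNN.hT hNN.hc hS hS1 hC hNN.h2 hmean
  have hj2 := D.j2_le (n := n) hnb hγ hNN.h1 hNN.hT hK0 (bb := 0) D.hv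
  have hj3 := D.j2_le (n := n) hnb hγ hNN.h1 hNN.hT hK0 (bb := bb) (B' := 0)
    (v := fun _ _ => 0) (fun σ c => by simp)
  obtain ⟨Dm, hDm⟩ : ∃ Dm : ℝ, ∀ σ, Δ σ ≤ Dm := by
    obtain ⟨σ0, -, h0⟩ := Finset.exists_max_image (univ : Finset (Fin N → Bool)) Δ univ_nonempty
    exact ⟨Δ σ0, fun σ => h0 σ (mem_univ _)⟩
  have hy : eE (lsP p n) (fun l => yb (a (Fin.last N)) l ^ 2) ≤ A ^ 2 :=
    (sm4 (a (Fin.last N))).trans (D.ha _)
  have hmain := mag_int (n := n) hED (B := B) (A2 := A ^ 2) (M := MM A) (θ := thC A ε) hK0 H.h0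
    hDm H.hΔ D.hv H.avg hy (sq_nonneg _) h (one_le_MM A) (thC_pos hε) hMX hMY hj1 hj2 hj3
  refine hmain.trans ?_
  have hkap := kapN_le (eig := eig) (Λ := Λ) (m1 := m1) hS hNN.h2 hmean
  have hSs : S ≤ Real.sqrt S := Real.le_sqrt_of_sq_le (by nlinarith)
  have hsS := Real.sqrt_nonneg S
  have hE := Real.exp_pos (2 * (K + 1))
  have hc := cC_pos (A := A) hε
  have hsM := sMC_pos (A := A)
  have hCW := CWC_nonneg (Λ := Λ) (B := B) (A := A)
  have hJ := JC_nonneg (A := A) hΛ hB hγ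
  have hJ1 := J1C_nonneg (A := A) hΛ hBV hγ
  have hZ : 0 ≤ (1 + 2 * Λ) * (1 + z0C γ0 + z1C Λ γ0) := by
    have := z0C_nonneg hγ
    have := z1C_nonneg (Λ := Λ) hγ
    positivity
  -- the parts of `RK`
  have p2 : (1 + 2 * Λ) * (1 + z0C γ0 + z1C Λ γ0) + B + |(0:ℝ)| +
      Real.sqrt (36 * (1 + A ^ 2) ^ 2) ≤ JC Λ B A γ0 := by
    unfold JC
    rw [abs_zero]
    linarith
  have p3 : (1 + 2 * Λ) * (1 + z0C γ0 + z1C Λ γ0) + 0 + |bb| +
      Real.sqrt (36 * (1 + A ^ 2) ^ 2) ≤ JC Λ B A γ0 := by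
    unfold JC
    have := H.hbb
    linarith
  have p4 : Cw Λ B 0 (A ^ 2) ≤ CWC Λ B A :=
    Cw_mono le_rfl (by rw [zero_pow two_ne_zero]; exact sq_nonneg _)
  have p5 : Cw Λ 0 bb (A ^ 2) ≤ CWC Λ B A := by
    refine Cw_mono (by rw [zero_pow two_ne_zero]; exact sq_nonneg _) ?_
    rw [← sq_abs bb]
    exact pow_le_pow_left₀ (abs_nonneg _) H.hbb 2
  have hK' : (1 / K) * RK Λ B A γ0 ε ≤ ε / 8 := by
    rw [one_div, ← div_eq_inv_mul, div_le_iff₀ hK0]
    exact hK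
  have q1 : 2 * ((1 / K) * ((1 + 2 * Λ) * (1 + z0C γ0 + z1C Λ γ0) + B + |(0:ℝ)| +
      Real.sqrt (36 * (1 + A ^ 2) ^ 2))) + (1 / K) * ((1 + 2 * Λ) * (1 + z0C γ0 + z1C Λ γ0) +
      0 + |bb| + Real.sqrt (36 * (1 + A ^ 2) ^ 2)) +
      1 / K * (2 * Real.exp 1 * Cw Λ B 0 (A ^ 2) + Cw Λ 0 bb (A ^ 2)) ≤
      (1 / K) * (3 * JC Λ B A γ0 + (2 * Real.exp 1 + 1) * CWC Λ B A) := by
    have hk : 0 ≤ 1 / K := by positivity
    have he := (Real.exp_pos 1).le
    have r4 := mul_le_mul_of_nonneg_left p4 (by positivity : 0 ≤ 2 * Real.exp 1)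
    have r5 := mul_le_mul_of_nonneg_left (show 2 * ((1 + 2 * Λ) * (1 + z0C γ0 + z1C Λ γ0) + B +
      |(0:ℝ)| + Real.sqrt (36 * (1 + A ^ 2) ^ 2)) + ((1 + 2 * Λ) * (1 + z0C γ0 + z1C Λ γ0) +
      0 + |bb| + Real.sqrt (36 * (1 + A ^ 2) ^ 2)) + (2 * Real.exp 1 * Cw Λ B 0 (A ^ 2) +
      Cw Λ 0 bb (A ^ 2)) ≤ 3 * JC Λ B A γ0 + (2 * Real.exp 1 + 1) * CWC Λ B A by linarith) hk
    linarith
  have q2 : cC A ε * ((1 / K) * (3 * JC Λ B A γ0 + (2 * Real.exp 1 + 1) * CWC Λ B A)) ≤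
      ε / 8 := by
    refine le_trans ?_ hK'
    have e : cC A ε * ((1 / K) * (3 * JC Λ B A γ0 + (2 * Real.exp 1 + 1) * CWC Λ B A)) =
        (1 / K) * (cC A ε * (3 * JC Λ B A γ0 + (2 * Real.exp 1 + 1) * CWC Λ B A)) := by ring
    rw [e]
    refine mul_le_mul_of_nonneg_left ?_ (by positivity)
    unfold RK
    have : 0 ≤ Real.exp 1 * CWC Λ B A := by positivity
    linarith
  -- the parts of `RE`
  have q3 : 3 * (Real.sqrt S * J1C Λ BV A γ0) + Real.exp (2 * (K + 1)) *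
      (3 * (680 * (1 + Λ) ^ 3 * kapN eig Λ m1 + (9 + 2 * CF Λ BV A) * Real.sqrt S) + 2 * S) ≤
      Real.sqrt S * (3 * J1C Λ BV A γ0 + Real.exp (2 * (K + 1)) *
        (3 * (1360 * (1 + Λ) ^ 3 + (9 + 2 * CF Λ BV A)) + 2)) := by
    have r1 : 680 * (1 + Λ) ^ 3 * kapN eig Λ m1 ≤ 680 * (1 + Λ) ^ 3 * (2 * Real.sqrt S) :=
      mul_le_mul_of_nonneg_left (by linarith) (by positivity)
    have r2 := mul_le_mul_of_nonneg_left (show 3 * (680 * (1 + Λ) ^ 3 * kapN eig Λ m1 +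
      (9 + 2 * CF Λ BV A) * Real.sqrt S) + 2 * S ≤ 3 * (680 * (1 + Λ) ^ 3 * (2 * Real.sqrt S) +
      (9 + 2 * CF Λ BV A) * Real.sqrt S) + 2 * Real.sqrt S by linarith) hE.le
    have e : Real.sqrt S * (3 * J1C Λ BV A γ0 + Real.exp (2 * (K + 1)) *
        (3 * (1360 * (1 + Λ) ^ 3 + (9 + 2 * CF Λ BV A)) + 2)) =
        3 * (Real.sqrt S * J1C Λ BV A γ0) + Real.exp (2 * (K + 1)) *
        (3 * (680 * (1 + Λ) ^ 3 * (2 * Real.sqrt S) +
      (9 + 2 * CF Λ BV A) * Real.sqrt S) + 2 * Real.sqrt S) := by ring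
    rw [e]
    linarith
  have q4 : cC A ε * (Real.sqrt S * (3 * J1C Λ BV A γ0 + Real.exp (2 * (K + 1)) *
        (3 * (1360 * (1 + Λ) ^ 3 + (9 + 2 * CF Λ BV A)) + 2))) ≤ ε / 8 := by
    refine le_trans ?_ hSR
    have e : cC A ε * (Real.sqrt S * (3 * J1C Λ BV A γ0 + Real.exp (2 * (K + 1)) *
        (3 * (1360 * (1 + Λ) ^ 3 + (9 + 2 * CF Λ BV A)) + 2))) =
        Real.sqrt S * (cC A ε * (3 * J1C Λ BV A γ0 + Real.exp (2 * (K + 1)) *
        (3 * (1360 * (1 + Λ) ^ 3 + (9 + 2 * CF Λ BV A)) + 2))) := by ring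
    rw [e]
    refine mul_le_mul_of_nonneg_left ?_ hsS
    unfold RE
    have : 0 ≤ Real.exp (2 * (K + 1)) * (1360 * (1 + Λ) ^ 3 + (9 + 2 * CF Λ BV A) + 1) := by
      positivity
    linarith
  -- the parts independent of `S`, `K`
  have q5 : 16 * Real.sqrt (MM A) * thC A ε = 2 * (ε / 8) := by
    show 16 * sMC A * (ε / (64 * sMC A)) = 2 * (ε / 8)
    field_simp
    ring
  have hN1 : (0:ℝ) < (N : ℝ) + 1 := by positivity
  have q6 : (Real.sqrt (MM A) + Real.sqrt (MM A)) * (500 / ((N : ℝ) + 1) ^ 2) ≤ ε / 8 := by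
    have e : (Real.sqrt (MM A) + Real.sqrt (MM A)) * (500 / ((N : ℝ) + 1) ^ 2) =
        (1000 * sMC A / ((N : ℝ) + 1)) / ((N : ℝ) + 1) := by
      show (sMC A + sMC A) * (500 / ((N : ℝ) + 1) ^ 2) = _
      field_simp
      ring
    rw [e]
    have r1 : 1000 * sMC A / ((N : ℝ) + 1) ≤ ε / 8 := by
      rw [div_le_iff₀ hN1]
      refine le_trans ?_ hNN.hR
      unfold RN
      have := cP_nonneg p
      have := p.hτ0
      have : 0 ≤ Real.sqrt (cT p) := Real.sqrt_nonneg _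
      have : 0 ≤ (p.nc : ℝ) * p.T * (Real.sqrt (cT p) * (1 + |A|)) + p.nc * p.T +
        (p.nc * p.T) ^ 2 * p.τ +
        500 * (2 * (Λ / 2 + BV + (A ^ 2 + 1) / 2) + 2 * cP p + (B + (K + 1))) := by positivity
      linarith
    have r2 : 1000 * sMC A / ((N : ℝ) + 1) / ((N : ℝ) + 1) ≤ 1000 * sMC A / ((N : ℝ) + 1) := by
      refine div_le_self (by positivity) ?_
      have : (0:ℝ) ≤ N := by positivity
      linarith
    exact r2.trans r1
  have e7 : 4 * Real.sqrt (MM A) / thC A ε = cC A ε := rfl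
  rw [q5, e7]
  have e8 : Real.sqrt (10 * (1 + Λ)) * Real.sqrt 28 * Real.sqrt (1 + z0C γ0 + z1C Λ γ0) +
      4 * (1 + z0C γ0) + 15 * (CF Λ BV A / γ0) = J1C Λ BV A γ0 := rfl
  rw [e8]
  exact fin_alg hc.le q1 q3 q2 q4 q6

end

end Crest.Agent.R164.ED
end

-- ▼ part R164/EDq8
section

/-!
# Row 164, L side, module E-DIFF part q8 (helper562): `EDIFF0` from the moment bound `M2P`
-/

set_option autoImplicit false

namespace Crest.Agent.R164.ED

open MeasureTheory ProbabilityTheory Filter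
open Finset Crest.Agent.R141 Crest.Agent.R164 Crest.Agent.R164.PF Crest.Agent.R164.Haar
open Crest.ProbabilityR.InvariantGlass

noncomputable section

variable {Λ BV B A γ0 ε K : ℝ}
variable {p : Par} {N n : ℕ} {μ : Measure (Mat (Fin N))} {ν : Measure (Mat (Fin (N + 1)))}
variable {eig : Fin (N + 1) → ℝ} {W0 : (Fin N → Bool) → ℝ} {W1 : (Fin (N + 1) → Bool) → ℝ}
  {a lam : Fin (N + 1) → Fin p.nc → ℝ} {m1 S cs bb : ℝ} {Δ : (Fin N → Bool) → ℝ}

theorem RN_parts (hΛ : 0 ≤ Λ) (hBV : 0 ≤ BV) (hB : 0 ≤ B) (hK : 0 ≤ K) :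
    0 ≤ 1000 * sMC A ∧ (0:ℝ) ≤ p.nc * p.T * (Real.sqrt (cT p) * (1 + |A|)) ∧
      (0:ℝ) ≤ p.nc * p.T ∧ (0:ℝ) ≤ (p.nc * p.T) ^ 2 * p.τ ∧
      0 ≤ 500 * (2 * (Λ / 2 + BV + (A ^ 2 + 1) / 2) + 2 * cP p + (B + (K + 1))) := by
  have h1 := sMC_pos (A := A)
  have h2 := cP_nonneg p
  have h3 := p.hτ0
  have h4 : 0 ≤ Real.sqrt (cT p) := Real.sqrt_nonneg _
  refine ⟨by positivity, by positivity, by positivity, by positivity, by positivity⟩

/-- a part of `RN` over `N + 1` -/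
theorem part_le {R x e t : ℝ} (ht : 0 < t) (h1 : x ≤ R) (h2 : R ≤ e * t) : x / t ≤ e := by
  rw [div_le_iff₀ ht]
  exact h1.trans h2

set_option maxHeartbeats 2000000 in
/-- **(O1), final** -/
theorem O1_final (h2 : M2P) (hnb : p.nb = 0) (hγ : 0 < γ0) (hε : 0 < ε) (hΛ : 0 ≤ Λ)
    (hBV : 0 ≤ BV) (hB : 0 ≤ B) (hK1 : 1 ≤ K) (hK : RK Λ B A γ0 ε ≤ (ε / 8) * K)
    (hS : 0 < S) (hS1 : S ≤ 1) (hSR : Real.sqrt S * RE Λ BV A γ0 ε K ≤ ε / 8)
    (hNN : NOK p N Λ BV B A ε K S)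
    (D : EHyp μ ν eig W0 W1 a lam Λ m1 BV B A γ0 S)
    (H : DHyp μ n eig W0 W1 a lam cs bb B Δ S)
    (hmean : |(N : ℝ)⁻¹ * ∑ i : Fin N, eig i.castSucc - m1| ≤ S) :
    cs + cavF μ n (HN eig W0 a lam) eig m1 (a (Fin.last N)) bb 0 K ≤
      IP ν n (HN1 eig W1 a lam) - IP μ n (HN eig W0 a lam) + ε := by
  have := D.pμ
  have := D.pν
  have hK0 : 0 < K := by linarith
  have hN' : 0 < N := hNN.h1
  have hN1 : (0:ℝ) < (N : ℝ) + 1 := by positivity
  have hC := CF_nonneg (A := A) hΛ hBV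
  have hED := D.edat (n := n) h2 hnb hNN.h1 hNN.hc hS hS1 hC
  obtain ⟨Dm, hDm⟩ : ∃ Dm : ℝ, ∀ σ, Δ σ ≤ Dm := by
    obtain ⟨σ0, -, h0⟩ := Finset.exists_max_image (univ : Finset (Fin N → Bool)) Δ univ_nonempty
    exact ⟨Δ σ0, fun σ => h0 σ (mem_univ _)⟩
  have hy : eE (lsP p n) (fun l => yb (a (Fin.last N)) l ^ 2) ≤ A ^ 2 :=
    (sm4 (a (Fin.last N))).trans (D.ha _)
  have hae := tt0_ae (n := n) eig W0 W1 a lam hnb hN' D.rμ
    (c0 := (Λ / 2 + BV + (A ^ 2 + S) / 2) * N + cP p)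
    (c1 := (Λ / 2 + BV + (A ^ 2 + S) / 2) * ((N + 1 : ℕ) : ℝ) + cP p)
    (fun V hV d => abs_Phi_le2 (n := n) hnb (eig := fun i : Fin N => eig i.castSucc) (W := W0)
      (a := fun i => a i.castSucc) (lam := fun i => lam i.castSucc) (fun i => D.he _) D.hW0
      (fun i => D.ha _) (fun i => D.hl _) hV d)
    (fun U hU d => abs_Phi_le2 (n := n) hnb (eig := eig) (W := W1) (a := a) (lam := lam) D.he D.hW1
      D.ha D.hl hU d)
  have hmain := O1_core (n := n) (W1 := W1) hED (cs := cs) (bb := bb) (K := K) (A2 := A ^ 2)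
    (δ := S) hK0 H.h0 hDm H.hΔ H.avg hy (sq_nonneg _) hae
  have htt := (abs_le.1 (tt0 (n := n) eig W0 W1 a lam hnb hN' D.rμ D.rν)).1
  have hkap := kapN_le (eig := eig) (Λ := Λ) (m1 := m1) hS hNN.h2 hmean
  have hSs : S ≤ Real.sqrt S := Real.le_sqrt_of_sq_le (by nlinarith)
  have hsS := Real.sqrt_nonneg S
  have hE := Real.exp_pos (2 * (K + 1))
  have hc := cC_pos (A := A) hε
  have hCW := CWC_nonneg (Λ := Λ) (B := B) (A := A)
  have hJ := JC_nonneg (A := A) hΛ hB hγ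
  have hJ1 := J1C_nonneg (A := A) hΛ hBV hγ
  obtain ⟨n1, n2, n3, n4, n5⟩ := RN_parts (p := p) (A := A) (K := K) hΛ hBV hB hK0.le
  -- `RE` part
  have q3 : Real.exp (2 * (K + 1)) * (680 * (1 + Λ) ^ 3 * kapN eig Λ m1 +
        (9 + 2 * CF Λ BV A) * Real.sqrt S + S) ≤ ε / 8 := by
    have r1 : 680 * (1 + Λ) ^ 3 * kapN eig Λ m1 ≤ 680 * (1 + Λ) ^ 3 * (2 * Real.sqrt S) :=
      mul_le_mul_of_nonneg_left (by linarith) (by positivity)
    have r2 := mul_le_mul_of_nonneg_left (show 680 * (1 + Λ) ^ 3 * kapN eig Λ m1 +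
        (9 + 2 * CF Λ BV A) * Real.sqrt S + S ≤ 680 * (1 + Λ) ^ 3 * (2 * Real.sqrt S) +
        (9 + 2 * CF Λ BV A) * Real.sqrt S + Real.sqrt S by linarith) hE.le
    refine r2.trans (le_trans ?_ hSR)
    have e : Real.exp (2 * (K + 1)) * (680 * (1 + Λ) ^ 3 * (2 * Real.sqrt S) +
        (9 + 2 * CF Λ BV A) * Real.sqrt S + Real.sqrt S) = Real.sqrt S *
        (Real.exp (2 * (K + 1)) * (1360 * (1 + Λ) ^ 3 + (9 + 2 * CF Λ BV A) + 1)) := by ring
    rw [e]
    refine mul_le_mul_of_nonneg_left ?_ hsS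
    unfold RE
    have : 0 ≤ cC A ε * (3 * J1C Λ BV A γ0 + Real.exp (2 * (K + 1)) *
      (3 * (1360 * (1 + Λ) ^ 3 + (9 + 2 * CF Λ BV A)) + 2)) := by positivity
    linarith
  -- `RK` part
  have q4 : Real.exp 1 / K * Cw Λ 0 bb (A ^ 2) ≤ ε / 8 := by
    have p5 : Cw Λ 0 bb (A ^ 2) ≤ CWC Λ B A := by
      refine Cw_mono (by rw [zero_pow two_ne_zero]; exact sq_nonneg _) ?_
      rw [← sq_abs bb]
      exact pow_le_pow_left₀ (abs_nonneg _) H.hbb 2
    have r1 := mul_le_mul_of_nonneg_left p5 (by positivity : 0 ≤ Real.exp 1 / K)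
    refine r1.trans ?_
    rw [div_mul_eq_mul_div, div_le_iff₀ hK0]
    refine le_trans ?_ hK
    unfold RK
    have : 0 ≤ cC A ε * (3 * JC Λ B A γ0 + (2 * Real.exp 1 + 1) * CWC Λ B A) := by positivity
    linarith
  -- `RN` parts
  have q5 : ((p.nc : ℝ) * p.T) ^ 2 * p.τ / ((N : ℝ) + 1) ≤ ε / 8 :=
    part_le hN1 (by unfold RN; linarith) hNN.hR
  have q6 : ((Λ / 2 + BV + (A ^ 2 + S) / 2) * N + cP p +
      ((Λ / 2 + BV + (A ^ 2 + S) / 2) * ((N + 1 : ℕ) : ℝ) + cP p) + (|cs| + (K + 1))) *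
      (500 / ((N : ℝ) + 1) ^ 2) ≤ ε / 8 := by
    have hcs := H.hcs
    have hcP := cP_nonneg p
    set T0 : ℝ := Λ / 2 + BV + (A ^ 2 + 1) / 2 with hT0
    have hT0n : 0 ≤ T0 := by rw [hT0]; positivity
    have hT1 : Λ / 2 + BV + (A ^ 2 + S) / 2 ≤ T0 := by rw [hT0]; linarith
    have hNn : (0:ℝ) ≤ N := by positivity
    have r1 : (Λ / 2 + BV + (A ^ 2 + S) / 2) * N + cP p +
      ((Λ / 2 + BV + (A ^ 2 + S) / 2) * ((N + 1 : ℕ) : ℝ) + cP p) + (|cs| + (K + 1)) ≤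
      (2 * T0 + 2 * cP p + (B + (K + 1))) * ((N : ℝ) + 1) := by
      push_cast
      have r2 := mul_le_mul_of_nonneg_right hT1 hNn
      have r3 := mul_le_mul_of_nonneg_right hT1 hN1.le
      have r4 : 0 ≤ (2 * cP p + (B + (K + 1))) * N := by positivity
      nlinarith
    have r5 : (Λ / 2 + BV + (A ^ 2 + S) / 2) * N + cP p +
      ((Λ / 2 + BV + (A ^ 2 + S) / 2) * ((N + 1 : ℕ) : ℝ) + cP p) + (|cs| + (K + 1)) *
      1 ≤ (2 * T0 + 2 * cP p + (B + (K + 1))) * ((N : ℝ) + 1) := by rw [mul_one]; exact r1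
    have r6 := mul_le_mul_of_nonneg_right r1 (by positivity : 0 ≤ 500 / ((N : ℝ) + 1) ^ 2)
    refine r6.trans ?_
    have e : (2 * T0 + 2 * cP p + (B + (K + 1))) * ((N : ℝ) + 1) * (500 / ((N : ℝ) + 1) ^ 2) =
        500 * (2 * T0 + 2 * cP p + (B + (K + 1))) / ((N : ℝ) + 1) := by
      field_simp
    rw [e]
    exact part_le hN1 (by unfold RN; linarith) hNN.hR
  have e1 : ∫ q, Ed p N (fun d => aE (stP p N n (HN eig W0 a lam q.1) d) (stF p N n) p.xs
        (Xr (HN eig W0 a lam q.1) (HN1 eig W1 a lam (cplS q.1 q.2)))) ∂(rho μ) =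
      ∫ q, stA n eig W0 W1 a lam q ∂(rho μ) := rfl
  rw [e1] at htt
  linarith

set_option maxHeartbeats 1000000 in
/-- **E-DIFF in `ED` names**, from the moment bound -/
theorem ediff0_of (h2 : M2P) : EDIFF0 := by
  intro Λ BV B A γ0 hγ
  have hMM := one_le_MM A
  refine ⟨6 * MM A, by linarith, ?_⟩
  intro ε hε
  by_cases hs : 0 ≤ Λ ∧ 0 ≤ BV ∧ 0 ≤ B
  swap
  · -- the hypotheses are contradictory
    refine ⟨0, fun K _ => ⟨1, one_pos, fun p _ => ⟨0, fun N _ n _ μ ν eig W0 W1 a lam m1 cs bb Δ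
      D H _ => ?_⟩⟩⟩
    exfalso
    apply hs
    refine ⟨(abs_nonneg _).trans (D.he (Fin.last N)), ?_, (abs_nonneg _).trans
      (D.hv (fun _ => true) true)⟩
    have h1 := (abs_nonneg _).trans (D.hW1 fun _ => true)
    have h3 : (0:ℝ) < ((N + 1 : ℕ) : ℝ) := by positivity
    exact nonneg_of_mul_nonneg_left h1 h3
  obtain ⟨hΛ, hBV, hB⟩ := hs
  refine ⟨max 1 (8 / ε * RK Λ B A γ0 ε), fun K hK => ?_⟩
  have hK1 : 1 ≤ K := (le_max_left _ _).trans hK
  have hK0 : 0 < K := by linarith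
  have hK2 : RK Λ B A γ0 ε ≤ (ε / 8) * K := by
    have h1 := (le_max_right 1 (8 / ε * RK Λ B A γ0 ε)).trans hK
    have h3 := mul_le_mul_of_nonneg_left h1 (by positivity : 0 ≤ ε / 8)
    have e : ε / 8 * (8 / ε * RK Λ B A γ0 ε) = RK Λ B A γ0 ε := by field_simp
    rwa [e] at h3
  have hS : 0 < etaC Λ BV A γ0 ε K := etaC_pos hΛ hBV hγ hε
  have hS1 : etaC Λ BV A γ0 ε K ≤ 1 := etaC_le_one
  have hSR := sqrt_etaC (A := A) (K := K) hΛ hBV hγ hε
  refine ⟨etaC Λ BV A γ0 ε K, hS, fun p hnb => ?_⟩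
  set S := etaC Λ BV A γ0 ε K with hSdef
  -- the choice of `Na`
  obtain ⟨Na, hNa⟩ := exists_nat_ge (1 + p.nc * p.T + cP p + (1 + Λ ^ 2) / S ^ 2 +
    8 / ε * RN p Λ BV B A K)
  have hRN : 0 ≤ RN p Λ BV B A K := by
    obtain ⟨n1, n2, n3, n4, n5⟩ := RN_parts (p := p) (A := A) (K := K) hΛ hBV hB hK0.le
    unfold RN
    linarith
  refine ⟨Na, fun N hN n hn μ ν eig W0 W1 a lam m1 cs bb Δ D H hmean => ?_⟩
  have hNN : NOK p N Λ BV B A ε K S := by
    have hN2 : (Na : ℝ) ≤ N := by exact_mod_cast hN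
    have hcP := cP_nonneg p
    have t1 : 0 ≤ (1 + Λ ^ 2) / S ^ 2 := by positivity
    have t2 : 0 ≤ 8 / ε * RN p Λ BV B A K := by positivity
    have t3 : (0:ℝ) ≤ p.nc * p.T := by positivity
    have hN0 : (0:ℝ) < N := by linarith
    refine ⟨?_, ?_, ?_, ?_, ?_⟩
    · have : (1:ℝ) ≤ N := by linarith
      exact_mod_cast this
    · have : (p.nc : ℝ) * p.T ≤ N := by linarith
      exact_mod_cast this
    · linarith
    · rw [div_le_iff₀ hN0]
      have : (1 + Λ ^ 2) / S ^ 2 ≤ N := by linarith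
      rw [div_le_iff₀ (by positivity)] at this
      linarith
    · have h1 : 8 / ε * RN p Λ BV B A K ≤ (N : ℝ) + 1 := by linarith
      have h3 := mul_le_mul_of_nonneg_left h1 (by positivity : 0 ≤ ε / 8)
      have e : ε / 8 * (8 / ε * RN p Λ BV B A K) = RN p Λ BV B A K := by field_simp
      rwa [e] at h3
  have := D.pμ
  have := D.pν
  have hN' : 0 < N := hNN.h1
  have hN1 : (0:ℝ) < (N : ℝ) + 1 := by positivity
  obtain ⟨n1, n2, n3, n4, n5⟩ := RN_parts (p := p) (A := A) (K := K) hΛ hBV hB hK0.le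
  refine ⟨O1_final h2 hnb hγ hε hΛ hBV hB hK1 hK2 hS hS1 hSR hNN D H hmean, ?_, ?_⟩
  · intro g s hs
    have hg := abs_le_of_sum_sq (D.ha (Fin.last N)) g
    have hmag := mag_final h2 hnb hγ hε hΛ hBV hB hK1 hK2 hS hS1 hSR hNN D H hmean
      (fun w => zl w.2.1 g)
      (Eventually.of_forall fun q d => (sm2 (n := n) eig W0 W1 a lam (cplS q.1 q.2) q.1 d g).trans
        (MM_bound (by linarith)))
      (Eventually.of_forall fun q d => (sm1 hK0.le eig m1 (a (Fin.last N)) bb _ q.1 q.2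
        (HN eig W0 a lam q.1) d g).trans (MM_bound (by linarith)))
    refine (O2_core hnb hN' D.rμ D.rν hK0.le (D.ha _) g hmag s hs).trans ?_
    have q : (p.nc : ℝ) * p.T * (Real.sqrt (cT p) * (1 + |A|)) / ((N : ℝ) + 1) ≤ ε / 8 :=
      part_le hN1 (by unfold RN; linarith) hNN.hR
    refine add_le_add le_rfl (mul_le_mul_of_nonneg_left ?_ (abs_nonneg _))
    linarith
  · intro s hs
    have hmag := mag_final h2 hnb hγ hε hΛ hBV hB hK1 hK2 hS hS1 hSR hNN D H hmean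
      (fun _ : OU p N n × LS p n => 1)
      (Eventually.of_forall fun q d => by
        have h := eE_const (stQ_isProb (n := n) (HN eig W0 a lam q.1)
          (HN1 eig W1 a lam (cplS q.1 q.2)) d) ((1:ℝ) ^ 2)
        rw [h]
        simpa using one_le_MM A)
      (Eventually.of_forall fun q d => by
        have h := eE_const (tl_isProb (𝓕 := stF p N n) (stP_isProb (HN eig W0 a lam q.1) d)
          p.xs_expo.pos (fun w => psi K
            (redB (WX eig m1 (a (Fin.last N)) bb (fun _ _ => 0) q.1 q.2) w))) ((1:ℝ) ^ 2)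
        rw [h]
        simpa using one_le_MM A)
    refine (O3_core (A := A) hnb hN' D.rμ D.rν hK0.le hmag s hs).trans ?_
    have q : (p.nc : ℝ) * p.T / ((N : ℝ) + 1) ≤ ε / 8 :=
      part_le hN1 (by unfold RN; linarith) hNN.hR
    refine add_le_add le_rfl (mul_le_mul_of_nonneg_left ?_ (abs_nonneg _))
    linarith

end

end Crest.Agent.R164.ED
end

-- ▼ part R164/EDm
section

/-!
# Row 164, L side, module E-DIFF part m (helper562): second moment of the small fields, uniformly in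
the number of cells (`M2P`)
-/

set_option autoImplicit false

namespace Crest.Agent.R164.ED

open Finset Crest.Agent.R141 Crest.Agent.R164 Crest.Agent.R164.PF

noncomputable section

variable {p : Par} {M n : ℕ}

/-- exchange of the two indices of the coins -/
def swE : SY.FC p M n ≃ (Fin M → LC p n) where
  toFun c i g := c g i
  invFun c g i := c i g
  left_inv _ := rfl
  right_inv _ := rfl

theorem eE_uQ_sw (f : (Fin M → LC p n) → ℝ) :
    eE (uQ (SY.FC p M n)) (fun c => f (fun i g => c g i)) = eE (uQ (Fin M → LC p n)) f := by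
  rw [eE_uQ, eE_uQ, Fintype.card_congr (swE (p := p) (M := M) (n := n))]
  congr 1
  exact Equiv.sum_comp (swE (p := p) (M := M) (n := n)) f

theorem eE_exp_site {S : ℝ} (hS : 0 < S) {b : Fin p.nc → ℝ} (hb : ∑ g, b g ^ 2 ≤ S) (x : ℝ) :
    eE (uQ (LC p n)) (fun c => Real.exp (x * yq b c + 1 / (8 * S) * yq b c ^ 2)) ≤
      Real.exp (2 * S * x ^ 2 + Real.log 2) := by
  have hs := Real.sqrt_pos.2 hS
  have hss : Real.sqrt S ^ 2 = S := Real.sq_sqrt hS.le
  have h1 : ∀ s : ℝ, eE (uQ (LC p n)) (fun c => Real.exp (s * (yq b c / Real.sqrt S))) ≤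
      Real.exp (s ^ 2 / 2) := by
    intro s
    have h2 := eE_exp_yq (n := n) b (s / Real.sqrt S)
    have e : (fun c : LC p n => Real.exp (s * (yq b c / Real.sqrt S))) =
        fun c => Real.exp (s / Real.sqrt S * yq b c) := by
      funext c; congr 1; ring
    rw [e]
    refine h2.trans (Real.exp_le_exp.2 ?_)
    rw [div_pow, hss]
    have h3 : s ^ 2 / S * ∑ g, b g ^ 2 ≤ s ^ 2 / S * S :=
      mul_le_mul_of_nonneg_left hb (by positivity)
    have h4 : s ^ 2 / S * S = s ^ 2 := by field_simp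
    rw [h4] at h3
    linarith
  have h2 := subG_exp_sq (uQ_isProb (Λ := LC p n)) h1
  have h3 : ∀ c : LC p n, Real.exp (x * yq b c + 1 / (8 * S) * yq b c ^ 2) ≤
      Real.exp (2 * S * x ^ 2) * Real.exp (1 / 4 * (yq b c / Real.sqrt S) ^ 2) := by
    intro c
    rw [← Real.exp_add]
    apply Real.exp_le_exp.2
    rw [div_pow, hss]
    have h4 : 0 ≤ (4 * S * x - yq b c) ^ 2 / (8 * S) := by positivity
    have e : (4 * S * x - yq b c) ^ 2 / (8 * S) =
        2 * S * x ^ 2 + 1 / 4 * (yq b c ^ 2 / S) - (x * yq b c + 1 / (8 * S) * yq b c ^ 2) := by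
      field_simp; ring
    linarith
  refine (eE_mono uQ_isProb h3).trans ?_
  rw [eE_smul, Real.exp_add, Real.exp_log (by norm_num)]
  exact mul_le_mul_of_nonneg_left h2 (Real.exp_pos _).le

/-- exponential moment of the small fields -/
theorem eE_small_exp {S : ℝ} (hS : 0 < S) {lam : Fin M → Fin p.nc → ℝ}
    (hl : ∀ i, ∑ g, lam i g ^ 2 ≤ S) (x : Fin M → ℝ) :
    eE (uQ (SY.FC p M n)) (fun c => Real.exp (∑ i, (x i * (∑ g, lam i g * SY.zf c g i) +
      1 / (8 * S) * (∑ g, lam i g * SY.zf c g i) ^ 2))) ≤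
      Real.exp (∑ i, (2 * S * x i ^ 2 + Real.log 2)) := by
  have e : (fun c : SY.FC p M n => Real.exp (∑ i, (x i * (∑ g, lam i g * SY.zf c g i) +
      1 / (8 * S) * (∑ g, lam i g * SY.zf c g i) ^ 2))) = fun c =>
      (fun c' : Fin M → LC p n => ∏ i, (fun (i : Fin M) (l : LC p n) =>
        Real.exp (x i * yq (lam i) l + 1 / (8 * S) * yq (lam i) l ^ 2)) i (c' i))
          (fun i g => c g i) := by
    funext c
    rw [Real.exp_sum]
    rfl
  rw [e, eE_uQ_sw (fun c' : Fin M → LC p n => ∏ i, (fun (i : Fin M) (l : LC p n) =>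
        Real.exp (x i * yq (lam i) l + 1 / (8 * S) * yq (lam i) l ^ 2)) i (c' i)),
    eE_uQ_prod (κ := Fin M) (M := LC p n)
    (fun (i : Fin M) (l : LC p n) =>
        Real.exp (x i * yq (lam i) l + 1 / (8 * S) * yq (lam i) l ^ 2)), Real.exp_sum]
  exact Finset.prod_le_prod (fun i _ => eE_nonneg uQ_isProb fun _ => (Real.exp_pos _).le)
    fun i _ => eE_exp_site hS (hl i) (x i)

theorem abs_WW_le0 (hnb : p.nb = 0) (B : G.Base p M) (d : DD p M) (ω : G.Om B) :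
    |G.WW B d ω| ≤ cP p := by
  have h := abs_UU_sub_none B (fun _ => 0) d ω
  have e : G.WW B (fun _ => none) ω = 0 := by
    unfold G.WW
    have e1 : ∀ k : Stp p, G.cfac B none k ω = 0 := fun k => rfl
    have : IsEmpty (Fin p.nb) := by rw [hnb]; infer_instance
    simp only [e1, Finset.sum_const_zero, Finset.univ_eq_empty, Finset.sum_empty, add_zero]
  unfold G.UU at h
  rw [e] at h
  simpa using h

variable {eig : Fin M → ℝ} {W : (Fin M → Bool) → ℝ} {a lam : Fin M → Fin p.nc → ℝ}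

/-- the quadratic form of the small fields -/
def qφ (lam : Fin M → Fin p.nc → ℝ) (w : OU p M n) : ℝ :=
  ∑ i, (∑ g, lam i g * SY.zf w.1.2.2 g i) ^ 2

theorem log_prior_le2 (hnb : p.nb = 0) {b A S : ℝ} (hS : 0 < S) {h0 : (Fin M → Bool) → ℝ}
    (hh : ∀ σ, |h0 σ| ≤ b * M) {x : (Fin M → Bool) → Fin M → ℝ}
    (hx : ∀ σ, ∑ i, x σ i ^ 2 ≤ (M : ℝ)) (ha : ∀ i, ∑ g, a i g ^ 2 ≤ A ^ 2)
    (hl : ∀ i, ∑ g, lam i g ^ 2 ≤ S) (d : DD p M) :
    eE (G.prior (BU p M n)) (fun w => Real.exp (G.UU (BU p M n) (SY.HS h0 a lam x) d w +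
      1 / (8 * S) * qφ lam w)) ≤
      Real.exp ((b + A ^ 2 / 2 + 2 * S + Real.log 2) * M + cP p) := by
  have hP := G.prior_isProb (BU p M n)
  have h1 : ∀ w : OU p M n, Real.exp (G.UU (BU p M n) (SY.HS h0 a lam x) d w +
      1 / (8 * S) * qφ lam w) ≤ Real.exp (b * M + cP p) *
      (Real.exp (∑ g, ∑ i, a i g * sv (w.1.1.1 i) * SY.zf w.1.2.1 g i) *
        Real.exp (∑ i, (x w.1.1.1 i * (∑ g, lam i g * SY.zf w.1.2.2 g i) +
          1 / (8 * S) * (∑ g, lam i g * SY.zf w.1.2.2 g i) ^ 2))) := by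
    intro w
    rw [← Real.exp_add, ← Real.exp_add]
    apply Real.exp_le_exp.2
    have h4 := (abs_le.1 (hh w.1.1.1)).2
    have h5 := (abs_le.1 (abs_WW_le0 hnb (BU p M n) d w)).2
    have e1 : ∑ g, ∑ i, a i g * (SY.zf w.1.2.1 g i * sv (w.1.1.1 i)) =
        ∑ g, ∑ i, a i g * sv (w.1.1.1 i) * SY.zf w.1.2.1 g i :=
      Finset.sum_congr rfl fun g _ => Finset.sum_congr rfl fun i _ => by ring
    have e2 : ∑ g, ∑ i, lam i g * (SY.zf w.1.2.2 g i * x w.1.1.1 i) =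
        ∑ i, x w.1.1.1 i * (∑ g, lam i g * SY.zf w.1.2.2 g i) := by
      rw [Finset.sum_comm]
      refine Finset.sum_congr rfl fun i _ => ?_
      rw [Finset.mul_sum]
      exact Finset.sum_congr rfl fun g _ => by ring
    have e3 : G.UU (BU p M n) (SY.HS h0 a lam x) d w =
        (h0 w.1.1.1 + (∑ g, ∑ i, a i g * (SY.zf w.1.2.1 g i * sv (w.1.1.1 i))) +
        ∑ g, ∑ i, lam i g * (SY.zf w.1.2.2 g i * x w.1.1.1 i)) + G.WW (BU p M n) d w := rfl
    rw [e3, e1, e2, Finset.sum_add_distrib, ← Finset.mul_sum]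
    unfold qφ
    linarith
  refine (eE_mono hP h1).trans ?_
  rw [eE_smul]
  have h2 : eE (G.prior (BU p M n)) (fun w =>
      Real.exp (∑ g, ∑ i, a i g * sv (w.1.1.1 i) * SY.zf w.1.2.1 g i) *
        Real.exp (∑ i, (x w.1.1.1 i * (∑ g, lam i g * SY.zf w.1.2.2 g i) +
          1 / (8 * S) * (∑ g, lam i g * SY.zf w.1.2.2 g i) ^ 2))) ≤
      Real.exp ((A ^ 2 / 2 + 2 * S + Real.log 2) * M) := by
    rw [eE_prior_three (p := p) (n := n) (univ_nonempty (α := Fin M → Bool))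
      (fun s c => Real.exp (∑ g, ∑ i, a i g * sv (s.1 i) * SY.zf c g i))
      (fun s c => Real.exp (∑ i, (x s.1 i * (∑ g, lam i g * SY.zf c g i) +
          1 / (8 * S) * (∑ g, lam i g * SY.zf c g i) ^ 2)))]
    have : Nonempty {σ : Fin M → Bool // σ ∈ (univ : Finset (Fin M → Bool))} :=
      ⟨⟨fun _ => true, mem_univ _⟩⟩
    apply eE_le_of_le uQ_isProb
    intro s
    have h3 := eE_FC_lin (p := p) (N := M) (n := n) (fun g i => a i g * sv (s.1 i))
    have h4 := eE_small_exp (p := p) (M := M) (n := n) hS hl (x s.1)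
    refine (mul_le_mul h3 h4 (eE_nonneg uQ_isProb fun _ => (Real.exp_pos _).le)
      (Real.exp_pos _).le).trans ?_
    rw [← Real.exp_add]
    apply Real.exp_le_exp.2
    have e5 : ∑ g, ∑ i, (a i g * sv (s.1 i)) ^ 2 / 2 = ∑ i, (∑ g, a i g ^ 2) / 2 := by
      rw [Finset.sum_comm]
      refine Finset.sum_congr rfl fun i _ => ?_
      rw [Finset.sum_div]
      refine Finset.sum_congr rfl fun g _ => ?_
      have : sv (s.1 i) ^ 2 = 1 := by
        have h := sv_abs (s.1 i)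
        rw [← sq_abs, h]; norm_num
      rw [mul_pow, this, mul_one]
    have h6 : ∑ i, (∑ g, a i g ^ 2) / 2 ≤ ∑ _i : Fin M, A ^ 2 / 2 :=
      Finset.sum_le_sum fun i _ => by linarith [ha i]
    rw [Finset.sum_const, Finset.card_univ, Fintype.card_fin, nsmul_eq_mul] at h6
    have e7 : ∑ i, (2 * S * x s.1 i ^ 2 + Real.log 2) =
        2 * S * (∑ i, x s.1 i ^ 2) + M * Real.log 2 := by
      rw [Finset.sum_add_distrib, ← Finset.mul_sum]
      simp
    have h8 := mul_le_mul_of_nonneg_left (hx s.1) (by positivity : 0 ≤ 2 * S)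
    rw [e5, e7]
    linarith
  have h3 := mul_le_mul_of_nonneg_left h2 (Real.exp_pos (b * M + cP p)).le
  refine h3.trans (le_of_eq ?_)
  rw [← Real.exp_add]
  congr 1
  ring

/-- **(M2')** -/
theorem m2p : M2P := by
  intro p M n hnb hM hc Λ BV A S hS hS1 eig W a lam he hW ha hl U hU d
  have hP := G.prior_isProb (BU p M n)
  have hx := p.xs_expo
  have hM0 : (0:ℝ) < M := by exact_mod_cast hM
  set h0 := SY.h0q eig (Matrix.of U) 1 W with hh0
  have hb : ∀ σ, |h0 σ| ≤ (Λ / 2 + BV) * M := abs_h0q_le he (by norm_num) hW hU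
  set H : SY.SS p n (univ : Finset (Fin M → Bool)) → ℝ :=
    SY.HS h0 a lam (SY.xU (Matrix.of U)) with hH
  have h1 := aE_ge (𝓕 := G.fil (BU p M n)) hP hx.pos
    (fun w => G.UU (BU p M n) H d w + 1 / (8 * S) * qφ lam w) (G.UU (BU p M n) H d)
  have e : (fun w : OU p M n => (G.UU (BU p M n) H d w + 1 / (8 * S) * qφ lam w) -
      G.UU (BU p M n) H d w) = fun w => 1 / (8 * S) * qφ lam w := by
    funext w; ring
  rw [e, eE_smul] at h1
  have h2 : aE (G.prior (BU p M n)) (G.fil (BU p M n)) p.xs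
      (fun w => G.UU (BU p M n) H d w + 1 / (8 * S) * qφ lam w) ≤
      ((Λ / 2 + BV) + A ^ 2 / 2 + 2 * S + Real.log 2) * M + cP p := by
    refine (aE_le_log (𝓕 := G.fil (BU p M n)) hP hx _).trans ?_
    have h3 := log_prior_le2 (n := n) hnb hS hb
      (fun σ => (sum_xU_sq' hU σ).le) ha hl d
    have h4 : 0 < eE (G.prior (BU p M n)) (fun w => Real.exp
        (G.UU (BU p M n) H d w + 1 / (8 * S) * qφ lam w)) :=
      Finset.sum_pos (fun c _ => mul_pos (hP.pos c) (Real.exp_pos _)) Finset.univ_nonempty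
    have h5 := Real.log_le_log h4 h3
    rwa [Real.log_exp] at h5
  have h3 : -((Λ / 2 + BV) * M) ≤ aE (G.prior (BU p M n)) (G.fil (BU p M n)) p.xs
      (G.UU (BU p M n) H d) := by
    have h4 := LPert.LA_le_Phi (p := p) (n := n) (A := univ) univ_nonempty hnb h0 a lam
      (SY.xU (Matrix.of U)) d
    have h5 := (abs_le.1 (abs_LA_le (A := univ) univ_nonempty hb)).1
    have h6 : G.Phi (BU p M n) H d = aE (G.prior (BU p M n)) (G.fil (BU p M n)) p.xs
      (G.UU (BU p M n) H d) := rfl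
    rw [← h6]
    exact h5.trans h4
  have h4 : 1 / (8 * S) * eE (G.PP (BU p M n) H d) (qφ lam) ≤
      ((Λ + 2 * BV) + A ^ 2 / 2 + 2 * S + Real.log 2) * M + cP p := by
    have h5 : tl (G.prior (BU p M n)) (G.fil (BU p M n)) p.xs (G.UU (BU p M n) H d) =
      G.PP (BU p M n) H d := rfl
    rw [h5] at h1
    linarith
  have hlog : Real.log 2 ≤ 1 := by
    have := Real.log_two_lt_d9
    linarith
  have h5 : ((Λ + 2 * BV) + A ^ 2 / 2 + 2 * S + Real.log 2) * M + cP p ≤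
      (Λ + 2 * BV + A ^ 2 / 2 + 4) * M := by
    nlinarith
  have h6 := h4.trans h5
  rw [one_div, inv_mul_le_iff₀ (by positivity)] at h6
  refine h6.trans (le_of_eq ?_)
  unfold CF
  ring

end

end Crest.Agent.R164.ED
end

-- ▼ part R164/EDq9
section

/-!
# Row 164, L side, module E-DIFF (helper562): `EDIFF0`
-/

set_option autoImplicit false

namespace Crest.Agent.R164.ED

/-- **E-DIFF in `ED` names** -/
theorem ediff0 : EDIFF0 := ediff0_of m2p

end Crest.Agent.R164.ED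
end

-- ▼ part R164/Final

/-!
Row 164 (helper552): `H248` for the model of S0247, S0248, S0249.
-/

set_option autoImplicit false

namespace Crest.Agent.R164.Final

open MeasureTheory Set Filter Topology
open Crest.ProbabilityR.InvariantGlass

/-- **All of S0248.** -/
theorem h248 {Ω : Type} [MeasurableSpace Ω] {P : Measure Ω} [IsProbabilityMeasure P]
    {Us : (N : ℕ) → Ω → (Fin N → Fin N → ℝ)} (hmeas : ∀ N, Measurable (Us N))
    (horth : ∀ N, ∀ᵐ ω ∂P, Matrix.of (Us N ω) ∈ Matrix.orthogonalGroup (Fin N) ℝ)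
    (hHaar : ∀ (N : ℕ) (O : Matrix (Fin N) (Fin N) ℝ), O ∈ Matrix.orthogonalGroup (Fin N) ℝ →
      P.map (fun ω => fun i j => (Matrix.of (Us N ω) * O) i j) = P.map (Us N))
    {μ : Measure ℝ} [IsProbabilityMeasure μ] {lo hi : ℝ}
    (h : μ (Icc lo hi) = 1)
    (hedge : ∀ ε : ℝ, 0 < ε → 0 < μ (Icc lo (lo + ε)) ∧ 0 < μ (Icc (hi - ε) hi))
    (eig : (N : ℕ) → Fin N → ℝ)
    (hweak : ∀ φ : ℝ → ℝ, Continuous φ → (∃ C : ℝ, ∀ x, |φ x| ≤ C) →
      Tendsto (fun N : ℕ => (1 / (N : ℝ)) * ∑ i : Fin N, φ (eig N i)) atTop (𝓝 (∫ x, φ x ∂μ)))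
    (hext : ∀ ε : ℝ, 0 < ε → ∀ᶠ N : ℕ in atTop, ∀ i : Fin N,
      lo - ε ≤ eig N i ∧ eig N i ≤ hi + ε) :
    H248 μ hi eig P Us :=
  Mag.h248_of_bounds' hmeas horth hHaar h hedge eig hweak hext
    (fun _ _ _ hv hw hs labE hlabE => US.ub hmeas horth hHaar hv hw hs labE hlabE)
    (fun _ _ _ hv hw hs labE hlabE nu h1 h2 => LG.lbp ED.ediff0 _ _ _ hv hw hs labE hlabE nu h1 h2)

end Crest.Agent.R164.Final
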