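import Crest.Agent.R141.Sys
import Crest.Agent.R141.SysCtx

/-!
Rows 164: the enriched system of row 141 (`R141/Sys.lean`) over a general base space.

The base space `S` is finite with a positive law `q` and an ARBITRARY filtration `SF` (trivial at
the last step); every site carries a bounded function `f i : S → [-1,1]`.
-/

set_option autoImplicit false

namespace Crest.Agent.R164.G

open Finset Crest.Agent.R141

noncomputable section

/-- The base system. -/
structure Base (p : Par) (N : ℕ) where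
  /-- base configurations -/
  S : Type
  fS : Fintype S
  nS : Nonempty S
  /-- prior law -/
  q : S → ℝ
  hq : IsProb q
  /-- filtration -/
  SF : ℕ → Setoid S
  anti : ∀ k, SF (k + 1) ≤ SF k
  bot : ∀ k, p.L ≤ k → SF k = ⊥
  /-- site functions -/
  f : Fin N → S → ℝ
  hf : ∀ i s, |f i s| ≤ 1

attribute [instance] Base.fS Base.nS

variable {p : Par} {N : ℕ} (B : Base p N)

/-- labels and coins. -/
abbrev Lab (p : Par) (N : ℕ) : Type :=
  (Fin N → Fin p.nb → Fin p.nc → Fin p.Q) × (Fin p.nc → Fin p.T → Bool)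

/-- configurations of the enriched system. -/
abbrev Om : Type := B.S × Lab p N

/-- prior law: `q` times uniform. -/
def prior : Om B → ℝ := fun ω => B.q ω.1 * (Fintype.card (Lab p N) : ℝ)⁻¹

instance labNonempty (p : Par) (N : ℕ) : Nonempty (Lab p N) :=
  ⟨(fun _ _ _ => p.z, fun _ _ => true)⟩

instance omNonempty : Nonempty (Om B) := inferInstance

theorem prior_isProb : IsProb (prior B) := by
  have h : (0 : ℝ) < (Fintype.card (Lab p N) : ℝ) := by exact_mod_cast Fintype.card_pos
  constructor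
  · intro ω; exact mul_pos (B.hq.pos _) (inv_pos.2 h)
  · rw [Fintype.sum_prod_type]
    simp only [prior, Finset.sum_const, Finset.card_univ, nsmul_eq_mul]
    have h1 : ∀ s : B.S, (Fintype.card (Lab p N) : ℝ) *
        (B.q s * (Fintype.card (Lab p N) : ℝ)⁻¹) = B.q s := by
      intro s; field_simp
    simp only [h1]
    exact B.hq.sum

/-- agreement of all coordinates revealed at steps `≤ k`. -/
def frel (k : ℕ) (ω ω' : Om B) : Prop :=
  (∀ (i : Fin N) (b : Fin p.nb) (g : Fin p.nc), p.mt g ≤ k → ω.2.1 i b g = ω'.2.1 i b g) ∧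
  (∀ (g : Fin p.nc) (t : Fin p.T), p.ct g t ≤ k → ω.2.2 g t = ω'.2.2 g t) ∧
  B.SF k ω.1 ω'.1

theorem frel_equiv (k : ℕ) : Equivalence (frel B k) where
  refl _ := ⟨fun _ _ _ _ => rfl, fun _ _ _ => rfl, (B.SF k).refl _⟩
  symm h := ⟨fun i b g hg => (h.1 i b g hg).symm, fun g t hg => (h.2.1 g t hg).symm,
    (B.SF k).symm h.2.2⟩
  trans h h' := ⟨fun i b g hg => (h.1 i b g hg).trans (h'.1 i b g hg),
    fun g t hg => (h.2.1 g t hg).trans (h'.2.1 g t hg), (B.SF k).trans h.2.2 h'.2.2⟩

/-- the filtration. -/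
def fil : Filt (Om B) where
  F k := ⟨frel B k, frel_equiv B k⟩
  anti k := by
    intro ω ω' h
    have h : frel B (k + 1) ω ω' := h
    exact ⟨fun i b g hg => h.1 i b g (by omega), fun g t hg => h.2.1 g t (by omega),
      B.anti k h.2.2⟩
  L := p.L
  bot k hk := by
    ext ω ω'
    constructor
    · intro h
      have h : frel B k ω ω' := h
      have h1 : ω.1 = ω'.1 := by
        have h3 := h.2.2
        rw [B.bot k hk] at h3
        exact h3
      have h2 : ω.2.1 = ω'.2.1 := by
        funext i b g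
        exact h.1 i b g (((p.mt_lt_L g.2).le).trans hk)
      have h3 : ω.2.2 = ω'.2.2 := by
        funext g t
        exact h.2.1 g t ((((p.ct_lt_mt t.2).trans (p.mt_lt_L g.2)).le).trans hk)
      exact Prod.ext h1 (Prod.ext h2 h3)
    · intro h
      have h : ω = ω' := h
      subst h
      exact (frel_equiv B k).refl ω

variable {B}

theorem fil_rel {k : ℕ} {ω ω' : Om B} : (fil B).F k ω ω' ↔ frel B k ω ω' :=
  Iff.rfl

variable (B)

theorem fil_zero (h0 : B.SF 0 = ⊤) : (fil B).F 0 = ⊤ := by
  ext ω ω'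
  constructor
  · intro _; trivial
  · intro _
    refine ⟨fun i b g hg => ?_, fun g t hg => ?_, ?_⟩
    · exfalso; unfold Par.mt at hg
      have : 0 < ((g : ℕ) + 1) * (p.T + 1) := by positivity
      omega
    · exfalso; unfold Par.ct at hg; omega
    · rw [h0]; trivial

/-- log-factor of the gadget `(i,b)`. -/
def gfac (i : Fin N) (b : Fin p.nb) (ω : Om B) : ℝ :=
  Real.log (1 + gval p b (ω.2.1 i b) * B.f i ω.1)

/-- value of a coordinate: `(i, none)` is `(1 + f i)/2`, `(i, some b)` is `v_{i,b}`. -/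
def cv (c : Crd p N) (ω : Om B) : ℝ :=
  match c.2 with
  | none => (1 + B.f c.1 ω.1) / 2
  | some b => vb p b (ω.2.1 c.1 b)

/-- log-factor of the coin `k` if it points to `o`. -/
def cfac (o : Option (Crd p N)) (k : Stp p) (ω : Om B) : ℝ :=
  match o with
  | none => 0
  | some c => p.τ * ((if ω.2.2 k.1 k.2 = true then 1 else 0) * cv B c ω)

/-- log-weight of the enrichment. -/
def WW (d : DD p N) (ω : Om B) : ℝ :=
  (∑ i, ∑ b, gfac B i b ω) + ∑ k, cfac B (d k) k ω

/-- total log-weight with the Hamiltonian `H`. -/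
def UU (H : B.S → ℝ) (d : DD p N) (ω : Om B) : ℝ :=
  H ω.1 + WW B d ω

/-- enriched free energy (relative to the prior). -/
def Phi (H : B.S → ℝ) (d : DD p N) : ℝ :=
  eE (prior B) (A (prior B) (fil B) p.xs (UU B H d) 0)

/-- the tilted law. -/
def PP (H : B.S → ℝ) (d : DD p N) : Om B → ℝ :=
  tl (prior B) (fil B) p.xs (UU B H d)

/-- averaged enriched free energy. -/
def EPhi (H : B.S → ℝ) : ℝ := Ed p N (Phi B H)

theorem PP_isProb (H : B.S → ℝ) (d : DD p N) : IsProb (PP B H d) :=
  tl_isProb (prior_isProb B) p.xs_expo.pos _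

theorem cv_some (i : Fin N) (b : Fin p.nb) (ω : Om B) :
    cv B (i, some b) ω = vb p b (ω.2.1 i b) := rfl

theorem cv_none (i : Fin N) (ω : Om B) : cv B (i, none) ω = (1 + B.f i ω.1) / 2 := rfl

theorem cv_nonneg (c : Crd p N) (ω : Om B) : 0 ≤ cv B c ω := by
  rcases c with ⟨i, _ | b⟩
  · rw [cv_none]
    have := (abs_le.1 (B.hf i ω.1)).1
    linarith
  · rw [cv_some]; unfold vb; split_ifs <;> norm_num

theorem cv_le_one (c : Crd p N) (ω : Om B) : cv B c ω ≤ 1 := by
  rcases c with ⟨i, _ | b⟩
  · rw [cv_none]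
    have := (abs_le.1 (B.hf i ω.1)).2
    linarith
  · rw [cv_some]; unfold vb; split_ifs <;> norm_num

theorem cv_abs (c : Crd p N) (ω : Om B) : |cv B c ω| ≤ 1 := by
  rw [abs_of_nonneg (cv_nonneg B c ω)]; exact cv_le_one B c ω


/-- adding a function of the base configuration to the Hamiltonian. -/
theorem UU_add (H V : B.S → ℝ) (d : DD p N) :
    UU B (fun s => H s + V s) d = fun ω => UU B H d ω + V ω.1 := by
  funext ω; unfold UU; ring

/-- (F1): the cocycle formula. -/
theorem Phi_add (H V : B.S → ℝ) (d : DD p N) :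
    Phi B (fun s => H s + V s) d - Phi B H d =
      eE (prior B) (A (PP B H d) (fil B) p.xs (fun ω => V ω.1) 0) := by
  have h := A_cocycle (𝓕 := fil B) (prior_isProb B) p.xs_expo.pos (UU B H d)
    (fun ω => V ω.1) 0
  unfold Phi PP
  rw [UU_add]
  have h2 : A (prior B) (fil B) p.xs (fun ω => UU B H d ω + V ω.1) 0 =
      fun ω => A (prior B) (fil B) p.xs (UU B H d) 0 ω +
        A (tl (prior B) (fil B) p.xs (UU B H d)) (fil B) p.xs (fun ω => V ω.1) 0 ω := by
    funext ω; exact h ω
  rw [h2, eE_add]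
  ring

/-! ### The context of a site -/

/-- The context of the site `i` under the law `P`: `E n` is the conditional expectation at the label
step of the cell `nc - 1 - n`. -/
def ctx (P : Om B → ℝ) (hP : IsProb P) (i : Fin N) : Clo.Ctx (Om B) where
  E n := cEl P ((fil B).F (p.mt (p.nc - 1 - n)))
  mono n f g h := fun ω => cE_mono' hP h ω
  one n := by
    funext ω
    exact cE_const hP _ 1 ω
  σ ω := B.f i ω.1
  hσ ω := B.hf i ω.1

/-- `B_g(Y)` for the site `i` under the law `P`, `Y` of depth `n = nc-1-g`. -/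
def BB (P : Om B → ℝ) (hP : IsProb P) (i : Fin N) (n : ℕ)
    (Y : Clo.Tree p.Q n) : Om B → ℝ :=
  Clo.Bfun (ctx B P hP i) p.rho p.Q n Y






end

end Crest.Agent.R164.G
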