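import Crest.Agent.R164.EDb
import Crest.Agent.R164.EDc
import Crest.Agent.R164.GXch
import Crest.Agent.R164.GSpin
import Crest.Agent.R164.ConcSys4
import Crest.Agent.R164.SysMom

/-!
# Row 164, L side (helper278): moments under the true law of the step

`(TL0)`: transfer of expectations from the step law to the `(N+1)`-system;
`(TL1)`: second moments of `Z0`, `Z1`, `FF`, `L2` under the step law.
-/

set_option autoImplicit false

namespace Crest.Agent.R164.TLaw

open Finset MeasureTheory Crest.Agent.R141 Crest.Agent.R164 Crest.Agent.R164.PF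
  Crest.Agent.R164.Haar Crest.Agent.R164.ED
open Crest.ProbabilityR.InvariantGlass

noncomputable section

variable {p : Par} {N n : ℕ}

/-! ### (TL0) the pointers -/

theorem dw1_nonneg (o : Option (Crd p N)) : 0 ≤ dw1 p N o := by
  unfold dw1; split <;> positivity

theorem dw_nonneg (d : DD p N) : 0 ≤ dw p N d := Finset.prod_nonneg fun _ _ => dw1_nonneg _

theorem dw1_lift (hN : 0 < N) (o : Option (Crd p N)) :
    dw1 p N o ≤ (1 + 1 / (N : ℝ)) * dw1 p (N + 1) (F4.liftO p N o) := by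
  have hN' : (0 : ℝ) < N := by exact_mod_cast hN
  rcases o with _ | c
  · show (1 / 2 : ℝ) ≤ (1 + 1 / (N : ℝ)) * (1 / 2)
    have : 0 ≤ 1 / (N : ℝ) := by positivity
    linarith
  · show (1 : ℝ) / (2 * ((N : ℝ) * ((p.nb : ℝ) + 1))) ≤
      (1 + 1 / (N : ℝ)) * (1 / (2 * (((N + 1 : ℕ) : ℝ) * ((p.nb : ℝ) + 1))))
    push_cast
    refine le_of_eq ?_
    field_simp

theorem dw_lift (hN : 0 < N) (d : DD p N) :
    dw p N d ≤ (1 + 1 / (N : ℝ)) ^ (p.nc * p.T) * dw p (N + 1) (F4.liftD p N d) := by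
  have h1 : dw p N d ≤ ∏ k : Stp p, (1 + 1 / (N : ℝ)) * dw1 p (N + 1) (F4.liftO p N (d k)) :=
    Finset.prod_le_prod (fun k _ => dw1_nonneg _) fun k _ => dw1_lift hN (d k)
  rw [Finset.prod_mul_distrib, Finset.prod_const, Finset.card_univ, Fintype.card_prod,
    Fintype.card_fin, Fintype.card_fin] at h1
  exact h1

theorem pow_le_three (hN : 0 < N) (hT : p.nc * p.T ≤ N) :
    (1 + 1 / (N : ℝ)) ^ (p.nc * p.T) ≤ 3 := by
  have hN' : (0 : ℝ) < N := by exact_mod_cast hN
  have h1 : (1 + 1 / (N : ℝ)) ^ (p.nc * p.T) ≤ Real.exp (1 / (N : ℝ)) ^ (p.nc * p.T) := by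
    refine pow_le_pow_left₀ (by positivity) ?_ _
    have := Real.add_one_le_exp (1 / (N : ℝ))
    linarith
  refine h1.trans ?_
  rw [← Real.exp_nat_mul]
  have h2 : ((p.nc * p.T : ℕ) : ℝ) * (1 / (N : ℝ)) ≤ 1 := by
    rw [mul_one_div, div_le_one hN']
    exact_mod_cast hT
  calc Real.exp (((p.nc * p.T : ℕ) : ℝ) * (1 / (N : ℝ))) ≤ Real.exp 1 := Real.exp_le_exp.2 h2
    _ ≤ 3 := Real.exp_one_lt_three.le

theorem liftO_inj : Function.Injective (F4.liftO p N) :=
  Option.map_injective fun _ _ h => by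
    have h1 := congrArg Prod.fst h
    have h2 := congrArg Prod.snd h
    simp only at h1 h2
    exact Prod.ext (Fin.castSucc_injective _ h1) h2

theorem liftD_inj : Function.Injective (F4.liftD p N) := fun _ _ h =>
  funext fun k => liftO_inj (congrFun h k)

/-- transfer of the averages over the pointers -/
theorem Ed_lift_le (hN : 0 < N) (hT : p.nc * p.T ≤ N) (f : DD p (N + 1) → ℝ) (hf : ∀ d, 0 ≤ f d) :
    Ed p N (fun d => f (F4.liftD p N d)) ≤ 3 * Ed p (N + 1) f := by
  classical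
  have h1 : Ed p N (fun d => f (F4.liftD p N d)) ≤
      ∑ d : DD p N, 3 * (dw p (N + 1) (F4.liftD p N d) * f (F4.liftD p N d)) := by
    refine Finset.sum_le_sum fun d _ => ?_
    have h2 := dw_lift hN d
    have h3 : (1 + 1 / (N : ℝ)) ^ (p.nc * p.T) * dw p (N + 1) (F4.liftD p N d) ≤
        3 * dw p (N + 1) (F4.liftD p N d) :=
      mul_le_mul_of_nonneg_right (pow_le_three hN hT) (dw_nonneg _)
    have h4 := mul_le_mul_of_nonneg_right (h2.trans h3) (hf (F4.liftD p N d))
    linarith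
  refine h1.trans ?_
  rw [← Finset.mul_sum]
  refine mul_le_mul_of_nonneg_left ?_ (by norm_num)
  have h5 : ∑ d : DD p N, dw p (N + 1) (F4.liftD p N d) * f (F4.liftD p N d) =
      ∑ d ∈ (univ : Finset (DD p N)).map ⟨F4.liftD p N, liftD_inj⟩, dw p (N + 1) d * f d := by
    rw [Finset.sum_map]
    rfl
  rw [h5]
  unfold Ed
  exact Finset.sum_le_sum_of_subset_of_nonneg (Finset.subset_univ _)
    fun d _ _ => mul_nonneg (dw_nonneg d) (hf d)

/-! ### (TL0) the full average -/

variable (eig : Fin (N + 1) → ℝ) (W0 : (Fin N → Bool) → ℝ) (W1 : (Fin (N + 1) → Bool) → ℝ)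
  (a lam : Fin (N + 1) → Fin p.nc → ℝ)

/-- the full average of the `(N+1)`-system -/
abbrev EE1 (ν : Measure (Mat (Fin (N + 1))))
    (O : Mat (Fin (N + 1)) → DD p (N + 1) → OU p (N + 1) n → ℝ) : ℝ :=
  GX.EE univ_nonempty ν eig 1 W1 a lam O

/-- admissible observables of the `(N+1)`-system -/
structure Adm (O : Mat (Fin (N + 1)) → DD p (N + 1) → OU p (N + 1) n → ℝ) : Prop where
  meas : ∀ d ω, Measurable fun U => O U d ω
  nn : ∀ U d ω, 0 ≤ O U d ω
  bdd : ∃ C, ∀ U, Matrix.of U ∈ Matrix.orthogonalGroup (Fin (N + 1)) ℝ → ∀ d ω, O U d ω ≤ C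

/-- the inner average of the `(N+1)`-system -/
def IA (O : Mat (Fin (N + 1)) → DD p (N + 1) → OU p (N + 1) n → ℝ) (d : DD p (N + 1))
    (U : Mat (Fin (N + 1))) : ℝ := eE (G.PP (BU p (N + 1) n) (HN1 eig W1 a lam U) d) (O U d)

variable {eig W0 W1 a lam} {O : Mat (Fin (N + 1)) → DD p (N + 1) → OU p (N + 1) n → ℝ}

theorem IA_nonneg (hO : Adm O) (d : DD p (N + 1)) (U : Mat (Fin (N + 1))) :
    0 ≤ IA eig W1 a lam O d U := by
  unfold IA eE
  exact Finset.sum_nonneg fun ω _ =>
    mul_nonneg ((G.PP_isProb (BU p (N + 1) n) (HN1 eig W1 a lam U) d).pos ω).le (hO.nn U d ω)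

theorem measurable_IA (hO : Adm O) (d : DD p (N + 1)) : Measurable (IA eig W1 a lam O d) := by
  unfold IA
  exact G.meas_eE (fun ω => G.meas_PP (BU p (N + 1) n) (H := fun U => HN1 eig W1 a lam U)
    (fun s => CSys.measurable_HU eig 1 W1 a lam s) d ω) (fun ω => hO.meas d ω)

theorem measurable_EdIA (hO : Adm O) :
    Measurable fun U => Ed p (N + 1) (fun d => IA eig W1 a lam O d U) := by
  unfold Ed
  exact Finset.measurable_sum _ fun d _ => (measurable_IA hO d).const_mul _

theorem IA_le {C : ℝ} {U : Mat (Fin (N + 1))} {d : DD p (N + 1)} (hC : ∀ ω, O U d ω ≤ C) :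
    IA eig W1 a lam O d U ≤ C := by
  have hP := G.PP_isProb (BU p (N + 1) n) (HN1 eig W1 a lam U) d
  unfold IA
  calc eE (G.PP (BU p (N + 1) n) (HN1 eig W1 a lam U) d) (O U d) ≤
      eE (G.PP (BU p (N + 1) n) (HN1 eig W1 a lam U) d) (fun _ => C) := eE_mono hP hC
    _ = C := eE_const hP C

variable {ν : Measure (Mat (Fin (N + 1)))} [IsProbabilityMeasure ν]

theorem integrable_EdIA (hν : RHaar ν) (hO : Adm O) :
    Integrable (fun U => Ed p (N + 1) (fun d => IA eig W1 a lam O d U)) ν := by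
  obtain ⟨C, hC⟩ := hO.bdd
  refine Integrable.of_bound (measurable_EdIA hO).aestronglyMeasurable C ?_
  filter_upwards [hν.mem] with U hU
  have h0 : 0 ≤ Ed p (N + 1) (fun d => IA eig W1 a lam O d U) :=
    Finset.sum_nonneg fun d _ => mul_nonneg (dw_nonneg d) (IA_nonneg hO d U)
  rw [Real.norm_eq_abs, abs_of_nonneg h0]
  calc Ed p (N + 1) (fun d => IA eig W1 a lam O d U) ≤ Ed p (N + 1) (fun _ => C) :=
        Ed_mono p (N + 1) (fun d => IA_le (hC U hU d))
    _ = C := Ed_const p (Nat.succ_pos N) C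

variable {μ : Measure (Mat (Fin N))} [IsProbabilityMeasure μ]

theorem integrable_cplS {f : Mat (Fin (N + 1)) → ℝ} (hμ : RHaar μ) (hν : RHaar ν)
    (hf : Integrable f ν) : Integrable (fun q : Mat (Fin N) × (Fin (N + 1) → ℝ) =>
      f (cplS q.1 q.2)) (μ.prod (gam (Fin (N + 1)))) := by
  have h2 : Integrable f (cplSLaw μ) := by rw [cplS_law hμ hν]; exact hf
  exact h2.comp_measurable measurable_cplS

/-- averages over the lifted pointers are integrable -/
theorem integrable_lift (hN : 0 < N) (hT : p.nc * p.T ≤ N) (hμ : RHaar μ) (hν : RHaar ν)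
    (hO : Adm O) : Integrable (fun q : Mat (Fin N) × (Fin (N + 1) → ℝ) =>
      Ed p N (fun d => IA eig W1 a lam O (F4.liftD p N d) (cplS q.1 q.2)))
        (μ.prod (gam (Fin (N + 1)))) := by
  have hi := integrable_EdIA (eig := eig) (W1 := W1) (a := a) (lam := lam) hν hO
  refine ((integrable_cplS hμ hν hi).const_mul 3).mono' ?_
    (Filter.Eventually.of_forall fun q => ?_)
  · refine Measurable.aestronglyMeasurable ?_
    unfold Ed
    exact Finset.measurable_sum _ fun d _ => ((measurable_IA hO _).comp measurable_cplS).const_mul _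
  · have h0 : 0 ≤ Ed p N (fun d => IA eig W1 a lam O (F4.liftD p N d) (cplS q.1 q.2)) :=
      Finset.sum_nonneg fun d _ => mul_nonneg (dw_nonneg d) (IA_nonneg hO _ _)
    rw [Real.norm_eq_abs, abs_of_nonneg h0]
    exact Ed_lift_le hN hT (fun d => IA eig W1 a lam O d (cplS q.1 q.2))
      fun d => IA_nonneg hO d _

/-- **(TL0)**: transfer to the `(N+1)`-system -/
theorem tl0 (hN : 0 < N) (hT : p.nc * p.T ≤ N) (hμ : RHaar μ) (hν : RHaar ν) (hO : Adm O) :
    ∫ q, Ed p N (fun d => IA eig W1 a lam O (F4.liftD p N d) (cplS q.1 q.2))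
      ∂(μ.prod (gam (Fin (N + 1)))) ≤ 3 * EE1 eig W1 a lam ν O := by
  have hi := integrable_EdIA (eig := eig) (W1 := W1) (a := a) (lam := lam) hν hO
  have h1 := cplS_integral hμ hν (fun U => Ed p (N + 1) (fun d => IA eig W1 a lam O d U))
    hi.aestronglyMeasurable
  have h3 : EE1 eig W1 a lam ν O = ∫ q, Ed p (N + 1) (fun d => IA eig W1 a lam O d (cplS q.1 q.2))
      ∂(μ.prod (gam (Fin (N + 1)))) := h1
  rw [h3, ← integral_const_mul]
  refine integral_mono_of_nonneg (Filter.Eventually.of_forall fun q => ?_)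
    ((integrable_cplS hμ hν hi).const_mul _) (Filter.Eventually.of_forall fun q => ?_)
  · exact Finset.sum_nonneg fun d _ => mul_nonneg (dw_nonneg d) (IA_nonneg hO _ _)
  · exact Ed_lift_le hN hT (fun d => IA eig W1 a lam O d (cplS q.1 q.2))
      fun d => IA_nonneg hO d _

/-! ### the step law -/

theorem stQ_eq (H0 : SY.SS p n (univ : Finset (Fin N → Bool)) → ℝ)
    (H1 : SY.SS p n (univ : Finset (Fin (N + 1) → Bool)) → ℝ) (d : DD p N) :
    stQ H0 H1 d = tl (pP (G.prior (BU p N n)) (lsP p n)) (stF p N n) p.xs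
      (fun w => G.UU (BU p N n) H0 d w.1 + Xr H0 H1 w) := by
  have hPL : IsProb (pP (G.prior (BU p N n)) (lsP p n)) := pP_isProb (G.prior_isProb _) lsP_isProb
  have h3 := tl_add (𝓕 := stF p N n) hPL p.xs_expo.pos
    (fun w => G.UU (BU p N n) H0 d w.1) (Xr H0 H1)
  rw [stP_eq] at h3
  exact h3.symm

variable (eig W0 W1 a lam) in
/-- the step law of the coupled system -/
abbrev SQ (q : Mat (Fin N) × (Fin (N + 1) → ℝ)) (d : DD p N) : OU p N n × LS p n → ℝ :=
  stQ (HN eig W0 a lam q.1) (HN1 eig W1 a lam (cplS q.1 q.2)) d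

theorem SQ_isProb (q : Mat (Fin N) × (Fin (N + 1) → ℝ)) (d : DD p N) :
    IsProb (SQ (n := n) eig W0 W1 a lam q d) := stQ_isProb _ _ d

theorem measurable_xw (u : (OU p N n × LS p n) × Bool) :
    Measurable fun q : Mat (Fin N) × (Fin (N + 1) → ℝ) =>
      xw (HN eig W0 a lam q.1) (HN1 eig W1 a lam (cplS q.1 q.2)) u := by
  unfold xw
  exact ((CSys.measurable_HU eig 1 W1 a lam _).comp measurable_cplS).sub
    ((CSys.measurable_HU (fun i : Fin N => eig i.castSucc) 1 W0 (fun i => a i.castSucc)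
      (fun i => lam i.castSucc) _).comp measurable_fst)

theorem measurable_Xr (w : OU p N n × LS p n) :
    Measurable fun q : Mat (Fin N) × (Fin (N + 1) → ℝ) =>
      Xr (HN eig W0 a lam q.1) (HN1 eig W1 a lam (cplS q.1 q.2)) w := by
  unfold Xr redB
  exact Real.measurable_log.comp (((Real.measurable_exp.comp (measurable_xw _)).add
    (Real.measurable_exp.comp (measurable_xw _))).div_const _)

theorem measurable_SQ (d : DD p N) (w : OU p N n × LS p n) :
    Measurable fun q : Mat (Fin N) × (Fin (N + 1) → ℝ) => SQ eig W0 W1 a lam q d w := by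
  simp only [SQ, stQ_eq]
  refine G.meas_tl (pP_isProb (G.prior_isProb _) lsP_isProb) p.xs_expo.pos (fun ω => ?_) w
  refine Measurable.add ?_ (measurable_Xr ω)
  exact G.meas_UU (BU p N n) (H := fun q : Mat (Fin N) × (Fin (N + 1) → ℝ) =>
    HN eig W0 a lam q.1) (fun s => (CSys.measurable_HU (fun i : Fin N => eig i.castSucc) 1 W0
      (fun i => a i.castSucc) (fun i => lam i.castSucc) s).comp measurable_fst) d ω.1

variable (eig W0 W1 a lam) in
/-- the average under the step law and over the pointers -/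
def ST (F : Mat (Fin N) × (Fin (N + 1) → ℝ) → DD p N → OU p N n × LS p n → ℝ)
    (q : Mat (Fin N) × (Fin (N + 1) → ℝ)) : ℝ :=
  Ed p N (fun d => eE (SQ eig W0 W1 a lam q d) (F q d))

variable {F : Mat (Fin N) × (Fin (N + 1) → ℝ) → DD p N → OU p N n × LS p n → ℝ}

theorem measurable_ST (hF : ∀ d w, Measurable fun q => F q d w) :
    Measurable (ST eig W0 W1 a lam F) := by
  unfold ST Ed
  exact Finset.measurable_sum _ fun d _ =>
    (G.meas_eE (fun w => measurable_SQ d w) (fun w => hF d w)).const_mul _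

theorem ST_nonneg (hF : ∀ q d w, 0 ≤ F q d w) (q : Mat (Fin N) × (Fin (N + 1) → ℝ)) :
    0 ≤ ST eig W0 W1 a lam F q :=
  Finset.sum_nonneg fun d _ => mul_nonneg (dw_nonneg d)
    (Finset.sum_nonneg fun w _ => mul_nonneg ((SQ_isProb q d).pos w).le (hF q d w))

/-- comparison of one step average with the `(N+1)`-system -/
theorem eE_SQ_le (hnb : p.nb = 0) {q : Mat (Fin N) × (Fin (N + 1) → ℝ)} {d : DD p N}
    {f : OU p N n × LS p n → ℝ}
    (h : ∀ w b, f w ≤ O (cplS q.1 q.2) (F4.liftD p N d) (gl hnb (w, b))) :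
    eE (SQ eig W0 W1 a lam q d) f ≤ IA eig W1 a lam O (F4.liftD p N d) (cplS q.1 q.2) := by
  unfold IA
  rw [eE_gl (HN eig W0 a lam q.1) (HN1 eig W1 a lam (cplS q.1 q.2)) hnb d]
  refine eE_mono (SQ_isProb q d) fun w => ?_
  set H0 := HN (n := n) eig W0 a lam q.1
  set H1 := HN1 (n := n) eig W1 a lam (cplS q.1 q.2)
  have h1 : (Real.exp (xw H0 H1 (w, true) - Xr H0 H1 w) +
      Real.exp (xw H0 H1 (w, false) - Xr H0 H1 w)) / 2 = 1 := by
    have h2 : Real.exp (Xr H0 H1 w) = (Real.exp (xw H0 H1 (w, true)) +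
      Real.exp (xw H0 H1 (w, false))) / 2 := exp_redB (xw H0 H1) w
    rw [Real.exp_sub, Real.exp_sub, ← add_div, div_div, mul_comm, ← div_div, ← h2,
      div_self (Real.exp_pos _).ne']
  have h3 : f w = (Real.exp (xw H0 H1 (w, true) - Xr H0 H1 w) * f w +
      Real.exp (xw H0 H1 (w, false) - Xr H0 H1 w) * f w) / 2 := by
    rw [← add_mul, mul_div_right_comm, h1, one_mul]
  rw [h3]
  have h4 := mul_le_mul_of_nonneg_left (h w true)
    (Real.exp_pos (xw H0 H1 (w, true) - Xr H0 H1 w)).le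
  have h5 := mul_le_mul_of_nonneg_left (h w false)
    (Real.exp_pos (xw H0 H1 (w, false) - Xr H0 H1 w)).le
  linarith

variable (N) in
/-- the good event for the pair -/
def GdP : Set (Mat (Fin N) × (Fin (N + 1) → ℝ)) := Prod.snd ⁻¹' Gd N

theorem measurableSet_GdP : MeasurableSet (GdP N) := measurable_snd measurableSet_Gd

/-- **(TL0)** for the step law -/
theorem ST_main (hnb : p.nb = 0) (hN : 0 < N) (hT : p.nc * p.T ≤ N) (hμ : RHaar μ) (hν : RHaar ν)
    (hO : Adm O) (hFm : ∀ d w, Measurable fun q => F q d w) (hF0 : ∀ q d w, 0 ≤ F q d w)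
    (hF : ∀ q, q.2 ∈ Gd N → ∀ d w b,
      F q d w ≤ O (cplS q.1 q.2) (F4.liftD p N d) (gl hnb (w, b))) :
    IntegrableOn (ST eig W0 W1 a lam F) (GdP N) (μ.prod (gam (Fin (N + 1)))) ∧
    ∫ q in GdP N, ST eig W0 W1 a lam F q ∂(μ.prod (gam (Fin (N + 1)))) ≤
      3 * EE1 eig W1 a lam ν O := by
  have hi := integrable_lift (eig := eig) (W1 := W1) (a := a) (lam := lam) hN hT hμ hν hO
  have hle : ∀ q ∈ GdP N, ST eig W0 W1 a lam F q ≤
      Ed p N (fun d => IA eig W1 a lam O (F4.liftD p N d) (cplS q.1 q.2)) := fun q hq =>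
    Ed_mono p N fun d => eE_SQ_le hnb fun w b => hF q hq d w b
  have hio : IntegrableOn (ST eig W0 W1 a lam F) (GdP N) (μ.prod (gam (Fin (N + 1)))) := by
    refine hi.integrableOn.mono' (measurable_ST hFm).aestronglyMeasurable ?_
    rw [ae_restrict_iff' measurableSet_GdP]
    refine Filter.Eventually.of_forall fun q hq => ?_
    rw [Real.norm_eq_abs, abs_of_nonneg (ST_nonneg hF0 q)]
    exact hle q hq
  refine ⟨hio, ?_⟩
  calc ∫ q in GdP N, ST eig W0 W1 a lam F q ∂(μ.prod (gam (Fin (N + 1)))) ≤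
      ∫ q in GdP N, Ed p N (fun d => IA eig W1 a lam O (F4.liftD p N d) (cplS q.1 q.2))
        ∂(μ.prod (gam (Fin (N + 1)))) :=
        setIntegral_mono_on hio hi.integrableOn measurableSet_GdP hle
    _ ≤ ∫ q, Ed p N (fun d => IA eig W1 a lam O (F4.liftD p N d) (cplS q.1 q.2))
        ∂(μ.prod (gam (Fin (N + 1)))) :=
        setIntegral_le_integral hi (Filter.Eventually.of_forall fun q =>
          Finset.sum_nonneg fun d _ => mul_nonneg (dw_nonneg d) (IA_nonneg hO _ _))
    _ ≤ _ := tl0 hN hT hμ hν hO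

end

end Crest.Agent.R164.TLaw
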