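import Crest.Agent.R164.LPert
import Crest.Agent.R164.ConcSys2
import Crest.Agent.R164.LabMom
import Crest.Agent.R164.EDn
import Crest.Agent.R164.GXch3
import Crest.Agent.R164.EDlaw
import Crest.Agent.R164.LGDef
import Crest.Agent.R164.TLaw
import Crest.Agent.R164.LIbpm

-- ▼ part R164/LInc1
section

/-!
# Row 164, L side, module GL3 part 1 (helper60): second moment of the weighted small fields

`E^{P_H} Σ_i (Σ_g lam_{i,g} ζ_{i,g})² ≤ C(S, A) N + C τ card(Stp)` for every Hamiltonian `SY.HS`, uniformly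
in the potential `h0`, the number of coins and the pointers.
-/

set_option autoImplicit false
set_option linter.unusedSectionVars false

namespace Crest.Agent.R164.LInc

open Finset MeasureTheory Crest.Agent.R141 Crest.Agent.R141.SysF Crest.Agent.R141.SysIC
  Crest.Agent.R164

noncomputable section

/-! ### one site -/

section site

variable {κ : Type} [Fintype κ] [DecidableEq κ] {n : ℕ}

/-- weighted coin field of one site -/
def Yl (b : κ → ℝ) (c : κ → Fin n → Bool) : ℝ := ∑ g, b g * CSys.zc n (c g)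

theorem Yl_exp (b : κ → ℝ) (x : ℝ) :
    eE (unif (κ → Fin n → Bool)) (fun c => Real.exp (x * Yl b c)) ≤
      Real.exp (x ^ 2 * (∑ g, b g ^ 2) / 2) := by
  have e1 : (fun c : κ → Fin n → Bool => Real.exp (x * Yl b c)) =
      fun c => ∏ g, (fun g m => Real.exp ((x * b g) * CSys.zc n m)) g (c g) := by
    funext c
    rw [← Real.exp_sum]
    congr 1
    unfold Yl
    rw [Finset.mul_sum]
    exact Finset.sum_congr rfl fun g _ => by ring
  rw [e1, unif_prod (fun (g : κ) (m : Fin n → Bool) => Real.exp ((x * b g) * CSys.zc n m))]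
  have e2 : ∀ g : κ, eE (unif (Fin n → Bool)) (fun m => Real.exp ((x * b g) * CSys.zc n m)) ≤
      Real.exp ((x * b g) ^ 2 / 2) := by
    intro g
    have h := CSys.sum_exp_lin n (x * b g)
    have h3 : eE (unif (Fin n → Bool)) (fun m => Real.exp ((x * b g) * CSys.zc n m)) =
        ((2 : ℝ) ^ n)⁻¹ * ∑ c : Fin n → Bool, Real.exp (CSys.zc n c * (x * b g)) := by
      unfold eE unif
      rw [Finset.mul_sum, Fintype.card_fun, Fintype.card_bool, Fintype.card_fin]
      push_cast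
      refine Finset.sum_congr rfl fun c _ => ?_
      rw [mul_comm (x * b g)]
    rw [h3, inv_mul_le_iff₀ (by positivity)]
    exact h
  refine (Finset.prod_le_prod (fun g _ => eE_nonneg (unif_isProb _) fun _ => (Real.exp_pos _).le)
    fun g _ => e2 g).trans (le_of_eq ?_)
  rw [← Real.exp_sum]
  congr 1
  rw [Finset.mul_sum, Finset.sum_div]
  exact Finset.sum_congr rfl fun g _ => by ring

/-- `E exp(Y²/(4(S+1))) ≤ 2` -/
theorem Yl_exp_sq (b : κ → ℝ) {S : ℝ} (hS : ∑ g, b g ^ 2 ≤ S) :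
    eE (unif (κ → Fin n → Bool)) (fun c => Real.exp (1 / (4 * (S + 1)) * Yl b c ^ 2)) ≤ 2 := by
  have hS0 : 0 ≤ S := (Finset.sum_nonneg fun g _ => sq_nonneg (b g)).trans hS
  have hpi := Real.sqrt_pos.mpr Real.pi_pos
  set β : ℝ := (Real.sqrt (S + 1))⁻¹ with hβ
  have hβ2 : β ^ 2 = (S + 1)⁻¹ := by
    rw [hβ, inv_pow, Real.sq_sqrt (by linarith)]
  have hq : IsProb (unif (κ → Fin n → Bool)) := unif_isProb _
  have e0 : ∀ c : κ → Fin n → Bool, (β * Yl b c) ^ 2 / 4 = 1 / (4 * (S + 1)) * Yl b c ^ 2 := by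
    intro c
    rw [mul_pow, hβ2]
    field_simp
  have h1 : eE (unif (κ → Fin n → Bool)) (fun c => Real.sqrt Real.pi *
      Real.exp (1 / (4 * (S + 1)) * Yl b c ^ 2)) =
      ∫ x : ℝ, eE (unif (κ → Fin n → Bool)) (fun c => Real.exp (-x ^ 2 + (β * Yl b c) * x)) := by
    unfold eE
    rw [integral_finsetSum _ fun c _ => (CSys.integral_exp_lin (β * Yl b c)).1.const_mul _]
    refine Finset.sum_congr rfl fun c _ => ?_
    rw [integral_const_mul, (CSys.integral_exp_lin (β * Yl b c)).2, e0]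
  have hi2 : Integrable (fun x : ℝ => Real.exp (-(1 / 2) * x ^ 2)) :=
    integrable_exp_neg_mul_sq (by norm_num : (0 : ℝ) < 1 / 2)
  have h2 : ∫ x : ℝ, eE (unif (κ → Fin n → Bool)) (fun c => Real.exp (-x ^ 2 + (β * Yl b c) * x)) ≤
      ∫ x : ℝ, Real.exp (-(1 / 2) * x ^ 2) := by
    refine integral_mono ?_ hi2 ?_
    · unfold eE
      exact integrable_finsetSum _ fun c _ => (CSys.integral_exp_lin (β * Yl b c)).1.const_mul _
    intro x
    show eE (unif (κ → Fin n → Bool)) (fun c => Real.exp (-x ^ 2 + (β * Yl b c) * x)) ≤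
      Real.exp (-(1 / 2) * x ^ 2)
    have e : (fun c : κ → Fin n → Bool => Real.exp (-x ^ 2 + (β * Yl b c) * x)) =
        fun c => Real.exp (-x ^ 2) * Real.exp ((β * x) * Yl b c) := by
      funext c
      rw [← Real.exp_add]
      congr 1; ring
    rw [e, eE_smul]
    refine (mul_le_mul_of_nonneg_left (Yl_exp b (β * x)) (Real.exp_pos _).le).trans ?_
    rw [← Real.exp_add]
    apply Real.exp_le_exp.2
    have h5 : (β * x) ^ 2 * (∑ g, b g ^ 2) ≤ x ^ 2 := by
      rw [mul_pow, hβ2, mul_assoc, mul_left_comm]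
      calc x ^ 2 * ((S + 1)⁻¹ * ∑ g, b g ^ 2) ≤ x ^ 2 * 1 := by
            refine mul_le_mul_of_nonneg_left ?_ (sq_nonneg x)
            rw [inv_mul_le_iff₀ (by linarith)]
            linarith
        _ = x ^ 2 := mul_one _
    linarith
  have h3 : ∫ x : ℝ, Real.exp (-(1 / 2) * x ^ 2) = Real.sqrt 2 * Real.sqrt Real.pi := by
    rw [integral_gaussian, ← Real.sqrt_mul (by norm_num)]
    congr 1
    ring
  rw [h3, ← h1, eE_smul] at h2
  have h6 : Real.sqrt 2 ≤ 2 := by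
    rw [Real.sqrt_le_left (by norm_num)]; norm_num
  refine le_trans ?_ h6
  rw [mul_comm] at h2
  exact le_of_mul_le_mul_right h2 hpi

/-- linear and quadratic terms together -/
theorem Yl_exp_both (b : κ → ℝ) {S : ℝ} (hS : ∑ g, b g ^ 2 ≤ S) (x : ℝ) :
    eE (unif (κ → Fin n → Bool)) (fun c => Real.exp (x * Yl b c + 1 / (8 * (S + 1)) *
      Yl b c ^ 2)) ≤ Real.exp (2 * (S + 1) * x ^ 2) * 2 := by
  have hS0 : 0 ≤ S := (Finset.sum_nonneg fun g _ => sq_nonneg (b g)).trans hS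
  have hq : IsProb (unif (κ → Fin n → Bool)) := unif_isProb _
  have h1 : ∀ c : κ → Fin n → Bool, Real.exp (x * Yl b c + 1 / (8 * (S + 1)) * Yl b c ^ 2) ≤
      Real.exp (2 * (S + 1) * x ^ 2) * Real.exp (1 / (4 * (S + 1)) * Yl b c ^ 2) := by
    intro c
    rw [← Real.exp_add]
    apply Real.exp_le_exp.2
    have hp : 0 < S + 1 := by linarith
    have h2 : 1 / (4 * (S + 1)) * Yl b c ^ 2 = 2 * (1 / (8 * (S + 1)) * Yl b c ^ 2) := by
      field_simp; ring
    have h3 : x * Yl b c ≤ 2 * (S + 1) * x ^ 2 + 1 / (8 * (S + 1)) * Yl b c ^ 2 := by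
      have h4 : 0 ≤ 2 * (S + 1) * (x - Yl b c / (4 * (S + 1))) ^ 2 := by positivity
      have h5 : 2 * (S + 1) * (x - Yl b c / (4 * (S + 1))) ^ 2 =
          2 * (S + 1) * x ^ 2 + 1 / (8 * (S + 1)) * Yl b c ^ 2 - x * Yl b c := by
        field_simp; ring
      linarith
    linarith
  refine (eE_mono hq h1).trans ?_
  rw [eE_smul]
  exact mul_le_mul_of_nonneg_left (Yl_exp_sq b hS) (Real.exp_pos _).le

end site

/-! ### all sites -/

variable {p : Par} {N n : ℕ}

/-- weighted small field of the row `i` -/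
def Yi (lam : Fin N → Fin p.nc → ℝ) (c : SY.FC p N n) (i : Fin N) : ℝ :=
  ∑ g, lam i g * SY.zf c g i

/-- transposition of the coins -/
def trC : SY.FC p N n ≃ (Fin N → Fin p.nc → Fin n → Bool) := Equiv.piComm _

theorem unif_trC (f : (Fin N → Fin p.nc → Fin n → Bool) → ℝ) :
    eE (unif (SY.FC p N n)) (fun c => f (trC c)) =
      eE (unif (Fin N → Fin p.nc → Fin n → Bool)) f := by
  unfold eE unif
  rw [Fintype.card_congr (trC (p := p) (N := N) (n := n))]
  exact Equiv.sum_comp (trC (p := p) (N := N) (n := n)) (fun c =>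
    (Fintype.card (Fin N → Fin p.nc → Fin n → Bool) : ℝ)⁻¹ * f c)

theorem Yi_exp (lam : Fin N → Fin p.nc → ℝ) {S : ℝ} (hS : ∀ i, ∑ g, lam i g ^ 2 ≤ S)
    (x : Fin N → ℝ) :
    eE (unif (SY.FC p N n)) (fun c => Real.exp (∑ i, (x i * Yi lam c i +
      1 / (8 * (S + 1)) * Yi lam c i ^ 2))) ≤
      Real.exp (2 * (S + 1) * ∑ i, x i ^ 2) * 2 ^ N := by
  have e1 : (fun c : SY.FC p N n => Real.exp (∑ i, (x i * Yi lam c i +
      1 / (8 * (S + 1)) * Yi lam c i ^ 2))) = fun c =>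
      (fun c' : Fin N → Fin p.nc → Fin n → Bool => ∏ i, (fun i m => Real.exp (x i * Yl (lam i) m +
        1 / (8 * (S + 1)) * Yl (lam i) m ^ 2)) i (c' i)) (trC c) := by
    funext c
    show _ = ∏ i, Real.exp (x i * Yl (lam i) (trC c i) +
      1 / (8 * (S + 1)) * Yl (lam i) (trC c i) ^ 2)
    rw [← Real.exp_sum]
    rfl
  rw [e1, unif_trC (fun c' : Fin N → Fin p.nc → Fin n → Bool => ∏ i, (fun i m =>
    Real.exp (x i * Yl (lam i) m + 1 / (8 * (S + 1)) * Yl (lam i) m ^ 2)) i (c' i)),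
    unif_prod (fun (i : Fin N) (m : Fin p.nc → Fin n → Bool) => Real.exp (x i * Yl (lam i) m +
        1 / (8 * (S + 1)) * Yl (lam i) m ^ 2))]
  refine (Finset.prod_le_prod (fun i _ => eE_nonneg (unif_isProb _) fun _ => (Real.exp_pos _).le)
    fun i _ => Yl_exp_both (lam i) (hS i) (x i)).trans (le_of_eq ?_)
  rw [Finset.prod_mul_distrib, ← Real.exp_sum, Finset.prod_const, Finset.card_univ,
    Fintype.card_fin, Finset.mul_sum]

/-! ### the enriched system -/

variable {A : Finset (Fin N → Bool)}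

/-- exponential moment of the fields plus the quadratic term -/
theorem exp_fsY (a lam : Fin N → Fin p.nc → ℝ) (x : (Fin N → Bool) → Fin N → ℝ)
    (σ : Fin N → Bool) {R S : ℝ} (hR : ∀ i, ∑ g, a i g ^ 2 ≤ R) (hS : ∀ i, ∑ g, lam i g ^ 2 ≤ S)
    (hx : ∑ i, x σ i ^ 2 ≤ N) :
    eE (unif (SY.FC p N n)) (fun c => eE (unif (SY.FC p N n)) (fun c' =>
      Real.exp (LPert.fs a lam x (c, c') σ + 1 / (8 * (S + 1)) * ∑ i, Yi lam c' i ^ 2))) ≤
      Real.exp (N * (R / 2 + 2 * (S + 1) + 1)) := by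
  rcases Nat.eq_zero_or_pos N with h0 | hN
  · subst h0
    have h1 : ∀ c c' : SY.FC p 0 n, LPert.fs a lam x (c, c') σ +
        1 / (8 * (S + 1)) * ∑ i, Yi lam c' i ^ 2 = 0 := by
      intro c c'
      unfold LPert.fs
      simp
    simp only [h1, Real.exp_zero, eE_const (unif_isProb (SY.FC p 0 n)), Nat.cast_zero, zero_mul,
      le_refl]
  have hS0 : 0 ≤ S :=
    (Finset.sum_nonneg fun g _ => sq_nonneg (lam ⟨0, hN⟩ g)).trans (hS ⟨0, hN⟩)
  have e1 : ∀ c c' : SY.FC p N n, Real.exp (LPert.fs a lam x (c, c') σ +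
      1 / (8 * (S + 1)) * ∑ i, Yi lam c' i ^ 2) =
      (∏ g, ∏ i, (fun g i z => Real.exp (a i g * sv (σ i) * z)) g i (SY.zf c g i)) *
      Real.exp (∑ i, (x σ i * Yi lam c' i + 1 / (8 * (S + 1)) * Yi lam c' i ^ 2)) := by
    intro c c'
    simp only [← Real.exp_sum]
    rw [← Real.exp_add]
    congr 1
    unfold LPert.fs
    rw [Finset.sum_add_distrib, ← Finset.mul_sum, ← add_assoc]
    congr 1
    congr 1
    · refine Finset.sum_congr rfl fun g _ => Finset.sum_congr rfl fun i _ => ?_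
      ring
    · rw [Finset.sum_comm]
      refine Finset.sum_congr rfl fun i _ => ?_
      unfold Yi
      rw [Finset.mul_sum]
      refine Finset.sum_congr rfl fun g _ => ?_
      ring
  have e2 : ∀ c : SY.FC p N n, eE (unif (SY.FC p N n)) (fun c' =>
      Real.exp (LPert.fs a lam x (c, c') σ + 1 / (8 * (S + 1)) * ∑ i, Yi lam c' i ^ 2)) =
      eE (unif (SY.FC p N n)) (fun c' => Real.exp (∑ i, (x σ i * Yi lam c' i +
        1 / (8 * (S + 1)) * Yi lam c' i ^ 2))) *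
      (∏ g, ∏ i, (fun g i z => Real.exp (a i g * sv (σ i) * z)) g i (SY.zf c g i)) := by
    intro c
    simp only [e1]
    rw [eE_smul, mul_comm]
  simp only [e2]
  rw [eE_smul]
  have e3 := Z.avg_cells (p := p) (n := n) (fun g i z => Real.exp (a i g * sv (σ i) * z))
  rw [e3]
  have h1 : ∏ g, ∏ i, CoinG.bavg n (fun z => Real.exp (a i g * sv (σ i) * z)) ≤
        Real.exp (N * (R / 2)) := by
    calc ∏ g, ∏ i, CoinG.bavg n (fun z => Real.exp (a i g * sv (σ i) * z))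
        ≤ ∏ g, ∏ i, Real.exp ((a i g * sv (σ i)) ^ 2 / 2) := by
          refine Finset.prod_le_prod (fun g _ => Finset.prod_nonneg fun i _ =>
            (CoinG.bavg_pos n fun _ => Real.exp_pos _).le) fun g _ => ?_
          exact Finset.prod_le_prod (fun i _ => (CoinG.bavg_pos n fun _ => Real.exp_pos _).le)
            fun i _ => CoinG.bavg_exp_le n _
      _ = Real.exp (∑ i, (∑ g, a i g ^ 2) / 2) := by
          simp only [← Real.exp_sum]
          congr 1
          rw [Finset.sum_comm]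
          refine Finset.sum_congr rfl fun i _ => ?_
          rw [Finset.sum_div]
          refine Finset.sum_congr rfl fun g _ => ?_
          have : sv (σ i) ^ 2 = 1 := by cases σ i <;> simp [sv]
          rw [mul_pow, this, mul_one]
      _ ≤ Real.exp (N * (R / 2)) := by
          apply Real.exp_le_exp.2
          calc ∑ i, (∑ g, a i g ^ 2) / 2 ≤ ∑ _i : Fin N, R / 2 :=
                Finset.sum_le_sum fun i _ => by linarith [hR i]
            _ = N * (R / 2) := by simp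
  have h2 := Yi_exp (n := n) lam hS (x σ)
  have h3 : Real.exp (2 * (S + 1) * ∑ i, x σ i ^ 2) * 2 ^ N ≤
      Real.exp (N * (2 * (S + 1) + 1)) := by
    have h4 : (2 : ℝ) ^ N ≤ Real.exp (N * 1) := by
      rw [Real.exp_nat_mul]
      exact pow_le_pow_left₀ (by norm_num) (by linarith [Real.exp_one_gt_d9]) _
    calc Real.exp (2 * (S + 1) * ∑ i, x σ i ^ 2) * 2 ^ N ≤
        Real.exp (2 * (S + 1) * N) * Real.exp (N * 1) := by
          refine mul_le_mul ?_ h4 (by positivity) (Real.exp_pos _).le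
          apply Real.exp_le_exp.2
          exact mul_le_mul_of_nonneg_left hx (by linarith)
      _ = Real.exp (N * (2 * (S + 1) + 1)) := by
          rw [← Real.exp_add]; congr 1; ring
  have hpos : 0 ≤ ∏ g, ∏ i, CoinG.bavg n (fun z => Real.exp (a i g * sv (σ i) * z)) :=
    Finset.prod_nonneg fun g _ => Finset.prod_nonneg fun i _ =>
      (CoinG.bavg_pos n fun _ => Real.exp_pos _).le
  calc _ ≤ Real.exp (N * (2 * (S + 1) + 1)) * Real.exp (N * (R / 2)) :=
        mul_le_mul (h2.trans h3) h1 hpos (Real.exp_pos _).le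
    _ = _ := by rw [← Real.exp_add]; congr 1; ring

/-- free energy with the quadratic term -/
theorem Phi_Y_le (hA : A.Nonempty) (hb : p.nb = 0) (h0 : (Fin N → Bool) → ℝ)
    (a lam : Fin N → Fin p.nc → ℝ) (x : (Fin N → Bool) → Fin N → ℝ) {R S : ℝ}
    (hR : ∀ i, ∑ g, a i g ^ 2 ≤ R) (hS : ∀ i, ∑ g, lam i g ^ 2 ≤ S)
    (hx : ∀ σ ∈ A, ∑ i, x σ i ^ 2 ≤ N) (d : DD p N) :
    G.Phi (SY.base p n A hA) (fun s => SY.HS h0 a lam x s +
      1 / (8 * (S + 1)) * ∑ i, Yi lam s.2.2 i ^ 2) d ≤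
      LPert.LA A h0 + N * (R / 2 + 2 * (S + 1) + 1) + p.τ * Fintype.card (Stp p) := by
  have hcA : (0:ℝ) < (A.card : ℝ) := by exact_mod_cast hA.card_pos
  set HV : SY.SS p n A → ℝ := fun s => SY.HS h0 a lam x s +
      1 / (8 * (S + 1)) * ∑ i, Yi lam s.2.2 i ^ 2 with hHV
  have h1 := (abs_le.1 (G.Phi_F2 (SY.base p n A hA) HV d)).2
  rw [hb] at h1
  have hP := Z.qS_isProb (p := p) (n := n) hA
  have hF0 : (Z.filS p n hA).F 0 = ⊤ := SY.base_SF_zero hA
  set cc : ℝ := N * (R / 2 + 2 * (S + 1) + 1) with hcc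
  have h2 : G.Phi0 (SY.base p n A hA) HV ≤ LPert.LA A h0 + cc := by
    rw [Z.Phi0_eq]
    refine eE_le_of_le hP fun s => ?_
    refine (A_le_log hP p.xs_expo _ 0 s).trans ?_
    rw [hF0, eE_top hP, LPert.eE_qS hA]
    have h3 : ∀ σ : {σ : Fin N → Bool // σ ∈ A},
        eE (unif (SY.FC p N n)) (fun c => eE (unif (SY.FC p N n)) (fun c' =>
          Real.exp (HV ((σ, c, c') : SY.SS p n A)))) ≤
        Real.exp (h0 σ.1) * Real.exp cc := by
      intro σ
      have e1 : ∀ c c' : SY.FC p N n, Real.exp (HV ((σ, c, c') : SY.SS p n A)) =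
          Real.exp (h0 σ.1) * Real.exp (LPert.fs a lam x (c, c') σ.1 +
            1 / (8 * (S + 1)) * ∑ i, Yi lam c' i ^ 2) := by
        intro c c'
        rw [hHV, ← Real.exp_add]
        congr 1
        show SY.HS h0 a lam x ((σ, c, c') : SY.SS p n A) + _ = _
        rw [LPert.HS_fs, add_assoc]
      simp only [e1, eE_smul]
      exact mul_le_mul_of_nonneg_left (exp_fsY a lam x σ.1 hR hS (hx σ.1 σ.2)) (Real.exp_pos _).le
    have h4 : (A.card : ℝ)⁻¹ * ∑ σ : {σ : Fin N → Bool // σ ∈ A},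
        eE (unif (SY.FC p N n)) (fun c => eE (unif (SY.FC p N n)) (fun c' =>
          Real.exp (HV ((σ, c, c') : SY.SS p n A)))) ≤
        ((A.card : ℝ)⁻¹ * ∑ σ ∈ A, Real.exp (h0 σ)) * Real.exp cc := by
      rw [mul_assoc]
      refine mul_le_mul_of_nonneg_left ?_ (inv_pos.2 hcA).le
      rw [Finset.sum_mul, ← Finset.sum_coe_sort A (fun σ => Real.exp (h0 σ) * Real.exp cc)]
      exact Finset.sum_le_sum fun σ _ => h3 σ
    have h5 : 0 < (A.card : ℝ)⁻¹ * ∑ σ : {σ : Fin N → Bool // σ ∈ A},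
        eE (unif (SY.FC p N n)) (fun c => eE (unif (SY.FC p N n)) (fun c' =>
          Real.exp (HV ((σ, c, c') : SY.SS p n A)))) := by
      rw [← LPert.eE_qS hA (fun s => Real.exp (HV s))]
      have := cE_pos hP (r := ⊤) (f := fun w => Real.exp (HV w))
        (fun _ => Real.exp_pos _) s
      rwa [eE_top hP] at this
    refine (Real.log_le_log h5 h4).trans (le_of_eq ?_)
    rw [Real.log_mul (LPert.LA_pos hA h0).ne' (Real.exp_pos _).ne', Real.log_exp]
    rfl
  have h6 : (N : ℝ) * (((0 : ℕ) : ℝ) * (p.Q : ℝ)⁻¹) = 0 := by simp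
  rw [h6] at h1
  show G.Phi (SY.base p n A hA) HV d ≤ _
  linarith

/-- **second moment of the weighted small fields** -/
theorem eE_Yi_le (hA : A.Nonempty) (hb : p.nb = 0) (h0 : (Fin N → Bool) → ℝ)
    (a lam : Fin N → Fin p.nc → ℝ) (x : (Fin N → Bool) → Fin N → ℝ) {R S : ℝ}
    (hS0 : 0 ≤ S)
    (hR : ∀ i, ∑ g, a i g ^ 2 ≤ R) (hS : ∀ i, ∑ g, lam i g ^ 2 ≤ S)
    (hx : ∀ σ ∈ A, ∑ i, x σ i ^ 2 ≤ N) (d : DD p N) :
    eE (G.PP (SY.base p n A hA) (SY.HS h0 a lam x) d) (fun ω => ∑ i, Yi lam ω.1.2.2 i ^ 2) ≤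
      8 * (S + 1) * (N * (R / 2 + 2 * (S + 1) + 1) + p.τ * Fintype.card (Stp p)) := by
  have h1 := Phi_Y_le (n := n) hA hb h0 a lam x hR hS hx d
  have h2 := LPert.LA_le_Phi (n := n) hA hb h0 a lam x d
  have h3 := US.Phi_add_ge (SY.base p n A hA) (SY.base_SF_zero hA) (SY.HS h0 a lam x)
    (fun s => 1 / (8 * (S + 1)) * ∑ i, Yi lam s.2.2 i ^ 2) d
  rw [eE_smul (G.PP (SY.base p n A hA) (SY.HS h0 a lam x) d) (1 / (8 * (S + 1)))
    (fun ω => ∑ i, Yi lam ω.1.2.2 i ^ 2)] at h3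
  set X := eE (G.PP (SY.base p n A hA) (SY.HS h0 a lam x) d)
    (fun ω => ∑ i, Yi lam ω.1.2.2 i ^ 2) with hX
  have h4 : 1 / (8 * (S + 1)) * X ≤ N * (R / 2 + 2 * (S + 1) + 1) +
      p.τ * Fintype.card (Stp p) := by linarith
  rw [one_div, inv_mul_le_iff₀ (by linarith)] at h4
  exact h4

end

end Crest.Agent.R164.LInc
end

-- ▼ part R164/LInc2
section

/-!
# Row 164, L side, module GL3 part 2 (helper60): lower bound of the step at a fixed coupling
-/

set_option autoImplicit false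
set_option linter.unusedSectionVars false

namespace Crest.Agent.R164.LInc

open Finset MeasureTheory ProbabilityTheory Crest.Agent.R141 Crest.Agent.R141.SysF
  Crest.Agent.R141.SysIC
  Crest.Agent.R164 Crest.Agent.R164.ED Crest.Agent.R164.PF Crest.Agent.R164.Haar

noncomputable section

/-! ### moments of the normalised Gaussian vector -/

section un

variable {N : ℕ}

theorem abs_un_le (G : Fin (N + 1) → ℝ) (i : Fin (N + 1)) : |un G i| ≤ 1 := by
  by_cases hG : nrm G = 0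
  · unfold un
    rw [hG, div_zero, abs_zero]; exact zero_le_one
  · have h1 : un G i ^ 2 ≤ 1 := by
      rw [← sum_un hG]
      exact Finset.single_le_sum (f := fun i => un G i ^ 2) (fun i _ => sq_nonneg _)
        (Finset.mem_univ _)
    rw [← sq_abs] at h1
    exact (sq_le_one_iff₀ (abs_nonneg _)).1 h1

theorem int_un_rot {O : Matrix (Fin (N + 1)) (Fin (N + 1)) ℝ}
    (hO : O ∈ Matrix.orthogonalGroup (Fin (N + 1)) ℝ) {f : (Fin (N + 1) → ℝ) → ℝ}
    (hf : Measurable f) :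
    ∫ G, f (un G) ∂(gam (Fin (N + 1))) = ∫ G, f (O.mulVec (un G)) ∂(gam (Fin (N + 1))) := by
  have hm : Measurable (fun G : Fin (N + 1) → ℝ => f (un G)) :=
    hf.comp (measurable_pi_lambda _ fun i => measurable_un i)
  conv_lhs => rw [← gam_rot hO]
  rw [integral_map (continuous_mulVec O).measurable.aemeasurable hm.aestronglyMeasurable]
  simp only [un_mulVec hO]

theorem sgn_mem (i : Fin (N + 1)) : Matrix.diagonal (fun k => if k = i then (-1 : ℝ) else 1) ∈
    Matrix.orthogonalGroup (Fin (N + 1)) ℝ := by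
  rw [Matrix.mem_orthogonalGroup_iff, Matrix.diagonal_transpose, Matrix.diagonal_mul_diagonal]
  have h : (fun k : Fin (N + 1) => (if k = i then (-1 : ℝ) else 1) *
      (if k = i then (-1 : ℝ) else 1)) = fun _ => (1 : ℝ) := by
    funext k
    split_ifs <;> norm_num
  rw [h, Matrix.diagonal_one]

theorem int_un_mul {i j : Fin (N + 1)} (hij : i ≠ j) :
    ∫ G, un G i * un G j ∂(gam (Fin (N + 1))) = 0 := by
  have h := int_un_rot (sgn_mem i) (f := fun u => u i * u j) (by fun_prop)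
  have e : ∀ G : Fin (N + 1) → ℝ,
      (Matrix.diagonal (fun k => if k = i then (-1 : ℝ) else 1)).mulVec (un G) i *
      (Matrix.diagonal (fun k => if k = i then (-1 : ℝ) else 1)).mulVec (un G) j =
      -(un G i * un G j) := by
    intro G
    rw [Matrix.mulVec_diagonal, Matrix.mulVec_diagonal, if_pos rfl, if_neg (Ne.symm hij)]
    ring
  simp only [e] at h
  rw [integral_neg] at h
  linarith

theorem int_un_sq_eq (i j : Fin (N + 1)) :
    ∫ G, un G i ^ 2 ∂(gam (Fin (N + 1))) = ∫ G, un G j ^ 2 ∂(gam (Fin (N + 1))) := by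
  have hO := perm_mem (ι := Fin (N + 1)) (Equiv.swap i j)
  have h := int_un_rot hO (f := fun u => u i ^ 2) (by fun_prop)
  rw [h]
  congr 1
  funext G
  congr 1
  simp only [Matrix.mulVec, dotProduct, Matrix.of_apply, ite_mul, one_mul, zero_mul,
    Finset.sum_ite_eq, Finset.mem_univ, if_true, Equiv.swap_apply_left]

theorem integrable_un_mul (i j : Fin (N + 1)) :
    Integrable (fun G : Fin (N + 1) → ℝ => un G i * un G j) (gam (Fin (N + 1))) := by
  refine Integrable.of_bound ((measurable_un i).mul (measurable_un j)).aestronglyMeasurable 1 ?_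
  refine Filter.Eventually.of_forall fun G => ?_
  rw [Real.norm_eq_abs, abs_mul]
  exact mul_le_one₀ (abs_un_le G i) (abs_nonneg _) (abs_un_le G j)

theorem int_un_sq (i : Fin (N + 1)) :
    ∫ G, un G i ^ 2 ∂(gam (Fin (N + 1))) = 1 / ((N : ℝ) + 1) := by
  have h1 : ∑ j : Fin (N + 1), ∫ G, un G j ^ 2 ∂(gam (Fin (N + 1))) = 1 := by
    rw [← integral_finsetSum]
    · have h2 : ∀ᵐ G ∂(gam (Fin (N + 1))), ∑ j, un G j ^ 2 = 1 := by
        filter_upwards [gam_nrm_ne_zero] with G hG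
        exact sum_un hG
      rw [integral_congr_ae h2]
      simp
    · intro j _
      have := integrable_un_mul (N := N) j j
      simpa only [sq] using this
  rw [Finset.sum_congr rfl fun j _ => int_un_sq_eq j i] at h1
  rw [Finset.sum_const, Finset.card_univ, Fintype.card_fin, nsmul_eq_mul] at h1
  push_cast at h1
  rw [eq_div_iff (by positivity)]
  linarith

/-- second moment of the linear forms of the last column -/
theorem int_lin_sq (y : Fin N → ℝ) :
    ∫ G, (∑ i : Fin N, un G i.castSucc * y i) ^ 2 ∂(gam (Fin (N + 1))) =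
      (∑ i, y i ^ 2) / ((N : ℝ) + 1) := by
  have e1 : ∀ G : Fin (N + 1) → ℝ, (∑ i : Fin N, un G i.castSucc * y i) ^ 2 =
      ∑ i : Fin N, ∑ j : Fin N, (y i * y j) * (un G i.castSucc * un G j.castSucc) := by
    intro G
    rw [sq, Finset.sum_mul_sum]
    exact Finset.sum_congr rfl fun i _ => Finset.sum_congr rfl fun j _ => by ring
  simp only [e1]
  rw [integral_finsetSum _ fun i _ => integrable_finsetSum _ fun j _ =>
    (integrable_un_mul _ _).const_mul _]
  have e2 : ∀ i : Fin N, ∫ G, ∑ j : Fin N, (y i * y j) * (un G i.castSucc * un G j.castSucc)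
      ∂(gam (Fin (N + 1))) = y i ^ 2 * (1 / ((N : ℝ) + 1)) := by
    intro i
    rw [integral_finsetSum _ fun j _ => (integrable_un_mul _ _).const_mul _]
    simp only [integral_const_mul]
    rw [Finset.sum_eq_single i]
    · have h1 := int_un_sq (N := N) i.castSucc
      simp only [← sq]
      rw [h1]
    · intro j _ hj
      rw [int_un_mul (fun h => hj ((Fin.castSucc_injective N h).symm)), mul_zero]
    · intro h; exact absurd (Finset.mem_univ i) h
  rw [Finset.sum_congr rfl fun i _ => e2 i, ← Finset.sum_mul]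
  ring

theorem integrable_lin_sq (y : Fin N → ℝ) :
    Integrable (fun G : Fin (N + 1) → ℝ => (∑ i : Fin N, un G i.castSucc * y i) ^ 2)
      (gam (Fin (N + 1))) := by
  have e1 : (fun G : Fin (N + 1) → ℝ => (∑ i : Fin N, un G i.castSucc * y i) ^ 2) =
      fun G => ∑ i : Fin N, ∑ j : Fin N, (y i * y j) * (un G i.castSucc * un G j.castSucc) := by
    funext G
    rw [sq, Finset.sum_mul_sum]
    exact Finset.sum_congr rfl fun i _ => Finset.sum_congr rfl fun j _ => by ring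
  rw [e1]
  exact integrable_finsetSum _ fun i _ => integrable_finsetSum _ fun j _ =>
    (integrable_un_mul _ _).const_mul _

end un

/-! ### odd functions of the coins of the new site -/

section coins

variable {p : Par} {n : ℕ}

/-- all coins flipped -/
def ngC (c : LC p n) : LC p n := fun g t => !(c g t)

theorem ngC_ngC (c : LC p n) : ngC (ngC c) = c := by
  funext g t
  simp [ngC]

theorem zl_ngC (c : LC p n) (g : Fin p.nc) : zl (ngC c) g = - zl c g := by
  unfold zl ngC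
  rw [← mul_neg, ← Finset.sum_neg_distrib]
  congr 1
  refine Finset.sum_congr rfl fun t _ => ?_
  cases c g t <;> simp [sv]

/-- the flip of all coins of the new site -/
def ngE : LS p n ≃ LS p n where
  toFun l := (ngC l.1, ngC l.2)
  invFun l := (ngC l.1, ngC l.2)
  left_inv l := by simp [ngC_ngC]
  right_inv l := by simp [ngC_ngC]

theorem eE_lsP_odd {f : LS p n → ℝ} (hf : ∀ l, f (ngE l) = - f l) : eE (lsP p n) f = 0 := by
  have h : eE (lsP p n) f = - eE (lsP p n) f := by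
    conv_lhs => rw [show eE (lsP p n) f = ∑ l, lsP p n l * f l from rfl,
      ← Equiv.sum_comp (ngE (p := p) (n := n)) (fun l => lsP p n l * f l)]
    simp only [hf]
    unfold eE
    rw [← Finset.sum_neg_distrib]
    refine Finset.sum_congr rfl fun l _ => ?_
    show lsP p n l * - f l = _
    ring
  linarith

end coins

/-! ### Gibbs' inequality for the last spin -/

theorem redB_ge {Ω' : Type*} (X : Ω' × Bool → ℝ) (ω : Ω') {t : ℝ} (ht : |t| ≤ 1) :
    (1 + t) / 2 * X (ω, true) + (1 - t) / 2 * X (ω, false) - Real.log 2 ≤ redB X ω := by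
  have h1 := abs_le.1 ht
  have h2 := exp_redB X ω
  have h3 : ∀ e : Bool, X (ω, e) - Real.log 2 ≤ redB X ω := by
    intro e
    rw [← Real.exp_le_exp, Real.exp_sub, Real.exp_log (by norm_num), h2]
    cases e
    · have := Real.exp_pos (X (ω, true)); linarith
    · have := Real.exp_pos (X (ω, false)); linarith
  have a1 := mul_le_mul_of_nonneg_left (h3 true) (by linarith : 0 ≤ (1 + t) / 2)
  have a2 := mul_le_mul_of_nonneg_left (h3 false) (by linarith : 0 ≤ (1 - t) / 2)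
  nlinarith

/-! ### the pointwise lower bound -/

/-- quadratic part -/
theorem quad_ge {e r z k q mu lam s F Λ : ℝ} (he : e ^ 2 = 1) (hs : s ^ 2 = 1)
    (hr0 : 0 ≤ r) (hr1 : r ≤ 1) (hq : q ^ 2 ≤ 1) (hm : |mu| ≤ Λ) (hl : |lam| ≤ Λ) :
    -((2 + 2 * Λ) * (1 + z ^ 2)) - 1 / 2 * k ^ 2 - 1 / 2 * F ^ 2 ≤
      (e - r * z) * k + 1 / 2 * (e - r * z) ^ 2 * mu + 1 / 2 * lam * (s * z + q * e) ^ 2 +
        F * (e - r * z) := by
  have hΛ : 0 ≤ Λ := (abs_nonneg _).trans hm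
  have h1 : (e - r * z) ^ 2 ≤ 2 * (1 + z ^ 2) := by
    have h3 : (r * z) ^ 2 ≤ z ^ 2 := by
      rw [mul_pow]
      exact mul_le_of_le_one_left (sq_nonneg z) (pow_le_one₀ hr0 hr1)
    nlinarith [sq_nonneg (e + r * z)]
  have h2 : (s * z + q * e) ^ 2 ≤ 2 * (1 + z ^ 2) := by
    have h3 : (s * z) ^ 2 = z ^ 2 := by rw [mul_pow, hs, one_mul]
    have h4 : (q * e) ^ 2 ≤ 1 := by rw [mul_pow, he, mul_one]; exact hq
    nlinarith [sq_nonneg (s * z - q * e)]
  have a1 : -(1 + z ^ 2) - 1 / 2 * k ^ 2 ≤ (e - r * z) * k := by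
    nlinarith [sq_nonneg ((e - r * z) + k)]
  have a2 : -(1 + z ^ 2) - 1 / 2 * F ^ 2 ≤ F * (e - r * z) := by
    nlinarith [sq_nonneg ((e - r * z) + F)]
  have a3 : -(Λ * (1 + z ^ 2)) ≤ 1 / 2 * (e - r * z) ^ 2 * mu := by
    have h4 : -Λ ≤ mu := (abs_le.1 hm).1
    have h5 := mul_le_mul_of_nonneg_left h4 (sq_nonneg (e - r * z))
    have h6 := mul_le_mul_of_nonneg_right h1 hΛ
    nlinarith
  have a4 : -(Λ * (1 + z ^ 2)) ≤ 1 / 2 * lam * (s * z + q * e) ^ 2 := by
    have h4 : -Λ ≤ lam := (abs_le.1 hl).1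
    have h5 := mul_le_mul_of_nonneg_left h4 (sq_nonneg (s * z + q * e))
    have h6 := mul_le_mul_of_nonneg_right h2 hΛ
    nlinarith
  linarith

variable {p : Par} {N n : ℕ}

variable (eig : Fin (N + 1) → ℝ) (W0 : (Fin N → Bool) → ℝ) (W1 : (Fin (N + 1) → Bool) → ℝ)
  (a lam : Fin (N + 1) → Fin p.nc → ℝ)

/-- the mean of the increment of the potential -/
def vbar (t : ℝ) (σ : Fin N → Bool) : ℝ :=
  (1 + t) / 2 * vT W0 W1 σ true + (1 - t) / 2 * vT W0 W1 σ false

/-- the lower bound at a configuration -/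
def lb (Λ t : ℝ) (V : Mat (Fin N)) (G : Fin (N + 1) → ℝ)
    (s : SY.SS p n (univ : Finset (Fin N → Bool))) : ℝ :=
  -((2 + 2 * Λ) * (1 + gz G (SY.xU (Matrix.of V) s.1.1) ^ 2)) -
    1 / 2 * gk G (fun i => eig i.castSucc) (SY.xU (Matrix.of V) s.1.1) ^ 2 -
    1 / 2 * FF lam G s ^ 2 + vbar W0 W1 t s.1.1 - Real.log 2

/-- the odd part -/
def od (t : ℝ) (V : Mat (Fin N)) (G : Fin (N + 1) → ℝ)
    (s : SY.SS p n (univ : Finset (Fin N → Bool))) (l : LS p n) : ℝ :=
  t * yb (a (Fin.last N)) l + L2 lam l * (sg (un G) * gz G (SY.xU (Matrix.of V) s.1.1) +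
        un G (Fin.last N) * t)

theorem abs_mu_le {Λ : ℝ} (he : ∀ i, |eig i| ≤ Λ) {G : Fin (N + 1) → ℝ} (hG : nrm G ≠ 0) :
    |mu_ (fun i : Fin N => eig i.castSucc) G| ≤ Λ := by
  have hΛ : 0 ≤ Λ := (abs_nonneg _).trans (he (Fin.last N))
  unfold mu_
  refine (Finset.abs_sum_le_sum_abs _ _).trans ?_
  calc ∑ i : Fin N, |eig i.castSucc * un G i.castSucc ^ 2| ≤
      ∑ i : Fin N, Λ * un G i.castSucc ^ 2 := by
        refine Finset.sum_le_sum fun i _ => ?_
        rw [abs_mul, abs_of_nonneg (sq_nonneg (un G i.castSucc))]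
        exact mul_le_mul_of_nonneg_right (he _) (sq_nonneg _)
    _ = Λ * ∑ i : Fin N, un G i.castSucc ^ 2 := by rw [Finset.mul_sum]
    _ ≤ Λ * 1 := by
        refine mul_le_mul_of_nonneg_left ?_ hΛ
        have h := sum_un hG
        rw [Fin.sum_univ_castSucc] at h
        linarith [sq_nonneg (un G (Fin.last N))]
    _ = Λ := mul_one _

/-- **the pointwise lower bound of the step** -/
theorem Xr_ge {Λ t : ℝ} (he : ∀ i, |eig i| ≤ Λ) (ht : |t| ≤ 1) {G : Fin (N + 1) → ℝ}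
    (hG : nrm G ≠ 0) (V : Mat (Fin N)) (w : OU p N n × LS p n) :
    lb eig W0 W1 lam Λ t V G w.1.1 + od a lam t V G w.1.1 w.2 ≤
      Xr (HN eig W0 a lam V) (HN1 eig W1 a lam (cplS V G)) w := by
  refine le_trans ?_ (redB_ge (xw (HN eig W0 a lam V) (HN1 eig W1 a lam (cplS V G))) w ht)
  have hr := rr_mem G hG
  have hq : un G (Fin.last N) ^ 2 ≤ 1 := by
    rw [← sum_un hG]
    exact Finset.single_le_sum (f := fun i => un G i ^ 2) (fun i _ => sq_nonneg _)
      (Finset.mem_univ _)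
  have hs2 : sg (un G) ^ 2 = 1 := by rw [sq]; exact sg_mul_self _
  have hm := abs_mu_le eig he hG
  have key : ∀ e : Bool, -((2 + 2 * Λ) * (1 + gz G (SY.xU (Matrix.of V) w.1.1.1.1) ^ 2)) -
      1 / 2 * gk G (fun i => eig i.castSucc) (SY.xU (Matrix.of V) w.1.1.1.1) ^ 2 -
      1 / 2 * FF lam G w.1.1 ^ 2 + vT W0 W1 w.1.1.1.1 e + sv e * yb (a (Fin.last N)) w.2 +
      L2 lam w.2 * (sg (un G) * gz G (SY.xU (Matrix.of V) w.1.1.1.1) +
        un G (Fin.last N) * sv e) ≤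
      xw (HN eig W0 a lam V) (HN1 eig W1 a lam (cplS V G)) (w, e) := by
    intro e
    rw [xw_formula eig W0 W1 a lam hG V (w, e)]
    have he2 : sv e ^ 2 = 1 := by cases e <;> norm_num [sv]
    have h1 := quad_ge (e := sv e) (r := rr G) (z := gz G (SY.xU (Matrix.of V) w.1.1.1.1))
      (k := gk G (fun i => eig i.castSucc) (SY.xU (Matrix.of V) w.1.1.1.1))
      (q := un G (Fin.last N)) (mu := mu_ (fun i : Fin N => eig i.castSucc) G)
      (lam := eig (Fin.last N)) (s := sg (un G)) (F := FF lam G w.1.1) (Λ := Λ)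
      he2 hs2 (by linarith [hr.1]) hr.2 hq hm (he _)
    show _ ≤ (sv e - rr G * gz G (SY.xU (Matrix.of V) w.1.1.1.1)) *
        gk G (fun i => eig i.castSucc) (SY.xU (Matrix.of V) w.1.1.1.1) +
      (1 / 2) * (sv e - rr G * gz G (SY.xU (Matrix.of V) w.1.1.1.1)) ^ 2 *
        mu_ (fun i => eig i.castSucc) G +
      (1 / 2) * eig (Fin.last N) * (sg (un G) * gz G (SY.xU (Matrix.of V) w.1.1.1.1) +
        un G (Fin.last N) * sv e) ^ 2 +
      vT W0 W1 w.1.1.1.1 e +
      sv e * yb (a (Fin.last N)) w.2 +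
      FF lam G w.1.1 * (sv e - rr G * gz G (SY.xU (Matrix.of V) w.1.1.1.1)) +
      L2 lam w.2 * (sg (un G) * gz G (SY.xU (Matrix.of V) w.1.1.1.1) +
        un G (Fin.last N) * sv e)
    linarith
  have h1 := abs_le.1 ht
  have k1 := mul_le_mul_of_nonneg_left (key true) (by linarith : 0 ≤ (1 + t) / 2)
  have k2 := mul_le_mul_of_nonneg_left (key false) (by linarith : 0 ≤ (1 - t) / 2)
  have s1 : sv true = 1 := rfl
  have s2 : sv false = -1 := rfl
  rw [s1] at k1
  rw [s2] at k2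
  unfold lb od vbar
  nlinarith

theorem od_odd (t : ℝ) (V : Mat (Fin N)) (G : Fin (N + 1) → ℝ)
    (s : SY.SS p n (univ : Finset (Fin N → Bool))) (l : LS p n) :
    od a lam t V G s (ngE l) = - od a lam t V G s l := by
  have h1 : yb (a (Fin.last N)) (ngE l) = - yb (a (Fin.last N)) l := by
    unfold yb
    rw [← Finset.sum_neg_distrib]
    refine Finset.sum_congr rfl fun g _ => ?_
    show _ * zl (ngC l.1) g = _
    rw [zl_ngC]; ring
  have h2 : L2 lam (ngE l) = - L2 lam l := by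
    unfold L2
    rw [← Finset.sum_neg_distrib]
    refine Finset.sum_congr rfl fun g _ => ?_
    show _ * zl (ngC l.2) g = _
    rw [zl_ngC]; ring
  unfold od
  rw [h1, h2]; ring

/-- **lower bound of the step, in mean** -/
theorem aE_Xr_ge {Λ t : ℝ} (he : ∀ i, |eig i| ≤ Λ) (ht : |t| ≤ 1) {g : Fin (N + 1) → ℝ}
    (hG : nrm g ≠ 0) (V : Mat (Fin N)) (d : DD p N) :
    eE (G.PP (BU p N n) (HN eig W0 a lam V) d) (fun ω => lb eig W0 W1 lam Λ t V g ω.1) ≤
      aE (stP p N n (HN eig W0 a lam V) d) (stF p N n) p.xs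
        (Xr (HN eig W0 a lam V) (HN1 eig W1 a lam (cplS V g))) := by
  have hP := stP_isProb (n := n) (HN eig W0 a lam V) d
  refine le_trans ?_ (eE_le_aE (𝓕 := stF p N n) hP p.xs_expo.pos _)
  refine le_trans ?_ (eE_mono hP fun w => Xr_ge eig W0 W1 a lam he ht hG V w)
  have hPP := G.PP_isProb (BU p N n) (HN eig W0 a lam V) d
  unfold stP
  rw [eE_prod]
  refine le_of_eq ?_
  congr 1
  funext ω
  rw [eE_add (lsP p n) (fun _ => lb eig W0 W1 lam Λ t V g ω.1)
    (fun l => od a lam t V g ω.1 l), eE_const lsP_isProb,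
    eE_lsP_odd (fun l => od_odd a lam t V g ω.1 l), add_zero]

end

end Crest.Agent.R164.LInc
end

-- ▼ part R164/LInc3
section

/-!
# Row 164, L side, module GL3 part 3 (helper60): lower bound of the increment, integrated
-/

set_option autoImplicit false
set_option linter.unusedSectionVars false

namespace Crest.Agent.R164.LInc

open Finset MeasureTheory ProbabilityTheory Crest.Agent.R141 Crest.Agent.R141.SysF
  Crest.Agent.R141.SysIC
  Crest.Agent.R164 Crest.Agent.R164.ED Crest.Agent.R164.PF Crest.Agent.R164.Haar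

noncomputable section

variable {p : Par} {N n : ℕ}

/-! ### change of the law of the pointers -/


/-- the error of the change of the law of the pointers -/
def epsD (p : Par) (N : ℕ) : ℝ :=
  p.nc * p.T * (p.τ * Fintype.card (Stp p)) / ((N : ℝ) + 1)

theorem Ed_lift_ge (hb : p.nb = 0) (hN : 0 < N)
    (H1 : SY.SS p n (univ : Finset (Fin (N + 1) → Bool)) → ℝ) :
    |Ed p (N + 1) (fun d => G.Phi (BU p (N + 1) n) H1 d) -
      Ed p N (fun d => G.Phi (BU p (N + 1) n) H1 (F4.liftD p N d))| ≤ epsD p N := by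
  refine EDlaw.Ed_succ_sub p hN (fun d => G.Phi (BU p (N + 1) n) H1 d)
    (G.Phi0 (BU p (N + 1) n) H1) fun d => ?_
  have h := G.Phi_F2 (BU p (N + 1) n) H1 d
  rw [hb] at h
  simpa using h

variable (eig : Fin (N + 1) → ℝ) (W0 : (Fin N → Bool) → ℝ) (W1 : (Fin (N + 1) → Bool) → ℝ)
  (a lam : Fin (N + 1) → Fin p.nc → ℝ)

/-- mean of the lower bound at a fixed coupling -/
def mlb (n : ℕ) (Λ t : ℝ) (V : Mat (Fin N)) (g : Fin (N + 1) → ℝ) : ℝ :=
  Ed p N (fun d => eE (G.PP (BU p N n) (HN eig W0 a lam V) d)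
    (fun ω => lb eig W0 W1 lam Λ t V g ω.1))

/-- **the step at a fixed coupling** -/
theorem step_ge (hb : p.nb = 0) (hN : 0 < N) {Λ t : ℝ} (he : ∀ i, |eig i| ≤ Λ) (ht : |t| ≤ 1)
    {g : Fin (N + 1) → ℝ} (hg : nrm g ≠ 0) (V : Mat (Fin N)) :
    Ed p N (fun d => G.Phi (BU p N n) (HN eig W0 a lam V) d) +
      mlb eig W0 W1 a lam n Λ t V g - epsD p N ≤
      Ed p (N + 1) (fun d => G.Phi (BU p (N + 1) n) (HN1 eig W1 a lam (cplS V g)) d) := by
  have h1 := (abs_le.1 (Ed_lift_ge (n := n) hb hN (HN1 eig W1 a lam (cplS V g)))).1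
  have h2 : Ed p N (fun d => G.Phi (BU p N n) (HN eig W0 a lam V) d) +
      mlb eig W0 W1 a lam n Λ t V g ≤ Ed p N (fun d => G.Phi (BU p (N + 1) n)
        (HN1 eig W1 a lam (cplS V g)) (F4.liftD p N d)) := by
    unfold mlb
    rw [← Ed_add]
    refine Ed_mono p N fun d => ?_
    rw [Phi_gl (HN eig W0 a lam V) (HN1 eig W1 a lam (cplS V g)) hb d]
    exact add_le_add le_rfl (aE_Xr_ge eig W0 W1 a lam he ht hg V d)
  linarith

/-! ### bounds and integrability of the lower bound -/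

theorem sum_un_le (g : Fin (N + 1) → ℝ) : ∑ i : Fin N, un g i.castSucc ^ 2 ≤ 1 := by
  by_cases hg : nrm g = 0
  · have h : ∀ i, un g i = 0 := fun i => by unfold un; rw [hg, div_zero]
    simp [h]
  · have h := sum_un hg
    rw [Fin.sum_univ_castSucc] at h
    linarith [sq_nonneg (un g (Fin.last N))]

theorem lin_sq_le (g : Fin (N + 1) → ℝ) (y : Fin N → ℝ) :
    (∑ i : Fin N, un g i.castSucc * y i) ^ 2 ≤ ∑ i, y i ^ 2 := by
  refine (Finset.sum_mul_sq_le_sq_mul_sq _ _ _).trans ?_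
  exact mul_le_of_le_one_left (Finset.sum_nonneg fun i _ => sq_nonneg _) (sum_un_le g)

theorem FF_eq (g : Fin (N + 1) → ℝ) (s : SY.SS p n (univ : Finset (Fin N → Bool))) :
    FF lam g s = ∑ i : Fin N, un g i.castSucc * Yi (fun i => lam i.castSucc) s.2.2 i := by
  unfold FF Yi
  rw [Finset.sum_comm]
  refine Finset.sum_congr rfl fun i _ => ?_
  rw [Finset.mul_sum]
  exact Finset.sum_congr rfl fun g _ => by ring

theorem gk_eq' (g : Fin (N + 1) → ℝ) (e x : Fin N → ℝ) :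
    gk g e x = ∑ i : Fin N, un g i.castSucc * (e i * x i) := by
  unfold gk
  exact Finset.sum_congr rfl fun i _ => by ring

/-- the lower bound integrated over the last column -/
def lbI (Λ t : ℝ) (V : Mat (Fin N)) (s : SY.SS p n (univ : Finset (Fin N → Bool))) : ℝ :=
  -((2 + 2 * Λ) * (1 + (∑ i, SY.xU (Matrix.of V) s.1.1 i ^ 2) / ((N : ℝ) + 1))) -
    1 / 2 * ((∑ i, (eig i.castSucc * SY.xU (Matrix.of V) s.1.1 i) ^ 2) / ((N : ℝ) + 1)) -
    1 / 2 * ((∑ i, Yi (fun i => lam i.castSucc) s.2.2 i ^ 2) / ((N : ℝ) + 1)) +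
      vbar W0 W1 t s.1.1 - Real.log 2

theorem lb_eq (Λ t : ℝ) (V : Mat (Fin N)) (g : Fin (N + 1) → ℝ)
    (s : SY.SS p n (univ : Finset (Fin N → Bool))) :
    lb eig W0 W1 lam Λ t V g s = (-(2 + 2 * Λ) + vbar W0 W1 t s.1.1 - Real.log 2) +
      (-(2 + 2 * Λ)) * (∑ i : Fin N, un g i.castSucc * SY.xU (Matrix.of V) s.1.1 i) ^ 2 +
      (-(1 / 2)) * (∑ i : Fin N, un g i.castSucc * (eig i.castSucc *
        SY.xU (Matrix.of V) s.1.1 i)) ^ 2 +
      (-(1 / 2)) * (∑ i : Fin N, un g i.castSucc * Yi (fun i => lam i.castSucc) s.2.2 i) ^ 2 := by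
  unfold lb
  rw [FF_eq, gk_eq']
  unfold gz
  ring

theorem int_lb (Λ t : ℝ) (V : Mat (Fin N)) (s : SY.SS p n (univ : Finset (Fin N → Bool))) :
    Integrable (fun g => lb eig W0 W1 lam Λ t V g s) (gam (Fin (N + 1))) ∧
    ∫ g, lb eig W0 W1 lam Λ t V g s ∂(gam (Fin (N + 1))) = lbI eig W0 W1 lam Λ t V s := by
  have i1 := (integrable_lin_sq (SY.xU (Matrix.of V) s.1.1)).const_mul (-(2 + 2 * Λ))
  have i2 := (integrable_lin_sq (fun i => eig i.castSucc * SY.xU (Matrix.of V) s.1.1 i)).const_mul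
    (-(1 / 2))
  have i3 := (integrable_lin_sq (Yi (fun i => lam i.castSucc) s.2.2)).const_mul (-(1 / 2))
  have i0 : Integrable (fun _ : Fin (N + 1) → ℝ =>
      -(2 + 2 * Λ) + vbar W0 W1 t s.1.1 - Real.log 2) (gam (Fin (N + 1))) := integrable_const _
  simp only [lb_eq]
  have j1 : Integrable (fun g : Fin (N + 1) → ℝ =>
      (-(2 + 2 * Λ) + vbar W0 W1 t s.1.1 - Real.log 2) +
      (-(2 + 2 * Λ)) * (∑ i : Fin N, un g i.castSucc * SY.xU (Matrix.of V) s.1.1 i) ^ 2)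
      (gam (Fin (N + 1))) := i0.add i1
  have j2 : Integrable (fun g : Fin (N + 1) → ℝ =>
      (-(2 + 2 * Λ) + vbar W0 W1 t s.1.1 - Real.log 2) +
      (-(2 + 2 * Λ)) * (∑ i : Fin N, un g i.castSucc * SY.xU (Matrix.of V) s.1.1 i) ^ 2 +
      (-(1 / 2)) * (∑ i : Fin N, un g i.castSucc * (eig i.castSucc *
        SY.xU (Matrix.of V) s.1.1 i)) ^ 2) (gam (Fin (N + 1))) := j1.add i2
  refine ⟨j2.add i3, ?_⟩
  rw [integral_add j2 i3, integral_add j1 i2, integral_add i0 i1,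
    integral_const_mul, integral_const_mul, integral_const_mul, int_lin_sq, int_lin_sq, int_lin_sq,
    integral_const, probReal_univ, one_smul]
  unfold lbI
  ring

theorem int_eE {Θ : Type*} [MeasurableSpace Θ] (ν : Measure Θ) {Ω : Type*} [Fintype Ω]
    (P : Ω → ℝ) (f : Θ → Ω → ℝ)
    (hi : ∀ ω, Integrable (fun g => f g ω) ν) :
    Integrable (fun g => eE P (f g)) ν ∧
    ∫ g, eE P (f g) ∂ν = eE P (fun ω => ∫ g, f g ω ∂ν) := by
  unfold eE
  refine ⟨integrable_finsetSum _ fun ω _ => (hi ω).const_mul _, ?_⟩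
  rw [integral_finsetSum _ fun ω _ => (hi ω).const_mul _]
  exact Finset.sum_congr rfl fun ω _ => integral_const_mul _ _

theorem int_Ed {Θ : Type*} [MeasurableSpace Θ] (ν : Measure Θ) (f : Θ → DD p N → ℝ)
    (hi : ∀ d, Integrable (fun g => f g d) ν) :
    ∫ g, Ed p N (f g) ∂ν = Ed p N (fun d => ∫ g, f g d ∂ν) := by
  unfold Ed
  rw [integral_finsetSum _ fun d _ => (hi d).const_mul _]
  exact Finset.sum_congr rfl fun d _ => integral_const_mul _ _

theorem sum_xU_sq' {V : Mat (Fin N)} (hV : Matrix.of V ∈ Matrix.orthogonalGroup (Fin N) ℝ)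
    (σ : Fin N → Bool) : ∑ i, SY.xU (Matrix.of V) σ i ^ 2 = N := by
  unfold SY.xU
  rw [sq_sum_mulVec hV, Mag.spin_sq_sum]

theorem sum_ex_sq_le {Λ : ℝ} (he : ∀ i, |eig i| ≤ Λ) {V : Mat (Fin N)}
    (hV : Matrix.of V ∈ Matrix.orthogonalGroup (Fin N) ℝ) (σ : Fin N → Bool) :
    ∑ i : Fin N, (eig i.castSucc * SY.xU (Matrix.of V) σ i) ^ 2 ≤ Λ ^ 2 * N := by
  rw [← sum_xU_sq' hV σ, Finset.mul_sum]
  refine Finset.sum_le_sum fun i _ => ?_
  rw [mul_pow]
  refine mul_le_mul_of_nonneg_right ?_ (sq_nonneg _)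
  exact sq_le_sq' (by linarith [(abs_le.1 (he i.castSucc)).1]) (abs_le.1 (he i.castSucc)).2

/-- bound of the lower bound -/
theorem abs_lb_le {Λ t : ℝ} (he : ∀ i, |eig i| ≤ Λ) {V : Mat (Fin N)}
    (hV : Matrix.of V ∈ Matrix.orthogonalGroup (Fin N) ℝ) (g : Fin (N + 1) → ℝ)
    (s : SY.SS p n (univ : Finset (Fin N → Bool))) :
    |lb eig W0 W1 lam Λ t V g s| ≤ (2 + 2 * Λ) * (1 + N) + 1 / 2 * (Λ ^ 2 * N) + Real.log 2 +
      ∑ s : SY.SS p n (univ : Finset (Fin N → Bool)),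
        (1 / 2 * (∑ i, Yi (fun i => lam i.castSucc) s.2.2 i ^ 2) + |vbar W0 W1 t s.1.1|) := by
  have hΛ : 0 ≤ Λ := (abs_nonneg _).trans (he (Fin.last N))
  have h1 := lin_sq_le g (SY.xU (Matrix.of V) s.1.1)
  rw [sum_xU_sq' hV] at h1
  have h2 := (lin_sq_le g (fun i => eig i.castSucc * SY.xU (Matrix.of V) s.1.1 i)).trans
    (sum_ex_sq_le eig he hV s.1.1)
  have h3 := lin_sq_le g (Yi (fun i => lam i.castSucc) s.2.2)
  have h4 : 1 / 2 * (∑ i, Yi (fun i => lam i.castSucc) s.2.2 i ^ 2) + |vbar W0 W1 t s.1.1| ≤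
      ∑ s : SY.SS p n (univ : Finset (Fin N → Bool)),
        (1 / 2 * (∑ i, Yi (fun i => lam i.castSucc) s.2.2 i ^ 2) + |vbar W0 W1 t s.1.1|) :=
    Finset.single_le_sum (f := fun s : SY.SS p n (univ : Finset (Fin N → Bool)) =>
      1 / 2 * (∑ i, Yi (fun i => lam i.castSucc) s.2.2 i ^ 2) + |vbar W0 W1 t s.1.1|)
      (fun s _ => by positivity) (Finset.mem_univ s)
  have h5 := abs_le.1 (le_refl |vbar W0 W1 t s.1.1|)
  have hl := Real.log_nonneg (by norm_num : (1:ℝ) ≤ 2)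
  have a1 := mul_le_mul_of_nonneg_left h1 (by linarith : 0 ≤ 2 + 2 * Λ)
  rw [lb_eq, abs_le]
  set z1 := (∑ i : Fin N, un g i.castSucc * SY.xU (Matrix.of V) s.1.1 i) ^ 2
  set z2 := (∑ i : Fin N, un g i.castSucc * (eig i.castSucc *
        SY.xU (Matrix.of V) s.1.1 i)) ^ 2
  set z3 := (∑ i : Fin N, un g i.castSucc * Yi (fun i => lam i.castSucc) s.2.2 i) ^ 2
  have p1 : 0 ≤ z1 := sq_nonneg _
  have p2 : 0 ≤ z2 := sq_nonneg _
  have p3 : 0 ≤ z3 := sq_nonneg _
  have p4 : 0 ≤ (2 + 2 * Λ) * z1 := by positivity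
  constructor
  · linarith
  · have q1 : 0 ≤ (2 + 2 * Λ) * (1 + (N:ℝ)) := by positivity
    have q2 : 0 ≤ 1 / 2 * (Λ ^ 2 * (N:ℝ)) := by positivity
    have q3 : 0 ≤ ∑ i, Yi (fun i => lam i.castSucc) s.2.2 i ^ 2 :=
      Finset.sum_nonneg fun i _ => sq_nonneg _
    linarith

theorem measurable_lb (Λ t : ℝ) (s : SY.SS p n (univ : Finset (Fin N → Bool))) :
    Measurable (fun q : Mat (Fin N) × (Fin (N + 1) → ℝ) =>
      lb eig W0 W1 lam Λ t q.1 q.2 s) := by
  simp only [lb_eq]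
  have hx : ∀ i, Measurable (fun q : Mat (Fin N) × (Fin (N + 1) → ℝ) =>
      SY.xU (Matrix.of q.1) s.1.1 i) := fun i =>
    (GX.continuous_xU s.1.1 i).measurable.comp measurable_fst
  have hu : ∀ i, Measurable (fun q : Mat (Fin N) × (Fin (N + 1) → ℝ) => un q.2 i) := fun i =>
    (measurable_un i).comp measurable_snd
  refine Measurable.add (Measurable.add (Measurable.add measurable_const ?_) ?_) ?_
  · exact ((Finset.measurable_sum _ fun i _ => (hu _).mul (hx i)).pow_const 2).const_mul _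
  · exact ((Finset.measurable_sum _ fun i _ => (hu _).mul ((hx i).const_mul _)).pow_const
      2).const_mul _
  · exact ((Finset.measurable_sum _ fun i _ => (hu _).mul_const _).pow_const 2).const_mul _

section measure

variable {μ : Measure (Mat (Fin N))} [IsProbabilityMeasure μ]

theorem meas_PPN (d : DD p N) (ω : OU p N n) :
    Measurable fun V : Mat (Fin N) => G.PP (BU p N n) (HN eig W0 a lam V) d ω :=
  G.meas_PP (BU p N n) (H := fun V => HN eig W0 a lam V)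
    (fun s => (GX.continuous_Hs s).measurable) d ω

theorem integrable_mlb (hμ : RHaar μ) {Λ t : ℝ} (he : ∀ i, |eig i| ≤ Λ) (d : DD p N) :
    Integrable (fun q : Mat (Fin N) × (Fin (N + 1) → ℝ) =>
      eE (G.PP (BU p N n) (HN eig W0 a lam q.1) d) (fun ω => lb eig W0 W1 lam Λ t q.1 q.2 ω.1))
      (μ.prod (gam (Fin (N + 1)))) := by
  refine Integrable.of_bound (G.meas_eE (fun ω => (meas_PPN eig W0 a lam d ω).comp measurable_fst)
    (fun ω => measurable_lb eig W0 W1 lam Λ t ω.1)).aestronglyMeasurable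
    ((2 + 2 * Λ) * (1 + N) + 1 / 2 * (Λ ^ 2 * N) + Real.log 2 +
      ∑ s : SY.SS p n (univ : Finset (Fin N → Bool)),
        (1 / 2 * (∑ i, Yi (fun i => lam i.castSucc) s.2.2 i ^ 2) + |vbar W0 W1 t s.1.1|)) ?_
  have h2 : ∀ᵐ q ∂(μ.prod (gam (Fin (N + 1)))),
        Matrix.of q.1 ∈ Matrix.orthogonalGroup (Fin N) ℝ :=
      (Measure.quasiMeasurePreserving_fst).ae hμ.mem
  filter_upwards [h2] with q hq
  rw [Real.norm_eq_abs]
  exact LS2.abs_eE_le (G.PP_isProb _ _ _) fun ω => abs_lb_le eig W0 W1 lam he hq q.2 ω.1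

/-- integral of the mean lower bound -/
theorem int_mlb (hμ : RHaar μ) {Λ t : ℝ} (he : ∀ i, |eig i| ≤ Λ) :
    Integrable (fun q : Mat (Fin N) × (Fin (N + 1) → ℝ) =>
      mlb eig W0 W1 a lam n Λ t q.1 q.2) (μ.prod (gam (Fin (N + 1)))) ∧
    ∫ q, mlb eig W0 W1 a lam n Λ t q.1 q.2 ∂(μ.prod (gam (Fin (N + 1)))) =
      ∫ V, Ed p N (fun d => eE (G.PP (BU p N n) (HN eig W0 a lam V) d)
        (fun ω => lbI eig W0 W1 lam Λ t V ω.1)) ∂μ := by
  have hi : Integrable (fun q : Mat (Fin N) × (Fin (N + 1) → ℝ) =>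
      mlb eig W0 W1 a lam n Λ t q.1 q.2) (μ.prod (gam (Fin (N + 1)))) := by
    unfold mlb Ed
    exact integrable_finsetSum _ fun d _ =>
      (integrable_mlb eig W0 W1 a lam hμ he d).const_mul _
  refine ⟨hi, ?_⟩
  rw [integral_prod _ hi]
  congr 1
  funext V
  have h1 : ∀ d : DD p N, Integrable (fun g : Fin (N + 1) → ℝ =>
      eE (G.PP (BU p N n) (HN eig W0 a lam V) d) (fun ω => lb eig W0 W1 lam Λ t V g ω.1))
      (gam (Fin (N + 1))) ∧ ∫ g, eE (G.PP (BU p N n) (HN eig W0 a lam V) d)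
        (fun ω => lb eig W0 W1 lam Λ t V g ω.1) ∂(gam (Fin (N + 1))) =
      eE (G.PP (BU p N n) (HN eig W0 a lam V) d) (fun ω => lbI eig W0 W1 lam Λ t V ω.1) := by
    intro d
    have h2 := int_eE (gam (Fin (N + 1))) (G.PP (BU p N n) (HN eig W0 a lam V) d)
      (fun g ω => lb eig W0 W1 lam Λ t V g ω.1)
      (fun ω => (int_lb eig W0 W1 lam Λ t V ω.1).1)
    refine ⟨h2.1, h2.2.trans ?_⟩
    congr 1
    funext ω
    exact (int_lb eig W0 W1 lam Λ t V ω.1).2
  unfold mlb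
  rw [int_Ed (gam (Fin (N + 1))) (fun g d => eE (G.PP (BU p N n) (HN eig W0 a lam V) d)
    (fun ω => lb eig W0 W1 lam Λ t V g ω.1)) fun d => (h1 d).1]
  congr 1
  funext d
  exact (h1 d).2

end measure

end

end Crest.Agent.R164.LInc
end

-- ▼ part R164/LInc4
section

/-!
# Row 164, L side, module GL3 part 4 (helper60): lower bound of the increment, uniform in the penalty

`EPh(N+1, snoc (k,j)) - EPh(N) ≥ [t_j ≠ 0] (Kp E (m_j - t_j)² - 4 Kp / (r_j + 1)) - C`.
-/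

set_option autoImplicit false
set_option linter.unusedSectionVars false

namespace Crest.Agent.R164.LInc

open Finset MeasureTheory ProbabilityTheory Crest.Agent.R141 Crest.Agent.R141.SysF
  Crest.Agent.R141.SysIC
  Crest.Agent.R164 Crest.Agent.R164.ED Crest.Agent.R164.PF Crest.Agent.R164.Haar

noncomputable section

variable {p : Par} {N n K J : ℕ}

section gen

variable (eig : Fin (N + 1) → ℝ) (W0 : (Fin N → Bool) → ℝ) (W1 : (Fin (N + 1) → Bool) → ℝ)
  (a lam : Fin (N + 1) → Fin p.nc → ℝ)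

theorem continuous_lbI (Λ t : ℝ) (s : SY.SS p n (univ : Finset (Fin N → Bool))) :
    Continuous fun V : Mat (Fin N) => lbI eig W0 W1 lam Λ t V s := by
  unfold lbI
  have hx : ∀ i, Continuous (fun V : Mat (Fin N) => SY.xU (Matrix.of V) s.1.1 i) := fun i =>
    GX.continuous_xU s.1.1 i
  have h1 : Continuous fun V : Mat (Fin N) => ∑ i, SY.xU (Matrix.of V) s.1.1 i ^ 2 :=
    continuous_finsetSum _ fun i _ => (hx i).pow 2
  have h2 : Continuous fun V : Mat (Fin N) =>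
      ∑ i, (eig i.castSucc * SY.xU (Matrix.of V) s.1.1 i) ^ 2 :=
    continuous_finsetSum _ fun i _ => (continuous_const.mul (hx i)).pow 2
  fun_prop

/-- the constant of the lower bound -/
def C1 (Λ R S : ℝ) : ℝ :=
  (2 + 2 * Λ) * 2 + 1 / 2 * Λ ^ 2 + Real.log 2 + 4 * (S + 1) * (R / 2 + 2 * (S + 1) + 1)

/-- the error of the lower bound -/
def eps1 (p : Par) (S : ℝ) (N : ℕ) : ℝ := 4 * (S + 1) * (p.τ * Fintype.card (Stp p)) / ((N : ℝ) + 1)

theorem mean_lbI_ge (hb : p.nb = 0) {Λ t R S : ℝ} (he : ∀ i, |eig i| ≤ Λ)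
    (hS0 : 0 ≤ S) (hR0 : 0 ≤ R)
    (hR : ∀ i, ∑ g, a i g ^ 2 ≤ R) (hS : ∀ i, ∑ g, lam i g ^ 2 ≤ S) {V : Mat (Fin N)}
    (hV : Matrix.of V ∈ Matrix.orthogonalGroup (Fin N) ℝ) (d : DD p N) :
    eE (G.PP (BU p N n) (HN eig W0 a lam V) d) (fun ω => vbar W0 W1 t ω.1.1.1) -
      (C1 Λ R S + eps1 p S N) ≤
      eE (G.PP (BU p N n) (HN eig W0 a lam V) d) (fun ω => lbI eig W0 W1 lam Λ t V ω.1) := by
  have hΛ : 0 ≤ Λ := (abs_nonneg _).trans (he (Fin.last N))
  have hN1 : (0:ℝ) < (N:ℝ) + 1 := by positivity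
  set P := G.PP (BU p N n) (HN eig W0 a lam V) d with hPdef
  have hP : IsProb P := G.PP_isProb _ _ _
  have hY := eE_Yi_le (p := p) (n := n) (A := (univ : Finset (Fin N → Bool))) univ_nonempty hb
    (SY.h0q (fun i : Fin N => eig i.castSucc) (Matrix.of V) 1 W0) (fun i => a i.castSucc)
    (fun i => lam i.castSucc) (SY.xU (Matrix.of V)) (R := R) (S := S) hS0 (fun i => hR _)
    (fun i => hS _) (fun σ _ => (sum_xU_sq' hV σ).le) d
  have hY : eE P (fun ω => ∑ i, Yi (fun i => lam i.castSucc) ω.1.2.2 i ^ 2) ≤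
      8 * (S + 1) * (N * (R / 2 + 2 * (S + 1) + 1) + p.τ * Fintype.card (Stp p)) := hY
  have h1 : ∀ ω : OU p N n, vbar W0 W1 t ω.1.1.1 +
      (-((2 + 2 * Λ) * 2 + 1 / 2 * Λ ^ 2 + Real.log 2) +
      (-(1 / 2 / ((N : ℝ) + 1))) * ∑ i, Yi (fun i => lam i.castSucc) ω.1.2.2 i ^ 2) ≤
      lbI eig W0 W1 lam Λ t V ω.1 := by
    intro ω
    unfold lbI
    have h2 : (∑ i, SY.xU (Matrix.of V) ω.1.1.1 i ^ 2) / ((N : ℝ) + 1) ≤ 1 := by
      rw [sum_xU_sq' hV, div_le_one hN1]; linarith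
    have h3 : (∑ i : Fin N, (eig i.castSucc * SY.xU (Matrix.of V) ω.1.1.1 i) ^ 2) /
        ((N : ℝ) + 1) ≤ Λ ^ 2 := by
      rw [div_le_iff₀ hN1]
      have h4 := sum_ex_sq_le eig he hV ω.1.1.1
      nlinarith [sq_nonneg Λ]
    have h5 := mul_le_mul_of_nonneg_left h2 (by linarith : 0 ≤ 2 + 2 * Λ)
    have h6 : 1 / 2 * ((∑ i, Yi (fun i => lam i.castSucc) ω.1.2.2 i ^ 2) / ((N : ℝ) + 1)) =
        1 / 2 / ((N : ℝ) + 1) * ∑ i, Yi (fun i => lam i.castSucc) ω.1.2.2 i ^ 2 := by ring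
    rw [h6]
    linarith
  refine le_trans ?_ (eE_mono hP h1)
  rw [eE_add P (fun ω => vbar W0 W1 t ω.1.1.1) (fun ω =>
      -((2 + 2 * Λ) * 2 + 1 / 2 * Λ ^ 2 + Real.log 2) +
      (-(1 / 2 / ((N : ℝ) + 1))) * ∑ i, Yi (fun i => lam i.castSucc) ω.1.2.2 i ^ 2),
    eE_add P (fun _ => -((2 + 2 * Λ) * 2 + 1 / 2 * Λ ^ 2 + Real.log 2))
      (fun ω => (-(1 / 2 / ((N : ℝ) + 1))) * ∑ i, Yi (fun i => lam i.castSucc) ω.1.2.2 i ^ 2),
    eE_const hP, eE_smul P (-(1 / 2 / ((N : ℝ) + 1)))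
      (fun ω => ∑ i, Yi (fun i => lam i.castSucc) ω.1.2.2 i ^ 2)]
  have h7 : 1 / 2 / ((N : ℝ) + 1) * eE P (fun ω => ∑ i, Yi (fun i => lam i.castSucc) ω.1.2.2 i ^ 2) ≤
      4 * (S + 1) * (R / 2 + 2 * (S + 1) + 1) + eps1 p S N := by
    refine (mul_le_mul_of_nonneg_left hY (by positivity)).trans ?_
    unfold eps1
    have h8 : 1 / 2 / ((N : ℝ) + 1) * (8 * (S + 1) * (N * (R / 2 + 2 * (S + 1) + 1) +
        p.τ * Fintype.card (Stp p))) = (N / ((N : ℝ) + 1)) * (4 * (S + 1) *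
        (R / 2 + 2 * (S + 1) + 1)) + 4 * (S + 1) * (p.τ * Fintype.card (Stp p)) / ((N : ℝ) + 1) := by
      field_simp; ring
    rw [h8]
    have h9 : (N : ℝ) / ((N : ℝ) + 1) ≤ 1 := by rw [div_le_one hN1]; linarith
    have h10 : 0 ≤ 4 * (S + 1) * (R / 2 + 2 * (S + 1) + 1) := by positivity
    have h11 := mul_le_mul_of_nonneg_right h9 h10
    linarith
  unfold C1
  linarith

end gen

variable (val : Fin (K + 1) → ℝ) (c t : Fin J → ℝ) (Kp : ℝ) (θ : LD.Prm p K J)
  (kap : Fin N → Fin (K + 1)) (lab : Fin N → Fin J) (k : Fin (K + 1)) (j : Fin J)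

variable {μ : Measure (Mat (Fin N))} [IsProbabilityMeasure μ]
  {ν : Measure (Mat (Fin (N + 1)))} [IsProbabilityMeasure ν]

/-- integration of the step -/
theorem EPh_ge0 (hμ : RHaar μ) (hν : RHaar ν) (hb : p.nb = 0) (hN : 0 < N) {Λ T : ℝ}
    (he : ∀ k, |val k| ≤ Λ) (hT : |T| ≤ 1) :
    LD.EPh μ n val c t Kp θ kap lab + ∫ V, Ed p N (fun d => eE (G.PP (BU p N n)
      (HN (eigS val kap k) (W0S c t Kp θ lab) (aS θ lab j) (lmS θ kap k) V) d)
        (fun ω => lbI (eigS val kap k) (W0S c t Kp θ lab) (W1S c t Kp θ lab j) (lmS θ kap k)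
          Λ T V ω.1)) ∂μ - epsD p N ≤
      LD.EPh ν n val c t Kp θ (sk kap k) (sj lab j) := by
  have he' : ∀ i, |eigS val kap k i| ≤ Λ := fun i => he _
  have hi1 : Integrable (fun U => LD.PhU n val c t Kp θ (sk kap k) (sj lab j) U) ν :=
    LPert.integrable_PhU hν.mem
  have hi0 : Integrable (fun V => LD.PhU n val c t Kp θ kap lab V) μ :=
    LPert.integrable_PhU hμ.mem
  have hml := int_mlb (n := n) (eigS val kap k) (W0S c t Kp θ lab) (W1S c t Kp θ lab j)
    (aS θ lab j) (lmS θ kap k) hμ (Λ := Λ) (t := T) he'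
  have h1 : LD.EPh ν n val c t Kp θ (sk kap k) (sj lab j) =
      ∫ q, LD.PhU n val c t Kp θ (sk kap k) (sj lab j) (cplS q.1 q.2)
        ∂(μ.prod (gam (Fin (N + 1)))) :=
    cplS_integral hμ hν _ hi1.aestronglyMeasurable
  have hi1' : Integrable (fun q : Mat (Fin N) × (Fin (N + 1) → ℝ) =>
      LD.PhU n val c t Kp θ (sk kap k) (sj lab j) (cplS q.1 q.2))
        (μ.prod (gam (Fin (N + 1)))) := by
    have h2 := hi1
    rw [← cplS_law hμ hν] at h2
    exact (integrable_map_measure h2.aestronglyMeasurable measurable_cplS.aemeasurable).1 h2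
  have hi0' : Integrable (fun q : Mat (Fin N) × (Fin (N + 1) → ℝ) =>
      LD.PhU n val c t Kp θ kap lab q.1) (μ.prod (gam (Fin (N + 1)))) := hi0.comp_fst _
  have hi2 : Integrable (fun q : Mat (Fin N) × (Fin (N + 1) → ℝ) =>
      LD.PhU n val c t Kp θ kap lab q.1 + mlb (eigS val kap k) (W0S c t Kp θ lab)
        (W1S c t Kp θ lab j) (aS θ lab j) (lmS θ kap k) n Λ T q.1 q.2)
      (μ.prod (gam (Fin (N + 1)))) := hi0'.add hml.1
  have h3 : ∫ q, (LD.PhU n val c t Kp θ kap lab q.1 + mlb (eigS val kap k) (W0S c t Kp θ lab)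
        (W1S c t Kp θ lab j) (aS θ lab j) (lmS θ kap k) n Λ T q.1 q.2 - epsD p N)
        ∂(μ.prod (gam (Fin (N + 1)))) ≤
      ∫ q, LD.PhU n val c t Kp θ (sk kap k) (sj lab j) (cplS q.1 q.2)
        ∂(μ.prod (gam (Fin (N + 1)))) := by
    refine integral_mono_ae (hi2.sub (integrable_const _)) hi1' ?_
    have h4 : ∀ᵐ q ∂(μ.prod (gam (Fin (N + 1)))), nrm q.2 ≠ 0 :=
      (Measure.quasiMeasurePreserving_snd).ae gam_nrm_ne_zero
    filter_upwards [h4] with q hq
    have h5 := step_ge (n := n) (eigS val kap k) (W0S c t Kp θ lab) (W1S c t Kp θ lab j)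
      (aS θ lab j) (lmS θ kap k) hb hN he' hT hq q.1
    rw [← PhU_eq val c t Kp θ kap lab k j] at h5
    exact h5
  rw [← h1, integral_sub hi2 (integrable_const _), integral_add hi0' hml.1, hml.2,
    integral_const, probReal_univ, one_smul] at h3
  have h6 : ∫ q, LD.PhU n val c t Kp θ kap lab q.1 ∂(μ.prod (gam (Fin (N + 1)))) =
      LD.EPh μ n val c t Kp θ kap lab := by
    rw [integral_fun_fst (fun V => LD.PhU n val c t Kp θ kap lab V), probReal_univ, one_smul]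
    rfl
  rw [h6] at h3
  exact h3

/-- the penalty part of the increment -/
def pen (σ : Fin N → Bool) : ℝ :=
  if t j = 0 then 0 else Kp * (Mag.mag lab σ j - t j) ^ 2 - 4 * Kp / (Mag.rJ lab j + 1)

theorem vbar_ge (hKp : 0 ≤ Kp) (ht : |t j| ≤ 1) (σ : Fin N → Bool) :
    pen t Kp lab j σ - (|c j| + |θ.el j|) ≤
      vbar (W0S c t Kp θ lab) (W1S c t Kp θ lab j) (t j) σ := by
  have hr := Mag.rJ_nonneg lab j
  have hr1 : 0 < Mag.rJ lab j + 1 := by linarith
  have e1 : ∀ x : ℝ, -|x| ≤ x * t j := by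
    intro x
    have h1 : |x * t j| ≤ |x| := by
      rw [abs_mul]; exact mul_le_of_le_one_right (abs_nonneg _) ht
    exact (abs_le.1 h1).1
  unfold vbar pen
  rw [vT_eq, vT_eq]
  have s1 : sv true = 1 := rfl
  have s2 : sv false = -1 := rfl
  rw [s1, s2]
  by_cases h0 : t j = 0
  · simp only [h0, if_true]
    have := abs_nonneg (c j)
    have := abs_nonneg (θ.el j)
    linarith
  · simp only [if_neg h0]
    set m := Mag.mag lab σ j
    have hm := abs_le.1 (Mag.abs_mag_le lab σ j)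
    have htt := abs_le.1 ht
    have h2 := e1 (c j)
    have h3 := e1 (θ.el j)
    set r1 := Mag.rJ lab j + 1
    have h4 : (1 + t j) / 2 * ((1 - m) ^ 2 / r1) + (1 - t j) / 2 * ((-1 - m) ^ 2 / r1) ≤ 4 / r1 := by
      have h5 : (1 - m) ^ 2 / r1 ≤ 4 / r1 := by
        rw [div_le_div_iff_of_pos_right hr1]; nlinarith
      have h6 : (-1 - m) ^ 2 / r1 ≤ 4 / r1 := by
        rw [div_le_div_iff_of_pos_right hr1]; nlinarith
      have h7 := mul_le_mul_of_nonneg_left h5 (by linarith : 0 ≤ (1 + t j) / 2)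
      have h8 := mul_le_mul_of_nonneg_left h6 (by linarith : 0 ≤ (1 - t j) / 2)
      linarith
    have h9 := mul_le_mul_of_nonneg_left h4 hKp
    have e2 : 4 * Kp / r1 = Kp * (4 / r1) := by ring
    rw [e2]
    have e3 : (1 + t j) / 2 * (c j * 1 - Kp * ((m - t j) ^ 2 + 2 * (m - t j) * (1 - m) +
        (1 - m) ^ 2 / r1) + θ.el j * 1) + (1 - t j) / 2 * (c j * -1 - Kp * ((m - t j) ^ 2 +
        2 * (m - t j) * (-1 - m) + (-1 - m) ^ 2 / r1) + θ.el j * -1) =
        c j * t j + θ.el j * t j + Kp * (m - t j) ^ 2 -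
        Kp * ((1 + t j) / 2 * ((1 - m) ^ 2 / r1) + (1 - t j) / 2 * ((-1 - m) ^ 2 / r1)) := by ring
    rw [e3]
    linarith

/-- **GL3, single label**: lower bound of the increment, uniform in the penalty, the number of
coins and the labels. -/
theorem EPh_ge (hμ : RHaar μ) (hν : RHaar ν) (hb : p.nb = 0) (hN : 0 < N) {Λ E R S : ℝ}
    (he : ∀ k, |val k| ≤ Λ) (ht : ∀ j, |t j| ≤ 1) (hKp : 0 ≤ Kp) (hS0 : 0 ≤ S) (hR0 : 0 ≤ R)
    (hE : ∀ j, |θ.el j| ≤ E) (hR : ∀ j, ∑ g, θ.am j g ^ 2 ≤ R)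
    (hS : ∀ k, ∑ g, θ.lm k g ^ 2 ≤ S) :
    LD.EPh μ n val c t Kp θ kap lab +
      (if t j = 0 then 0 else Kp * LD.EO μ n val c t Kp θ kap lab
        (fun _ _ ω => (LD.MO n lab j ω - t j) ^ 2) - 4 * Kp / (Mag.rJ lab j + 1)) -
      (C1 Λ R S + |c j| + E + eps1 p S N + epsD p N) ≤
      LD.EPh ν n val c t Kp θ (sk kap k) (sj lab j) := by
  have he' : ∀ i, |eigS val kap k i| ≤ Λ := fun i => he _
  have h1 := EPh_ge0 (n := n) val c t Kp θ kap lab k j hμ hν hb hN he (ht j)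
  set C := C1 Λ R S + eps1 p S N + (|c j| + E) with hC
  have hO : LD.OAdm (n := n) (p := p) μ (fun _ _ ω => pen t Kp lab j ω.1.1.1) :=
    LD.OAdm.const (fun _ ω => pen t Kp lab j ω.1.1.1)
  have h2 : LD.EO μ n val c t Kp θ kap lab (fun _ _ ω => pen t Kp lab j ω.1.1.1) - C ≤
      ∫ V, Ed p N (fun d => eE (G.PP (BU p N n)
      (HN (eigS val kap k) (W0S c t Kp θ lab) (aS θ lab j) (lmS θ kap k) V) d)
        (fun ω => lbI (eigS val kap k) (W0S c t Kp θ lab) (W1S c t Kp θ lab j) (lmS θ kap k)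
          Λ (t j) V ω.1)) ∂μ := by
    have h3 : LD.EO μ n val c t Kp θ kap lab (fun _ _ ω => pen t Kp lab j ω.1.1.1 + -C) =
        LD.EO μ n val c t Kp θ kap lab (fun _ _ ω => pen t Kp lab j ω.1.1.1) - C := by
      rw [LD.EO_add val c t Kp θ kap lab hO (LD.OAdm.const (fun _ _ => -C)),
        LD.EO_const val c t Kp θ kap lab hN]
      ring
    rw [← h3]
    have hc1 : ∀ (d : DD p N) (ω : OU p N n), Continuous fun _ : Mat (Fin N) =>
        pen t Kp lab j ω.1.1.1 + -C := fun _ _ => continuous_const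
    have hi1 := GX.integrable_Ed (hA := LD.univ_ne N) (n := n) (p := p)
      (eig := fun i : Fin N => eigS val kap k i.castSucc) (t := 1)
      (V := W0S c t Kp θ lab) (a := fun i => aS θ lab j i.castSucc)
      (lam := fun i => lmS θ kap k i.castSucc) hμ
      (O := fun _ _ ω => pen t Kp lab j ω.1.1.1 + -C) hc1
    have hi2 := GX.integrable_Ed (hA := LD.univ_ne N) (n := n) (p := p)
      (eig := fun i : Fin N => eigS val kap k i.castSucc) (t := 1)
      (V := W0S c t Kp θ lab) (a := fun i => aS θ lab j i.castSucc)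
      (lam := fun i => lmS θ kap k i.castSucc) hμ
      (O := fun V _ ω => lbI (eigS val kap k) (W0S c t Kp θ lab) (W1S c t Kp θ lab j)
        (lmS θ kap k) Λ (t j) V ω.1) (fun _ ω => continuous_lbI _ _ _ _ _ _ _)
    have h4 : LD.EO μ n val c t Kp θ kap lab (fun _ _ ω => pen t Kp lab j ω.1.1.1 + -C) =
        ∫ V, Ed p N (fun d => eE (G.PP (BU p N n)
        (HN (eigS val kap k) (W0S c t Kp θ lab) (aS θ lab j) (lmS θ kap k) V) d)
        (fun ω => pen t Kp lab j ω.1.1.1 + -C)) ∂μ := by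
      unfold LD.EO
      simp only [PL_eq_PP val c t Kp θ kap lab k j]
    rw [h4]
    refine integral_mono_ae hi1 hi2 ?_
    filter_upwards [hμ.mem] with V hV
    refine Ed_mono p N fun d => ?_
    have h5 := mean_lbI_ge (n := n) (eigS val kap k) (W0S c t Kp θ lab) (W1S c t Kp θ lab j)
      (aS θ lab j) (lmS θ kap k) (t := t j) hb he' hS0 hR0 (fun i => hR _) (fun i => hS _) hV d
    refine le_trans ?_ h5
    have hPP := G.PP_isProb (BU p N n)
      (HN (eigS val kap k) (W0S c t Kp θ lab) (aS θ lab j) (lmS θ kap k) V) d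
    have h6 := eE_mono hPP (f := fun ω => pen t Kp lab j ω.1.1.1 + -(|c j| + E))
      (g := fun ω => vbar (W0S c t Kp θ lab) (W1S c t Kp θ lab j) (t j) ω.1.1.1) (fun ω => by
        have h7 := vbar_ge c t Kp θ lab j hKp (ht j) ω.1.1.1
        have h8 := hE j
        linarith)
    rw [eE_add _ (fun ω : OU p N n => pen t Kp lab j ω.1.1.1) (fun _ => -(|c j| + E)),
      eE_const hPP] at h6
    show eE _ (fun ω : OU p N n => pen t Kp lab j ω.1.1.1 + -C) ≤ _
    rw [eE_add _ (fun ω : OU p N n => pen t Kp lab j ω.1.1.1) (fun _ => -C),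
      eE_const hPP]
    linarith
  have h9 : LD.EO μ n val c t Kp θ kap lab (fun _ _ ω => pen t Kp lab j ω.1.1.1) =
      (if t j = 0 then 0 else Kp * LD.EO μ n val c t Kp θ kap lab
        (fun _ _ ω => (LD.MO n lab j ω - t j) ^ 2) - 4 * Kp / (Mag.rJ lab j + 1)) := by
    unfold pen
    by_cases h0 : t j = 0
    · simp only [h0, if_true]
      exact LD.EO_const val c t Kp θ kap lab hN 0
    · simp only [if_neg h0]
      have hO1 : LD.OAdm (n := n) (p := p) μ (fun _ _ ω => (LD.MO n lab j ω - t j) ^ 2) :=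
        LD.OAdm.const (fun _ ω => (LD.MO n lab j ω - t j) ^ 2)
      rw [← LD.EO_smul val c t Kp θ kap lab hO1]
      have h10 := LD.EO_sub val c t Kp θ kap lab (hO1.smul Kp)
        (LD.OAdm.const (fun _ _ => 4 * Kp / (Mag.rJ lab j + 1)))
      rw [LD.EO_const val c t Kp θ kap lab hN] at h10
      exact h10
  rw [h9] at h2
  linarith

end

end Crest.Agent.R164.LInc
end

-- ▼ part R164/LInc5
section

/-!
# Row 164, L side, module GL3 part 5 (helper60): the Props `LOWB` and the lower half of `INCB`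
-/

set_option autoImplicit false
set_option linter.unusedSectionVars false

namespace Crest.Agent.R164.LInc

open Finset MeasureTheory Crest.Agent.R141 Crest.Agent.R164 Crest.Agent.R164.Haar
open Crest.Agent.R164.LD (Prm MO)
open Crest.Agent.R164.LG

noncomputable section

variable (X : Glob) {p : Par} {N : ℕ}

theorem kapS (L : Fin N → X.LB) (l : X.LB) :
    Glob.kap (Fin.snoc L l : Fin (N + 1) → X.LB) = ED.sk (Glob.kap L) l.1 := by
  funext i
  unfold Glob.kap ED.sk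
  refine Fin.lastCases ?_ (fun i => ?_) i
  · rw [Fin.snoc_last, Fin.snoc_last]
  · rw [Fin.snoc_castSucc, Fin.snoc_castSucc]

theorem labS (L : Fin N → X.LB) (l : X.LB) :
    Glob.lab (Fin.snoc L l : Fin (N + 1) → X.LB) = ED.sj (Glob.lab L) l.2 := by
  funext i
  unfold Glob.lab ED.sj
  refine Fin.lastCases ?_ (fun i => ?_) i
  · rw [Fin.snoc_last, Fin.snoc_last]
  · rw [Fin.snoc_castSucc, Fin.snoc_castSucc]

/-- the mean square distance of the magnetisation -/
def Qj (n : ℕ) (Kp : ℝ) (θ : Prm p X.K X.J) (L : Fin N → X.LB) (j : Fin X.J) : ℝ :=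
  Eo X n Kp θ L (fun _ _ ω => (MO n (Glob.lab L) j ω - X.t j) ^ 2)

theorem Qj_nonneg (n : ℕ) (Kp : ℝ) (θ : Prm p X.K X.J) (L : Fin N → X.LB) (j : Fin X.J)
    (hN : 0 < N) : 0 ≤ Qj X n Kp θ L j := by
  have : IsProbabilityMeasure (X.nu N) := X.hnu N
  have h := LD.EO_mono' (mu := X.nu N) (n := n) X.val X.c X.t Kp θ (Glob.kap L) (Glob.lab L)
    (O := fun _ _ _ => (0 : ℝ)) (O' := fun _ _ ω => (MO n (Glob.lab L) j ω - X.t j) ^ 2)
    (LD.OAdm.const (fun _ _ => (0 : ℝ)))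
    (LD.OAdm.const (fun _ ω => (MO n (Glob.lab L) j ω - X.t j) ^ 2))
    (fun d => Filter.Eventually.of_forall fun U ω => sq_nonneg _)
  rw [LD.EO_const X.val X.c X.t Kp θ (Glob.kap L) (Glob.lab L) hN] at h
  exact h

/-- bound of the eigenvalues -/
def Lam : ℝ := ∑ k, |X.val k|

theorem abs_val_le (k : Fin (X.K + 1)) : |X.val k| ≤ Lam X :=
  Finset.single_le_sum (f := fun k => |X.val k|) (fun _ _ => abs_nonneg _) (Finset.mem_univ k)

/-- the constant -/
def Cc (E A S : ℝ) : ℝ := |C1 (Lam X) (A ^ 2) S| + ∑ j, |X.c j| + |E| + 1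

theorem Cc_nonneg (E A S : ℝ) : 0 ≤ Cc X E A S := by
  unfold Cc
  have : 0 ≤ ∑ j, |X.c j| := Finset.sum_nonneg fun _ _ => abs_nonneg _
  positivity

/-- threshold for the number of sites -/
def Mp (p : Par) (S : ℝ) : ℝ := 4 * (S + 1) * (p.τ * Fintype.card (Stp p)) +
  p.nc * p.T * (p.τ * Fintype.card (Stp p))

/-- **lower bound of the increment for one label** -/
theorem Ph_ge {E A S : ℝ} (hb : p.nb = 0) (hN : 0 < N) (hNM : Mp p S ≤ N) (n : ℕ) {Kp : ℝ}
    (hKp : 0 ≤ Kp) {θ : Prm p X.K X.J} (hθ : Bd X E A S θ) (L : Fin N → X.LB) (l : X.LB) :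
    (if X.t l.2 = 0 then 0 else Kp * Qj X n Kp θ L l.2 -
      4 * Kp / (Mag.rJ (Glob.lab L) l.2 + 1)) - Cc X E A S ≤
      Ph X n Kp θ (Fin.snoc L l : Fin (N + 1) → X.LB) - Ph X n Kp θ L := by
  have h0 : IsProbabilityMeasure (X.nu N) := X.hnu N
  have h1 : IsProbabilityMeasure (X.nu (N + 1)) := X.hnu (N + 1)
  have hS0 : 0 ≤ S := (Finset.sum_nonneg fun g _ => sq_nonneg (θ.lm 0 g)).trans (hθ.lm 0)
  have hR0 : 0 ≤ A ^ 2 := sq_nonneg A
  have h := EPh_ge (n := n) X.val X.c X.t Kp θ (Glob.kap L) (Glob.lab L) l.1 l.2 (X.hR N)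
    (X.hR (N + 1)) hb hN (Λ := Lam X) (E := E) (R := A ^ 2) (S := S) (abs_val_le X)
    (fun j => (X.ht j).le) hKp hS0 hR0 hθ.el hθ.am hθ.lm
  have e1 : Ph X n Kp θ (Fin.snoc L l : Fin (N + 1) → X.LB) =
      LD.EPh (X.nu (N + 1)) n X.val X.c X.t Kp θ (ED.sk (Glob.kap L) l.1)
        (ED.sj (Glob.lab L) l.2) := by
    unfold Ph
    rw [kapS, labS]
  have e2 : eps1 p S N + epsD p N ≤ 1 := by
    have hN1 : (0:ℝ) < (N:ℝ) + 1 := by positivity
    have e3 : eps1 p S N + epsD p N = Mp p S / ((N:ℝ) + 1) := by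
      unfold eps1 epsD Mp; ring
    rw [e3, div_le_one hN1]
    linarith
  have e4 : |X.c l.2| ≤ ∑ j, |X.c j| :=
    Finset.single_le_sum (f := fun j => |X.c j|) (fun _ _ => abs_nonneg _) (Finset.mem_univ _)
  have e5 := le_abs_self (C1 (Lam X) (A ^ 2) S)
  have e6 := le_abs_self E
  have e7 : Ph X n Kp θ L = LD.EPh (X.nu N) n X.val X.c X.t Kp θ (Glob.kap L) (Glob.lab L) := rfl
  rw [e1, e7]
  unfold Qj Cc
  show (if X.t l.2 = 0 then 0 else Kp * LD.EO (X.nu N) n X.val X.c X.t Kp θ (Glob.kap L)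
    (Glob.lab L) (fun _ _ ω => (MO n (Glob.lab L) l.2 ω - X.t l.2) ^ 2) -
      4 * Kp / (Mag.rJ (Glob.lab L) l.2 + 1)) - _ ≤ _
  linarith

/-- **lower half of `INCB`**, for all label vectors -/
theorem incb_lower_all (E A S Kmax : ℝ) (p : Par) (hb : p.nb = 0) : ∃ (C : ℝ) (Na : ℕ),
    ∀ N : ℕ, Na ≤ N → ∀ n : ℕ, ∀ Kp : ℝ, 0 ≤ Kp → Kp ≤ Kmax → ∀ θ : Prm p X.K X.J,
    Bd X E A S θ → ∀ (L : Fin N → X.LB) (l : X.LB),
    -C ≤ Ph X n Kp θ (Fin.snoc L l : Fin (N + 1) → X.LB) - Ph X n Kp θ L := by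
  obtain ⟨M, hM⟩ := exists_nat_ge (Mp p S)
  refine ⟨Cc X E A S + 4 * Kmax, M + 1, fun N hN n Kp h0 h1 θ hθ L l => ?_⟩
  have hN0 : 0 < N := by omega
  have hNM : Mp p S ≤ N := hM.trans (by exact_mod_cast (by omega : M ≤ N))
  refine le_trans ?_ (Ph_ge X hb hN0 hNM n h0 hθ L l)
  have hr := Mag.rJ_nonneg (Glob.lab L) l.2
  have h2 : 4 * Kp / (Mag.rJ (Glob.lab L) l.2 + 1) ≤ 4 * Kmax := by
    refine (div_le_self (by linarith) (by linarith)).trans (by linarith)
  have h3 := mul_nonneg h0 (Qj_nonneg X n Kp θ L l.2 hN0)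
  split_ifs <;> linarith


theorem rJ_ge0 {d0 : ℝ} (hd : Small X d0) {L : Fin N → X.LB}
    (hL : LabAvg.Good X.al d0 L) (j : Fin X.J) : d0 * N ≤ Mag.rJ (Glob.lab L) j := by
  have h1 := (abs_le.1 (hL (0, j))).1
  have h2 := hd.2 (0, j)
  have hN : (0 : ℝ) ≤ N := Nat.cast_nonneg N
  have h3 : ((LabAvg.cnt L (0, j) : ℕ) : ℝ) ≤ Mag.rJ (Glob.lab L) j := by
    unfold LabAvg.cnt Mag.rJ
    have : (Finset.univ.filter fun i => L i = ((0 : Fin (X.K + 1)), j)).card ≤
        (Finset.univ.filter fun i => Glob.lab L i = j).card := by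
      refine Finset.card_le_card fun i hi => ?_
      rw [Finset.mem_filter] at hi ⊢
      refine ⟨hi.1, ?_⟩
      unfold Glob.lab
      rw [hi.2]
    exact_mod_cast this
  have h4 := mul_le_mul_of_nonneg_left h2 hN
  linarith

theorem sum_al (f : Fin X.J → ℝ) :
    ∑ x : X.LB, X.al x * f x.2 = ∑ j, ((X.γ j : ℚ) : ℝ) * f j := by
  have h1 : ∀ x : X.LB, X.al x * f x.2 = X.w x.1 * (((X.γ x.2 : ℚ) : ℝ) * f x.2) := by
    intro x
    show X.w x.1 * ((X.γ x.2 : ℚ) : ℝ) * f x.2 = _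
    ring
  rw [Finset.sum_congr rfl fun x _ => h1 x, Fintype.sum_prod_type]
  simp only [← Finset.mul_sum]
  rw [← Finset.sum_mul, X.hs, one_mul]

theorem al_nonneg (x : X.LB) : 0 ≤ X.al x := by
  show 0 ≤ X.w x.1 * ((X.γ x.2 : ℚ) : ℝ)
  have h1 := (X.hw x.1).le
  have h2 : (0:ℝ) ≤ ((X.γ x.2 : ℚ) : ℝ) := by exact_mod_cast (X.hγ x.2).le
  positivity

theorem sum_gam : ∑ j, ((X.γ j : ℚ) : ℝ) = 1 := by
  exact_mod_cast X.hγs

/-- **`LOWB`** -/
theorem lowb : LOWB X := by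
  intro E A S
  refine ⟨Cc X E A S + 1, by linarith [Cc_nonneg X E A S], fun d0 Kmax hd p hb => ?_⟩
  obtain ⟨M, hM⟩ := exists_nat_ge (Mp p S)
  obtain ⟨M', hM'⟩ := exists_nat_ge (4 * Kmax / d0)
  refine ⟨M + M' + 1, fun N hN => ⟨0, fun n _ Kp h0 h1 θ hθ L hL => ?_⟩⟩
  have hN0 : 0 < N := by omega
  have hNM : Mp p S ≤ N := hM.trans (by exact_mod_cast (by omega : M ≤ N))
  have hNM' : 4 * Kmax / d0 ≤ N := hM'.trans (by exact_mod_cast (by omega : M' ≤ N))
  rw [div_le_iff₀ hd.1] at hNM'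
  set f : Fin X.J → ℝ := fun j => (if X.t j = 0 then 0 else Kp * Qj X n Kp θ L j) -
    (Cc X E A S + 1) with hf
  have h2 : ∀ x : X.LB, f x.2 ≤
      Ph X n Kp θ (Fin.snoc L x : Fin (N + 1) → X.LB) - Ph X n Kp θ L := by
    intro x
    refine le_trans ?_ (Ph_ge X hb hN0 hNM n h0 hθ L x)
    have hr := rJ_ge0 X hd hL x.2
    have h3 : 4 * Kp / (Mag.rJ (Glob.lab L) x.2 + 1) ≤ 1 := by
      rw [div_le_one (by linarith [Mag.rJ_nonneg (Glob.lab L) x.2])]
      nlinarith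
    rw [hf]
    simp only
    split_ifs <;> linarith
  have h4 : ∑ x : X.LB, X.al x * f x.2 ≤
      LSel.Inc X.al (Ph X n Kp θ : (Fin N → X.LB) → ℝ) (Ph X n Kp θ) L := by
    unfold LSel.Inc
    exact Finset.sum_le_sum fun x _ => mul_le_mul_of_nonneg_left (h2 x) (al_nonneg X x)
  refine le_trans (le_of_eq ?_) h4
  rw [sum_al, hf]
  simp only [mul_sub]
  rw [Finset.sum_sub_distrib]
  congr 1
  · refine Finset.sum_congr rfl fun j _ => ?_
    split_ifs
    · rw [mul_zero]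
    · rfl
  · rw [← Finset.sum_mul, sum_gam, one_mul]

end

end Crest.Agent.R164.LInc
end

-- ▼ part R164/LCrude1
section

/-!
Row 164, L side (helper494): upper bound of the increment of the free energy, part 1:
the supporting line in the `(N+1)`-system and the pathwise bound.
-/

set_option autoImplicit false
set_option linter.unusedSectionVars false

namespace Crest.Agent.R164.LCr

open Finset MeasureTheory Crest.Agent.R141 Crest.Agent.R164 Crest.Agent.R164.PF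
  Crest.Agent.R164.Haar Crest.Agent.R164.ED
open Crest.ProbabilityR.InvariantGlass

noncomputable section

variable {p : Par} {N n : ℕ}

/-- restriction of a base configuration to the first `N` sites -/
def resS (s : SY.SS p n (univ : Finset (Fin (N + 1) → Bool))) :
    SY.SS p n (univ : Finset (Fin N → Bool)) :=
  (⟨fun i => s.1.1 i.castSucc, mem_univ _⟩, fun g i => s.2.1 g i.castSucc,
    fun g i => s.2.2 g i.castSucc)

theorem resS_glS (s : SY.SS p n (univ : Finset (Fin N → Bool))) (l : LS p n) (b : Bool) :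
    resS (glS s l b) = s := by
  refine Prod.ext (Subtype.ext ?_) (Prod.ext ?_ ?_)
  · funext i
    show Fin.snoc (α := fun _ => Bool) _ _ _ = _
    rw [Fin.snoc_castSucc]
  · funext g i
    show Fin.snoc (α := fun _ => Fin n → Bool) _ _ _ = _
    rw [Fin.snoc_castSucc]
  · funext g i
    show Fin.snoc (α := fun _ => Fin n → Bool) _ _ _ = _
    rw [Fin.snoc_castSucc]

/-- a Hamiltonian of the first `N` sites -/
def exS (H0 : SY.SS p n (univ : Finset (Fin N → Bool)) → ℝ) :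
    SY.SS p n (univ : Finset (Fin (N + 1) → Bool)) → ℝ := fun s => H0 (resS s)

/-- the free energy of a Hamiltonian of the first `N` sites -/
theorem Phi_res (hnb : p.nb = 0) (H0 : SY.SS p n (univ : Finset (Fin N → Bool)) → ℝ)
    (d : DD p N) :
    G.Phi (BU p (N + 1) n) (exS H0) (F4.liftD p N d) = G.Phi (BU p N n) H0 d := by
  rw [Phi_gl H0 (exS H0) hnb d]
  have h1 : ∀ u, xw H0 (exS H0) u = 0 := by
    intro u
    have h := resS_glS u.1.1.1 u.1.2 u.2
    show H0 (resS (glS u.1.1.1 u.1.2 u.2)) - H0 u.1.1.1 = 0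
    have h2 : H0 (resS (glS u.1.1.1 u.1.2 u.2)) = H0 u.1.1.1 := congrArg H0 h
    rw [h2, sub_self]
  have h2 : Xr H0 (exS H0) = fun _ => (0 : ℝ) := by
    funext w
    have h3 : Real.exp (Xr H0 (exS H0) w) = Real.exp 0 := by
      unfold Xr
      rw [exp_redB, h1, h1]
      norm_num
    exact Real.exp_injective h3
  rw [h2]
  have h4 : aE (stP p N n H0 d) (stF p N n) p.xs (fun _ => (0 : ℝ)) = 0 := by
    unfold aE
    have h5 : A (stP p N n H0 d) (stF p N n) p.xs (fun _ => (0 : ℝ)) 0 = fun _ => (0 : ℝ) :=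
      funext fun w => A_const (stP_isProb H0 d) p.xs_expo.pos 0 0 w
    rw [h5]
    exact eE_const (stP_isProb H0 d) 0
  rw [h4, add_zero]

/-- **supporting line** -/
theorem Phi_le_res (hnb : p.nb = 0) (H0 : SY.SS p n (univ : Finset (Fin N → Bool)) → ℝ)
    (H1 : SY.SS p n (univ : Finset (Fin (N + 1) → Bool)) → ℝ) (d : DD p N) :
    G.Phi (BU p (N + 1) n) H1 (F4.liftD p N d) ≤ G.Phi (BU p N n) H0 d +
      eE (G.PP (BU p (N + 1) n) H1 (F4.liftD p N d)) (fun ω => H1 ω.1 - exS H0 ω.1) := by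
  have h := US.Phi_add_ge (BU p (N + 1) n) (SY.base_SF_zero univ_nonempty) H1
    (fun s => exS H0 s - H1 s) (F4.liftD p N d)
  have e : (fun s : (BU p (N + 1) n).S => H1 s + (exS H0 s - H1 s)) = exS H0 := by
    funext s
    show H1 s + (exS H0 s - H1 s) = exS H0 s
    ring
  rw [e] at h
  have h3 := Phi_res hnb H0 d
  have e2 : eE (G.PP (BU p (N + 1) n) H1 (F4.liftD p N d)) (fun ω => exS H0 ω.1 - H1 ω.1) =
      - eE (G.PP (BU p (N + 1) n) H1 (F4.liftD p N d)) (fun ω => H1 ω.1 - exS H0 ω.1) := by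
    rw [← neg_one_mul, ← eE_smul]
    congr 1
    funext ω
    ring
  linarith

/-! ### The last column and row in the coupling -/

variable (eig : Fin (N + 1) → ℝ) (W0 : (Fin N → Bool) → ℝ) (W1 : (Fin (N + 1) → Bool) → ℝ)
  (a lam : Fin (N + 1) → Fin p.nc → ℝ)

/-- the last column of the coupled matrix -/
theorem cplS_last_col {G : Fin (N + 1) → ℝ} (hG : nrm G ≠ 0) (V : Mat (Fin N))
    (i : Fin (N + 1)) : cplS V G i (Fin.last N) = un G i := by
  have h : cplS V G i (Fin.last N) = (Qs (un G) * Matrix.of (ext V)) i (Fin.last N) := rfl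
  rw [h, Matrix.mul_apply, Fin.sum_univ_castSucc]
  simp only [Matrix.of_apply, ext_castSucc_last, ext_last_last, mul_zero, mul_one,
    Finset.sum_const_zero, zero_add]
  exact Qs_last (sum_un hG) i

/-- the quantities of the bound -/
def RR (Λ c0 : ℝ) (U : Mat (Fin (N + 1))) (s : SY.SS p n (univ : Finset (Fin (N + 1) → Bool))) :
    ℝ :=
  (4 + 3 * Λ) * SY.xU (Matrix.of U) s.1.1 (Fin.last N) ^ 2 +
    GX.Js eig U s.1.1 (Fin.last N) ^ 2 +
    (∑ i, GX.sphi lam s.2.2 i * U i (Fin.last N)) ^ 2 +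
    GX.sphi lam s.2.2 (Fin.last N) ^ 2 +
    ∑ g, SY.zf s.2.1 g (Fin.last N) ^ 2 + c0

theorem alg_bound {X th Js Ss ph Λ E1 E2 u2 q mf vt A2 z2 Bv : ℝ} (hΛ : 0 ≤ Λ)
    (hth : |th| ≤ |X| + 2)
    (hE1 : |E1| ≤ |Js| + Λ * |X|) (hu2 : |u2| ≤ Λ) (hq : |q| ≤ Λ) (hE2 : |E2| ≤ |Ss| + |ph|)
    (hmf : |mf| ≤ 1 / 2 * A2 + z2) (hvt : |vt| ≤ Bv) :
    (th * E1 - 1 / 2 * th ^ 2 * u2 + 1 / 2 * q * X ^ 2) + mf + (th * E2 + ph * X) + vt ≤
      (4 + 3 * Λ) * X ^ 2 + Js ^ 2 + Ss ^ 2 + ph ^ 2 + z2 +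
        (12 + 8 * Λ + 1 / 2 * A2 + Bv) := by
  have hth2 : th ^ 2 ≤ 2 * X ^ 2 + 8 := by
    have h1 : th ^ 2 ≤ (|X| + 2) ^ 2 := by
      rw [← sq_abs th]
      exact pow_le_pow_left₀ (abs_nonneg _) hth 2
    have h2 : (|X| + 2) ^ 2 ≤ 2 * |X| ^ 2 + 8 := by nlinarith [sq_nonneg (|X| - 2)]
    rw [sq_abs] at h2
    linarith
  have a1 : th * E1 ≤ 1 / 2 * (th ^ 2 + Js ^ 2) + Λ / 2 * (th ^ 2 + X ^ 2) := by
    have h1 : th * E1 ≤ |th| * (|Js| + Λ * |X|) := by
      calc th * E1 ≤ |th * E1| := le_abs_self _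
        _ = |th| * |E1| := abs_mul _ _
        _ ≤ _ := mul_le_mul_of_nonneg_left hE1 (abs_nonneg _)
    have h2 : |th| * |Js| ≤ 1 / 2 * (th ^ 2 + Js ^ 2) := by
      nlinarith [sq_nonneg (|th| - |Js|), sq_abs th, sq_abs Js]
    have h3 : |th| * |X| ≤ 1 / 2 * (th ^ 2 + X ^ 2) := by
      nlinarith [sq_nonneg (|th| - |X|), sq_abs th, sq_abs X]
    have h4 := mul_le_mul_of_nonneg_left h3 hΛ
    nlinarith
  have a2 : -(1 / 2 * th ^ 2 * u2) ≤ 1 / 2 * Λ * th ^ 2 := by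
    have := (abs_le.1 hu2).1
    nlinarith [sq_nonneg th]
  have a3 : 1 / 2 * q * X ^ 2 ≤ 1 / 2 * Λ * X ^ 2 := by
    have := (abs_le.1 hq).2
    nlinarith [sq_nonneg X]
  have a4 : mf ≤ 1 / 2 * A2 + z2 := (le_abs_self _).trans hmf
  have a5 : th * E2 ≤ 1 / 2 * (th ^ 2 + Ss ^ 2) + 1 / 2 * (th ^ 2 + ph ^ 2) := by
    have h1 : th * E2 ≤ |th| * (|Ss| + |ph|) := by
      calc th * E2 ≤ |th * E2| := le_abs_self _
        _ = |th| * |E2| := abs_mul _ _
        _ ≤ _ := mul_le_mul_of_nonneg_left hE2 (abs_nonneg _)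
    have h2 : |th| * |Ss| ≤ 1 / 2 * (th ^ 2 + Ss ^ 2) := by
      nlinarith [sq_nonneg (|th| - |Ss|), sq_abs th, sq_abs Ss]
    have h3 : |th| * |ph| ≤ 1 / 2 * (th ^ 2 + ph ^ 2) := by
      nlinarith [sq_nonneg (|th| - |ph|), sq_abs th, sq_abs ph]
    nlinarith
  have a6 : ph * X ≤ 1 / 2 * (ph ^ 2 + X ^ 2) := by nlinarith [sq_nonneg (ph - X)]
  have a7 : vt ≤ Bv := (le_abs_self _).trans hvt
  have a8 : Λ * th ^ 2 ≤ Λ * (2 * X ^ 2 + 8) := mul_le_mul_of_nonneg_left hth2 hΛ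
  nlinarith [sq_nonneg X, sq_nonneg Js, sq_nonneg Ss]

theorem glS_resS (s : SY.SS p n (univ : Finset (Fin (N + 1) → Bool))) :
    glS (resS s) (fun g => s.2.1 g (Fin.last N), fun g => s.2.2 g (Fin.last N))
      (s.1.1 (Fin.last N)) = s := by
  refine Prod.ext (Subtype.ext ?_) (Prod.ext ?_ ?_)
  · funext i
    refine Fin.lastCases ?_ (fun j => ?_) i
    · show Fin.snoc (α := fun _ => Bool) _ _ _ = _
      rw [Fin.snoc_last]
    · show Fin.snoc (α := fun _ => Bool) _ _ _ = _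
      rw [Fin.snoc_castSucc]; rfl
  · funext g i
    refine Fin.lastCases ?_ (fun j => ?_) i
    · show Fin.snoc (α := fun _ => Fin n → Bool) _ _ _ = _
      rw [Fin.snoc_last]
    · show Fin.snoc (α := fun _ => Fin n → Bool) _ _ _ = _
      rw [Fin.snoc_castSucc]; rfl
  · funext g i
    refine Fin.lastCases ?_ (fun j => ?_) i
    · show Fin.snoc (α := fun _ => Fin n → Bool) _ _ _ = _
      rw [Fin.snoc_last]
    · show Fin.snoc (α := fun _ => Fin n → Bool) _ _ _ = _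
      rw [Fin.snoc_castSucc]; rfl

/-- **the pathwise bound** -/
theorem path_le {Λ : ℝ} (he : ∀ i, |eig i| ≤ Λ) {A2 Bv : ℝ}
    (hA : ∑ g, a (Fin.last N) g ^ 2 ≤ A2) (hv : ∀ σ b, |vT W0 W1 σ b| ≤ Bv)
    {G : Fin (N + 1) → ℝ} (hG : nrm G ≠ 0) (V : Mat (Fin N))
    (s' : SY.SS p n (univ : Finset (Fin (N + 1) → Bool))) :
    HN1 eig W1 a lam (cplS V G) s' - exS (HN eig W0 a lam V) s' ≤
      RR eig lam Λ (12 + 8 * Λ + 1 / 2 * A2 + Bv) (cplS V G) s' := by
  obtain ⟨s, l, b, rfl⟩ : ∃ s l b, glS (N := N) s l b = s' := ⟨_, _, _, glS_resS s'⟩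
  have hex : exS (HN eig W0 a lam V) (glS s l b) = HN eig W0 a lam V s := by
    unfold exS
    rw [resS_glS]
  rw [hex, xw_core eig W0 W1 a lam hG V s l b]
  have hΛ : 0 ≤ Λ := (abs_nonneg _).trans (he (Fin.last N))
  set x := SY.xU (Matrix.of V) s.1.1 with hx
  set θ := sv b - rr G * gz G x with hθ
  set X := sg (un G) * gz G x + un G (Fin.last N) * sv b with hX
  set ul := un G (Fin.last N) with hul
  have hsum := sum_un hG
  have hul1 : |ul| ≤ 1 := by
    have h2 : un G (Fin.last N) ^ 2 ≤ ∑ i, un G i ^ 2 :=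
      Finset.single_le_sum (f := fun i => un G i ^ 2) (fun i _ => sq_nonneg _) (Finset.mem_univ _)
    rw [hsum] at h2
    rw [abs_le_one_iff_mul_self_le_one]
    nlinarith
  -- the coordinates in the `(N+1)`-system
  have hXl : SY.xU (Matrix.of (cplS V G)) (glS s l b).1.1 (Fin.last N) = X := xU_last hG V s.1.1 b
  have hXi : ∀ i : Fin N, SY.xU (Matrix.of (cplS V G)) (glS s l b).1.1 i.castSucc =
      x i + un G i.castSucc * θ := fun i => xU_castSucc hG V s.1.1 b i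
  have hJs : GX.Js eig (cplS V G) (glS s l b).1.1 (Fin.last N) =
      gk G (fun i => eig i.castSucc) x + θ * mu_ (fun i => eig i.castSucc) G +
        ul * (eig (Fin.last N) * X) := by
    unfold GX.Js
    rw [Fin.sum_univ_castSucc]
    simp only [cplS_last_col hG V, hXl, hXi]
    congr 1
    unfold gk mu_
    rw [Finset.mul_sum, ← Finset.sum_add_distrib]
    refine Finset.sum_congr rfl fun i _ => ?_
    ring
  have hph : GX.sphi lam (glS s l b).2.2 (Fin.last N) = L2 lam l := by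
    unfold GX.sphi L2
    refine Finset.sum_congr rfl fun g _ => ?_
    rw [zf_gl2_last]
  have hSs : ∑ i, GX.sphi lam (glS s l b).2.2 i * cplS V G i (Fin.last N) =
      FF lam G s + L2 lam l * ul := by
    rw [Fin.sum_univ_castSucc, hph]
    simp only [cplS_last_col hG V]
    congr 1
    unfold GX.sphi FF
    simp only [Finset.sum_mul]
    rw [Finset.sum_comm]
    refine Finset.sum_congr rfl fun g _ => Finset.sum_congr rfl fun i _ => ?_
    rw [zf_gl2_castSucc]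
    ring
  have hz : ∀ g, SY.zf (glS s l b).2.1 g (Fin.last N) = zl l.1 g := fun g => zf_gl_last s l b g
  unfold RR
  rw [hXl, hJs, hSs, hph]
  simp only [hz]
  set ph := L2 lam l
  set z2 := ∑ g, zl l.1 g ^ 2
  have hsb : |sv b| = 1 := sv_abs b
  have hrr := rr_mem G hG
  have hgz : |gz G x| ≤ |X| + 1 := by
    have h1 : gz G x = sg (un G) * (X - ul * sv b) := by
      rw [hX]
      have := sg_mul_self (un G)
      calc gz G x = (sg (un G) * sg (un G)) * gz G x := by rw [this, one_mul]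
        _ = _ := by ring
    have h2 : |sg (un G)| = 1 := by
      have := sg_mul_self (un G)
      have h3 : |sg (un G)| * |sg (un G)| = 1 := by rw [← abs_mul, this, abs_one]
      nlinarith [abs_nonneg (sg (un G))]
    rw [h1, abs_mul, h2, one_mul]
    refine (abs_sub _ _).trans ?_
    rw [abs_mul, hsb, mul_one]
    linarith
  have hth : |θ| ≤ |X| + 2 := by
    rw [hθ]
    refine (abs_sub _ _).trans ?_
    rw [abs_mul, hsb, abs_of_pos (by linarith [hrr.1] : 0 < rr G)]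
    have : rr G * |gz G x| ≤ 1 * (|X| + 1) :=
      mul_le_mul hrr.2 hgz (abs_nonneg _) (by norm_num)
    linarith
  have hmu : |mu_ (fun i => eig i.castSucc) G| ≤ Λ := by
    unfold mu_
    refine (Finset.abs_sum_le_sum_abs _ _).trans ?_
    have h1 : ∀ i : Fin N, |eig i.castSucc * un G i.castSucc ^ 2| ≤ Λ * un G i.castSucc ^ 2 := by
      intro i
      rw [abs_mul, abs_of_nonneg (sq_nonneg (un G i.castSucc))]
      exact mul_le_mul_of_nonneg_right (he _) (sq_nonneg _)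
    refine (Finset.sum_le_sum fun i _ => h1 i).trans ?_
    rw [← Finset.mul_sum]
    have h2 : ∑ i : Fin N, un G i.castSucc ^ 2 ≤ 1 := by
      rw [Fin.sum_univ_castSucc] at hsum
      nlinarith [sq_nonneg (un G (Fin.last N))]
    nlinarith
  set gkk := gk G (fun i => eig i.castSucc) x
  set muu := mu_ (fun i => eig i.castSucc) G
  set q := eig (Fin.last N)
  have hq : |q| ≤ Λ := he _
  have hmf : |sv b * yb (a (Fin.last N)) l| ≤ 1 / 2 * A2 + z2 := by
    rw [abs_mul, hsb, one_mul]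
    unfold yb
    refine (Finset.abs_sum_le_sum_abs _ _).trans ?_
    have h1 : ∀ g, |a (Fin.last N) g * zl l.1 g| ≤
        1 / 2 * a (Fin.last N) g ^ 2 + zl l.1 g ^ 2 := by
      intro g
      rw [abs_mul]
      nlinarith [sq_nonneg (|a (Fin.last N) g| - |zl l.1 g|), sq_abs (a (Fin.last N) g),
        sq_abs (zl l.1 g), sq_nonneg (zl l.1 g)]
    refine (Finset.sum_le_sum fun g _ => h1 g).trans ?_
    rw [Finset.sum_add_distrib, ← Finset.mul_sum]
    have : 1 / 2 * ∑ g, a (Fin.last N) g ^ 2 ≤ 1 / 2 * A2 :=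
      mul_le_mul_of_nonneg_left hA (by norm_num)
    linarith
  have h := alg_bound (X := X) (th := θ) (Js := gkk + θ * muu + ul * (q * X))
    (Ss := FF lam G s + ph * ul) (ph := ph) (Λ := Λ) (E1 := gkk + θ * muu)
    (E2 := FF lam G s) (u2 := muu) (q := q) (mf := sv b * yb (a (Fin.last N)) l)
    (vt := W1 (Fin.snoc (α := fun _ => Bool) s.1.1 b) - W0 s.1.1) (A2 := A2) (z2 := z2)
    (Bv := Bv) hΛ hth ?_ hmu hq ?_ hmf (hv s.1.1 b)
  · refine le_trans (le_of_eq ?_) h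
    ring
  · have e : gkk + θ * muu = (gkk + θ * muu + ul * (q * X)) - ul * (q * X) := by ring
    conv_lhs => rw [e]
    refine (abs_sub _ _).trans ?_
    have : |ul * (q * X)| ≤ Λ * |X| := by
      rw [abs_mul, abs_mul]
      calc |ul| * (|q| * |X|) ≤ 1 * (Λ * |X|) :=
            mul_le_mul hul1 (mul_le_mul_of_nonneg_right hq (abs_nonneg _))
              (mul_nonneg (abs_nonneg _) (abs_nonneg _)) (by norm_num)
        _ = Λ * |X| := one_mul _
    linarith
  · have e : FF lam G s = (FF lam G s + ph * ul) - ph * ul := by ring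
    conv_lhs => rw [e]
    refine (abs_sub _ _).trans ?_
    have : |ph * ul| ≤ |ph| := by
      rw [abs_mul]
      calc |ph| * |ul| ≤ |ph| * 1 := mul_le_mul_of_nonneg_left hul1 (abs_nonneg _)
        _ = |ph| := mul_one _
    linarith

end

end Crest.Agent.R164.LCr
end

-- ▼ part R164/LCrude2
section

/-!
Row 164, L side (helper494): upper bound of the increment of the free energy, part 2: averages.
-/

set_option autoImplicit false
set_option linter.unusedSectionVars false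

namespace Crest.Agent.R164.LCr

open Finset MeasureTheory Crest.Agent.R141 Crest.Agent.R164 Crest.Agent.R164.PF
  Crest.Agent.R164.Haar Crest.Agent.R164.ED
open Crest.ProbabilityR.InvariantGlass

noncomputable section

variable {p : Par} {N n : ℕ}

/-- dependence of the free energy on the pointers. -/
theorem Phi_d_le (hnb : p.nb = 0) {M : ℕ} (H : (BU p M n).S → ℝ) (d d' : DD p M) :
    |G.Phi (BU p M n) H d - G.Phi (BU p M n) H d'| ≤ p.nc * p.T * p.τ := by
  have h1 : ∀ ω, |G.UU (BU p M n) H d ω - G.UU (BU p M n) H d' ω| ≤ p.nc * p.T * p.τ := by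
    intro ω
    have b1 := CSys.WW_bounds (n := n) (A := (Finset.univ : Finset (Fin M → Bool)))
      univ_nonempty hnb d ω
    have b2 := CSys.WW_bounds (n := n) (A := (Finset.univ : Finset (Fin M → Bool)))
      univ_nonempty hnb d' ω
    unfold G.UU
    rw [abs_le]
    constructor <;> linarith [b1.1, b1.2, b2.1, b2.2]
  unfold G.Phi
  rw [← eE_sub]
  exact LS2.abs_eE_le (G.prior_isProb (BU p M n)) fun ω =>
    A_sub_abs_le (G.prior_isProb (BU p M n)) p.xs_expo.pos h1 0 ω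

/-- the Hamiltonians are admissible families -/
theorem adm_Hs {M : ℕ} (eig : Fin M → ℝ) (t : ℝ) (W : (Fin M → Bool) → ℝ)
    (a lam : Fin M → Fin p.nc → ℝ) {ν : Measure (Mat (Fin M))} (hν : RHaar ν) :
    LS2.Adm (BU p M n) ν (fun U => GX.Hs (n := n) (A := univ) eig t W a lam U) where
  meas s := (GX.continuous_Hs s).measurable
  bdd := by
    obtain ⟨C, _, hC⟩ := Rot.exists_bound
      (fun (U : Fin M → Fin M → ℝ) (s : SY.SS p n (univ : Finset (Fin M → Bool))) =>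
        GX.Hs (n := n) (A := univ) eig t W a lam U s)
      (fun s => GX.continuous_Hs s)
    refine ⟨C, ?_⟩
    filter_upwards [hν.mem] with U hU s
    exact hC U hU s

variable {eig : Fin (N + 1) → ℝ} {W0 : (Fin N → Bool) → ℝ} {W1 : (Fin (N + 1) → Bool) → ℝ}
  {a lam : Fin (N + 1) → Fin p.nc → ℝ}

theorem continuous_RR (Λ c0 : ℝ) (s : SY.SS p n (univ : Finset (Fin (N + 1) → Bool))) :
    Continuous fun U : Mat (Fin (N + 1)) => RR eig lam Λ c0 U s := by
  unfold RR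
  refine Continuous.add (Continuous.add (Continuous.add (Continuous.add (Continuous.add ?_ ?_) ?_)
    continuous_const) continuous_const) continuous_const
  · exact continuous_const.mul ((GX.continuous_xU s.1.1 (Fin.last N)).pow 2)
  · exact (GX.continuous_Js s.1.1 (Fin.last N)).pow 2
  · fun_prop

theorem RR_nonneg {Λ c0 : ℝ} (hΛ : 0 ≤ Λ) (hc : 0 ≤ c0) (U : Mat (Fin (N + 1)))
    (s : SY.SS p n (univ : Finset (Fin (N + 1) → Bool))) : 0 ≤ RR eig lam Λ c0 U s := by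
  unfold RR
  have h1 : 0 ≤ ∑ g, SY.zf s.2.1 g (Fin.last N) ^ 2 := Finset.sum_nonneg fun _ _ => sq_nonneg _
  positivity

theorem adm_RR {Λ c0 : ℝ} (hΛ : 0 ≤ Λ) (hc : 0 ≤ c0) :
    TLaw.Adm (p := p) (N := N) (n := n) (fun U _ ω => RR eig lam Λ c0 U ω.1) where
  meas _ ω := (continuous_RR Λ c0 ω.1).measurable
  nn U _ ω := RR_nonneg hΛ hc U ω.1
  bdd := by
    obtain ⟨C, _, hC⟩ := Rot.exists_bound
      (fun (U : Fin (N + 1) → Fin (N + 1) → ℝ)
        (s : SY.SS p n (univ : Finset (Fin (N + 1) → Bool))) => RR eig lam Λ c0 U s)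
      (fun s => continuous_RR Λ c0 s)
    exact ⟨C, fun U hU _ ω => (le_abs_self _).trans (hC U hU ω.1)⟩

variable {μ : Measure (Mat (Fin N))} [IsProbabilityMeasure μ]
  {ν : Measure (Mat (Fin (N + 1)))} [IsProbabilityMeasure ν]

/-- **upper bound of the increment by the moments of the `(N+1)`-system.** -/
theorem incr_le (hnb : p.nb = 0) (hN : 0 < N) (hT : p.nc * p.T ≤ N) (hμ : RHaar μ)
    (hν : RHaar ν) {Λ : ℝ} (he : ∀ i, |eig i| ≤ Λ) {A2 Bv : ℝ}
    (hA : ∑ g, a (Fin.last N) g ^ 2 ≤ A2) (hv : ∀ σ b, |vT W0 W1 σ b| ≤ Bv) (hBv : 0 ≤ Bv) :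
    ∫ U, Ed p (N + 1) (fun d => G.Phi (BU p (N + 1) n) (HN1 eig W1 a lam U) d) ∂ν -
      ∫ V, Ed p N (fun d => G.Phi (BU p N n) (HN eig W0 a lam V) d) ∂μ ≤
      3 * TLaw.EE1 (n := n) eig W1 a lam ν
        (fun U _ ω => RR eig lam Λ (12 + 8 * Λ + 1 / 2 * A2 + Bv) U ω.1) +
      p.nc * p.T * (p.nc * p.T * p.τ) / ((N : ℝ) + 1) := by
  have hΛ : 0 ≤ Λ := (abs_nonneg _).trans (he (Fin.last N))
  have hA2 : 0 ≤ A2 := (Finset.sum_nonneg fun _ _ => sq_nonneg _).trans hA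
  set c0 := 12 + 8 * Λ + 1 / 2 * A2 + Bv with hc0
  have hc0' : 0 ≤ c0 := by rw [hc0]; positivity
  have hH1 := adm_Hs (n := n) eig 1 W1 a lam hν
  have hH0 := adm_Hs (n := n) (fun i : Fin N => eig i.castSucc) 1 W0 (fun i => a i.castSucc)
    (fun i => lam i.castSucc) hμ
  have hR := adm_RR (p := p) (N := N) (n := n) (eig := eig) (lam := lam) hΛ hc0'
  -- step 1: law of the pointers
  set F : Mat (Fin (N + 1)) → ℝ := fun U =>
    Ed p (N + 1) (fun d => G.Phi (BU p (N + 1) n) (HN1 eig W1 a lam U) d) with hF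
  set F' : Mat (Fin (N + 1)) → ℝ := fun U =>
    Ed p N (fun d => G.Phi (BU p (N + 1) n) (HN1 eig W1 a lam U) (F4.liftD p N d)) with hF'
  set F0 : Mat (Fin N) → ℝ := fun V =>
    Ed p N (fun d => G.Phi (BU p N n) (HN eig W0 a lam V) d) with hF0
  set K : ℝ := p.nc * p.T * (p.nc * p.T * p.τ) / ((N : ℝ) + 1) with hK
  have h1 : ∀ U, F U ≤ F' U + K := by
    intro U
    have h := EDlaw.Ed_succ_sub p hN
      (fun d => G.Phi (BU p (N + 1) n) (HN1 eig W1 a lam U) d)
      (G.Phi (BU p (N + 1) n) (HN1 eig W1 a lam U) (fun _ => none)) (M := p.nc * p.T * p.τ)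
      (fun d => Phi_d_le hnb _ d _)
    have h2 := (abs_le.1 h).2
    have h3 : Ed p N (fun d => G.Phi (BU p (N + 1) n) (HN1 eig W1 a lam U)
        (EDlaw.emb p d)) = F' U := rfl
    rw [h3] at h2
    show Ed p (N + 1) (fun d => G.Phi (BU p (N + 1) n) (HN1 eig W1 a lam U) d) ≤ F' U + K
    linarith
  have iF : Integrable F ν := by
    rw [hF]
    unfold Ed
    exact integrable_finsetSum _ fun d _ => (hH1.int_Phi d).const_mul _
  have iF' : Integrable F' ν := by
    rw [hF']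
    unfold Ed
    exact integrable_finsetSum _ fun d _ => (hH1.int_Phi _).const_mul _
  have iF0 : Integrable F0 μ := by
    rw [hF0]
    unfold Ed
    exact integrable_finsetSum _ fun d _ => (hH0.int_Phi d).const_mul _
  have h2 : ∫ U, F U ∂ν ≤ ∫ U, F' U ∂ν + K := by
    have h3 := integral_mono iF (iF'.add (integrable_const K)) h1
    have h4 : ∫ U, (F' U + K) ∂ν = ∫ U, F' U ∂ν + K := by
      rw [integral_add iF' (integrable_const K)]
      simp
    exact h3.trans_eq h4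
  -- step 2: coupling
  have h3 := cplS_integral hμ hν F' iF'.aestronglyMeasurable
  set P := μ.prod (gam (Fin (N + 1))) with hP
  set IAq : Mat (Fin N) × (Fin (N + 1) → ℝ) → ℝ := fun q => Ed p N (fun d =>
    TLaw.IA (n := n) eig W1 a lam (fun U _ ω => RR eig lam Λ c0 U ω.1) (F4.liftD p N d)
      (cplS q.1 q.2))
    with hIAq
  have iIA : Integrable IAq P := TLaw.integrable_lift hN hT hμ hν hR
  have iF0q : Integrable (fun q : Mat (Fin N) × (Fin (N + 1) → ℝ) => F0 q.1) P :=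
    iF0.comp_fst (gam (Fin (N + 1)))
  have iF'q : Integrable (fun q : Mat (Fin N) × (Fin (N + 1) → ℝ) => F' (cplS q.1 q.2)) P :=
    TLaw.integrable_cplS hμ hν iF'
  have hae : ∀ᵐ q ∂P, nrm q.2 ≠ 0 :=
    (Measure.quasiMeasurePreserving_snd).ae gam_nrm_ne_zero
  have h4 : ∫ q, F' (cplS q.1 q.2) ∂P ≤ ∫ q, (F0 q.1 + IAq q) ∂P := by
    refine integral_mono_ae iF'q (iF0q.add iIA) ?_
    filter_upwards [hae] with q hq
    show F' (cplS q.1 q.2) ≤ F0 q.1 + IAq q
    rw [hF', hF0, hIAq, ← Ed_add]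
    refine Ed_mono p N fun d => ?_
    have h5 := Phi_le_res (n := n) hnb (HN eig W0 a lam q.1) (HN1 eig W1 a lam (cplS q.1 q.2)) d
    have h6 : eE (G.PP (BU p (N + 1) n) (HN1 eig W1 a lam (cplS q.1 q.2)) (F4.liftD p N d))
        (fun ω => HN1 eig W1 a lam (cplS q.1 q.2) ω.1 - exS (HN eig W0 a lam q.1) ω.1) ≤
        TLaw.IA (n := n) eig W1 a lam (fun U _ ω => RR eig lam Λ c0 U ω.1) (F4.liftD p N d)
          (cplS q.1 q.2) := by
      unfold TLaw.IA
      exact eE_mono (G.PP_isProb _ _ _) fun ω =>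
        path_le eig W0 W1 a lam he hA hv hq q.1 ω.1
    linarith
  have h5 : ∫ q, (F0 q.1 + IAq q) ∂P = ∫ V, F0 V ∂μ + ∫ q, IAq q ∂P := by
    rw [integral_add iF0q iIA]
    congr 1
    rw [hP, integral_fun_fst]
    simp
  have h6 : ∫ q, IAq q ∂P ≤ 3 * TLaw.EE1 (n := n) eig W1 a lam ν
      (fun U _ ω => RR eig lam Λ c0 U ω.1) := TLaw.tl0 hN hT hμ hν hR
  linarith

end

end Crest.Agent.R164.LCr
end

-- ▼ part R164/LCrude3
section

/-!
Row 164, L side (helper494): upper bound of the increment of the free energy, part 3: the moments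
of the `(N+1)`-system.
-/

set_option autoImplicit false
set_option linter.unusedSectionVars false

namespace Crest.Agent.R164.LCr

open Finset MeasureTheory Crest.Agent.R141 Crest.Agent.R164 Crest.Agent.R164.PF
  Crest.Agent.R164.Haar Crest.Agent.R164.ED
open Crest.ProbabilityR.InvariantGlass

noncomputable section

variable {p : Par} {M n : ℕ} {eig : Fin M → ℝ} {W : (Fin M → Bool) → ℝ}
  {a lam : Fin M → Fin p.nc → ℝ} {ν : Measure (Mat (Fin M))} [IsProbabilityMeasure ν]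


theorem sum_sphi_sq_le {S : ℝ} (hS : ∀ i, ∑ g, lam i g ^ 2 ≤ S) (c : SY.FC p M n) :
    ∑ i, GX.sphi lam c i ^ 2 ≤ S * CSys.Tc c := by
  unfold GX.sphi CSys.Tc
  rw [Finset.sum_comm (s := (Finset.univ : Finset (Fin p.nc))), Finset.mul_sum]
  refine Finset.sum_le_sum fun i _ => ?_
  refine (Finset.sum_mul_sq_le_sq_mul_sq _ _ _).trans ?_
  exact mul_le_mul_of_nonneg_right (hS i) (Finset.sum_nonneg fun _ _ => sq_nonneg _)

/-- second moments of the coins in the average `EE` -/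
theorem EE_Ts_le (hnb : p.nb = 0) (hM : 0 < M) (hν : RHaar ν) {Λ0 Λ Λa BV : ℝ}
    (he : ∀ i, |eig i| ≤ Λ0) (hl : ∀ i g, |lam i g| ≤ Λ) (ha : ∀ i g, |a i g| ≤ Λa)
    (hW : ∀ σ, |W σ| ≤ BV * M) :
    GX.EE (n := n) (A := univ) univ_nonempty ν eig 1 W a lam (fun _ _ ω => CSys.Ts ω.1) ≤
      CSys.CT p Λ0 Λ Λa BV * M := by
  unfold GX.EE
  have h1 : ∀ᵐ U ∂ν, Ed p M (fun d => eE (G.PP (SY.base p n univ univ_nonempty)
      (GX.Hs eig 1 W a lam U) d) (fun ω => CSys.Ts ω.1)) ≤ CSys.CT p Λ0 Λ Λa BV * M := by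
    filter_upwards [hν.mem] with U hU
    calc Ed p M (fun d => eE (G.PP (SY.base p n univ univ_nonempty)
        (GX.Hs eig 1 W a lam U) d) (fun ω => CSys.Ts ω.1))
        ≤ Ed p M (fun _ => CSys.CT p Λ0 Λ Λa BV * M) := by
          refine Ed_mono p M fun d => ?_
          exact CSys.eE_Ts_HU (n := n) (A := (Finset.univ : Finset (Fin M → Bool)))
            univ_nonempty eig 1 W a lam d hnb hM he (by norm_num) hl ha hW hU
      _ = _ := Ed_const p hM _
  have hi := GX.integrable_Ed (n := n) (A := (univ : Finset (Fin M → Bool)))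
    (hA := univ_nonempty) (eig := eig) (t := 1) (V := W) (a := a) (lam := lam) hν
    (O := fun _ _ ω => CSys.Ts ω.1) (fun _ _ => continuous_const)
  calc _ ≤ ∫ _U : Mat (Fin M), CSys.CT p Λ0 Λ Λa BV * M ∂ν :=
        integral_mono_ae hi (integrable_const _) h1
    _ = _ := by simp

theorem cancel_le {δ M c e B : ℝ} (hδ : 0 < δ) (hM : 0 < M) (hc : δ * M ≤ c) (he : 0 ≤ e)
    (h : c * e ≤ B * M) : e ≤ B / δ := by
  rw [le_div_iff₀ hδ]
  have h1 : δ * M * e ≤ c * e := mul_le_mul_of_nonneg_right hc he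
  have h2 : M * (e * δ) ≤ M * B := by nlinarith
  exact le_of_mul_le_mul_left h2 hM

theorem EE_nonneg' {O : Mat (Fin M) → DD p M → G.Om (SY.base p n univ univ_nonempty) → ℝ}
    (hM : 0 < M) (hν : RHaar ν) (hO : ∀ d ω, Continuous fun U => O U d ω)
    (h : ∀ U d ω, 0 ≤ O U d ω) :
    0 ≤ GX.EE (n := n) (A := univ) univ_nonempty ν eig 1 W a lam O := by
  have h1 := GX.EE_mono (n := n) (A := (univ : Finset (Fin M → Bool))) (hA := univ_nonempty)
    (eig := eig) (t := 1) (V := W) (a := a) (lam := lam) hν (O := fun _ _ _ => 0) (O' := O)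
    (fun _ _ => continuous_const) hO (fun U _ d ω => h U d ω)
  rwa [GX.EE_const hM] at h1

end

end Crest.Agent.R164.LCr

namespace Crest.Agent.R164.LCr

open Finset MeasureTheory Crest.Agent.R141 Crest.Agent.R164 Crest.Agent.R164.PF
  Crest.Agent.R164.Haar Crest.Agent.R164.ED
open Crest.ProbabilityR.InvariantGlass

noncomputable section

variable {p : Par} {N n : ℕ} {eig : Fin (N + 1) → ℝ} {W1 : (Fin (N + 1) → Bool) → ℝ}
  {a lam : Fin (N + 1) → Fin p.nc → ℝ} {ν : Measure (Mat (Fin (N + 1)))} [IsProbabilityMeasure ν]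

/-- **the moments of the bound** -/
theorem EE_RR_le (hnb : p.nb = 0) (hν : RHaar ν) {Λ0 Λ Λa BV S δ c0 : ℝ}
    (he : ∀ i, |eig i| ≤ Λ0) (hl : ∀ i g, |lam i g| ≤ Λ) (ha : ∀ i g, |a i g| ≤ Λa)
    (hW : ∀ σ, |W1 σ| ≤ BV * ((N : ℝ) + 1)) (hS : ∀ i, ∑ g, lam i g ^ 2 ≤ S) (hδ : 0 < δ)
    {Cl Gr : Finset (Fin (N + 1))}
    (hCl : ∀ i ∈ Cl, GX.Inv (Equiv.swap (Fin.last N) i) 1 eig W1 a lam)
    (hGr : ∀ i ∈ Gr, GX.Inv 1 (Equiv.swap (Fin.last N) i) eig W1 a lam)
    (hcl : δ * ((N : ℝ) + 1) ≤ Cl.card) (hgr : δ * ((N : ℝ) + 1) ≤ Gr.card) :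
    TLaw.EE1 (n := n) eig W1 a lam ν (fun U _ ω => RR eig lam Λ0 c0 U ω.1) ≤
      ((4 + 3 * Λ0) + Λ0 ^ 2 + 2 * (S * CSys.CT p Λ0 Λ Λa BV) + CSys.CT p Λ0 Λ Λa BV) / δ +
        c0 := by
  have hM : (0 : ℝ) < (N : ℝ) + 1 := by positivity
  have hM' : 0 < N + 1 := Nat.succ_pos N
  have hΛ0 : 0 ≤ Λ0 := (abs_nonneg _).trans (he (Fin.last N))
  have hS0 : 0 ≤ S := (Finset.sum_nonneg fun _ _ => sq_nonneg _).trans (hS (Fin.last N))
  set CT := CSys.CT p Λ0 Λ Λa BV with hCT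
  -- the averages
  set X2 : Mat (Fin (N + 1)) → DD p (N + 1) → OU p (N + 1) n → ℝ :=
    fun U _ ω => SY.xU (Matrix.of U) ω.1.1.1 (Fin.last N) ^ 2 with hX2
  set J2 : Mat (Fin (N + 1)) → DD p (N + 1) → OU p (N + 1) n → ℝ :=
    fun U _ ω => GX.Js eig U ω.1.1.1 (Fin.last N) ^ 2 with hJ2
  set S2 : Mat (Fin (N + 1)) → DD p (N + 1) → OU p (N + 1) n → ℝ :=
    fun U _ ω => (∑ i, GX.sphi lam ω.1.2.2 i * U i (Fin.last N)) ^ 2 with hS2
  set P2 : Mat (Fin (N + 1)) → DD p (N + 1) → OU p (N + 1) n → ℝ :=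
    fun _ _ ω => GX.sphi lam ω.1.2.2 (Fin.last N) ^ 2 with hP2
  set Z2 : Fin p.nc → Mat (Fin (N + 1)) → DD p (N + 1) → OU p (N + 1) n → ℝ :=
    fun g _ _ ω => SY.zf ω.1.2.1 g (Fin.last N) ^ 2 with hZ2
  set E : (Mat (Fin (N + 1)) → DD p (N + 1) → OU p (N + 1) n → ℝ) → ℝ :=
    fun O => GX.EE (n := n) (A := univ) univ_nonempty ν eig 1 W1 a lam O with hE
  have cX : ∀ (d : DD p (N + 1)) (ω : OU p (N + 1) n), Continuous fun U => X2 U d ω :=
    fun d ω => (GX.continuous_xU ω.1.1.1 (Fin.last N)).pow 2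
  have cJ : ∀ (d : DD p (N + 1)) (ω : OU p (N + 1) n), Continuous fun U => J2 U d ω :=
    fun d ω => (GX.continuous_Js ω.1.1.1 (Fin.last N)).pow 2
  have cS : ∀ (d : DD p (N + 1)) (ω : OU p (N + 1) n), Continuous fun U => S2 U d ω := by
    intro d ω
    rw [hS2]
    fun_prop
  have cP : ∀ (d : DD p (N + 1)) (ω : OU p (N + 1) n), Continuous fun U => P2 U d ω :=
    fun d ω => continuous_const
  have cZ : ∀ (g : Fin p.nc) (d : DD p (N + 1)) (ω : OU p (N + 1) n),
      Continuous fun U => Z2 g U d ω := fun g d ω => continuous_const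
  -- decomposition
  have hdec : TLaw.EE1 (n := n) eig W1 a lam ν (fun U _ ω => RR eig lam Λ0 c0 U ω.1) =
      (4 + 3 * Λ0) * E X2 + E J2 + E S2 + E P2 + ∑ g, E (Z2 g) + c0 := by
    have e1 : (fun (U : Mat (Fin (N + 1))) (_ : DD p (N + 1)) (ω : OU p (N + 1) n) =>
        RR eig lam Λ0 c0 U ω.1) = fun U d ω => ((((4 + 3 * Λ0) * X2 U d ω + J2 U d ω) +
          S2 U d ω + P2 U d ω) + ∑ g, Z2 g U d ω) + c0 := rfl
    have k1 : ∀ (d : DD p (N + 1)) (ω : OU p (N + 1) n),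
        Continuous fun U => (4 + 3 * Λ0) * X2 U d ω := fun d ω => continuous_const.mul (cX d ω)
    have k2 : ∀ (d : DD p (N + 1)) (ω : OU p (N + 1) n),
        Continuous fun U => (4 + 3 * Λ0) * X2 U d ω + J2 U d ω :=
      fun d ω => (k1 d ω).add (cJ d ω)
    have k3 : ∀ (d : DD p (N + 1)) (ω : OU p (N + 1) n),
        Continuous fun U => (4 + 3 * Λ0) * X2 U d ω + J2 U d ω + S2 U d ω :=
      fun d ω => (k2 d ω).add (cS d ω)
    have k4 : ∀ (d : DD p (N + 1)) (ω : OU p (N + 1) n),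
        Continuous fun U => (4 + 3 * Λ0) * X2 U d ω + J2 U d ω + S2 U d ω + P2 U d ω :=
      fun d ω => (k3 d ω).add (cP d ω)
    have k5 : ∀ (d : DD p (N + 1)) (ω : OU p (N + 1) n),
        Continuous fun U => ∑ g, Z2 g U d ω :=
      fun d ω => continuous_finsetSum _ fun g _ => cZ g d ω
    have k6 : ∀ (d : DD p (N + 1)) (ω : OU p (N + 1) n),
        Continuous fun U => ((4 + 3 * Λ0) * X2 U d ω + J2 U d ω + S2 U d ω + P2 U d ω) +
          ∑ g, Z2 g U d ω := fun d ω => (k4 d ω).add (k5 d ω)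
    show GX.EE (n := n) (A := univ) univ_nonempty ν eig 1 W1 a lam _ = _
    rw [e1, GX.EE_add hν k6 (fun _ _ => continuous_const), GX.EE_add hν k4 k5,
      GX.EE_add hν k3 cP, GX.EE_add hν k2 cS, GX.EE_add hν k1 cJ, GX.EE_smul, GX.EE_const hM',
      GX.EE_sum hν univ (fun g _ => cZ g)]
  rw [hdec]
  have hTs : E (fun _ _ ω => CSys.Ts ω.1) ≤ CT * ((N : ℝ) + 1) := by
    have h := EE_Ts_le (n := n) hnb hM' hν he hl ha (W := W1) (BV := BV)
      (fun σ => by push_cast; exact hW σ)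
    push_cast at h
    exact h
  have hTs0 : 0 ≤ E (fun _ _ ω => CSys.Ts ω.1) :=
    EE_nonneg' hM' hν (fun _ _ => continuous_const) (fun _ _ ω => CSys.Ts_nonneg ω.1)
  have hCT0 : 0 ≤ CT := by
    by_contra hneg
    push Not at hneg
    have : CT * ((N : ℝ) + 1) < 0 := mul_neg_of_neg_of_pos hneg hM
    linarith
  have hphi : E (fun _ _ ω => ∑ i, GX.sphi lam ω.1.2.2 i ^ 2) ≤ S * CT * ((N : ℝ) + 1) := by
    have h1 : E (fun _ _ ω => ∑ i, GX.sphi lam ω.1.2.2 i ^ 2) ≤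
        E (fun _ _ ω => S * CSys.Ts ω.1) := by
      refine GX.EE_mono hν (fun _ _ => continuous_const) (fun _ _ => continuous_const)
        fun U _ d ω => ?_
      refine (sum_sphi_sq_le hS ω.1.2.2).trans (mul_le_mul_of_nonneg_left ?_ hS0)
      unfold CSys.Ts
      linarith [CSys.Tc_nonneg ω.1.2.1]
    have h2 : E (fun _ _ ω => S * CSys.Ts ω.1) = S * E (fun _ _ ω => CSys.Ts ω.1) :=
      GX.EE_smul _ _
    rw [h2] at h1
    have h3 := mul_le_mul_of_nonneg_left hTs hS0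
    linarith
  have b1 : E X2 ≤ 1 / δ := by
    refine cancel_le hδ hM hcl (EE_nonneg' hM' hν cX fun _ _ _ => sq_nonneg _) ?_
    have h := GX.T1 (n := n) (A := (univ : Finset (Fin (N + 1) → Bool))) (hA := univ_nonempty)
      (t := 1) hν hM' hCl
    push_cast at h
    rw [one_mul]
    exact h
  have b2 : E J2 ≤ Λ0 ^ 2 / δ := by
    refine cancel_le hδ hM hgr (EE_nonneg' hM' hν cJ fun _ _ _ => sq_nonneg _) ?_
    have h := GX.T2 (n := n) (A := (univ : Finset (Fin (N + 1) → Bool))) (hA := univ_nonempty)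
      (t := 1) hν hM' he hGr (fun _ _ σ => GX.univ_mem_iff _ σ)
    push_cast at h
    exact h
  have b3 : E S2 ≤ S * CT / δ := by
    refine cancel_le hδ hM hgr (EE_nonneg' hM' hν cS fun _ _ _ => sq_nonneg _) ?_
    have h := GX.T3 (n := n) (A := (univ : Finset (Fin (N + 1) → Bool))) (hA := univ_nonempty)
      (t := 1) hν hGr (fun _ _ σ => GX.univ_mem_iff _ σ)
    exact h.trans hphi
  have b4 : E P2 ≤ S * CT / δ := by
    refine cancel_le hδ hM hcl (EE_nonneg' hM' hν cP fun _ _ _ => sq_nonneg _) ?_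
    have h := GX.T4' (n := n) (A := (univ : Finset (Fin (N + 1) → Bool))) (hA := univ_nonempty)
      (t := 1) hν hCl
    exact h.trans hphi
  have b5 : ∑ g, E (Z2 g) ≤ CT / δ := by
    refine cancel_le hδ hM hgr (Finset.sum_nonneg fun g _ =>
      EE_nonneg' hM' hν (cZ g) fun _ _ _ => sq_nonneg _) ?_
    have h1 : ∀ g, (Gr.card : ℝ) * E (Z2 g) ≤ E (fun _ _ ω => ∑ j, SY.zf ω.1.2.1 g j ^ 2) :=
      fun g => GX.T6 (n := n) (A := (univ : Finset (Fin (N + 1) → Bool)))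
        (hA := univ_nonempty) (t := 1) hν g hGr (fun _ _ σ => GX.univ_mem_iff _ σ)
    rw [Finset.mul_sum]
    refine (Finset.sum_le_sum fun g _ => h1 g).trans ?_
    have h2 : ∑ g, E (fun _ _ ω => ∑ j, SY.zf ω.1.2.1 g j ^ 2) =
        E (fun _ _ ω => ∑ g, ∑ j, SY.zf ω.1.2.1 g j ^ 2) :=
      (GX.EE_sum (O := fun g _ _ ω => ∑ j, SY.zf ω.1.2.1 g j ^ 2) hν univ
        (fun g _ _ _ => continuous_const)).symm
    rw [h2]
    refine le_trans ?_ hTs
    refine GX.EE_mono hν (fun _ _ => continuous_const) (fun _ _ => continuous_const)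
      fun U _ d ω => ?_
    unfold CSys.Ts
    have := CSys.Tc_nonneg ω.1.2.2
    have h3 : ∑ g, ∑ j, SY.zf ω.1.2.1 g j ^ 2 = CSys.Tc ω.1.2.1 := rfl
    rw [h3]
    linarith
  have b1' := mul_le_mul_of_nonneg_left b1 (by positivity : 0 ≤ 4 + 3 * Λ0)
  have e : ((4 + 3 * Λ0) + Λ0 ^ 2 + 2 * (S * CT) + CT) / δ =
      (4 + 3 * Λ0) * (1 / δ) + Λ0 ^ 2 / δ + S * CT / δ + S * CT / δ + CT / δ := by ring
  rw [e]
  linarith

end

end Crest.Agent.R164.LCr
end

-- ▼ part R164/LCrude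

/-!
Row 164, L side (helper494): **(INCB), upper part**: upper bound of the increments of the enriched
free energy.
-/

set_option autoImplicit false
set_option linter.unusedSectionVars false

namespace Crest.Agent.R164.LG

open Finset MeasureTheory Filter Topology Crest.Agent.R141 Crest.Agent.R164 Crest.Agent.R164.Haar
open Crest.Agent.R164.LD (Prm HL EPh EO PL TO RJ MO)
open Crest.Agent.R164.ED (sk sj eigS aS lmS W0S W1S)

noncomputable section

variable (X : Glob)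

theorem kapSn {N : ℕ} (L : Fin N → X.LB) (l : X.LB) :
    Glob.kap (Fin.snoc L l : Fin (N + 1) → X.LB) = sk (Glob.kap L) l.1 := by
  funext i
  refine Fin.lastCases ?_ (fun j => ?_) i
  · unfold Glob.kap; rw [Fin.snoc_last, ED.sk_last]
  · unfold Glob.kap; rw [Fin.snoc_castSucc, ED.sk_castSucc]

theorem labSn {N : ℕ} (L : Fin N → X.LB) (l : X.LB) :
    Glob.lab (Fin.snoc L l : Fin (N + 1) → X.LB) = sj (Glob.lab L) l.2 := by
  funext i
  refine Fin.lastCases ?_ (fun j => ?_) i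
  · unfold Glob.lab; rw [Fin.snoc_last, ED.sj_last]
  · unfold Glob.lab; rw [Fin.snoc_castSucc, ED.sj_castSucc]

theorem cardSn {N : ℕ} {α : Type*} [DecidableEq α] (f : Fin N → α) (a : α) :
    ((Finset.univ.filter fun i => (Fin.snoc (α := fun _ => α) f a : Fin (N + 1) → α) i = a).card : ℝ)
      = ((Finset.univ.filter fun i => f i = a).card : ℝ) + 1 := by
  rw [Finset.card_filter, Finset.card_filter, Fin.sum_univ_castSucc]
  simp only [Fin.snoc_castSucc, Fin.snoc_last, if_true]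
  push_cast
  rfl

theorem abs_lm_le {p : Par} {E A S : ℝ} {θ : Prm p X.K X.J} (h : Bd X E A S θ)
    (k : Fin (X.K + 1)) (g : Fin p.nc) : |θ.lm k g| ≤ Real.sqrt S := by
  have h1 := h.lm k
  have h2 : θ.lm k g ^ 2 ≤ ∑ g, θ.lm k g ^ 2 :=
    Finset.single_le_sum (f := fun g => θ.lm k g ^ 2) (fun _ _ => sq_nonneg _) (Finset.mem_univ g)
  exact Real.abs_le_sqrt (h2.trans h1)

/-- **(INCB), upper part.** -/
theorem incb_upper (E A S Kmax d0 : ℝ) (hd : Small X d0) (p : Par) (hnb : p.nb = 0) :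
    ∃ (C : ℝ) (Na : ℕ), ∀ (N : ℕ), Na ≤ N → ∀ n : ℕ, ∀ Kp : ℝ, 0 ≤ Kp → Kp ≤ Kmax →
    ∀ θ : Prm p X.K X.J, Bd X E A S θ → ∀ L : Fin N → X.LB, LabAvg.Good X.al d0 L → ∀ l : X.LB,
    Ph X n Kp θ (Fin.snoc L l : Fin (N + 1) → X.LB) - Ph X n Kp θ L ≤ C := by
  set Λ0 : ℝ := ∑ k, |X.val k| with hΛ0
  set BV : ℝ := ∑ j, |X.c j| + 4 * Kmax + E with hBV
  set Bv : ℝ := ∑ j, |X.c j| + 12 * Kmax + E with hBv
  set CT : ℝ := CSys.CT p Λ0 (Real.sqrt S) |A| BV with hCT
  refine ⟨3 * (((4 + 3 * Λ0) + Λ0 ^ 2 + 2 * (S * CT) + CT) / (d0 / 2) +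
    (12 + 8 * Λ0 + 1 / 2 * A ^ 2 + Bv)) + p.nc * p.T * (p.nc * p.T * p.τ),
    max 1 (p.nc * p.T), ?_⟩
  intro N hN n Kp hKp0 hKp θ hθ L hL l
  have hN1 : 1 ≤ N := (le_max_left _ _).trans hN
  have hT : p.nc * p.T ≤ N := (le_max_right _ _).trans hN
  have hN0 : 0 < N := hN1
  have hNr : (1 : ℝ) ≤ N := by exact_mod_cast hN1
  obtain ⟨k, j⟩ := l
  have i1 := X.hnu N
  have i2 := X.hnu (N + 1)
  have hE : 0 ≤ E := (abs_nonneg _).trans (hθ.el j)
  have ht : ∀ j, |X.t j| ≤ 1 := fun j => (X.ht j).le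
  have hKm : 0 ≤ Kmax := hKp0.trans hKp
  have hcj : ∀ j, |X.c j| ≤ ∑ j, |X.c j| := fun j =>
    Finset.single_le_sum (f := fun j => |X.c j|) (fun _ _ => abs_nonneg _) (Finset.mem_univ j)
  have hval : ∀ k, |X.val k| ≤ Λ0 := fun k =>
    Finset.single_le_sum (f := fun k => |X.val k|) (fun _ _ => abs_nonneg _) (Finset.mem_univ k)
  have hBv0 : 0 ≤ Bv := by
    have : 0 ≤ ∑ j, |X.c j| := Finset.sum_nonneg fun _ _ => abs_nonneg _
    rw [hBv]; positivity
  have he : ∀ i, |eigS X.val (Glob.kap L) k i| ≤ Λ0 := fun i => hval _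
  have hA : ∑ g, aS θ (Glob.lab L) j (Fin.last N) g ^ 2 ≤ A ^ 2 := by
    rw [ED.aS_last]; exact hθ.am j
  have hv : ∀ σ b, |ED.vT (W0S X.c X.t Kp θ (Glob.lab L)) (W1S X.c X.t Kp θ (Glob.lab L) j) σ b| ≤
      Bv := by
    intro σ b
    refine (ED.abs_vT_le X.c X.t Kp θ (Glob.lab L) j hKp0 ht hθ.el σ b).trans ?_
    rw [hBv]
    linarith [hcj j]
  have hW : ∀ σ, |W1S X.c X.t Kp θ (Glob.lab L) j σ| ≤ BV * ((N : ℝ) + 1) := by
    intro σ
    refine (ED.abs_W1S_le X.c X.t Kp θ (Glob.lab L) j hKp0 ht hθ.el σ).trans ?_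
    rw [hBV]
    refine mul_le_mul_of_nonneg_right ?_ (by positivity)
    linarith
  -- the increment
  have h1 := LCr.incr_le (n := n) (a := aS θ (Glob.lab L) j) (lam := lmS θ (Glob.kap L) k) hnb hN0
    hT (X.hR N) (X.hR (N + 1)) he hA hv hBv0
  have e1 : Ph X n Kp θ (Fin.snoc L (k, j) : Fin (N + 1) → X.LB) =
      EPh (X.nu (N + 1)) n X.val X.c X.t Kp θ (sk (Glob.kap L) k) (sj (Glob.lab L) j) := by
    unfold Ph
    rw [kapSn, labSn]
  have e2 : Ph X n Kp θ L = EPh (X.nu N) n X.val X.c X.t Kp θ (Glob.kap L) (Glob.lab L) := rfl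
  rw [e1, e2, ED.EPh_snoc, ED.EPh_eq X.val X.c X.t Kp θ (Glob.kap L) (Glob.lab L) k j]
  refine h1.trans ?_
  -- the moments
  have h2 := LCr.EE_RR_le (n := n) (W1 := W1S X.c X.t Kp θ (Glob.lab L) j)
    (a := aS θ (Glob.lab L) j) (lam := lmS θ (Glob.kap L) k) (Λ := Real.sqrt S) (Λa := |A|)
    (S := S) (δ := d0 / 2) (c0 := 12 + 8 * Λ0 + 1 / 2 * A ^ 2 + Bv)
    (Cl := Finset.univ.filter fun i => sk (Glob.kap L) k i = k)
    (Gr := Finset.univ.filter fun i => sj (Glob.lab L) j i = j)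
    hnb (X.hR (N + 1)) he (fun i g => abs_lm_le X hθ _ g) (fun i g => abs_am_le X hθ _ g) hW
    (fun i => hθ.lm _) (by have := hd.1; positivity)
    (fun i hi => ED.inv_row X.val X.c X.t Kp θ (Glob.kap L) (Glob.lab L) k j
      (Finset.mem_filter.1 hi).2)
    (fun i hi => ED.inv_site X.val X.c X.t Kp θ (Glob.kap L) (Glob.lab L) k j
      (Finset.mem_filter.1 hi).2)
    (by
      rw [cardSn]
      have := rK_ge X hd hL k j
      have hd1 := hd.1
      nlinarith)
    (by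
      rw [cardSn]
      have := rJ_ge X hd hL j
      unfold Mag.rJ at this
      have hd1 := hd.1
      nlinarith)
  have h3 : (p.nc * p.T * (p.nc * p.T * p.τ) : ℝ) / ((N : ℝ) + 1) ≤
      p.nc * p.T * (p.nc * p.T * p.τ) := by
    have hτ := p.hτ0
    refine div_le_self ?_ (by linarith)
    positivity
  linarith

end

end Crest.Agent.R164.LG
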