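import Crest.Agent.R164.GSpin
import Crest.Agent.R164.ObsFin
import Crest.Agent.R164.LGrid
import Crest.Agent.R164.LDef
import Crest.Agent.R164.ConcSys4
import Crest.Agent.R164.OvSys

-- ▼ part R164/LStruct2A
section

/-!
# Row 164, module LSTRUCT-2, part A

Averaged concentration of an observable `V` of the base configuration under the laws `PP B (H U) d`
from the second difference of the averaged free energy in the direction `V`
(`ObsFin.obs_pt`, averaged over the disorder `U` and over `d`), and the slope inequalities.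
-/

set_option autoImplicit false
set_option linter.unusedSectionVars false
set_option linter.unusedVariables false

namespace Crest.Agent.R164.LS2

open Finset MeasureTheory Crest.Agent.R141 Crest.Agent.R164 Crest.Agent.R164.ObsConc
open Crest.Agent.R164.G (Base prior_isProb)

noncomputable section

variable {p : Par} {N : ℕ} (B : Base p N) {Θ : Type*} [MeasurableSpace Θ] (ν : Measure Θ)
  [IsProbabilityMeasure ν]

/-- the family `H + s V`. -/
def hs (H V : Θ → B.S → ℝ) (s : ℝ) (U : Θ) (b : B.S) : ℝ := H U b + s * V U b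

/-- double average over `d` and over the disorder. -/
def dv (f : DD p N → Θ → ℝ) : ℝ := Ed p N (fun d => ∫ U, f d U ∂ν)

/-- the averaged free energy. -/
def FF (H : Θ → B.S → ℝ) : ℝ := dv ν (fun d U => G.Phi B (H U) d)

/-- A bounded measurable family of Hamiltonians. -/
structure Adm (H : Θ → B.S → ℝ) : Prop where
  meas : ∀ b, Measurable fun U => H U b
  bdd : ∃ K, ∀ᵐ U ∂ν, ∀ b, |H U b| ≤ K

variable {B ν}

omit [IsProbabilityMeasure ν] in
theorem Adm.hs {H V : Θ → B.S → ℝ} (hH : Adm B ν H) (hV : Adm B ν V) (s : ℝ) :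
    Adm B ν (hs B H V s) := by
  obtain ⟨K, hK⟩ := hH.bdd
  obtain ⟨K', hK'⟩ := hV.bdd
  refine ⟨fun b => (hH.meas b).add ((hV.meas b).const_mul s), K + |s| * K', ?_⟩
  filter_upwards [hK, hK'] with U h1 h2 b
  have e : |s * V U b| ≤ |s| * K' := by
    rw [abs_mul]; exact mul_le_mul_of_nonneg_left (h2 b) (abs_nonneg s)
  exact (abs_add_le _ _).trans (add_le_add (h1 b) e)

theorem hs_zero (H V : Θ → B.S → ℝ) : hs B H V 0 = H := by
  funext U b; simp [hs]

theorem UU_hs (H V : Θ → B.S → ℝ) (s : ℝ) (U : Θ) (d : DD p N) :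
    G.UU B (hs B H V s U) d = fun ω => G.UU B (H U) d ω + s * V U ω.1 := by
  funext ω; unfold G.UU hs; ring

/-- the free energy of `H + sV` as the function `gA`. -/
theorem gA_eq (H V : Θ → B.S → ℝ) (s : ℝ) (U : Θ) (d : DD p N) :
    gA (G.prior B) (G.fil B) p.xs (G.UU B (H U) d) (fun ω => V U ω.1) s = G.Phi B (hs B H V s U) d := by
  unfold gA G.Phi
  rw [UU_hs]

theorem eE_A0 (H : Θ → B.S → ℝ) (U : Θ) (d : DD p N) :
    eE (G.prior B) (A (G.prior B) (G.fil B) p.xs (G.UU B (H U) d) 0) = G.Phi B (H U) d := rfl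

/-! ### Integrability -/

theorem abs_eE_le {Ω : Type*} [Fintype Ω] {P : Ω → ℝ} (hP : IsProb P) {f : Ω → ℝ} {K : ℝ}
    (h : ∀ ω, |f ω| ≤ K) : |eE P f| ≤ K := by
  refine (eE_abs_le hP f).trans ?_
  calc eE P (fun ω => |f ω|) ≤ eE P (fun _ => K) := eE_mono hP h
    _ = K := eE_const hP K

theorem WW_bdd (B : Base p N) (d : DD p N) : ∃ C, ∀ ω, |G.WW B d ω| ≤ C := by
  refine ⟨∑ ω, |G.WW B d ω|, fun ω => ?_⟩
  exact Finset.single_le_sum (f := fun ω => |G.WW B d ω|) (fun _ _ => abs_nonneg _)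
    (Finset.mem_univ ω)

theorem meas_Phi {H : Θ → B.S → ℝ} (hH : ∀ b, Measurable fun U => H U b) (d : DD p N) :
    Measurable fun U => G.Phi B (H U) d := by
  unfold G.Phi
  exact G.meas_eE (fun _ => measurable_const)
    (fun ω => G.meas_A (prior_isProb B) p.xs_expo.pos (fun ω => G.meas_UU B hH d ω) 0 ω)

theorem Adm.int_Phi {H : Θ → B.S → ℝ} (hH : Adm B ν H) (d : DD p N) :
    Integrable (fun U => G.Phi B (H U) d) ν := by
  obtain ⟨K, hK⟩ := hH.bdd
  obtain ⟨C, hC⟩ := WW_bdd B d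
  refine Integrable.of_bound (meas_Phi hH.meas d).aestronglyMeasurable (K + C) ?_
  filter_upwards [hK] with U h1
  rw [Real.norm_eq_abs]
  unfold G.Phi
  refine abs_eE_le (prior_isProb B) ?_
  intro ω
  refine A_abs_le (prior_isProb B) p.xs_expo.pos (fun ω => ?_) 0 ω
  exact (abs_add_le _ _).trans (add_le_add (h1 _) (hC _))

theorem Adm.int_obs {H V : Θ → B.S → ℝ} (hH : Adm B ν H) (hV : Adm B ν V) (d : DD p N) :
    Integrable (fun U => eE (G.PP B (H U) d) (fun ω => V U ω.1)) ν := by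
  obtain ⟨K, hK⟩ := hV.bdd
  refine Integrable.of_bound (G.meas_eE (fun ω => G.meas_PP B hH.meas d ω)
    (fun ω => hV.meas ω.1)).aestronglyMeasurable K ?_
  filter_upwards [hK] with U h1
  rw [Real.norm_eq_abs]
  exact abs_eE_le (G.PP_isProb B _ _) fun ω => h1 _

theorem Adm.int_obs_abs {H V : Θ → B.S → ℝ} (hH : Adm B ν H) (hV : Adm B ν V) (d : DD p N)
    (c : ℝ) : Integrable (fun U => eE (G.PP B (H U) d) (fun ω => |V U ω.1 - c|)) ν := by
  have h : Adm B ν (fun U b => |V U b - c|) := by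
    obtain ⟨K, hK⟩ := hV.bdd
    refine ⟨fun b => ((hV.meas b).sub_const c).abs, K + |c|, ?_⟩
    filter_upwards [hK] with U h1 b
    rw [abs_abs]
    exact (abs_sub _ _).trans (add_le_add (h1 b) le_rfl)
  exact hH.int_obs h d

/-! ### The double average -/

omit [IsProbabilityMeasure ν] in
theorem dv_add {f g : DD p N → Θ → ℝ} (hf : ∀ d, Integrable (f d) ν)
    (hg : ∀ d, Integrable (g d) ν) : dv ν (fun d U => f d U + g d U) = dv ν f + dv ν g := by
  unfold dv Ed
  rw [← Finset.sum_add_distrib]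
  refine Finset.sum_congr rfl fun d _ => ?_
  show dw p N d * (∫ U, (f d U + g d U) ∂ν) = dw p N d * (∫ U, f d U ∂ν) + dw p N d * ∫ U, g d U ∂ν
  rw [integral_add (hf d) (hg d)]; ring

omit [IsProbabilityMeasure ν] in
theorem dv_smul (c : ℝ) (f : DD p N → Θ → ℝ) : dv ν (fun d U => c * f d U) = c * dv ν f := by
  unfold dv Ed
  rw [Finset.mul_sum]
  refine Finset.sum_congr rfl fun d _ => ?_
  show dw p N d * (∫ U, c * f d U ∂ν) = c * (dw p N d * ∫ U, f d U ∂ν)
  rw [integral_const_mul]; ring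

theorem dv_const (hN : 0 < N) (c : ℝ) : dv (p := p) (N := N) ν (fun _ _ => c) = c := by
  unfold dv Ed
  simp only [integral_const, probReal_univ, one_smul]
  rw [← Finset.sum_mul, dw_sum p hN, one_mul]

omit [IsProbabilityMeasure ν] in
theorem dv_mono {f g : DD p N → Θ → ℝ} (hf : ∀ d, Integrable (f d) ν)
    (hg : ∀ d, Integrable (g d) ν) (h : ∀ d U, f d U ≤ g d U) : dv ν f ≤ dv ν g := by
  unfold dv Ed
  exact Finset.sum_le_sum fun d _ => mul_le_mul_of_nonneg_left
    (integral_mono (hf d) (hg d) (h d)) (dw_nonneg p N d)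

omit [IsProbabilityMeasure ν] in
theorem dv_nonneg {f : DD p N → Θ → ℝ} (h : ∀ d U, 0 ≤ f d U) : 0 ≤ dv ν f := by
  unfold dv Ed
  exact Finset.sum_nonneg fun d _ => mul_nonneg (dw_nonneg p N d) (integral_nonneg (h d))

/-! ### Slopes -/

/-- mean of the observable -/
def mV (ν : Measure Θ) (H V : Θ → B.S → ℝ) : ℝ :=
  dv ν (fun d U => eE (G.PP B (H U) d) (fun ω => V U ω.1))

theorem slope (hB0 : B.SF 0 = ⊤) {H V : Θ → B.S → ℝ} (hH : Adm B ν H) (hV : Adm B ν V) (y : ℝ) :
    y * mV ν H V ≤ FF B ν (hs B H V y) - FF B ν H := by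
  have hF0 : (G.fil B).F 0 = ⊤ := G.fil_zero B hB0
  have h1 : ∀ (d : DD p N) U, y * eE (G.PP B (H U) d) (fun ω => V U ω.1) ≤
      G.Phi B (hs B H V y U) d + (-1) * G.Phi B (H U) d := by
    intro d U
    have h := gA_sub_pt (𝓕 := G.fil B) (prior_isProb B) p.xs_expo.pos hF0 (G.UU B (H U) d)
      (fun ω => V U ω.1) y
    rw [gA_eq, eE_A0] at h
    unfold G.PP
    linarith
  have a1 : ∀ d : DD p N, Integrable (fun U => G.Phi B (hs B H V y U) d) ν :=
    fun d => (hH.hs hV y).int_Phi d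
  have a2 : ∀ d : DD p N, Integrable (fun U => (-1) * G.Phi B (H U) d) ν :=
    fun d => (hH.int_Phi d).const_mul (-1)
  have h2 := dv_mono (ν := ν) (fun d => (hH.int_obs hV d).const_mul y)
    (fun d => (a1 d).add (a2 d)) h1
  have e1 := dv_add (ν := ν) a1 a2
  have e2 : dv ν (fun (d : DD p N) U => (-1) * G.Phi B (H U) d) =
    (-1) * dv ν (fun (d : DD p N) U => G.Phi B (H U) d) := dv_smul _ _
  rw [dv_smul] at h2
  have h3 := h2.trans_eq (e1.trans (by rw [e2]))
  unfold mV FF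
  linarith


/-! ### Averaged concentration -/

/-- averaged fluctuation of the free energy -/
def fluc (ν : Measure Θ) (H : Θ → B.S → ℝ) : ℝ :=
  dv ν (fun d U => |G.Phi B (H U) d - FF B ν H|)

/-- **Averaged concentration of an observable from the second difference.** -/
theorem conc_dir (hB0 : B.SF 0 = ⊤) (hN : 0 < N) {H V : Θ → B.S → ℝ} (hH : Adm B ν H)
    (hV : Adm B ν V) {y : ℝ} (hy : 0 < y) :
    y * dv ν (fun d U => eE (G.PP B (H U) d) (fun ω => |V U ω.1 - mV ν H V|)) ≤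
      2 * (FF B ν (hs B H V y) + FF B ν (hs B H V (-y)) - 2 * FF B ν H) +
        2 * fluc ν (hs B H V y) + 2 * fluc ν (hs B H V (-y)) + 4 * fluc ν H +
        Real.log 2 * ((p.nc : ℝ) + 1) := by
  have hF0 : (G.fil B).F 0 = ⊤ := G.fil_zero B hB0
  have hs1 := slope hB0 hH hV y
  have hs2 := slope hB0 hH hV (-y)
  set c := mV ν H V with hc
  have hp := hH.hs hV y
  have hm := hH.hs hV (-y)
  have ia : ∀ {K : Θ → B.S → ℝ} (_ : Adm B ν K) (f : ℝ) (d : DD p N),
      Integrable (fun U => |G.Phi B (K U) d - f|) ν := fun hG f d =>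
    ((hG.int_Phi d).sub (integrable_const f)).abs
  have h1 : ∀ (d : DD p N) U,
      y * eE (G.PP B (H U) d) (fun ω => |V U ω.1 - c|) ≤
      ((2 * (FF B ν (hs B H V y) + FF B ν (hs B H V (-y)) - 2 * FF B ν H) +
        Real.log 2 * ((p.nc : ℝ) + 1)) +
        2 * |G.Phi B (hs B H V y U) d - FF B ν (hs B H V y)|) +
        (2 * |G.Phi B (hs B H V (-y) U) d - FF B ν (hs B H V (-y))| +
        4 * |G.Phi B (H U) d - FF B ν H|) := by
    intro d U
    have h := obs_pt (𝓕 := G.fil B) (prior_isProb B) p.xs_expo.pos hF0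
      (xm := ((p.nc : ℝ) + 1)⁻¹) (by positivity) (fun l => Pur.xs_ge p l) (G.UU B (H U) d)
      (fun ω => V U ω.1) hy (f0 := FF B ν H) (fp := FF B ν (hs B H V y))
      (fm := FF B ν (hs B H V (-y))) (c := c) hs1 (by linarith)
    rw [gA_eq, gA_eq, eE_A0, div_inv_eq_mul] at h
    unfold G.PP
    linarith
  have a1 : ∀ d : DD p N, Integrable (fun U => 2 * |G.Phi B (hs B H V y U) d -
      FF B ν (hs B H V y)|) ν := fun d => (ia hp _ d).const_mul 2
  have a2 : ∀ d : DD p N, Integrable (fun U => 2 * |G.Phi B (hs B H V (-y) U) d -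
      FF B ν (hs B H V (-y))|) ν := fun d => (ia hm _ d).const_mul 2
  have a3 : ∀ d : DD p N, Integrable (fun U => 4 * |G.Phi B (H U) d - FF B ν H|) ν :=
    fun d => (ia hH _ d).const_mul 4
  have a0 : ∀ d : DD p N, Integrable (fun _ : Θ => (2 * (FF B ν (hs B H V y) +
      FF B ν (hs B H V (-y)) - 2 * FF B ν H) + Real.log 2 * ((p.nc : ℝ) + 1))) ν :=
    fun d => integrable_const _
  have a01 : ∀ d : DD p N, Integrable (fun U => (2 * (FF B ν (hs B H V y) +
      FF B ν (hs B H V (-y)) - 2 * FF B ν H) + Real.log 2 * ((p.nc : ℝ) + 1)) +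
      2 * |G.Phi B (hs B H V y U) d - FF B ν (hs B H V y)|) ν := fun d => (a0 d).add (a1 d)
  have a23 : ∀ d : DD p N, Integrable (fun U => 2 * |G.Phi B (hs B H V (-y) U) d -
      FF B ν (hs B H V (-y))| + 4 * |G.Phi B (H U) d - FF B ν H|) ν := fun d => (a2 d).add (a3 d)
  have h2 := dv_mono (ν := ν) (fun d => (hH.int_obs_abs hV d c).const_mul y)
    (fun d => (a01 d).add (a23 d)) h1
  have e1 := dv_add (ν := ν) a01 a23
  have e2 := dv_add (ν := ν) a0 a1
  have e3 := dv_add (ν := ν) a2 a3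
  have h3 := h2.trans_eq (e1.trans (by rw [e2, e3]))
  rw [dv_smul, dv_smul, dv_smul, dv_smul, dv_const hN] at h3
  unfold fluc
  linarith


end

end Crest.Agent.R164.LS2
end

-- ▼ part R164/LStruct2B
section

/-!
# Row 164, module LSTRUCT-2, part B

A family of Hamiltonians with finitely many linear parameters `θ : C → ℝ`.  On a finite grid of
parameters the averaged concentration errors of all the directions are small on average, and the
means of the directions of two families with close free energies are close on average.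
-/

set_option autoImplicit false
set_option linter.unusedSectionVars false
set_option linter.unusedVariables false

namespace Crest.Agent.R164.LS2

open Finset MeasureTheory Crest.Agent.R141 Crest.Agent.R164 Crest.Agent.R164.ObsConc
open Crest.Agent.R164.G (Base prior_isProb)
open Crest.Agent.R164.LGrid (gavg pt sh SD)

noncomputable section

variable {p : Par} {N : ℕ} (B : Base p N) {Θ : Type*} [MeasurableSpace Θ] (ν : Measure Θ)
  [IsProbabilityMeasure ν] {C : Type*} [Fintype C] [DecidableEq C]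

/-- A family of Hamiltonians with linear parameters. -/
structure Fam (H : (C → ℝ) → Θ → B.S → ℝ) (V : C → Θ → B.S → ℝ) : Prop where
  zero : B.SF 0 = ⊤
  shift : ∀ θ c u, H (sh θ c u) = hs B (H θ) (V c) u
  admH : ∀ θ, Adm B ν (H θ)
  admV : ∀ c, Adm B ν (V c)

/-- the normalised averaged free energy -/
def phi (H : (C → ℝ) → Θ → B.S → ℝ) (θ : C → ℝ) : ℝ := (N : ℝ)⁻¹ * FF B ν (H θ)

/-- the normalised mean of the direction `V`. -/
def mN (H V : Θ → B.S → ℝ) : ℝ := (N : ℝ)⁻¹ * mV ν H V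

/-- the averaged concentration error of the direction `V`, normalised. -/
def cerr (H V : Θ → B.S → ℝ) : ℝ :=
  (N : ℝ)⁻¹ * dv ν (fun d U => eE (G.PP B (H U) d) (fun ω => |V U ω.1 - mV ν H V|))

/-- The closed box of parameters. -/
def InBox (θ0 y : C → ℝ) (I : ℕ) (θ : C → ℝ) : Prop :=
  ∀ c, θ0 c ≤ θ c ∧ θ c ≤ θ0 c + ((I : ℝ) + 1) * y c

theorem pt_inBox {θ0 y : C → ℝ} (hy : ∀ c, 0 < y c) {I : ℕ} (i : C → Fin I) :
    InBox θ0 y I (pt θ0 y i) := by
  intro c
  have h1 := hy c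
  have h2 : ((i c : ℕ) : ℝ) ≤ I := by exact_mod_cast (i c).2.le
  unfold pt
  constructor
  · have : 0 ≤ (((i c : ℕ) : ℝ) + 1) * y c := by positivity
    linarith
  · have : (((i c : ℕ) : ℝ) + 1) * y c ≤ ((I : ℝ) + 1) * y c :=
      mul_le_mul_of_nonneg_right (by linarith) h1.le
    linarith

theorem update_inBox {θ0 y : C → ℝ} (hy : ∀ c, 0 < y c) {I : ℕ} {θ : C → ℝ}
    (hθ : InBox θ0 y I θ) (c : C) {r : ℝ} (h0 : 0 ≤ r) (h1 : r ≤ (I : ℝ) + 1) :
    InBox θ0 y I (Function.update θ c (θ0 c + r * y c)) := by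
  intro d
  by_cases hd : d = c
  · subst hd
    rw [Function.update_self]
    have := hy d
    constructor
    · have : 0 ≤ r * y d := by positivity
      linarith
    · have : r * y d ≤ ((I : ℝ) + 1) * y d := mul_le_mul_of_nonneg_right h1 this.le
      linarith
  · rw [Function.update_of_ne hd]; exact hθ d

theorem sh_pt_inBox {θ0 y : C → ℝ} (hy : ∀ c, 0 < y c) {I : ℕ} (i : C → Fin I) (c : C) :
    InBox θ0 y I (sh (pt θ0 y i) c (y c)) ∧ InBox θ0 y I (sh (pt θ0 y i) c (-y c)) := by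
  have h2 : ((i c : ℕ) : ℝ) + 1 ≤ I := by exact_mod_cast (i c).2
  constructor
  · have e : sh (pt θ0 y i) c (y c) =
        Function.update (pt θ0 y i) c (θ0 c + (((i c : ℕ) : ℝ) + 2) * y c) := by
      unfold sh pt; congr 1; ring
    rw [e]
    exact update_inBox hy (pt_inBox hy i) c (by positivity) (by linarith)
  · have e : sh (pt θ0 y i) c (-y c) =
        Function.update (pt θ0 y i) c (θ0 c + (((i c : ℕ) : ℝ)) * y c) := by
      unfold sh pt; congr 1; ring
    rw [e]
    exact update_inBox hy (pt_inBox hy i) c (by positivity) (by linarith)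

variable {B ν} {H : (C → ℝ) → Θ → B.S → ℝ} {V : C → Θ → B.S → ℝ}

theorem SD_phi (h : Fam B ν H V) (θ : C → ℝ) (c : C) (u : ℝ) :
    SD (phi B ν H) θ c u = (N : ℝ)⁻¹ * (FF B ν (hs B (H θ) (V c) u) +
      FF B ν (hs B (H θ) (V c) (-u)) - 2 * FF B ν (H θ)) := by
  unfold SD phi
  rw [h.shift, h.shift]; ring

/-- increments of the normalised free energy -/
theorem phi_incr (h : Fam B ν H V) {L : ℝ} {θ : C → ℝ} {c : C} {u : ℝ} (hu : 0 ≤ u)
    (h1 : |mN B ν (H θ) (V c)| ≤ L) (h2 : |mN B ν (H (sh θ c u)) (V c)| ≤ L) :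
    |phi B ν H (sh θ c u) - phi B ν H θ| ≤ L * u := by
  have s1 := slope h.zero (h.admH θ) (h.admV c) u
  have s2 := slope h.zero (h.admH (sh θ c u)) (h.admV c) (-u)
  have e : hs B (H (sh θ c u)) (V c) (-u) = H θ := by
    rw [h.shift]; funext U b; unfold hs; ring
  rw [e] at s2
  rw [← h.shift] at s1
  have hN : (0 : ℝ) ≤ (N : ℝ)⁻¹ := by positivity
  have t1 := mul_le_mul_of_nonneg_left s1 hN
  have t2 := mul_le_mul_of_nonneg_left s2 hN
  have b1 := (abs_le.1 h1).1
  have b2 := (abs_le.1 h2).2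
  have b1' := mul_le_mul_of_nonneg_left b1 hu
  have b2' := mul_le_mul_of_nonneg_left b2 hu
  unfold phi
  unfold mN at b1' b2'
  rw [abs_le]
  constructor
  · nlinarith
  · nlinarith

/-- averages of the second differences over the grid. -/
theorem gavg_SD (h : Fam B ν H V) {θ0 y : C → ℝ} (hy : ∀ c, 0 < y c) {I : ℕ} (hI : 0 < I)
    {L : ℝ} (hL : ∀ θ, InBox θ0 y I θ → ∀ c, |mN B ν (H θ) (V c)| ≤ L) (c : C) :
    gavg I (fun i => SD (phi B ν H) (pt θ0 y i) c (y c)) ≤ 2 * L * y c / I := by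
  refine LGrid.gavg_SD_le hI _ θ0 y c (L := L) ?_
  intro i n hn
  have hn' : (n : ℝ) ≤ I := by exact_mod_cast hn
  set θ : C → ℝ := Function.update (pt θ0 y i) c (θ0 c + (n : ℝ) * y c) with hθ
  have e : Function.update (pt θ0 y i) c (θ0 c + ((n : ℝ) + 1) * y c) = sh θ c (y c) := by
    rw [hθ]; unfold sh
    rw [Function.update_idem, Function.update_self]
    congr 1; ring
  have i1 : InBox θ0 y I θ := update_inBox hy (pt_inBox hy i) c (by positivity) (by linarith)
  have i2 : InBox θ0 y I (sh θ c (y c)) := by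
    rw [← e]
    exact update_inBox hy (pt_inBox hy i) c (by positivity) (by linarith)
  rw [e]
  exact phi_incr h (hy c).le (hL _ i1 c) (hL _ i2 c)

/-- **Pointwise**: concentration error of the direction `c` from the second difference. -/
theorem cerr_le (h : Fam B ν H V) (hN : 0 < N) {θ : C → ℝ} {c : C} {u : ℝ} (hu : 0 < u) {fl : ℝ}
    (f0 : fluc ν (H θ) ≤ fl) (fp : fluc ν (H (sh θ c u)) ≤ fl)
    (fm : fluc ν (H (sh θ c (-u))) ≤ fl) :
    cerr B ν (H θ) (V c) ≤ 2 * (SD (phi B ν H) θ c u / u) +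
      (8 * fl + Real.log 2 * ((p.nc : ℝ) + 1)) / (N * u) := by
  have hN' : (0 : ℝ) < N := by exact_mod_cast hN
  have h1 := conc_dir h.zero hN (h.admH θ) (h.admV c) hu
  rw [h.shift] at fp fm
  have h2 : u * ((N : ℝ) * cerr B ν (H θ) (V c)) ≤
      2 * ((N : ℝ) * SD (phi B ν H) θ c u) + (8 * fl + Real.log 2 * ((p.nc : ℝ) + 1)) := by
    rw [SD_phi h]
    unfold cerr
    rw [mul_inv_cancel_left₀ hN'.ne', mul_inv_cancel_left₀ hN'.ne']
    linarith
  have h3 : cerr B ν (H θ) (V c) = (u * ((N : ℝ) * cerr B ν (H θ) (V c))) / (N * u) := by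
    field_simp
  rw [h3]
  refine (div_le_div_of_nonneg_right h2 (by positivity)).trans (le_of_eq ?_)
  field_simp

theorem cerr_nonneg (H V : Θ → B.S → ℝ) : 0 ≤ cerr B ν H V := by
  unfold cerr
  refine mul_nonneg (by positivity) (dv_nonneg fun d U => ?_)
  exact eE_nonneg (G.PP_isProb B _ _) fun ω => abs_nonneg _

/-- **Averaged over the grid.** -/
theorem gavg_cerr (h : Fam B ν H V) (hN : 0 < N) {θ0 y : C → ℝ} (hy : ∀ c, 0 < y c) {I : ℕ}
    (hI : 0 < I) {L fl : ℝ} (hL : ∀ θ, InBox θ0 y I θ → ∀ c, |mN B ν (H θ) (V c)| ≤ L)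
    (hfl : ∀ θ, InBox θ0 y I θ → fluc ν (H θ) ≤ fl) (c : C) :
    gavg I (fun i => cerr B ν (H (pt θ0 y i)) (V c)) ≤
      4 * L / I + (8 * fl + Real.log 2 * ((p.nc : ℝ) + 1)) / (N * y c) := by
  have h1 : ∀ i : C → Fin I, cerr B ν (H (pt θ0 y i)) (V c) ≤
      (2 / y c) * SD (phi B ν H) (pt θ0 y i) c (y c) +
        (8 * fl + Real.log 2 * ((p.nc : ℝ) + 1)) / (N * y c) := by
    intro i
    have hb := sh_pt_inBox (θ0 := θ0) hy i c
    have := cerr_le h hN (hy c) (hfl _ (pt_inBox hy i)) (hfl _ hb.1) (hfl _ hb.2)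
    refine this.trans (le_of_eq ?_)
    ring
  refine (LGrid.gavg_mono h1).trans ?_
  rw [LGrid.gavg_add, LGrid.gavg_mul, LGrid.gavg_const hI]
  have h2 := gavg_SD h hy hI hL c
  have hyc := hy c
  have hI' : (0 : ℝ) < I := by exact_mod_cast hI
  have h3 := mul_le_mul_of_nonneg_left h2 (by positivity : (0 : ℝ) ≤ 2 / y c)
  have e : 2 / y c * (2 * L * y c / I) = 4 * L / I := by field_simp; ring
  rw [e] at h3
  linarith

/-! ### Comparison of two families -/

section two

variable {N' : ℕ} {B' : Base p N'} {Θ' : Type*} [MeasurableSpace Θ'] {ν' : Measure Θ'}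
  [IsProbabilityMeasure ν'] {H' : (C → ℝ) → Θ' → B'.S → ℝ} {V' : C → Θ' → B'.S → ℝ}

/-- **Pointwise comparison of the normalised means.** -/
theorem mN_compare (h : Fam B ν H V) (h' : Fam B' ν' H' V') {θ : C → ℝ} {c : C} {u : ℝ}
    (hu : 0 < u) {ε : ℝ} (e0 : |phi B ν H θ - phi B' ν' H' θ| ≤ ε)
    (ep : |phi B ν H (sh θ c u) - phi B' ν' H' (sh θ c u)| ≤ ε)
    (em : |phi B ν H (sh θ c (-u)) - phi B' ν' H' (sh θ c (-u))| ≤ ε) :
    |mN B ν (H θ) (V c) - mN B' ν' (H' θ) (V' c)| ≤ SD (phi B ν H) θ c u / u + 2 * ε / u := by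
  have hN : (0 : ℝ) ≤ (N : ℝ)⁻¹ := by positivity
  have hN' : (0 : ℝ) ≤ (N' : ℝ)⁻¹ := by positivity
  have s1 := mul_le_mul_of_nonneg_left (slope h.zero (h.admH θ) (h.admV c) u) hN
  have s2 := mul_le_mul_of_nonneg_left (slope h.zero (h.admH θ) (h.admV c) (-u)) hN
  have s3 := mul_le_mul_of_nonneg_left (slope h'.zero (h'.admH θ) (h'.admV c) u) hN'
  have s4 := mul_le_mul_of_nonneg_left (slope h'.zero (h'.admH θ) (h'.admV c) (-u)) hN'
  rw [← h.shift] at s1 s2
  rw [← h'.shift] at s3 s4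
  refine LGrid.slope_compare hu (f' := mN B ν (H θ) (V c)) (g' := mN B' ν' (H' θ) (V' c))
    (fm := phi B ν H (sh θ c (-u))) (f0 := phi B ν H θ) (fp := phi B ν H (sh θ c u))
    (gm := phi B' ν' H' (sh θ c (-u))) (g0 := phi B' ν' H' θ) (gp := phi B' ν' H' (sh θ c u))
    ?_ ?_ ?_ ?_ em e0 ep
  · unfold mN phi; linarith
  · unfold mN phi; linarith
  · unfold mN phi; linarith
  · unfold mN phi; linarith

/-- **Averaged comparison of the normalised means.** -/
theorem gavg_mN_compare (h : Fam B ν H V) (h' : Fam B' ν' H' V') {θ0 y : C → ℝ}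
    (hy : ∀ c, 0 < y c) {I : ℕ} (hI : 0 < I) {L ε : ℝ}
    (hL : ∀ θ, InBox θ0 y I θ → ∀ c, |mN B ν (H θ) (V c)| ≤ L)
    (hε : ∀ θ, InBox θ0 y I θ → |phi B ν H θ - phi B' ν' H' θ| ≤ ε) (c : C) :
    gavg I (fun i => |mN B ν (H (pt θ0 y i)) (V c) - mN B' ν' (H' (pt θ0 y i)) (V' c)|) ≤
      2 * L / I + 2 * ε / y c := by
  have h1 : ∀ i : C → Fin I, |mN B ν (H (pt θ0 y i)) (V c) - mN B' ν' (H' (pt θ0 y i)) (V' c)| ≤
      (1 / y c) * SD (phi B ν H) (pt θ0 y i) c (y c) + 2 * ε / y c := by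
    intro i
    have hb := sh_pt_inBox (θ0 := θ0) hy i c
    have := mN_compare h h' (hy c) (hε _ (pt_inBox hy i)) (hε _ hb.1) (hε _ hb.2)
    refine this.trans (le_of_eq ?_)
    ring
  refine (LGrid.gavg_mono h1).trans ?_
  rw [LGrid.gavg_add, LGrid.gavg_mul, LGrid.gavg_const hI]
  have h2 := gavg_SD h hy hI hL c
  have hyc := hy c
  have hI' : (0 : ℝ) < I := by exact_mod_cast hI
  have h3 := mul_le_mul_of_nonneg_left h2 (by positivity : (0 : ℝ) ≤ 1 / y c)
  have e : 1 / y c * (2 * L * y c / I) = 2 * L / I := by field_simp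
  rw [e] at h3
  linarith

end two

end

end Crest.Agent.R164.LS2
end

-- ▼ part R164/LStruct2C

/-!
# Row 164, module LSTRUCT-2, part C

The L system `LD.HL` as a family with linear parameters: coordinates `el j`, `am j g` (`g` active),
`lm k g`.  Fluctuations of its free energy and bounds for the means of the directions.
-/

set_option autoImplicit false
set_option linter.unusedSectionVars false
set_option linter.unusedVariables false

namespace Crest.Agent.R164.LS2

open Finset MeasureTheory Crest.Agent.R141 Crest.Agent.R164 Crest.Agent.R164.ObsConc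
open Crest.Agent.R164.G (Base prior_isProb)
open Crest.Agent.R164.LGrid (gavg pt sh SD)
open Crest.Agent.R164.Haar (Mat RHaar)
open Crest.ProbabilityR.InvariantGlass (spinVec)

noncomputable section

variable {p : Par} {N K J : ℕ} (act : Finset (Fin p.nc))

/-- coordinates: linear fields, active main strengths, small strengths. -/
abbrev Cd (K J : ℕ) (act : Finset (Fin p.nc)) : Type :=
  Fin J ⊕ ((Fin J × act) ⊕ (Fin (K + 1) × Fin p.nc))

/-- the parameters. -/
def prm (θ : Cd K J act → ℝ) : LD.Prm p K J where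
  el j := θ (Sum.inl j)
  am j g := if h : g ∈ act then θ (Sum.inr (Sum.inl (j, ⟨g, h⟩))) else 0
  lm k g := θ (Sum.inr (Sum.inr (k, g)))

variable {act}

/-- the directions. -/
def Vd (n : ℕ) (kap : Fin N → Fin (K + 1)) (lab : Fin N → Fin J) : Cd K J act → Mat (Fin N) →
    SY.SS p n (Finset.univ : Finset (Fin N → Bool)) → ℝ :=
  Sum.elim (fun j _ s => ∑ i, if lab i = j then sv (s.1.1 i) else 0)
    (Sum.elim (fun jg _ s => ∑ i, if lab i = jg.1 then SY.zf s.2.1 jg.2.1 i * sv (s.1.1 i) else 0)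
      (fun kg U s => ∑ i, if kap i = kg.1 then
        SY.zf s.2.2 kg.2 i * SY.xU (Matrix.of U) s.1.1 i else 0))

variable (n : ℕ) (val : Fin (K + 1) → ℝ) (c t : Fin J → ℝ) (Kp : ℝ)
  (kap : Fin N → Fin (K + 1)) (lab : Fin N → Fin J)

/-- the part without parameters -/
def H00 (U : Mat (Fin N)) (s : SY.SS p n (Finset.univ : Finset (Fin N → Bool))) : ℝ :=
  1 * Mag.qd (fun i => val (kap i)) (Matrix.of U) s.1.1 + Mag.PEN c t Kp lab s.1.1

theorem sum_lab {M : ℕ} (l : Fin N → Fin M) (f : Fin M → ℝ) (g : Fin N → ℝ) :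
    ∑ i, f (l i) * g i = ∑ j, f j * ∑ i, if l i = j then g i else 0 := by
  simp only [Finset.mul_sum]
  rw [Finset.sum_comm]
  refine Finset.sum_congr rfl fun i _ => ?_
  rw [Finset.sum_eq_single (l i)]
  · rw [if_pos rfl]
  · intro j _ hj; rw [if_neg (Ne.symm hj), mul_zero]
  · intro h; exact absurd (Finset.mem_univ _) h

theorem sum_act (f : act → ℝ) :
    ∑ g : act, f g = ∑ g : Fin p.nc, if h : g ∈ act then f ⟨g, h⟩ else 0 := by
  rw [← Finset.sum_subset (Finset.subset_univ act) (fun g _ hg => by rw [dif_neg hg]),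
    ← Finset.sum_coe_sort act]
  refine Finset.sum_congr rfl fun g _ => ?_
  rw [dif_pos g.2]

/-- **the Hamiltonian is affine in the parameters.** -/
theorem HL_eq (θ : Cd K J act → ℝ) (U : Mat (Fin N))
    (s : SY.SS p n (Finset.univ : Finset (Fin N → Bool))) :
    LD.HL n val c t Kp (prm act θ) kap lab U s =
      H00 n val c t Kp kap lab U s + ∑ x, θ x * Vd n kap lab x U s := by
  rw [Fintype.sum_sum_type, Fintype.sum_sum_type, Fintype.sum_prod_type, Fintype.sum_prod_type]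
  unfold LD.HL SY.HS SY.h0q LD.VL H00 Vd prm
  simp only [Sum.elim_inl, Sum.elim_inr]
  have e1 : ∑ i, θ (Sum.inl (lab i)) * spinVec s.1.1 i =
      ∑ j, θ (Sum.inl j) * ∑ i, if lab i = j then sv (s.1.1 i) else 0 :=
    sum_lab lab (fun j => θ (Sum.inl j)) (fun i => sv (s.1.1 i))
  have e2 : ∑ g : Fin p.nc, ∑ i, (if h : g ∈ act then θ (Sum.inr (Sum.inl (lab i, ⟨g, h⟩))) else 0) *
      (SY.zf s.2.1 g i * sv (s.1.1 i)) = ∑ j, ∑ g : act, θ (Sum.inr (Sum.inl (j, g))) *
        ∑ i, if lab i = j then SY.zf s.2.1 g.1 i * sv (s.1.1 i) else 0 := by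
    rw [Finset.sum_comm (s := (Finset.univ : Finset (Fin J)))]
    rw [sum_act (fun g : act => ∑ j, θ (Sum.inr (Sum.inl (j, g))) *
        ∑ i, if lab i = j then SY.zf s.2.1 g.1 i * sv (s.1.1 i) else 0)]
    refine Finset.sum_congr rfl fun g _ => ?_
    by_cases h : g ∈ act
    · simp only [dif_pos h]
      exact sum_lab lab (fun j => θ (Sum.inr (Sum.inl (j, ⟨g, h⟩))))
        (fun i => SY.zf s.2.1 g i * sv (s.1.1 i))
    · simp only [dif_neg h, zero_mul, Finset.sum_const_zero]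
  have e3 : ∑ g : Fin p.nc, ∑ i, θ (Sum.inr (Sum.inr (kap i, g))) *
      (SY.zf s.2.2 g i * SY.xU (Matrix.of U) s.1.1 i) =
      ∑ k, ∑ g, θ (Sum.inr (Sum.inr (k, g))) *
        ∑ i, if kap i = k then SY.zf s.2.2 g i * SY.xU (Matrix.of U) s.1.1 i else 0 := by
    rw [Finset.sum_comm (s := (Finset.univ : Finset (Fin (K + 1))))]
    refine Finset.sum_congr rfl fun g _ => ?_
    exact sum_lab kap (fun k => θ (Sum.inr (Sum.inr (k, g))))
      (fun i => SY.zf s.2.2 g i * SY.xU (Matrix.of U) s.1.1 i)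
  rw [e2, e3, e1]
  ring

/-- the Hamiltonians as a family. -/
def HF (θ : Cd K J act → ℝ) (U : Mat (Fin N)) :
    SY.SS p n (Finset.univ : Finset (Fin N → Bool)) → ℝ :=
  LD.HL n val c t Kp (prm act θ) kap lab U

theorem HF_eq_HU (θ : Cd K J act → ℝ) :
    (HF n val c t Kp kap lab θ : Mat (Fin N) → _) =
      CSys.HU (n := n) (A := (Finset.univ : Finset (Fin N → Bool))) (fun i => val (kap i)) 1
        (LD.VL c t Kp (prm act θ).el lab) (fun i g => (prm act θ).am (lab i) g)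
        (fun i g => (prm act θ).lm (kap i) g) := rfl

theorem HF_shift (θ : Cd K J act → ℝ) (x : Cd K J act) (u : ℝ) :
    HF n val c t Kp kap lab (sh θ x u) = hs (LD.B p N n) (HF n val c t Kp kap lab θ)
      (Vd n kap lab x) u := by
  funext U s
  have h1 := HL_eq n val c t Kp kap lab (sh θ x u) U s
  have h2 := HL_eq n val c t Kp kap lab θ U s
  unfold hs HF
  rw [h1, h2, add_assoc]
  congr 1
  have e : ∀ z, sh θ x u z * Vd n kap lab z U s =
      θ z * Vd n kap lab z U s + if z = x then u * Vd n kap lab z U s else 0 := by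
    intro z
    by_cases hz : z = x
    · subst hz; rw [if_pos rfl, LGrid.sh_self]; ring
    · rw [if_neg hz, LGrid.sh_other θ u hz]; ring
  rw [Finset.sum_congr rfl fun z _ => e z, Finset.sum_add_distrib]
  simp

/-! ### Bounds of the directions -/

variable {n kap lab}

theorem ite_sum_le {M : ℕ} (l : Fin N → Fin M) (j : Fin M) (a b : Fin N → ℝ) :
    |∑ i, if l i = j then a i * b i else 0| ≤ 1 / 2 * ∑ i, (a i) ^ 2 + 1 / 2 * ∑ i, (b i) ^ 2 := by
  refine (Finset.abs_sum_le_sum_abs _ _).trans ?_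
  rw [Finset.mul_sum, Finset.mul_sum, ← Finset.sum_add_distrib]
  refine Finset.sum_le_sum fun i _ => ?_
  split_ifs
  · rw [abs_mul]
    nlinarith [sq_nonneg (|a i| - |b i|), sq_abs (a i), sq_abs (b i)]
  · rw [abs_zero]; positivity

theorem sum_zf_le (cc : SY.FC p N n) (g : Fin p.nc) :
    ∑ i, (SY.zf cc g i) ^ 2 ≤ CSys.Tc cc := by
  unfold CSys.Tc
  exact Finset.single_le_sum (f := fun g => ∑ i, (SY.zf cc g i) ^ 2)
    (fun g _ => Finset.sum_nonneg fun i _ => sq_nonneg _) (Finset.mem_univ g)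


theorem sv_sq (b : Bool) : (sv b) ^ 2 = 1 := by cases b <;> simp [sv]

theorem Vd_le (x : Cd K J act) {U : Mat (Fin N)}
    (hU : Matrix.of U ∈ Matrix.orthogonalGroup (Fin N) ℝ)
    (s : SY.SS p n (Finset.univ : Finset (Fin N → Bool))) :
    |Vd n kap lab x U s| ≤ N + CSys.Ts s := by
  have hN : (0 : ℝ) ≤ N := Nat.cast_nonneg N
  have hT1 := CSys.Tc_nonneg s.2.1
  have hT2 := CSys.Tc_nonneg s.2.2
  have hs : ∑ i, (sv (s.1.1 i)) ^ 2 = N := by
    simp only [sv_sq, Finset.sum_const, Finset.card_univ, Fintype.card_fin, nsmul_eq_mul, mul_one]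
  rcases x with j | ⟨j, g⟩ | ⟨k, g⟩
  · show |∑ i, if lab i = j then sv (s.1.1 i) else 0| ≤ N + CSys.Ts s
    have h1 : |∑ i, if lab i = j then sv (s.1.1 i) else 0| ≤ N := by
      refine (Finset.abs_sum_le_sum_abs _ _).trans ?_
      calc ∑ i, |if lab i = j then sv (s.1.1 i) else 0| ≤ ∑ _i : Fin N, (1 : ℝ) := by
            refine Finset.sum_le_sum fun i _ => ?_
            split_ifs
            · exact (sv_abs _).le
            · rw [abs_zero]; exact zero_le_one
        _ = N := by simp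
    unfold CSys.Ts
    linarith
  · show |∑ i, if lab i = j then SY.zf s.2.1 g.1 i * sv (s.1.1 i) else 0| ≤ N + CSys.Ts s
    have h1 := ite_sum_le lab j (fun i => SY.zf s.2.1 g.1 i) (fun i => sv (s.1.1 i))
    have h2 := sum_zf_le s.2.1 g.1
    rw [hs] at h1
    unfold CSys.Ts
    linarith
  · show |∑ i, if kap i = k then SY.zf s.2.2 g i * SY.xU (Matrix.of U) s.1.1 i else 0| ≤
      N + CSys.Ts s
    have h1 := ite_sum_le kap k (fun i => SY.zf s.2.2 g i)
      (fun i => SY.xU (Matrix.of U) s.1.1 i)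
    have h2 := sum_zf_le s.2.2 g
    have h3 : ∑ i, (SY.xU (Matrix.of U) s.1.1 i) ^ 2 = N := OvC.sum_xM_sq hU s.1.1
    rw [h3] at h1
    unfold CSys.Ts
    linarith

theorem Ts_le_sum (s : SY.SS p n (Finset.univ : Finset (Fin N → Bool))) :
    CSys.Ts s ≤ ∑ s' : SY.SS p n (Finset.univ : Finset (Fin N → Bool)), CSys.Ts s' :=
  Finset.single_le_sum (f := fun s' : SY.SS p n (Finset.univ : Finset (Fin N → Bool)) =>
    CSys.Ts s') (fun s' _ => CSys.Ts_nonneg s') (Finset.mem_univ s)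

theorem meas_Vd (x : Cd K J act) (s : SY.SS p n (Finset.univ : Finset (Fin N → Bool))) :
    Measurable fun U : Mat (Fin N) => Vd n kap lab x U s := by
  rcases x with j | ⟨j, g⟩ | ⟨k, g⟩
  · exact measurable_const
  · exact measurable_const
  · show Measurable fun U : Mat (Fin N) => ∑ i, if kap i = k then
      SY.zf s.2.2 g i * SY.xU (Matrix.of U) s.1.1 i else 0
    refine Finset.measurable_sum _ fun i _ => ?_
    split_ifs
    · refine Measurable.const_mul ?_ _
      unfold SY.xU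
      simp only [Matrix.mulVec, dotProduct, Matrix.of_apply]
      fun_prop
    · exact measurable_const

variable {ν : Measure (Mat (Fin N))} [IsProbabilityMeasure ν]

theorem adm_Vd (hν : ∀ᵐ U ∂ν, Matrix.of U ∈ Matrix.orthogonalGroup (Fin N) ℝ) (x : Cd K J act) :
    Adm (LD.B p N n) ν (Vd n kap lab x) where
  meas s := meas_Vd x s
  bdd := by
    refine ⟨N + ∑ s' : SY.SS p n (Finset.univ : Finset (Fin N → Bool)), CSys.Ts s', ?_⟩
    filter_upwards [hν] with U hU s
    exact (Vd_le x hU s).trans (add_le_add le_rfl (Ts_le_sum s))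

theorem abs_VL_le (ht : ∀ j, |t j| ≤ 1) (hKp : 0 ≤ Kp) {el : Fin J → ℝ} {R : ℝ}
    (hR : ∀ j, |el j| ≤ R) (σ : Fin N → Bool) :
    |LD.VL c t Kp el lab σ| ≤ (∑ j, |c j| + 4 * Kp + R) * N := by
  unfold LD.VL
  have h1 := Mag.abs_PEN_le c ht hKp lab σ
  have h2 : |∑ i, el (lab i) * spinVec σ i| ≤ R * N := by
    refine (Finset.abs_sum_le_sum_abs _ _).trans ?_
    calc ∑ i, |el (lab i) * spinVec σ i| ≤ ∑ _i : Fin N, R := by
          refine Finset.sum_le_sum fun i _ => ?_
          rw [abs_mul]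
          have h3 : |spinVec σ i| = 1 := sv_abs (σ i)
          rw [h3, mul_one]; exact hR _
      _ = R * N := by simp [mul_comm]
  refine (abs_add_le _ _).trans ?_
  linarith

/-- parameters bounded by `R`. -/
theorem prm_bdd {θ : Cd K J act → ℝ} {R : ℝ} (hR0 : 0 ≤ R) (hR : ∀ x, |θ x| ≤ R) :
    (∀ j, |(prm act θ).el j| ≤ R) ∧ (∀ j g, |(prm act θ).am j g| ≤ R) ∧
      ∀ k g, |(prm act θ).lm k g| ≤ R := by
  refine ⟨fun j => hR _, fun j g => ?_, fun k g => hR _⟩
  show |if h : g ∈ act then θ (Sum.inr (Sum.inl (j, ⟨g, h⟩))) else 0| ≤ R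
  split_ifs
  · exact hR _
  · rw [abs_zero]; exact hR0

theorem adm_HF (ht : ∀ j, |t j| ≤ 1) (hKp : 0 ≤ Kp) (n : ℕ) (kap : Fin N → Fin (K + 1))
    (lab : Fin N → Fin J)
    (hν : ∀ᵐ U ∂ν, Matrix.of U ∈ Matrix.orthogonalGroup (Fin N) ℝ) (θ : Cd K J act → ℝ) :
    Adm (LD.B p N n) ν (HF n val c t Kp kap lab θ) where
  meas s := by
    rw [HF_eq_HU]
    exact CSys.measurable_HU _ _ _ _ _ s
  bdd := by
    obtain ⟨R, hR0, hR⟩ : ∃ R : ℝ, 0 ≤ R ∧ ∀ x, |θ x| ≤ R :=
      ⟨∑ x, |θ x|, Finset.sum_nonneg fun _ _ => abs_nonneg _, fun x =>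
        Finset.single_le_sum (f := fun x => |θ x|) (fun _ _ => abs_nonneg _) (Finset.mem_univ x)⟩
    obtain ⟨Λ0, hΛ0⟩ : ∃ Λ0 : ℝ, ∀ k, |val k| ≤ Λ0 :=
      ⟨∑ x, |val x|, fun x =>
        Finset.single_le_sum (f := fun x => |val x|) (fun _ _ => abs_nonneg _) (Finset.mem_univ x)⟩
    have hp := prm_bdd hR0 hR
    refine ⟨(Λ0 / 2 + (∑ j, |c j| + 4 * Kp + R) + 2 * p.nc * R ^ 2 + 2 * p.nc * R ^ 2) * N +
      1 / 8 * ∑ s' : SY.SS p n (Finset.univ : Finset (Fin N → Bool)), CSys.Ts s', ?_⟩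
    filter_upwards [hν] with U hU s
    rw [HF_eq_HU]
    refine (CSys.abs_HU_le (n := n) (A := (Finset.univ : Finset (Fin N → Bool)))
      (fun i => val (kap i)) 1 _ _ _ (Λ0 := Λ0) (Λ := R) (Λa := R)
      (BV := ∑ j, |c j| + 4 * Kp + R) (fun i => hΛ0 _) (by norm_num) (fun i g => hp.2.2 _ _)
      (fun i g => hp.2.1 _ _) (fun σ => abs_VL_le c t Kp ht hKp hp.1 σ) hU s).trans ?_
    have := Ts_le_sum s
    linarith

/-- **The L system is a family with linear parameters.** -/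
theorem fam_L (ht : ∀ j, |t j| ≤ 1) (hKp : 0 ≤ Kp) (n : ℕ) (kap : Fin N → Fin (K + 1))
    (lab : Fin N → Fin J)
    (hν : ∀ᵐ U ∂ν, Matrix.of U ∈ Matrix.orthogonalGroup (Fin N) ℝ) :
    Fam (LD.B p N n) ν (C := Cd K J act) (HF n val c t Kp kap lab) (Vd n kap lab) where
  zero := SY.base_SF_zero _
  shift θ x u := HF_shift n val c t Kp kap lab θ x u
  admH θ := adm_HF val c t Kp ht hKp n kap lab hν θ
  admV x := adm_Vd hν x

/-! ### Means of the directions -/

/-- the constant of the second moments of the fields. -/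
def CTR (p : Par) (val : Fin (K + 1) → ℝ) (c : Fin J → ℝ) (Kp R : ℝ) : ℝ :=
  CSys.CT p (∑ k, |val k|) R R (∑ j, |c j| + 4 * Kp + R)

theorem val_le (k : Fin (K + 1)) : |val k| ≤ ∑ k, |val k| :=
  Finset.single_le_sum (f := fun x => |val x|) (fun _ _ => abs_nonneg _) (Finset.mem_univ k)

theorem eE_Ts_HF (hnb : p.nb = 0) (hN : 0 < N) (ht : ∀ j, |t j| ≤ 1) (hKp : 0 ≤ Kp)
    {θ : Cd K J act → ℝ} {R : ℝ} (hR0 : 0 ≤ R) (hR : ∀ x, |θ x| ≤ R) {U : Mat (Fin N)}
    (hU : Matrix.of U ∈ Matrix.orthogonalGroup (Fin N) ℝ) (d : DD p N) :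
    eE (G.PP (LD.B p N n) (HF n val c t Kp kap lab θ U) d) (fun ω => CSys.Ts ω.1) ≤
      CTR p val c Kp R * N := by
  have hp := prm_bdd hR0 hR
  rw [HF_eq_HU]
  exact CSys.eE_Ts_HU (n := n) (A := (Finset.univ : Finset (Fin N → Bool))) _
    (fun i => val (kap i)) 1 _ _ _ d hnb hN (fun i => val_le val _) (by norm_num)
    (fun i g => hp.2.2 _ _) (fun i g => hp.2.1 _ _)
    (fun σ => abs_VL_le c t Kp ht hKp hp.1 σ) hU

omit [IsProbabilityMeasure ν] in
theorem dv_mono_ae {f g : DD p N → Mat (Fin N) → ℝ} (hf : ∀ d, Integrable (f d) ν)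
    (hg : ∀ d, Integrable (g d) ν) (h : ∀ d, ∀ᵐ U ∂ν, f d U ≤ g d U) : dv ν f ≤ dv ν g := by
  unfold dv Ed
  exact Finset.sum_le_sum fun d _ => mul_le_mul_of_nonneg_left
    (integral_mono_ae (hf d) (hg d) (h d)) (dw_nonneg p N d)

theorem mN_le (hnb : p.nb = 0) (hN : 0 < N) (ht : ∀ j, |t j| ≤ 1) (hKp : 0 ≤ Kp)
    (hν : ∀ᵐ U ∂ν, Matrix.of U ∈ Matrix.orthogonalGroup (Fin N) ℝ)
    {θ : Cd K J act → ℝ} {R : ℝ} (hR0 : 0 ≤ R) (hR : ∀ x, |θ x| ≤ R) (x : Cd K J act) :
    |mN (LD.B p N n) ν (HF n val c t Kp kap lab θ) (Vd n kap lab x)| ≤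
      1 + CTR p val c Kp R := by
  have hN' : (0 : ℝ) < N := by exact_mod_cast hN
  have hH := adm_HF (act := act) val c t Kp ht hKp n kap lab hν θ
  have hV := adm_Vd (n := n) (kap := kap) (lab := lab) hν x
  have key : ∀ d, ∀ᵐ U ∂ν, |eE (G.PP (LD.B p N n) (HF n val c t Kp kap lab θ U) d)
      (fun ω => Vd n kap lab x U ω.1)| ≤ (1 + CTR p val c Kp R) * N := by
    intro d
    filter_upwards [hν] with U hU
    have hP := G.PP_isProb (LD.B p N n) (HF n val c t Kp kap lab θ U) d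
    refine (eE_abs_le hP _).trans ?_
    have h1 : eE (G.PP (LD.B p N n) (HF n val c t Kp kap lab θ U) d)
        (fun ω => |Vd n kap lab x U ω.1|) ≤
        eE (G.PP (LD.B p N n) (HF n val c t Kp kap lab θ U) d) (fun ω => (N : ℝ) + CSys.Ts ω.1) :=
      eE_mono hP fun ω => Vd_le x hU ω.1
    rw [eE_add, eE_const hP] at h1
    have h2 := eE_Ts_HF (n := n) (kap := kap) (lab := lab) val c t Kp hnb hN ht hKp hR0 hR hU d
    linarith
  have h1 : mV (B := LD.B p N n) ν (HF n val c t Kp kap lab θ) (Vd n kap lab x) ≤ (1 + CTR p val c Kp R) * N := by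
    unfold mV
    refine (dv_mono_ae (fun d => hH.int_obs hV d) (fun d => integrable_const _)
      (fun d => (key d).mono fun U h => (le_abs_self _).trans h)).trans_eq ?_
    exact dv_const hN _
  have h2 : -((1 + CTR p val c Kp R) * N) ≤ mV (B := LD.B p N n) ν (HF n val c t Kp kap lab θ) (Vd n kap lab x) := by
    unfold mV
    refine le_trans (le_of_eq ?_) (dv_mono_ae (f := fun _ _ => -((1 + CTR p val c Kp R) * N))
      (fun d => integrable_const _) (fun d => hH.int_obs hV d)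
      (fun d => (key d).mono fun U h => by
        have := (abs_le.1 h).1
        linarith))
    exact (dv_const hN _).symm
  unfold mN
  rw [abs_mul, abs_of_nonneg (by positivity : (0 : ℝ) ≤ (N : ℝ)⁻¹), inv_mul_le_iff₀ hN']
  rw [abs_le]
  constructor
  · linarith
  · linarith

/-! ### Fluctuations -/

/-- the variance constant -/
def CVR (p : Par) (val : Fin (K + 1) → ℝ) (c : Fin J → ℝ) (Kp R : ℝ) : ℝ :=
  CSys.CV p (∑ k, |val k|) R R (∑ j, |c j| + 4 * Kp + R)

/-- **Fluctuations of the free energy of the L system.** -/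
theorem fluc_le (hnb : p.nb = 0) (hN : 2 < N) (ht : ∀ j, |t j| ≤ 1) (hKp : 0 ≤ Kp)
    (hν : RHaar ν) {θ : Cd K J act → ℝ} {R : ℝ} (hR0 : 0 ≤ R) (hR : ∀ x, |θ x| ≤ R) :
    fluc (B := LD.B p N n) ν (HF n val c t Kp kap lab θ) ≤
      Real.sqrt (CVR p val c Kp R * N) + p.nc * p.T * p.τ := by
  have hN0 : 0 < N := by omega
  have hp := prm_bdd hR0 hR
  have hH := adm_HF (act := act) val c t Kp ht hKp n kap lab hν.mem θ
  set H := HF (p := p) n val c t Kp kap lab θ with hHdef
  set B := LD.B p N n with hB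
  -- pointwise dependence on `d`
  have hd : ∀ (d d' : DD p N) (U : Mat (Fin N)),
      G.Phi B (H U) d - G.Phi B (H U) d' ≤ p.nc * p.T * p.τ := by
    intro d d' U
    have h1 : ∀ ω, |G.UU B (H U) d ω - G.UU B (H U) d' ω| ≤ p.nc * p.T * p.τ := by
      intro ω
      have b1 := CSys.WW_bounds (n := n) (A := (Finset.univ : Finset (Fin N → Bool)))
        (LD.univ_ne N) hnb d ω
      have b2 := CSys.WW_bounds (n := n) (A := (Finset.univ : Finset (Fin N → Bool)))
        (LD.univ_ne N) hnb d' ω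
      unfold G.UU
      rw [abs_le]
      constructor <;> linarith [b1.1, b1.2, b2.1, b2.2]
    unfold G.Phi
    rw [← eE_sub]
    refine (le_abs_self _).trans (abs_eE_le (prior_isProb B) fun ω => ?_)
    exact A_sub_abs_le (prior_isProb B) p.xs_expo.pos h1 0 ω
  have hint : ∀ d : DD p N, Integrable (fun U => G.Phi B (H U) d) ν := fun d => hH.int_Phi d
  -- the mean over `U` at fixed `d`
  set m : DD p N → ℝ := fun d => ∫ U, G.Phi B (H U) d ∂ν with hm
  have hmd : ∀ d d', m d - m d' ≤ p.nc * p.T * p.τ := by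
    intro d d'
    have e : m d - m d' = ∫ U, (G.Phi B (H U) d - G.Phi B (H U) d') ∂ν := by
      rw [integral_sub (hint d) (hint d')]
    rw [e]
    calc ∫ U, (G.Phi B (H U) d - G.Phi B (H U) d') ∂ν
        ≤ ∫ _U : Mat (Fin N), (p.nc * p.T * p.τ : ℝ) ∂ν :=
          integral_mono ((hint d).sub (hint d')) (integrable_const _) fun U => hd d d' U
      _ = _ := by simp
  have hFF : FF B ν H = ∑ d, dw p N d * m d := rfl
  have hs := dw_sum p hN0
  have hmF : ∀ d, |m d - FF B ν H| ≤ p.nc * p.T * p.τ := by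
    intro d
    have e1 : m d - FF B ν H = ∑ d', dw p N d' * (m d - m d') := by
      simp only [mul_sub, Finset.sum_sub_distrib, ← Finset.sum_mul, hs, one_mul, hFF]
    have e2 : FF B ν H - m d = ∑ d', dw p N d' * (m d' - m d) := by
      simp only [mul_sub, Finset.sum_sub_distrib, ← Finset.sum_mul, hs, one_mul, hFF]
    have b1 : m d - FF B ν H ≤ p.nc * p.T * p.τ := by
      rw [e1]
      calc ∑ d', dw p N d' * (m d - m d') ≤ ∑ d', dw p N d' * (p.nc * p.T * p.τ) :=
            Finset.sum_le_sum fun d' _ => mul_le_mul_of_nonneg_left (hmd d d') (dw_nonneg p N d')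
        _ = _ := by rw [← Finset.sum_mul, hs, one_mul]
    have b2 : FF B ν H - m d ≤ p.nc * p.T * p.τ := by
      rw [e2]
      calc ∑ d', dw p N d' * (m d' - m d) ≤ ∑ d', dw p N d' * (p.nc * p.T * p.τ) :=
            Finset.sum_le_sum fun d' _ => mul_le_mul_of_nonneg_left (hmd d' d) (dw_nonneg p N d')
        _ = _ := by rw [← Finset.sum_mul, hs, one_mul]
    rw [abs_le]
    constructor <;> linarith
  have hdev : ∀ d : DD p N, ∫ U, |G.Phi B (H U) d - m d| ∂ν ≤
      Real.sqrt (CVR p val c Kp R * N) := by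
    intro d
    have h := CSys.dev_O (n := n) (A := (Finset.univ : Finset (Fin N → Bool))) (LD.univ_ne N)
      (fun i => val (kap i)) 1 (LD.VL c t Kp (prm act θ).el lab)
      (fun i g => (prm act θ).am (lab i) g) (fun i g => (prm act θ).lm (kap i) g) d hnb hN
      (fun i => val_le val _) (by norm_num) (fun i g => hp.2.2 _ _) (fun i g => hp.2.1 _ _)
      (fun σ => abs_VL_le c t Kp ht hKp hp.1 σ) (ν := ν) ⟨hν.mem, hν.inv⟩
    exact h
  unfold fluc dv Ed
  calc ∑ d, dw p N d * ∫ U, |G.Phi B (H U) d - FF B ν H| ∂ν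
      ≤ ∑ d, dw p N d * (Real.sqrt (CVR p val c Kp R * N) + p.nc * p.T * p.τ) := by
        refine Finset.sum_le_sum fun d _ => mul_le_mul_of_nonneg_left ?_ (dw_nonneg p N d)
        have ia : Integrable (fun U => |G.Phi B (H U) d - m d|) ν :=
          ((hint d).sub (integrable_const _)).abs
        have ib : Integrable (fun _ : Mat (Fin N) => (p.nc * p.T * p.τ : ℝ)) ν :=
          integrable_const _
        have hab := integral_add ia ib
        have hc : ∫ _U : Mat (Fin N), (p.nc * p.T * p.τ : ℝ) ∂ν = p.nc * p.T * p.τ := by simp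
        have hle : ∫ U, |G.Phi B (H U) d - FF B ν H| ∂ν ≤
            ∫ U, (|G.Phi B (H U) d - m d| + p.nc * p.T * p.τ) ∂ν := by
          refine integral_mono ((hint d).sub (integrable_const _)).abs (ia.add ib) fun U => ?_
          show |G.Phi B (H U) d - FF B ν H| ≤ |G.Phi B (H U) d - m d| + p.nc * p.T * p.τ
          have := abs_sub_le (G.Phi B (H U) d) (m d) (FF B ν H)
          linarith [hmF d]
        have h3 := hdev d
        linarith
    _ = _ := by rw [← Finset.sum_mul, hs, one_mul]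

end

end Crest.Agent.R164.LS2
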